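import Claimed.Agent.R291.Ann.Model
import Claimed.Agent.R291.Ann.Len
import Claimed.Agent.R291.Dis.Buffer

/-!
# Row 291 (S0539), unit ANN, block A1, Glue/Place : STRIPS, DOUBLES, PLACES;  LEMMA A, LEMMA B      (owner + architect helper55; prefix `gl_` / `Gl` / `gl`)

Design note: `origin/helper55:notes/R291/ann_A1_55.md` (v2).   TEX[annulus:straight-short], TEX[annulus:gluing]; Lemmas A, B of `origin/helper187:notes/R291/g1_helper187.md`.
Carrier: `ClSys`, `ClCon` (Defs/Cell, Dis/Base, Defs/Cut), tools of A0 (`Ann/Model`: `am_order_eq`, `am_cut`, `am_iso`, `am_flipB_N`, `am_flipW_N`, `am_swap_N2`, `am_N2_fst`, `am_wt2_cover`), `dis_assoc`, `dis_order`.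

EVERYTHING HERE IS ABSTRACT: no lattice, no reflection of the plane, no curve.   The geometry enters through the FIELDS of four structures; every field is either a finite bookkeeping fact on cells or a DETERMINISTIC
statement on paths in exactly the form in which the probabilistic proof consumes it (producers: 105 `hxp_dich`, 36 `Pl/Strip` (JQ, ORD, BLK), 269 `plrGl`).

* `GlJoin G Z A C`        a path inside `Z` from a neighbour of `A` to a neighbour of `C`      (= the two alternatives of `hxp_dich`)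
* `glCg S`                the graph of the cells (two cells which share a site);   `GlJoinC S Z A C`  a path of cells inside `Z` from a cell which touches `A` to a cell which touches `C`
* `GlStrip S Cb La Lc Ld Lb`   STRIP: `S` = the closed system on `Q = S.A` (ALL edges of `Q` lie in a cell: the boundary cells `Cb` are the clipped ones), `La`, `Lc` the two plus sides, `Ld`, `Lb` the two ends
* `glH0 S Cb La Lc Ld Lb`      the history of the strip law `P_Q`: plus on `La ∪ Lc`, minus on the rest of `Ld ∪ Lb`, homogeneous pinned boundary cells open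
* `GlDouble S Cb La Lc K X e ec φ ψ`   `X` = two copies of `S` glued along `K` (`e`, `ec` = the first sheet, `φ`, `ψ` = the exchange of the sheets)
* `GlPlace …`             PLACE = a double + the free core `K0` + the site dichotomy `dich`;      `GlPlaceC …` = + the core of cells `Kc` + the cell dichotomy `dichC`
* **`gl_placeA`**   LEMMA A : `P_Q[plus SITE path inside K0 from N(La) to N(Lc)] ≥ 1/2`
* **`gl_three`**    LEMMA B : three places, the middle one with cells, blocking (`blk`)  ⟹  `P_Q[La and Lc are joined by open-plus cells] ≥ 1/64`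
-/

set_option autoImplicit false
set_option linter.unusedSectionVars false
set_option linter.unusedVariables false

namespace Claimed.Agent.R291

open Relation

section abstract

variable {V Y V' Y' : Type} [DecidableEq V] [DecidableEq Y] [DecidableEq V'] [DecidableEq Y']

/-! ### paths -/

/-- a path inside `Z` from a neighbour of `A` to a neighbour of `C` -/
def GlJoin {U : Type} (G : SimpleGraph U) (Z A C : Set U) : Prop :=
  ∃ u v, u ∈ Z ∧ v ∈ Z ∧ (∃ a ∈ A, G.Adj u a) ∧ (∃ c ∈ C, G.Adj v c) ∧ TscR G Z u v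

/-- the graph of the cells: two distinct cells which share a site -/
def glCg (S : ClSys V Y) : SimpleGraph Y where
  Adj y y' := y ≠ y' ∧ ∃ v, v ∈ S.sv y ∧ v ∈ S.sv y'
  symm := ⟨fun _ _ h => ⟨h.1.symm, by obtain ⟨v, h1, h2⟩ := h.2; exact ⟨v, h2, h1⟩⟩⟩
  loopless := ⟨fun _ h => h.1 rfl⟩

/-- a path of cells inside `Z` from a cell which touches `A` to a cell which touches `C` -/
def GlJoinC (S : ClSys V Y) (Z : Set Y) (A C : Finset V) : Prop :=
  ∃ y y', y ∈ Z ∧ y' ∈ Z ∧ (∃ a ∈ A, a ∈ S.sv y) ∧ (∃ c ∈ C, c ∈ S.sv y') ∧ TscR (glCg S) Z y y'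

/-- the cells of status `t` -/
def glOn (S : ClSys V Y) (t : ℤ) (ω : ClCfg V Y) : Set Y := {y | y ∈ S.C ∧ clTau S ω y = t}

open Classical in
/-- indicator -/
noncomputable def glInd (L : ClCfg V Y → Prop) (ω : ClCfg V Y) : ℝ := if L ω then 1 else 0

/-! ### strips -/

/-- **STRIP** -/
structure GlStrip (S : ClSys V Y) (Cb : Finset Y) (La Lc Ld Lb : Finset V) : Prop where
  disk : ClDisk S
  sc : S.SC
  conn : TscConn S.gr (↑S.A : Set V)
  half : ∀ y ∈ S.C, 1 / 2 ≤ S.q y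
  cb : Cb ⊆ S.C
  la : La ⊆ S.A
  lc : Lc ⊆ S.A
  ld : Ld ⊆ S.A
  lb : Lb ⊆ S.A
  /-- the boundary cells live on the four sides -/
  cbL : ∀ y ∈ Cb, S.sv y ⊆ La ∪ Lc ∪ Ld ∪ Lb
  /-- the two plus sides are disjoint and not adjacent -/
  ac : ∀ u ∈ La, ∀ v ∈ Lc, u ≠ v ∧ ¬ S.gr.Adj u v
  /-- the minus part of each end is connected (so that the minus cluster of the ends has at most two components) -/
  dconn : TscConn S.gr (↑(Ld \ (La ∪ Lc)) : Set V)
  bconn : TscConn S.gr (↑(Lb \ (La ∪ Lc)) : Set V)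

/-- the minus pins of the strip law -/
def glEnd (La Lc Ld Lb : Finset V) : Finset V := (Ld ∪ Lb) \ (La ∪ Lc)

/-- the history of the strip law `P_Q` -/
def glH0 (S : ClSys V Y) (Cb : Finset Y) (La Lc Ld Lb : Finset V) : ClCon V Y :=
  ⟨La ∪ Lc, glEnd La Lc Ld Lb, ∅, Cb.filter (fun y => S.sv y ⊆ La ∪ Lc), Cb.filter (fun y => S.sv y ⊆ glEnd La Lc Ld Lb), ∅, ∅, ∅⟩

/-! ### doubles -/

/-- **DOUBLE**: `X` = two copies of the strip system glued along `K`.   `e`, `ec`: the first sheet;   `φ`, `ψ`: the exchange of the two sheets.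
A cell of `S` is KEPT (it is a cell of `X`, same sites, same parameter) or ABSORBED (a boundary cell on `K ∩ (La ∪ Lc)` which is a part of a cell of the second sheet). -/
structure GlDouble (S : ClSys V Y) (Cb : Finset Y) (La Lc : Finset V) (K : Finset V) (X : ClSys V' Y') (e : V → V') (ec : Y → Y')
    (φ : V' → V') (ψ : Y' → Y') : Prop where
  disk : ClDisk X
  half : ∀ y ∈ X.C, 1 / 2 ≤ X.q y
  iso : CuIso X X φ ψ
  invV : ∀ v ∈ X.A, φ (φ v) = v
  invY : ∀ y ∈ X.C, ψ (ψ y) = y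
  kA : K ⊆ S.A
  eInj : Set.InjOn e (↑S.A : Set V)
  cover : X.A = S.A.image e ∪ (S.A.image e).image φ
  meet : ∀ v ∈ S.A, (e v ∈ (S.A.image e).image φ ↔ v ∈ K)
  /-- every cell lies in one sheet -/
  sheet : ∀ y ∈ X.C, X.sv y ⊆ S.A.image e ∨ X.sv y ⊆ (S.A.image e).image φ
  ecInj : Set.InjOn ec (↑S.C : Set Y)
  /-- kept or absorbed -/
  kept : ∀ y ∈ S.C, (ec y ∈ X.C ∧ X.sv (ec y) = (S.sv y).image e ∧ X.q (ec y) = S.q y) ∨
    (y ∈ Cb ∧ S.sv y ⊆ K ∩ (La ∪ Lc) ∧ ec y ∉ X.C)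
  /-- the cells of `X` inside the first sheet are the kept cells -/
  back : ∀ y' ∈ X.C, X.sv y' ⊆ S.A.image e → ∃ y ∈ S.C, ec y = y'
  /-- a cell of the second sheet which is not inside the first sheet meets the first sheet on `La ∪ Lc` only -/
  gate : ∀ y' ∈ X.C, ¬ X.sv y' ⊆ S.A.image e → ∀ v ∈ S.A, e v ∈ X.sv y' → v ∈ K ∩ (La ∪ Lc)

/-- the mirror image, inside `K`, of a subset of the strip: `{v ∈ K | φ (e v) ∈ e '' L}` -/
def glMir (K : Finset V) (e : V → V') (φ : V' → V') (L : Finset V) : Finset V := K.filter (fun v => φ (e v) ∈ L.image e)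

/-- **PLACE** (sites) -/
structure GlPlace (S : ClSys V Y) (Cb : Finset Y) (La Lc Ld Lb : Finset V) (K K0 : Finset V) (X : ClSys V' Y') (e : V → V') (ec : Y → Y')
    (φ : V' → V') (ψ : Y' → Y') : Prop extends GlDouble S Cb La Lc K X e ec φ ψ where
  /-- the place misses the two ends -/
  far : ∀ v ∈ K, v ∉ Ld ∧ v ∉ Lb
  k0 : K0 ⊆ K
  /-- the core is free: it misses the two sides and their mirror images -/
  free : ∀ v ∈ K0, v ∉ La ∧ v ∉ Lc ∧ v ∉ glMir K e φ La ∧ v ∉ glMir K e φ Lc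
  /-- the core is symmetric -/
  symm : ∀ v ∈ K0, ∃ w ∈ K0, φ (e v) = e w
  /-- a site of `K` which lies in a cell of the first sheet not inside `K` lies on the mirror image of a side -/
  gate' : ∀ y ∈ S.C, ¬ S.sv y ⊆ K → ∀ v ∈ K, v ∈ S.sv y → v ∈ La ∪ Lc ∪ glMir K e φ La ∪ glMir K e φ Lc
  /-- DICH (105: `hxp_dich`) -/
  dich : ∀ P : Set V, GlJoin S.gr (↑K0 ∩ P) ↑La ↑Lc ∨ GlJoin S.gr (↑K0 \ P) ↑(glMir K e φ La) ↑(glMir K e φ Lc)

/-- **PLACE WITH CELLS** -/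
structure GlPlaceC (S : ClSys V Y) (Cb : Finset Y) (La Lc Ld Lb : Finset V) (K K0 : Finset V) (Kc : Finset Y) (X : ClSys V' Y') (e : V → V')
    (ec : Y → Y') (φ : V' → V') (ψ : Y' → Y') : Prop extends GlPlace S Cb La Lc Ld Lb K K0 X e ec φ ψ where
  kc : ∀ y ∈ Kc, y ∈ S.C ∧ S.sv y ⊆ K ∧ ec y ∈ X.C
  symmC : ∀ y ∈ Kc, ∃ z ∈ Kc, ψ (ec y) = ec z
  /-- DICH on the cells (105: `hxp_dich` on the lattice of the cell indices) -/
  dichC : ∀ P : Set Y, GlJoinC S (↑Kc ∩ P) La Lc ∨ GlJoinC S (↑Kc \ P) (glMir K e φ La) (glMir K e φ Lc)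

/-! ### the events -/

/-- `E_K`: a path of plus SITES inside the core from `N(La)` to `N(Lc)` -/
def GlEA (S : ClSys V Y) (La Lc K0 : Finset V) (ω : ClCfg V Y) : Prop := GlJoin S.gr (↑K0 ∩ ↑ω.B) ↑La ↑Lc

/-- BLOCKING (36: BLK): a plus path of the place `K0` from `N(La)` to `N(Lc)` (the two sides being plus) stops every walk off the plus set from the minus part of the end `L` to `K2` or to a neighbour of `K2` -/
def GlBlk (S : ClSys V Y) (La Lc K0 L K2 : Finset V) : Prop :=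
  ∀ P : Set V, ↑La ⊆ P → ↑Lc ⊆ P → GlJoin S.gr (↑K0 ∩ P) ↑La ↑Lc → ∀ u ∈ L \ (La ∪ Lc), ∀ z ∈ S.A, (z ∈ K2 ∨ ∃ k ∈ K2, S.gr.Adj z k) →
    ¬ TscR S.gr (↑S.A \ P) u z

/-! ### small API (proved) -/

theorem gl_ind_nonneg (L : ClCfg V Y → Prop) (ω : ClCfg V Y) : 0 ≤ glInd L ω := by
  unfold glInd; split_ifs <;> norm_num

theorem gl_ind_le_one (L : ClCfg V Y → Prop) (ω : ClCfg V Y) : glInd L ω ≤ 1 := by
  unfold glInd; split_ifs <;> norm_num

theorem gl_ind_pos {L : ClCfg V Y → Prop} {ω : ClCfg V Y} (h : L ω) : glInd L ω = 1 := by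
  unfold glInd; rw [if_pos h]

theorem gl_ind_neg {L : ClCfg V Y → Prop} {ω : ClCfg V Y} (h : ¬ L ω) : glInd L ω = 0 := by
  unfold glInd; rw [if_neg h]

theorem gl_ind_mono (S : ClSys V Y) {L : ClCfg V Y → Prop} (h : ClMonoP S L) : ClMono S (glInd L) := by
  intro ω ω' h1 h2
  by_cases hL : L ω
  · rw [gl_ind_pos hL, gl_ind_pos (h ω ω' h1 h2 hL)]
  · rw [gl_ind_neg hL]; exact gl_ind_nonneg _ _

theorem gl_join_mono {U : Type} {G : SimpleGraph U} {Z Z' A C : Set U} (h : Z ⊆ Z') (hj : GlJoin G Z A C) : GlJoin G Z' A C := by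
  obtain ⟨u, v, hu, hv, ha, hc, hR⟩ := hj
  exact ⟨u, v, h hu, h hv, ha, hc, tsc_R_mono h hR⟩

theorem gl_EA_mono (S : ClSys V Y) (La Lc K0 : Finset V) : ClMonoP S (GlEA S La Lc K0) := by
  intro ω ω' h1 _ hE
  exact gl_join_mono (Set.inter_subset_inter_right _ (Finset.coe_subset.2 h1)) hE

theorem gl_H0_legal (S : ClSys V Y) (Cb : Finset Y) (La Lc Ld Lb : Finset V) : ClLegal S (glH0 S Cb La Lc Ld Lb) where
  wp := rfl
  wm := rfl
  full := by
    intro y _ hy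
    simp only [glH0, Finset.union_empty, Finset.mem_union, Finset.mem_filter] at hy
    rcases hy with hy | hy
    · exact hy.2.trans Finset.subset_union_left
    · exact hy.2.trans Finset.subset_union_right
  eq := by
    intro e he
    simp [glH0] at he

/-! ### LEMMA A: stated and proved below `gl_transfer` -/

/-! ### LEMMA B: the pieces -/

/-- ties: the pairs of sites of `Po` which lie in a common cell -/
def glTie (S : ClSys V Y) (Po : Finset V) : Finset (V × V) := (Po ×ˢ Po).filter (fun p => ∃ y ∈ S.C, p.1 ∈ S.sv y ∧ p.2 ∈ S.sv y)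

/-- the ports and their mirror images, in the double -/
def glPo2 (e : V → V') (φ : V' → V') (Po : Finset V) : Finset V' := Po.image e ∪ (Po.image e).image φ

/-- the history `H₊` of the double: first spin plus on the ports of both sheets, second spin tied along the ports; NOTHING on the outer boundary of the double -/
def glHp (X : ClSys V' Y') (e : V → V') (φ : V' → V') (Po : Finset V) : ClCon V' Y' :=
  ⟨glPo2 e φ Po, ∅, glTie X (glPo2 e φ Po), ∅, ∅, ∅, ∅, ∅⟩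

/-! ### kit of `gl_swap` (helper46; prefix `gsw_`) -/

/-- comparison of two sums on the support -/
theorem gsw_N_le (S : ClSys V Y) (hS : ClOk S) (K K' : ClCfg V Y → Prop) (F F' : ClCfg V Y → ℝ)
    (h : ∀ ω ∈ S.cfgs, S.wt ω ≠ 0 → K ω → K' ω ∧ F ω ≤ F' ω) (hF' : ∀ ω, 0 ≤ F' ω) : S.N K F ≤ S.N K' F' := by
  classical
  unfold ClSys.N
  refine Finset.sum_le_sum fun ω hω => ?_
  have hw := dis_wt_nonneg S hS ω
  by_cases hK : K ω
  · rw [if_pos hK]
    by_cases h0 : S.wt ω = 0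
    · rw [h0, zero_mul]
      split_ifs
      · simp
      · exact le_rfl
    · obtain ⟨h1, h2⟩ := h ω hω h0 hK
      rw [if_pos h1]
      exact mul_le_mul_of_nonneg_left h2 hw
  · rw [if_neg hK]
    split_ifs
    · exact mul_nonneg hw (hF' ω)
    · exact le_rfl

theorem gsw_N_add (S : ClSys V Y) (K : ClCfg V Y → Prop) (F F' : ClCfg V Y → ℝ) :
    S.N K (fun ω => F ω + F' ω) = S.N K F + S.N K F' := by
  classical
  unfold ClSys.N
  rw [← Finset.sum_add_distrib]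
  refine Finset.sum_congr rfl fun ω _ => ?_
  split_ifs
  · ring
  · simp

/-- transport of a path of cells -/
theorem gsw_join_map {V₁ Y₁ V₂ Y₂ : Type} [DecidableEq V₁] [DecidableEq Y₁] [DecidableEq V₂] [DecidableEq Y₂]
    (S₁ : ClSys V₁ Y₁) (S₂ : ClSys V₂ Y₂) (f : V₁ → V₂) (g : Y₁ → Y₂) (Z : Set Y₁) (Z' : Set Y₂) (A C : Finset V₁) (A' C' : Finset V₂)
    (hg : ∀ y ∈ Z, g y ∈ Z') (hinj : Set.InjOn g Z) (hsv : ∀ y ∈ Z, ∀ v ∈ S₁.sv y, f v ∈ S₂.sv (g y))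
    (hA : ∀ a ∈ A, f a ∈ A') (hC : ∀ c ∈ C, f c ∈ C') (h : GlJoinC S₁ Z A C) : GlJoinC S₂ Z' A' C' := by
  obtain ⟨y, y', hy, hy', ⟨a, ha, hay⟩, ⟨c, hc, hcy⟩, hR⟩ := h
  have hpath : ∀ b, TscR (glCg S₁) Z y b → TscR (glCg S₂) Z' (g y) (g b) := by
    intro b hb
    induction hb with
    | refl => exact ReflTransGen.refl
    | tail _ hbc ih =>
      obtain ⟨⟨hne, v, hv1, hv2⟩, h1, h2⟩ := hbc
      exact ih.tail ⟨⟨fun e => hne (hinj h1 h2 e), f v, hsv _ h1 v hv1, hsv _ h2 v hv2⟩, hg _ h1, hg _ h2⟩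
  exact ⟨g y, g y', hg y hy, hg y' hy', ⟨f a, hA a ha, hsv y hy a hay⟩, ⟨f c, hC c hc, hsv y' hy' c hcy⟩, hpath y' hR⟩

theorem gsw_join_mono (S : ClSys V Y) {Z Z' : Set Y} (A C : Finset V) (h : Z ⊆ Z') (hj : GlJoinC S Z A C) : GlJoinC S Z' A C := by
  obtain ⟨y, y', hy, hy', ha, hc, hR⟩ := hj
  exact ⟨y, y', h hy, h hy', ha, hc, tsc_R_mono h hR⟩

/-- an open cell of a configuration of nonzero weight has a constant first spin -/
theorem gsw_open_const (S : ClSys V Y) (ω : ClCfg V Y) (hω : S.wt ω ≠ 0) (y : Y) (hy : y ∈ S.C) (hO : y ∈ ω.O) : ClConst ω.B (S.sv y) := by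
  have hf : clCellW (S.q y) (ClConst ω.B (S.sv y)) (ClConst ω.W (S.sv y)) (y ∈ ω.O) ≠ 0 := by
    unfold ClSys.wt at hω
    exact (Finset.prod_ne_zero_iff.1 hω) y hy
  by_contra hc
  apply hf
  unfold clCellW
  rw [if_pos hO, if_neg hc]

/-- a path of open cells has one sign -/
theorem gsw_sign (S : ClSys V Y) (ω : ClCfg V Y) (hω : S.wt ω ≠ 0) (Z : Set Y) (hZ : Z ⊆ ↑S.C) (A C : Finset V)
    (h : GlJoinC S (Z ∩ ↑ω.O) A C) : GlJoinC S (Z ∩ glOn S 1 ω) A C ∨ GlJoinC S (Z ∩ glOn S (-1) ω) A C := by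
  obtain ⟨y, y', hy, hy', ha, hc, hR⟩ := h
  -- the status does not change along a step
  have hstep : ∀ a b, TscStep (glCg S) (Z ∩ ↑ω.O) a b → clTau S ω a = clTau S ω b := by
    rintro a b ⟨⟨-, v, hv1, hv2⟩, ⟨ha1, ha2⟩, ⟨hb1, hb2⟩⟩
    have ha2' : a ∈ ω.O := Finset.mem_coe.1 ha2
    have hb2' : b ∈ ω.O := Finset.mem_coe.1 hb2
    have ca := gsw_open_const S ω hω a (Finset.mem_coe.1 (hZ ha1)) ha2'
    have cb := gsw_open_const S ω hω b (Finset.mem_coe.1 (hZ hb1)) hb2'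
    unfold clTau
    rw [if_pos ha2', if_pos hb2']
    by_cases hv : v ∈ ω.B
    · have h1 : S.sv a ⊆ ω.B := ca.resolve_right fun h => h v hv1 hv
      have h2 : S.sv b ⊆ ω.B := cb.resolve_right fun h => h v hv2 hv
      rw [if_pos h1, if_pos h2]
    · rw [if_neg fun h => hv (h hv1), if_neg fun h => hv (h hv2)]
  have hpath : ∀ b, TscR (glCg S) (Z ∩ ↑ω.O) y b → TscR (glCg S) (Z ∩ glOn S (clTau S ω y) ω) y b ∧ clTau S ω b = clTau S ω y := by
    intro b hb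
    induction hb with
    | refl => exact ⟨ReflTransGen.refl, rfl⟩
    | tail _ hbc ih =>
      have e := hstep _ _ hbc
      refine ⟨ih.1.tail ⟨hbc.1, ⟨hbc.2.1.1, Finset.mem_coe.1 (hZ hbc.2.1.1), ih.2⟩, ⟨hbc.2.2.1, Finset.mem_coe.1 (hZ hbc.2.2.1), e ▸ ih.2⟩⟩, e ▸ ih.2⟩
  obtain ⟨hp, he⟩ := hpath y' hR
  have hj : GlJoinC S (Z ∩ glOn S (clTau S ω y) ω) A C :=
    ⟨y, y', ⟨hy.1, Finset.mem_coe.1 (hZ hy.1), rfl⟩, ⟨hy'.1, Finset.mem_coe.1 (hZ hy'.1), he⟩, ha, hc, hp⟩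
  rcases dis_tau_cases S ω y with h1 | h1 | h1
  · rw [h1] at hj; exact Or.inl hj
  · rw [h1] at hj; exact Or.inr hj
  · exact absurd (Finset.mem_coe.1 hy.2) ((dis_tau_zero S ω y).1 h1)

/-- both spins respect the ties -/
def GswN (E : Finset (V × V)) (ω : ClCfg V Y) : Prop :=
  (∀ p ∈ E, (p.1 ∈ ω.B ↔ p.2 ∈ ω.B)) ∧ ∀ p ∈ E, (p.1 ∈ ω.W ↔ p.2 ∈ ω.W)

/-- step A: the two-colour law and the dichotomy -/
theorem gsw_stepA (X : ClSys V Y) (hX : ClOk X) (half : ∀ y ∈ X.C, 1 / 2 ≤ X.q y) (E : Finset (V × V)) (Z : Set Y) (hZ : Z ⊆ ↑X.C)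
    (A C A' C' : Finset V) (h1 : ∀ Q : Set Y, GlJoinC X (Z ∩ Q) A C ∨ GlJoinC X (Z \ Q) A' C') :
    X.Z (GswN E) ≤ X.N (GswN E) (glInd fun ω => GlJoinC X (Z ∩ ↑ω.O) A C) + X.N (GswN E) (glInd fun ω => GlJoinC X (Z ∩ ↑ω.O) A' C') := by
  classical
  rw [dis_Z_eq, ← am_N2_fst X (GswN E) (fun _ => 1), ← am_N2_fst X (GswN E) (glInd fun ω => GlJoinC X (Z ∩ ↑ω.O) A C),
    ← am_N2_snd X (GswN E) (glInd fun ω => GlJoinC X (Z ∩ ↑ω.O) A' C')]
  have e : (fun ω : ClCfg2 V Y => GswN E ω.snd) = fun ω => GswN E ω.fst :=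
    funext fun ω => propext ⟨fun h => ⟨h.2, h.1⟩, fun h => ⟨h.2, h.1⟩⟩
  rw [e]
  unfold ClSys.N2
  rw [← Finset.sum_add_distrib]
  refine Finset.sum_le_sum fun ω _ => ?_
  by_cases hK : GswN E ω.fst
  · rw [if_pos hK, if_pos hK, if_pos hK, ← mul_add]
    have hw := am_wt2_nonneg X half hX.q1 ω
    by_cases h0 : X.wt2 ω = 0
    · rw [h0]; simp
    · refine mul_le_mul_of_nonneg_left ?_ hw
      show (1 : ℝ) ≤ glInd (fun ω : ClCfg V Y => GlJoinC X (Z ∩ ↑ω.O) A C) ω.fst + glInd (fun ω : ClCfg V Y => GlJoinC X (Z ∩ ↑ω.O) A' C') ω.snd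
      rcases h1 ↑ω.OB with h | h
      · have : glInd (fun ω : ClCfg V Y => GlJoinC X (Z ∩ ↑ω.O) A C) ω.fst = 1 := gl_ind_pos h
        rw [this]
        have := gl_ind_nonneg (fun ω : ClCfg V Y => GlJoinC X (Z ∩ ↑ω.O) A' C') ω.snd
        linarith
      · have h' : GlJoinC X (Z ∩ ↑ω.OW) A' C' := by
          refine gsw_join_mono X A' C' ?_ h
          rintro y ⟨hy1, hy2⟩
          refine ⟨hy1, ?_⟩
          rcases (am_wt2_cover X ω h0 y (Finset.mem_coe.1 (hZ hy1))).1 with h3 | h3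
          · exact absurd (Finset.mem_coe.2 h3) hy2
          · exact Finset.mem_coe.2 h3
        have : glInd (fun ω : ClCfg V Y => GlJoinC X (Z ∩ ↑ω.O) A' C') ω.snd = 1 := gl_ind_pos h'
        rw [this]
        have := gl_ind_nonneg (fun ω : ClCfg V Y => GlJoinC X (Z ∩ ↑ω.O) A C) ω.fst
        linarith
  · rw [if_neg hK, if_neg hK, if_neg hK]; simp

/-- step B: the mirror image -/
theorem gsw_stepB (X : ClSys V Y) (hX : ClOk X) (φ : V → V) (ψ : Y → Y) (iso : CuIso X X φ ψ) (T : Finset V) (hT : T ⊆ X.A)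
    (hTφ : ∀ v ∈ T, φ v ∈ T) (Z : Set Y) (A C A' C' : Finset V)
    (h2 : ∀ O : Finset Y, O ⊆ X.C → GlJoinC X (Z ∩ ↑(O.image ψ)) A' C' → GlJoinC X (Z ∩ ↑O) A C) :
    X.N (GswN (glTie X T)) (glInd fun ω => GlJoinC X (Z ∩ ↑ω.O) A' C') ≤ X.N (GswN (glTie X T)) (glInd fun ω => GlJoinC X (Z ∩ ↑ω.O) A C) := by
  rw [am_iso X X φ ψ iso hX.sub (GswN (glTie X T)) (glInd fun ω => GlJoinC X (Z ∩ ↑ω.O) A' C')]
  refine gsw_N_le X hX _ _ _ _ ?_ (gl_ind_nonneg _)
  intro ω hω _ hK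
  obtain ⟨hB, hW, hO⟩ := (cl_mem_cfgs X ω).1 hω
  have htie : ∀ p ∈ glTie X T, (φ p.1, φ p.2) ∈ glTie X T ∧ p.1 ∈ X.A ∧ p.2 ∈ X.A := by
    intro p hp
    obtain ⟨hp1, y, hy, h3, h4⟩ := Finset.mem_filter.1 hp
    obtain ⟨h5, h6⟩ := Finset.mem_product.1 hp1
    refine ⟨Finset.mem_filter.2 ⟨Finset.mem_product.2 ⟨hTφ _ h5, hTφ _ h6⟩, ψ y, ?_, ?_, ?_⟩, hT h5, hT h6⟩
    · rw [← iso.C]; exact Finset.mem_image_of_mem _ hy
    · rw [iso.sv y hy]; exact Finset.mem_image_of_mem _ h3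
    · rw [iso.sv y hy]; exact Finset.mem_image_of_mem _ h4
  refine ⟨⟨fun p hp => ?_, fun p hp => ?_⟩, ?_⟩
  · obtain ⟨h3, h4, h5⟩ := htie p hp
    have := hK.1 _ h3
    rwa [show (ω.map φ ψ).B = ω.B.image φ from rfl, am_t5_mem iso.injV hB h4, am_t5_mem iso.injV hB h5] at this
  · obtain ⟨h3, h4, h5⟩ := htie p hp
    have := hK.2 _ h3
    rwa [show (ω.map φ ψ).W = ω.W.image φ from rfl, am_t5_mem iso.injV hW h4, am_t5_mem iso.injV hW h5] at this
  · by_cases hj : GlJoinC X (Z ∩ ↑(ω.map φ ψ).O) A' C'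
    · rw [gl_ind_pos hj, gl_ind_pos (L := fun ω : ClCfg V Y => GlJoinC X (Z ∩ ↑ω.O) A C) (h2 ω.O hO hj)]
    · rw [gl_ind_neg hj]; exact gl_ind_nonneg _ _

/-- steps C, D: one sign, flip -/
theorem gsw_stepC (X : ClSys V Y) (hX : ClOk X) (T : Finset V) (hT : T ⊆ X.A) (Z : Set Y) (hZ : Z ⊆ ↑X.C) (A C : Finset V) :
    X.N (GswN (glTie X T)) (glInd fun ω => GlJoinC X (Z ∩ ↑ω.O) A C) ≤ 2 * X.N (GswN (glTie X T)) (glInd fun ω => GlJoinC X (Z ∩ glOn X 1 ω) A C) := by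
  have hC : X.N (GswN (glTie X T)) (glInd fun ω => GlJoinC X (Z ∩ ↑ω.O) A C) ≤
      X.N (GswN (glTie X T)) (fun ω => glInd (fun ω => GlJoinC X (Z ∩ glOn X 1 ω) A C) ω + glInd (fun ω => GlJoinC X (Z ∩ glOn X (-1) ω) A C) ω) := by
    refine gsw_N_le X hX _ _ _ _ ?_ (fun ω => add_nonneg (gl_ind_nonneg _ _) (gl_ind_nonneg _ _))
    intro ω _ hw hK
    refine ⟨hK, ?_⟩
    have n1 := gl_ind_nonneg (fun ω => GlJoinC X (Z ∩ glOn X 1 ω) A C) ω
    have n2 := gl_ind_nonneg (fun ω => GlJoinC X (Z ∩ glOn X (-1) ω) A C) ω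
    by_cases hj : GlJoinC X (Z ∩ ↑ω.O) A C
    · rw [gl_ind_pos hj]
      rcases gsw_sign X ω hw Z hZ A C hj with h | h
      · rw [gl_ind_pos (L := fun ω => GlJoinC X (Z ∩ glOn X 1 ω) A C) h]; linarith
      · rw [gl_ind_pos (L := fun ω => GlJoinC X (Z ∩ glOn X (-1) ω) A C) h]; linarith
    · rw [gl_ind_neg hj]; linarith
  have hD : X.N (GswN (glTie X T)) (glInd fun ω => GlJoinC X (Z ∩ glOn X (-1) ω) A C) ≤
      X.N (GswN (glTie X T)) (glInd fun ω => GlJoinC X (Z ∩ glOn X 1 ω) A C) := by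
    rw [am_flipB_N X hX.sub (GswN (glTie X T)) (glInd fun ω => GlJoinC X (Z ∩ glOn X (-1) ω) A C)]
    refine gsw_N_le X hX _ _ _ _ ?_ (gl_ind_nonneg _)
    intro ω _ hw hK
    refine ⟨⟨fun p hp => ?_, hK.2⟩, ?_⟩
    · obtain ⟨hp1, -⟩ := Finset.mem_filter.1 hp
      obtain ⟨h5, h6⟩ := Finset.mem_product.1 hp1
      have := hK.1 p hp
      simp only [ClCfg.flipB, Finset.mem_sdiff, hT h5, hT h6, true_and] at this
      exact not_iff_not.1 this
    · by_cases hj : GlJoinC X (Z ∩ glOn X (-1) (ω.flipB X.A)) A C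
      · have hj' : GlJoinC X (Z ∩ glOn X 1 ω) A C := by
          refine gsw_join_mono X A C ?_ hj
          rintro y ⟨hy1, hy2, hy3⟩
          refine ⟨hy1, hy2, ?_⟩
          rw [am_flipB_tau X hX ω hw y hy2] at hy3
          linarith
        rw [gl_ind_pos hj, gl_ind_pos (L := fun ω => GlJoinC X (Z ∩ glOn X 1 ω) A C) hj']
      · rw [gl_ind_neg hj]; exact gl_ind_nonneg _ _
  rw [gsw_N_add] at hC
  linarith

/-- step E: the plus pins dominate every pattern which respects the ties -/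
theorem gsw_stepE (X : ClSys V Y) (hX : ClDisk X) (T : Finset V) (F : ClCfg V Y → ℝ) (hF : ClMono X F) :
    X.Z ((⟨T, ∅, glTie X T, ∅, ∅, ∅, ∅, ∅⟩ : ClCon V Y).Holds X) * X.N (GswN (glTie X T)) F ≤
      X.N ((⟨T, ∅, glTie X T, ∅, ∅, ∅, ∅, ∅⟩ : ClCon V Y).Holds X) F * X.Z (GswN (glTie X T)) := by
  classical
  set Hp : ClCon V Y := ⟨T, ∅, glTie X T, ∅, ∅, ∅, ∅, ∅⟩ with hHp
  have hleg : ∀ β : Finset V, ClLegal X (⟨β, T \ β, glTie X T, ∅, ∅, ∅, ∅, ∅⟩ : ClCon V Y) := by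
    intro β
    refine ⟨rfl, rfl, ?_, ?_⟩
    · intro y _ hy
      simp at hy
    · intro p hp
      exact (Finset.mem_filter.1 hp).2
  have hlegp : ClLegal X Hp := by
    refine ⟨rfl, rfl, ?_, ?_⟩
    · intro y _ hy
      simp [hHp] at hy
    · intro p hp
      exact (Finset.mem_filter.1 hp).2
  have key := len_fibre X (GswN (glTie X T)) (fun ω => ω.B ∩ T) (fun β ω => GswN (glTie X T) ω ∧ ω.B ∩ T = β)
    (fun _ _ => Iff.rfl) F (fun _ => X.N (Hp.Holds X) F) (X.Z (Hp.Holds X)) ?_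
  · have e : X.N (GswN (glTie X T)) (fun _ => X.N (Hp.Holds X) F) = X.N (Hp.Holds X) F * X.Z (GswN (glTie X T)) := by
      rw [dis_Z_eq, ← dmt_N_smul]
      simp
    rw [e] at key
    exact key
  · intro ω₀ _ hK
    set β := ω₀.B ∩ T with hβ
    have hiff : ∀ ω : ClCfg V Y, (GswN (glTie X T) ω ∧ ω.B ∩ T = β) ↔ (⟨β, T \ β, glTie X T, ∅, ∅, ∅, ∅, ∅⟩ : ClCon V Y).Holds X ω := by
      intro ω
      unfold ClCon.Holds
      simp only [Finset.notMem_empty, false_imp_iff, implies_true, Finset.empty_subset, and_true]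
      constructor
      · rintro ⟨h1, h2⟩
        refine ⟨?_, ?_, h1.2⟩
        · rw [← h2]; exact Finset.inter_subset_left
        · intro v hv hvB
          obtain ⟨h3, h4⟩ := Finset.mem_sdiff.1 hv
          exact h4 (h2 ▸ Finset.mem_inter.2 ⟨hvB, h3⟩)
      · rintro ⟨h1, h2, h3⟩
        have e : ω.B ∩ T = β := by
          ext v
          constructor
          · intro hv
            obtain ⟨h4, h5⟩ := Finset.mem_inter.1 hv
            by_contra h6
            exact h2 v (Finset.mem_sdiff.2 ⟨h5, h6⟩) h4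
          · intro hv
            exact Finset.mem_inter.2 ⟨h1 hv, (Finset.mem_inter.1 hv).2⟩
        refine ⟨⟨fun p hp => ?_, h3⟩, e⟩
        obtain ⟨hp1, -⟩ := Finset.mem_filter.1 hp
        obtain ⟨h5, h6⟩ := Finset.mem_product.1 hp1
        have h7 : ∀ v ∈ T, (v ∈ ω.B ↔ v ∈ ω₀.B) := by
          intro v hv
          have : v ∈ ω.B ∩ T ↔ v ∈ ω₀.B ∩ T := by rw [e]
          simpa [hv] using this
        rw [h7 _ h5, h7 _ h6]
        exact hK.1 p hp
    have e1 : ∀ G : ClCfg V Y → ℝ, X.N (fun ω => GswN (glTie X T) ω ∧ ω.B ∩ T = β) G =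
        X.N ((⟨β, T \ β, glTie X T, ∅, ∅, ∅, ∅, ∅⟩ : ClCon V Y).Holds X) G := fun G => dmt_N_congr X hiff G
    show X.Z (Hp.Holds X) * X.N (fun ω => GswN (glTie X T) ω ∧ ω.B ∩ T = β) F ≤
      X.N (fun ω => GswN (glTie X T) ω ∧ ω.B ∩ T = β) (fun _ => X.N (Hp.Holds X) F)
    rw [e1, e1]
    have hord := dis_order X hX (⟨β, T \ β, glTie X T, ∅, ∅, ∅, ∅, ∅⟩ : ClCon V Y) Hp (hleg β) hlegp
      ⟨Finset.inter_subset_right, Finset.empty_subset _, Finset.Subset.refl _, Finset.Subset.refl _, Finset.empty_subset _, Finset.empty_subset _, rfl⟩ F hF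
    have e2 : X.N ((⟨β, T \ β, glTie X T, ∅, ∅, ∅, ∅, ∅⟩ : ClCon V Y).Holds X) (fun _ => X.N (Hp.Holds X) F) =
        X.N (Hp.Holds X) F * X.Z ((⟨β, T \ β, glTie X T, ∅, ∅, ∅, ∅, ∅⟩ : ClCon V Y).Holds X) := by
      rw [dis_Z_eq, ← dmt_N_smul]
      simp
    rw [e2]
    linarith

/-- **the symmetric core**, abstract form -/
theorem gsw_core (X : ClSys V Y) (hX : ClDisk X) (half : ∀ y ∈ X.C, 1 / 2 ≤ X.q y) (φ : V → V) (ψ : Y → Y) (iso : CuIso X X φ ψ)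
    (T : Finset V) (hT : T ⊆ X.A) (hTφ : ∀ v ∈ T, φ v ∈ T) (Z : Set Y) (hZ : Z ⊆ ↑X.C) (A C A' C' : Finset V)
    (h1 : ∀ Q : Set Y, GlJoinC X (Z ∩ Q) A C ∨ GlJoinC X (Z \ Q) A' C')
    (h2 : ∀ O : Finset Y, O ⊆ X.C → GlJoinC X (Z ∩ ↑(O.image ψ)) A' C' → GlJoinC X (Z ∩ ↑O) A C) :
    1 / 4 * X.Z ((⟨T, ∅, glTie X T, ∅, ∅, ∅, ∅, ∅⟩ : ClCon V Y).Holds X) ≤
      X.N ((⟨T, ∅, glTie X T, ∅, ∅, ∅, ∅, ∅⟩ : ClCon V Y).Holds X) (glInd (fun ω => GlJoinC X (Z ∩ glOn X 1 ω) A C)) := by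
  have hOk : ClOk X := hX.toClOk
  have hA := gsw_stepA X hOk half (glTie X T) Z hZ A C A' C' h1
  have hB := gsw_stepB X hOk φ ψ iso T hT hTφ Z A C A' C' h2
  have hC := gsw_stepC X hOk T hT Z hZ A C
  have hmono : ClMono X (glInd (fun ω => GlJoinC X (Z ∩ glOn X 1 ω) A C)) := by
    refine gl_ind_mono X ?_
    intro ω ω' _ hτ hj
    refine gsw_join_mono X A C ?_ hj
    rintro y ⟨hy1, hy2, hy3⟩
    refine ⟨hy1, hy2, ?_⟩
    have h3 := hτ y hy2
    rw [hy3] at h3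
    rcases dis_tau_cases X ω' y with h4 | h4 | h4 <;> omega
  have hE := gsw_stepE X hX T _ hmono
  set Zp := X.Z ((⟨T, ∅, glTie X T, ∅, ∅, ∅, ∅, ∅⟩ : ClCon V Y).Holds X) with hZp
  set Np := X.N ((⟨T, ∅, glTie X T, ∅, ∅, ∅, ∅, ∅⟩ : ClCon V Y).Holds X) (glInd (fun ω => GlJoinC X (Z ∩ glOn X 1 ω) A C)) with hNp
  set ZN := X.Z (GswN (glTie X T)) with hZN
  set NN := X.N (GswN (glTie X T)) (glInd (fun ω => GlJoinC X (Z ∩ glOn X 1 ω) A C)) with hNN
  have hNp0 : 0 ≤ Np := len_N_nonneg X hOk _ _ fun ω _ => gl_ind_nonneg _ _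
  have hZp0 : 0 ≤ Zp := by
    rw [hZp, dis_Z_eq]
    exact len_N_nonneg X hOk _ _ fun ω _ => zero_le_one
  have hZle : Zp ≤ ZN := by
    rw [hZp, hZN, dis_Z_eq, dis_Z_eq]
    refine gsw_N_le X hOk _ _ _ _ ?_ (fun _ => zero_le_one)
    intro ω _ _ hK
    refine ⟨⟨fun p hp => ?_, hK.2.2.1⟩, le_rfl⟩
    obtain ⟨hp1, -⟩ := Finset.mem_filter.1 hp
    obtain ⟨h5, h6⟩ := Finset.mem_product.1 hp1
    exact ⟨fun _ => hK.1 h6, fun _ => hK.1 h5⟩
  have h4 : ZN ≤ 4 * NN := by linarith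
  rcases (hZp0.trans hZle).eq_or_lt with h0 | h0
  · have : Zp = 0 := le_antisymm (h0 ▸ hZle) hZp0
    rw [this]; linarith
  · have h5 : ZN * Zp ≤ ZN * (4 * Np) := by nlinarith
    have := le_of_mul_le_mul_left h5 h0
    linarith

/-- **B.2, THE SYMMETRIC CORE** (colour swap; replaces (annulus:symmetric-short)).   ANY set of ports.   OWNER 55 (+210).
PLAN.  `𝒩` := "`B` and `W` respect the ties": invariant under `T'` = `(φ, ψ)` ∘ colour swap.  (1) two-colour law (`am_N2_fst`, `am_swap_N2`, `am_iso` for `N2`, `am_wt2_nonneg`), `dichC` with `P` = the `B`-open cells, `am_wt2_cover`: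
`P_𝒩[E^±] ≥ 1/2`, `E^±` = a path of `B`-open cells inside `Kc` from `La` to `Lc`.  (2) adjacent open cells have the same sign: `E^± ⊆ E⁺ ∪ E⁻`.  (3) `𝒩` = disjoint union over the tie-respecting sign patterns `β` of the ports of the LEGAL histories `H_β`;
`H₋ ≤ H_β ≤ H₊` (`am_order_eq`; the ties are edges of cells): `P_β(E⁺) ≤ P₊(E⁺)`, `P_β(E⁻) ≤ P₋(E⁻) = P₊(E⁺)` (`am_flipB_N`).   Hence `1/2 ≤ 2 P₊(E⁺)`. -/
theorem gl_swap (S : ClSys V Y) (Cb : Finset Y) (La Lc Ld Lb K K0 : Finset V) (Kc : Finset Y) (X : ClSys V' Y') (e : V → V') (ec : Y → Y') (φ : V' → V') (ψ : Y' → Y')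
    (hS : GlStrip S Cb La Lc Ld Lb) (hP : GlPlaceC S Cb La Lc Ld Lb K K0 Kc X e ec φ ψ) (Po : Finset V) (hPo : Po ⊆ S.A) :
    1 / 4 * X.Z ((glHp X e φ Po).Holds X) ≤
      X.N ((glHp X e φ Po).Holds X) (glInd (fun ω => GlJoinC X (↑(Kc.image ec) ∩ glOn X 1 ω) (La.image e) (Lc.image e))) := by
  have hePo : Po.image e ⊆ X.A := by
    rw [hP.cover]
    exact (Finset.image_subset_image hPo).trans Finset.subset_union_left
  have hT : glPo2 e φ Po ⊆ X.A := by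
    unfold glPo2
    refine Finset.union_subset hePo ?_
    rw [hP.cover]
    exact (Finset.image_subset_image (Finset.image_subset_image hPo)).trans Finset.subset_union_right
  have hTφ : ∀ v ∈ glPo2 e φ Po, φ v ∈ glPo2 e φ Po := by
    intro v hv
    rcases Finset.mem_union.1 hv with h | h
    · exact Finset.mem_union_right _ (Finset.mem_image_of_mem _ h)
    · obtain ⟨w, hw, rfl⟩ := Finset.mem_image.1 h
      rw [hP.invV w (hePo hw)]
      exact Finset.mem_union_left _ hw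
  have hZ : (↑(Kc.image ec) : Set Y') ⊆ ↑X.C := by
    intro y hy
    obtain ⟨k, hk, rfl⟩ := Finset.mem_image.1 (Finset.mem_coe.1 hy)
    exact Finset.mem_coe.2 (hP.kc k hk).2.2
  have hsv : ∀ k ∈ Kc, X.sv (ec k) = (S.sv k).image e := by
    intro k hk
    obtain ⟨h1, -, h3⟩ := hP.kc k hk
    rcases hP.kept k h1 with h | h
    · exact h.2.1
    · exact absurd h3 h.2.2
  refine gsw_core X hP.disk hP.half φ ψ hP.iso (glPo2 e φ Po) hT hTφ (↑(Kc.image ec)) hZ (La.image e) (Lc.image e)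
    ((glMir K e φ La).image e) ((glMir K e φ Lc).image e) ?_ ?_
  · intro Q
    rcases hP.dichC {y | ec y ∈ Q} with h | h
    · left
      refine gsw_join_map S X e ec _ _ La Lc _ _ ?_ ?_ ?_ (fun a ha => Finset.mem_image_of_mem _ ha) (fun a ha => Finset.mem_image_of_mem _ ha) h
      · rintro y ⟨hy1, hy2⟩
        exact ⟨Finset.mem_coe.2 (Finset.mem_image_of_mem _ (Finset.mem_coe.1 hy1)), hy2⟩
      · intro y hy y' hy' he
        exact hP.ecInj (Finset.mem_coe.2 (hP.kc y (Finset.mem_coe.1 hy.1)).1) (Finset.mem_coe.2 (hP.kc y' (Finset.mem_coe.1 hy'.1)).1) he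
      · rintro y ⟨hy1, -⟩ v hv
        rw [hsv y (Finset.mem_coe.1 hy1)]
        exact Finset.mem_image_of_mem _ hv
    · right
      refine gsw_join_map S X e ec _ _ (glMir K e φ La) (glMir K e φ Lc) _ _ ?_ ?_ ?_ (fun a ha => Finset.mem_image_of_mem _ ha)
        (fun a ha => Finset.mem_image_of_mem _ ha) h
      · rintro y ⟨hy1, hy2⟩
        exact ⟨Finset.mem_coe.2 (Finset.mem_image_of_mem _ (Finset.mem_coe.1 hy1)), hy2⟩
      · intro y hy y' hy' he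
        exact hP.ecInj (Finset.mem_coe.2 (hP.kc y (Finset.mem_coe.1 hy.1)).1) (Finset.mem_coe.2 (hP.kc y' (Finset.mem_coe.1 hy'.1)).1) he
      · rintro y ⟨hy1, -⟩ v hv
        rw [hsv y (Finset.mem_coe.1 hy1)]
        exact Finset.mem_image_of_mem _ hv
  · intro O hO h
    have hmir : ∀ L : Finset V, ∀ a ∈ (glMir K e φ L).image e, φ a ∈ L.image e := by
      intro L a ha
      obtain ⟨w, hw, rfl⟩ := Finset.mem_image.1 ha
      exact (Finset.mem_filter.1 hw).2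
    refine gsw_join_map X X φ ψ _ _ _ _ _ _ ?_ ?_ ?_ (hmir La) (hmir Lc) h
    · rintro y ⟨hy1, hy2⟩
      obtain ⟨k, hk, rfl⟩ := Finset.mem_image.1 (Finset.mem_coe.1 hy1)
      obtain ⟨o, ho, hoe⟩ := Finset.mem_image.1 (Finset.mem_coe.1 hy2)
      obtain ⟨z, hz, hze⟩ := hP.symmC k hk
      refine ⟨?_, ?_⟩
      · rw [hze]; exact Finset.mem_coe.2 (Finset.mem_image_of_mem _ hz)
      · rw [← hoe, hP.invY o (hO ho)]; exact Finset.mem_coe.2 ho
    · intro y hy y' hy' he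
      exact hP.iso.injY (hZ hy.1) (hZ hy'.1) he
    · rintro y ⟨hy1, -⟩ v hv
      rw [hP.iso.sv y (Finset.mem_coe.1 (hZ hy1))]
      exact Finset.mem_image_of_mem _ hv

/-- the pull-back of a configuration of the double to the first sheet (the absorbed cells are declared open) -/
def glPull (S : ClSys V Y) (X : ClSys V' Y') (e : V → V') (ec : Y → Y') (ω : ClCfg V' Y') : ClCfg V Y :=
  ⟨S.A.filter (fun v => e v ∈ ω.B), S.A.filter (fun v => e v ∈ ω.W), S.C.filter (fun y => ec y ∈ ω.O ∨ ec y ∉ X.C)⟩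

/-- helper of `gl_transfer`: cells which the constraint forces to be open-plus may be removed from the system, at the price of their parameters -/
theorem gl_tr_drop (S : ClSys V Y) (D : Finset Y) (hD : D ⊆ S.C) (Kc : ClCfg V Y → Prop) (hK : ∀ ω, Kc ω → ∀ y ∈ D, clTau S ω y = 1)
    (F : ClCfg V Y → ℝ) :
    S.N Kc F = (∏ y ∈ D, S.q y) *
      (⟨S.A, S.C \ D, S.sv, S.q⟩ : ClSys V Y).N (fun ω => Kc ⟨ω.B, ω.W, ω.O ∪ D⟩) (fun ω => F ⟨ω.B, ω.W, ω.O ∪ D⟩) := by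
  classical
  unfold ClSys.N
  rw [Finset.mul_sum]
  have h1 : ∑ ω ∈ S.cfgs, (if Kc ω then S.wt ω * F ω else 0) = ∑ ω ∈ S.cfgs.filter (fun ω => D ⊆ ω.O), (if Kc ω then S.wt ω * F ω else 0) := by
    symm
    refine Finset.sum_filter_of_ne fun ω _ hne => ?_
    by_contra hDO
    apply hne
    rw [if_neg]
    intro hKω
    apply hDO
    intro y hy
    have h2 := hK ω hKω y hy
    unfold clTau at h2
    by_contra hyO
    rw [if_neg hyO] at h2
    exact absurd h2 (by norm_num)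
  rw [h1]
  symm
  refine Finset.sum_bij (fun ω _ => (⟨ω.B, ω.W, ω.O ∪ D⟩ : ClCfg V Y)) ?_ ?_ ?_ ?_
  · intro ω hω
    obtain ⟨hB, hW, hO⟩ := (cl_mem_cfgs _ ω).1 hω
    exact Finset.mem_filter.2 ⟨(cl_mem_cfgs S _).2 ⟨hB, hW, Finset.union_subset (hO.trans Finset.sdiff_subset) hD⟩, Finset.subset_union_right⟩
  · intro ω hω ω' hω' heq
    obtain ⟨-, -, hO⟩ := (cl_mem_cfgs _ ω).1 hω
    obtain ⟨-, -, hO'⟩ := (cl_mem_cfgs _ ω').1 hω'
    simp only [ClCfg.mk.injEq] at heq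
    refine ClCfg.ext heq.1 heq.2.1 ?_
    ext y
    by_cases hy : y ∈ D
    · constructor
      · intro h; exact absurd hy (Finset.mem_sdiff.1 (hO h)).2
      · intro h; exact absurd hy (Finset.mem_sdiff.1 (hO' h)).2
    · have h3 := Finset.ext_iff.1 heq.2.2 y
      simp only [Finset.mem_union, hy, or_false] at h3
      exact h3
  · intro ω hω
    obtain ⟨hω1, hDO⟩ := Finset.mem_filter.1 hω
    obtain ⟨hB, hW, hO⟩ := (cl_mem_cfgs S ω).1 hω1
    refine ⟨⟨ω.B, ω.W, ω.O \ D⟩, (cl_mem_cfgs _ _).2 ⟨hB, hW, Finset.sdiff_subset_sdiff hO subset_rfl⟩, ?_⟩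
    exact ClCfg.ext rfl rfl (Finset.sdiff_union_of_subset hDO)
  · intro ω hω
    by_cases hKω : Kc ⟨ω.B, ω.W, ω.O ∪ D⟩
    · rw [if_pos hKω, if_pos hKω]
      have hwt : S.wt ⟨ω.B, ω.W, ω.O ∪ D⟩ = (∏ y ∈ D, S.q y) * (⟨S.A, S.C \ D, S.sv, S.q⟩ : ClSys V Y).wt ω := by
        unfold ClSys.wt
        rw [← Finset.prod_sdiff hD, mul_comm]
        congr 1
        · refine Finset.prod_congr rfl fun y hy => ?_
          have h2 := hK _ hKω y hy
          unfold clTau at h2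
          have hyO : y ∈ ω.O ∪ D := Finset.mem_union_right _ hy
          have hsub : S.sv y ⊆ ω.B := by
            by_contra hns
            simp only [hyO, if_true, hns, if_false] at h2
            exact absurd h2 (by norm_num)
          unfold clCellW
          rw [if_pos hyO, if_pos (show ClConst (⟨ω.B, ω.W, ω.O ∪ D⟩ : ClCfg V Y).B (S.sv y) from Or.inl hsub)]
        · refine Finset.prod_congr rfl fun y hy => ?_
          exact am_t5_cellW _ Iff.rfl Iff.rfl (by simp [(Finset.mem_sdiff.1 hy).2])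
      rw [hwt]; ring
    · rw [if_neg hKω, if_neg hKω, mul_zero]

/-- **TRANSFER** double ⟶ strip: when all the cells which leave the first sheet are open-plus, the first sheet carries the law of the strip system.   `H` pins plus the gates `K ∩ (La ∪ Lc)` and observes open-plus the boundary cells on `La ∪ Lc`.
PLAN: `am_cut` on `X` at `I = e '' S.A`; `am_iso` between `X.inn I` and `S` without the absorbed cells; an absorbed cell is observed open-plus: a constant factor.   (Or: cross-ambient ports of 116 with NO port.) -/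
theorem gl_transfer (S : ClSys V Y) (Cb : Finset Y) (La Lc K : Finset V) (X : ClSys V' Y') (e : V → V') (ec : Y → Y') (φ : V' → V') (ψ : Y' → Y')
    (hS : ClOk S) (hD : GlDouble S Cb La Lc K X e ec φ ψ) (H : ClCon V Y) (hB : K ∩ (La ∪ Lc) ⊆ H.Bp) (hO : Cb.filter (fun y => S.sv y ⊆ La ∪ Lc) ⊆ H.Op)
    (Kout : ClCfg V' Y' → Prop) (hout : ClLocP (X.A \ S.A.image e) (X.cout (S.A.image e)) Kout) (F : ClCfg V Y → ℝ) :
    X.N (fun ω => ClCut X true (S.A.image e) ω ∧ H.Holds S (glPull S X e ec ω) ∧ Kout ω) (fun ω => F (glPull S X e ec ω)) * S.Z (H.Holds S) =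
      X.Z (fun ω => ClCut X true (S.A.image e) ω ∧ H.Holds S (glPull S X e ec ω) ∧ Kout ω) * S.N (H.Holds S) F := by
  classical
  obtain ⟨I, hI⟩ : ∃ I : Finset V', I = S.A.image e := ⟨_, rfl⟩
  obtain ⟨D, hDdef⟩ : ∃ D : Finset Y, D = S.C.filter (fun y => ec y ∉ X.C) := ⟨_, rfl⟩
  rw [← hI] at hout ⊢
  have hX : ClOk X := hD.disk.toClOk
  have hIA : I ⊆ X.A := by rw [hD.cover, hI]; exact Finset.subset_union_left
  have hDC : D ⊆ S.C := by rw [hDdef]; exact Finset.filter_subset _ _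
  have hkept : ∀ y ∈ S.C, ec y ∈ X.C → X.sv (ec y) = (S.sv y).image e ∧ X.q (ec y) = S.q y := by
    intro y hyC hyX
    rcases hD.kept y hyC with h | h
    · exact h.2
    · exact absurd hyX h.2.2
  have hkD : ∀ y ∈ S.C \ D, y ∈ S.C ∧ ec y ∈ X.C := by
    intro y hy
    obtain ⟨hyC, hyD⟩ := Finset.mem_sdiff.1 hy
    refine ⟨hyC, ?_⟩
    by_contra hyX
    exact hyD (by rw [hDdef]; exact Finset.mem_filter.2 ⟨hyC, hyX⟩)
  have hsvI : ∀ y ∈ S.C, (S.sv y).image e ⊆ I := fun y hy => by rw [hI]; exact Finset.image_subset_image (hS.sub y hy)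
  have habs : ∀ y ∈ D, y ∈ H.Op := by
    intro y hy
    rw [hDdef] at hy
    obtain ⟨hyC, hyX⟩ := Finset.mem_filter.1 hy
    rcases hD.kept y hyC with h | h
    · exact absurd h.1 hyX
    · exact hO (Finset.mem_filter.2 ⟨h.1, h.2.1.trans Finset.inter_subset_right⟩)
  have hiso : CuIso (⟨S.A, S.C \ D, S.sv, S.q⟩ : ClSys V Y) (X.inn I) e ec :=
    { injV := hD.eInj
      injY := hD.ecInj.mono (fun y hy => Finset.mem_coe.2 (hkD y (Finset.mem_coe.1 hy)).1)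
      A := hI.symm
      C := by
        ext y'
        rw [am_inn_C, am_mem_cin]
        simp only [Finset.mem_image]
        constructor
        · rintro ⟨y, hy, rfl⟩
          obtain ⟨hyC, hyX⟩ := hkD y hy
          exact ⟨hyX, by rw [(hkept y hyC hyX).1]; exact hsvI y hyC⟩
        · rintro ⟨hy', hsub⟩
          obtain ⟨y, hyC, rfl⟩ := hD.back y' hy' (by rw [← hI]; exact hsub)
          refine ⟨y, Finset.mem_sdiff.2 ⟨hyC, fun hyD => ?_⟩, rfl⟩
          rw [hDdef] at hyD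
          exact (Finset.mem_filter.1 hyD).2 hy'
      sv := fun y hy => (hkept y (hkD y hy).1 (hkD y hy).2).1
      q := fun y hy => (hkept y (hkD y hy).1 (hkD y hy).2).2 }
  have hpull : ∀ ω ∈ (⟨S.A, S.C \ D, S.sv, S.q⟩ : ClSys V Y).cfgs, glPull S X e ec (ω.map e ec) = ⟨ω.B, ω.W, ω.O ∪ D⟩ := by
    intro ω hω
    obtain ⟨hB, hW, hOo⟩ := (cl_mem_cfgs _ ω).1 hω
    unfold glPull ClCfg.map
    refine ClCfg.ext ?_ ?_ ?_
    · ext v
      simp only [Finset.mem_filter, Finset.mem_image]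
      constructor
      · rintro ⟨hv, u, hu, huv⟩
        have h3 := hD.eInj (Finset.mem_coe.2 (hB hu)) (Finset.mem_coe.2 hv) huv
        rwa [← h3]
      · intro hv; exact ⟨hB hv, v, hv, rfl⟩
    · ext v
      simp only [Finset.mem_filter, Finset.mem_image]
      constructor
      · rintro ⟨hv, u, hu, huv⟩
        have h3 := hD.eInj (Finset.mem_coe.2 (hW hu)) (Finset.mem_coe.2 hv) huv
        rwa [← h3]
      · intro hv; exact ⟨hW hv, v, hv, rfl⟩
    · ext y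
      simp only [Finset.mem_filter, Finset.mem_image, Finset.mem_union]
      constructor
      · rintro ⟨hy, ⟨z, hz, hzy⟩ | hy2⟩
        · left
          have h3 := hD.ecInj (Finset.mem_coe.2 (hkD z (hOo hz)).1) (Finset.mem_coe.2 hy) hzy
          rwa [← h3]
        · right; rw [hDdef]; exact Finset.mem_filter.2 ⟨hy, hy2⟩
      · rintro (hy | hy)
        · exact ⟨(hkD y (hOo hy)).1, Or.inl ⟨y, hy, rfl⟩⟩
        · rw [hDdef] at hy
          exact ⟨(Finset.mem_filter.1 hy).1, Or.inr (Finset.mem_filter.1 hy).2⟩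
  have hloc : ∀ ω ω' : ClCfg V' Y', ω.B ∩ I = ω'.B ∩ I → ω.W ∩ I = ω'.W ∩ I → ω.O ∩ X.cin I = ω'.O ∩ X.cin I →
      glPull S X e ec ω = glPull S X e ec ω' := by
    intro ω ω' hB hW hOo
    unfold glPull
    refine ClCfg.ext ?_ ?_ ?_
    · refine Finset.filter_congr fun v hv => ?_
      have hvI : e v ∈ I := by rw [hI]; exact Finset.mem_image_of_mem e hv
      have h3 := Finset.ext_iff.1 hB (e v)
      simp only [Finset.mem_inter, hvI, and_true] at h3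
      exact h3
    · refine Finset.filter_congr fun v hv => ?_
      have hvI : e v ∈ I := by rw [hI]; exact Finset.mem_image_of_mem e hv
      have h3 := Finset.ext_iff.1 hW (e v)
      simp only [Finset.mem_inter, hvI, and_true] at h3
      exact h3
    · refine Finset.filter_congr fun y hy => ?_
      by_cases hyX : ec y ∈ X.C
      · have hin : ec y ∈ X.cin I := (am_mem_cin X I _).2 ⟨hyX, by rw [(hkept y hy hyX).1]; exact hsvI y hy⟩
        have h3 := Finset.ext_iff.1 hOo (ec y)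
        simp only [Finset.mem_inter, hin, and_true] at h3
        rw [h3]
      · simp [hyX]
  have hcut := am_cut X hX true I hIA (fun ω => H.Holds S (glPull S X e ec ω)) Kout (fun ω ω' a b c => by beta_reduce; rw [hloc ω ω' a b c]) hout
    (fun ω => F (glPull S X e ec ω)) (fun _ => 1) (fun ω ω' a b c => by beta_reduce; rw [hloc ω ω' a b c]) (fun _ _ _ _ _ => rfl)
  simp only [one_mul] at hcut
  have hinn : ∀ G : ClCfg V Y → ℝ,
      (X.inn I).N (fun ω => CuPin true (cuLay X I) ω ∧ H.Holds S (glPull S X e ec ω)) (fun ω => G (glPull S X e ec ω)) =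
      (⟨S.A, S.C \ D, S.sv, S.q⟩ : ClSys V Y).N (fun ω => H.Holds S ⟨ω.B, ω.W, ω.O ∪ D⟩) (fun ω => G ⟨ω.B, ω.W, ω.O ∪ D⟩) := by
    intro G
    rw [am_iso _ (X.inn I) e ec hiso (fun y hy => hS.sub y (hkD y hy).1)]
    unfold ClSys.N
    refine Finset.sum_congr rfl fun ω hω => ?_
    beta_reduce
    rw [hpull ω hω]
    have hiff : (CuPin true (cuLay X I) (ω.map e ec) ∧ H.Holds S ⟨ω.B, ω.W, ω.O ∪ D⟩) ↔ H.Holds S ⟨ω.B, ω.W, ω.O ∪ D⟩ := by
      refine ⟨fun h => h.2, fun h => ⟨?_, h⟩⟩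
      intro v' hv'
      obtain ⟨hv'I, y', hy', hvy', hns⟩ := (am_mem_lay X I v').1 hv'
      rw [hI] at hv'I hns
      obtain ⟨v, hv, rfl⟩ := Finset.mem_image.1 hv'I
      have h4 := hD.gate y' hy' hns v hv hvy'
      have h5 : v ∈ ω.B := h.1 (hB h4)
      exact ⟨fun _ => rfl, fun _ => Finset.mem_image_of_mem e h5⟩
    simp only [hiff]
  have hdrop := fun G : ClCfg V Y → ℝ => gl_tr_drop S D hDC (H.Holds S) (fun ω h y hy => h.2.2.2.1 y (habs y hy)) G
  have hS' : ClOk (⟨S.A, S.C \ D, S.sv, S.q⟩ : ClSys V Y) :=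
    ⟨fun y hy => hS.sub y (hkD y hy).1, fun y hy => hS.ne y (hkD y hy).1, fun y hy => hS.q0 y (hkD y hy).1, fun y hy => hS.q1 y (hkD y hy).1⟩
  have h1 := hinn (fun _ => 1)
  have hF := hinn F
  rw [hcut, dis_Z_eq S, dis_Z_eq X, hdrop F, hdrop (fun _ => 1)]
  unfold cuE
  rw [dis_E_eq, dis_Z_eq, hF, h1]
  by_cases h0 : (⟨S.A, S.C \ D, S.sv, S.q⟩ : ClSys V Y).N (fun ω => H.Holds S ⟨ω.B, ω.W, ω.O ∪ D⟩) (fun _ => 1) = 0
  · rw [am_N_zero _ hS' _ (by rw [dis_Z_eq]; exact h0) (fun ω => F ⟨ω.B, ω.W, ω.O ∪ D⟩), h0]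
    simp
  · field_simp

/-! ### LEMMA A: the symmetry lemma on `ClSys` (146; prefix `gpa_`) -/

/-- reflection followed by the flip of the first spin -/
def gpaT (X : ClSys V Y) (φ : V → V) (ψ : Y → Y) (ω : ClCfg V Y) : ClCfg V Y := (ω.flipB X.A).map φ ψ

/-- the history transported and flipped (pins and open cells only) -/
def ClCon.mir (K : ClCon V Y) (φ : V → V) (ψ : Y → Y) : ClCon V Y :=
  ⟨K.Bm.image φ, K.Bp.image φ, ∅, K.Om.image ψ, K.Op.image ψ, ∅, ∅, ∅⟩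

/-- a history made of pins and open cells only, inside the system -/
structure GpaPO (X : ClSys V Y) (K : ClCon V Y) : Prop where
  bp : K.Bp ⊆ X.A
  bm : K.Bm ⊆ X.A
  op : K.Op ⊆ X.C
  om : K.Om ⊆ X.C
  eq : K.Eq = ∅
  cl : K.Cl = ∅
  wp : K.Wp = ∅
  wm : K.Wm = ∅

theorem gpa_T_tau (X : ClSys V Y) (hX : ClOk X) (φ : V → V) (ψ : Y → Y) (iso : CuIso X X φ ψ) {ω : ClCfg V Y}
    (hω : ω ∈ X.cfgs) (hw : X.wt ω ≠ 0) {y : Y} (hy : y ∈ X.C) : clTau X (gpaT X φ ψ ω) (ψ y) = - clTau X ω y := by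
  have h1 : ω.flipB X.A ∈ X.cfgs := dfl_mem X hω
  unfold gpaT
  rw [am_iso_tau X X φ ψ iso hX.sub _ h1 y hy]
  exact dfl_tau X hX hω hw y

theorem gpa_mir_holds (X : ClSys V Y) (hX : ClOk X) (φ : V → V) (ψ : Y → Y) (iso : CuIso X X φ ψ) (K : ClCon V Y)
    (hK : GpaPO X K) {ω : ClCfg V Y} (hω : ω ∈ X.cfgs) (hw : X.wt ω ≠ 0) :
    (K.mir φ ψ).Holds X (gpaT X φ ψ ω) ↔ K.Holds X ω := by
  have hB : ω.B ⊆ X.A := ((cl_mem_cfgs X ω).1 hω).1
  have hTB : (gpaT X φ ψ ω).B = (X.A \ ω.B).image φ := rfl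
  have hmem : ∀ v ∈ X.A, (φ v ∈ (gpaT X φ ψ ω).B ↔ v ∉ ω.B) := by
    intro v hv
    rw [hTB, am_t5_mem iso.injV Finset.sdiff_subset hv, Finset.mem_sdiff]
    exact ⟨fun h => h.2, fun h => ⟨hv, h⟩⟩
  simp only [ClCon.Holds, ClCon.mir, hK.eq, hK.cl, hK.wp, hK.wm, Finset.notMem_empty, false_imp_iff, implies_true,
    Finset.empty_subset, true_and, and_true, Finset.mem_image, forall_exists_index, and_imp, forall_apply_eq_imp_iff₂]
  constructor
  · rintro ⟨h1, h2, h3, h4⟩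
    refine ⟨fun v hv => ?_, fun v hv => ?_, fun y hy => ?_, fun y hy => ?_⟩
    · by_contra hn
      exact h2 v hv ((hmem v (hK.bp hv)).2 hn)
    · exact (hmem v (hK.bm hv)).1 (h1 (Finset.mem_image_of_mem φ hv))
    · have := h4 y hy
      rw [gpa_T_tau X hX φ ψ iso hω hw (hK.op hy)] at this
      omega
    · have := h3 y hy
      rw [gpa_T_tau X hX φ ψ iso hω hw (hK.om hy)] at this
      omega
  · rintro ⟨h1, h2, h3, h4⟩
    refine ⟨fun v hv => ?_, fun v hv => ?_, fun y hy => ?_, fun y hy => ?_⟩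
    · obtain ⟨u, hu, rfl⟩ := Finset.mem_image.1 hv
      exact (hmem u (hK.bm hu)).2 (h2 u hu)
    · exact fun h => (hmem v (hK.bp hv)).1 h (h1 hv)
    · rw [gpa_T_tau X hX φ ψ iso hω hw (hK.om hy), h4 y hy]; rfl
    · rw [gpa_T_tau X hX φ ψ iso hω hw (hK.op hy), h3 y hy]

theorem gpa_mir_N (X : ClSys V Y) (hX : ClOk X) (φ : V → V) (ψ : Y → Y) (iso : CuIso X X φ ψ) (K : ClCon V Y)
    (hK : GpaPO X K) (F : ClCfg V Y → ℝ) :
    X.N ((K.mir φ ψ).Holds X) F = X.N (K.Holds X) (fun ω => F (gpaT X φ ψ ω)) := by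
  rw [am_iso X X φ ψ iso hX.sub, am_flipB_N X hX.sub]
  exact dam_N_congr X (fun ω hω hw => gpa_mir_holds X hX φ ψ iso K hK hω hw) _

theorem gpa_mir_legal (X : ClSys V Y) (φ : V → V) (ψ : Y → Y) (iso : CuIso X X φ ψ) (K : ClCon V Y)
    (hK : GpaPO X K) (hL : ClLegal X K) : ClLegal X (K.mir φ ψ) := by
  refine ⟨rfl, rfl, fun y _ ho => ?_, fun e he => by simp [ClCon.mir] at he⟩
  simp only [ClCon.mir, Finset.union_empty, Finset.mem_union, Finset.mem_image] at ho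
  have key : ∀ y₀ ∈ X.C, y₀ ∈ K.Op ∪ K.Om ∪ K.Cl → X.sv (ψ y₀) ⊆ K.Bm.image φ ∪ K.Bp.image φ := by
    intro y₀ hy₀ h0 v hv
    rw [iso.sv y₀ hy₀] at hv
    obtain ⟨u, hu, rfl⟩ := Finset.mem_image.1 hv
    rcases Finset.mem_union.1 (hL.full y₀ hy₀ h0 hu) with h | h
    · exact Finset.mem_union_right _ (Finset.mem_image_of_mem φ h)
    · exact Finset.mem_union_left _ (Finset.mem_image_of_mem φ h)
  rcases ho with ⟨y₀, h0, rfl⟩ | ⟨y₀, h0, rfl⟩
  · exact key y₀ (hK.om h0) (by simp [h0])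
  · exact key y₀ (hK.op h0) (by simp [h0])

/-- **SYMMETRY LEMMA** (X1 of 55, on `ClSys`): `T K ≤ K`, `E` increasing, `E ∨ E ∘ T`  ⟹  `P_K(E) ≥ 1/2` -/
theorem gpa_sym (X : ClSys V Y) (hX : ClDisk X) (φ : V → V) (ψ : Y → Y) (iso : CuIso X X φ ψ) (K : ClCon V Y)
    (hK : GpaPO X K) (hL : ClLegal X K) (hle : ClLe (K.mir φ ψ) K) (E : ClCfg V Y → Prop) (hE : ClMonoP X E)
    (hd : ∀ ω ∈ X.cfgs, E ω ∨ E (gpaT X φ ψ ω)) :
    1 / 2 * X.Z (K.Holds X) ≤ X.N (K.Holds X) (glInd E) := by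
  have hOk : ClOk X := hX.toClOk
  have h1 := dis_order X hX _ K (gpa_mir_legal X φ ψ iso K hK hL) hL hle (glInd E) (gl_ind_mono X hE)
  rw [dis_Z_eq X ((K.mir φ ψ).Holds X), gpa_mir_N X hOk φ ψ iso K hK, gpa_mir_N X hOk φ ψ iso K hK, ← dis_Z_eq] at h1
  have hZ : 0 ≤ X.Z (K.Holds X) := dis_Z_nonneg X hOk _
  rcases hZ.eq_or_lt with h0 | hpos
  · rw [← h0, mul_zero]
    exact dis_N_nonneg X hOk _ fun ω => gl_ind_nonneg _ _
  · have h2 : X.N (K.Holds X) (fun ω => glInd E (gpaT X φ ψ ω)) ≤ X.N (K.Holds X) (glInd E) := by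
      rw [mul_comm] at h1
      exact le_of_mul_le_mul_left h1 hpos
    have h3 : X.Z (K.Holds X) ≤ X.N (K.Holds X) (fun ω => glInd E ω + glInd E (gpaT X φ ψ ω)) := by
      rw [dis_Z_eq]
      refine dis_N_mono X hOk _ fun ω hω _ => ?_
      rcases hd ω hω with h | h
      · rw [gl_ind_pos h]; have := gl_ind_nonneg E (gpaT X φ ψ ω); linarith
      · rw [gl_ind_pos h]; have := gl_ind_nonneg E ω; linarith
    rw [dis_N_add] at h3
    linarith

/-! ### LEMMA A: the two histories -/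

/-- the minus pins of `H_min`: everything off `K` except the two sides, and the mirror sides in `K` -/
def gpaBm (S : ClSys V Y) (La Lc K : Finset V) (e : V → V') (φ : V' → V') : Finset V :=
  (S.A \ (La ∪ Lc)) \ (K \ (glMir K e φ La ∪ glMir K e φ Lc))

/-- `H_min` on the strip -/
def gpaHm (S : ClSys V Y) (Cb : Finset Y) (La Lc Ld Lb K : Finset V) (e : V → V') (φ : V' → V') : ClCon V Y :=
  { glH0 S Cb La Lc Ld Lb with Bm := gpaBm S La Lc K e φ }

/-- `H_A` on the double -/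
def gpaHA (S : ClSys V Y) (Cb : Finset Y) (La Lc Ld Lb K : Finset V) (X : ClSys V' Y') (e : V → V') (ec : Y → Y')
    (φ : V' → V') : ClCon V' Y' :=
  ⟨(La ∪ Lc).image e ∪ (X.A \ S.A.image e), (gpaBm S La Lc K e φ).image e, ∅,
    X.C.filter (fun y => ¬ X.sv y ⊆ S.A.image e) ∪ ((glH0 S Cb La Lc Ld Lb).Op.filter (fun y => ec y ∈ X.C)).image ec,
    (glH0 S Cb La Lc Ld Lb).Om.image ec, ∅, ∅, ∅⟩

section placeA

variable {S : ClSys V Y} {Cb : Finset Y} {La Lc Ld Lb K K0 : Finset V} {X : ClSys V' Y'} {e : V → V'} {ec : Y → Y'}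
  {φ : V' → V'} {ψ : Y' → Y'}

theorem gpa_I1_sub (hD : GlDouble S Cb La Lc K X e ec φ ψ) : S.A.image e ⊆ X.A := by
  rw [hD.cover]; exact Finset.subset_union_left

theorem gpa_e_mem (hD : GlDouble S Cb La Lc K X e ec φ ψ) {v : V} (hv : v ∈ S.A) : e v ∈ X.A :=
  gpa_I1_sub hD (Finset.mem_image_of_mem e hv)

theorem gpa_phi_mem (hD : GlDouble S Cb La Lc K X e ec φ ψ) {v : V'} (hv : v ∈ X.A) : φ v ∈ X.A := by
  have := Finset.mem_image_of_mem φ hv
  rwa [hD.iso.A] at this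

theorem gpa_psi_mem (hD : GlDouble S Cb La Lc K X e ec φ ψ) {y : Y'} (hy : y ∈ X.C) : ψ y ∈ X.C := by
  have := Finset.mem_image_of_mem ψ hy
  rwa [hD.iso.C] at this

theorem gpa_e_inj (hD : GlDouble S Cb La Lc K X e ec φ ψ) {T : Finset V} (hT : T ⊆ S.A) {v : V} (hv : v ∈ S.A) :
    e v ∈ T.image e ↔ v ∈ T := am_t5_mem hD.eInj hT hv

/-- the mirror image of a site of the first sheet off `K` is off the first sheet -/
theorem gpa_off (hD : GlDouble S Cb La Lc K X e ec φ ψ) {v : V} (hv : v ∈ S.A) (hK : v ∉ K) :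
    φ (e v) ∈ X.A \ S.A.image e := by
  refine Finset.mem_sdiff.2 ⟨gpa_phi_mem hD (gpa_e_mem hD hv), fun h => hK ((hD.meet v hv).1 ?_)⟩
  have := Finset.mem_image_of_mem φ h
  rwa [hD.invV _ (gpa_e_mem hD hv)] at this

theorem gpa_Bm_sub (S : ClSys V Y) (La Lc K : Finset V) (e : V → V') (φ : V' → V') : gpaBm S La Lc K e φ ⊆ S.A :=
  fun _ hv => (Finset.mem_sdiff.1 (Finset.mem_sdiff.1 hv).1).1

theorem gpa_Bm_side {v : V} (hv : v ∈ gpaBm S La Lc K e φ) : v ∉ La ∪ Lc :=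
  (Finset.mem_sdiff.1 (Finset.mem_sdiff.1 hv).1).2

theorem gpa_side_sub (hS : GlStrip S Cb La Lc Ld Lb) : La ∪ Lc ⊆ S.A := Finset.union_subset hS.la hS.lc

/-- `φ` maps the minus pins of `H_A` into its plus pins -/
theorem gpa_bp (hS : GlStrip S Cb La Lc Ld Lb) (hD : GlDouble S Cb La Lc K X e ec φ ψ) {v : V}
    (hv : v ∈ gpaBm S La Lc K e φ) : φ (e v) ∈ (La ∪ Lc).image e ∪ (X.A \ S.A.image e) := by
  have hvA := gpa_Bm_sub S La Lc K e φ hv
  by_cases hK : v ∈ K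
  · have h1 : v ∈ glMir K e φ La ∪ glMir K e φ Lc := by
      by_contra hn
      exact (Finset.mem_sdiff.1 hv).2 (Finset.mem_sdiff.2 ⟨hK, hn⟩)
    refine Finset.mem_union_left _ ?_
    rw [Finset.image_union]
    rcases Finset.mem_union.1 h1 with h | h
    · exact Finset.mem_union_left _ (Finset.mem_filter.1 h).2
    · exact Finset.mem_union_right _ (Finset.mem_filter.1 h).2
  · exact Finset.mem_union_right _ (gpa_off hD hvA hK)

/-- the open-minus cells of the strip law are kept and lie off `K` -/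
theorem gpa_Om (hS : GlStrip S Cb La Lc Ld Lb) (hP : GlPlace S Cb La Lc Ld Lb K K0 X e ec φ ψ) {y : Y}
    (hy : y ∈ (glH0 S Cb La Lc Ld Lb).Om) :
    y ∈ S.C ∧ S.sv y ⊆ glEnd La Lc Ld Lb ∧ ec y ∈ X.C ∧ X.sv (ec y) = (S.sv y).image e ∧ ∀ v ∈ S.sv y, v ∉ K := by
  obtain ⟨hyb, hsub⟩ := Finset.mem_filter.1 (show y ∈ Cb.filter (fun y => S.sv y ⊆ glEnd La Lc Ld Lb) from hy)
  have hyC := hS.cb hyb
  have hfar : ∀ v ∈ S.sv y, v ∉ K := by
    intro v hv hK
    rcases Finset.mem_union.1 (Finset.mem_sdiff.1 (hsub hv)).1 with h | h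
    · exact (hP.far v hK).1 h
    · exact (hP.far v hK).2 h
  rcases hP.kept y hyC with ⟨h1, h2, _⟩ | ⟨_, h2, _⟩
  · exact ⟨hyC, hsub, h1, h2, hfar⟩
  · obtain ⟨v, hv⟩ := hS.disk.ne y hyC
    exact absurd (Finset.mem_inter.1 (h2 hv)).1 (hfar v hv)

theorem gpa_end_Bm (hS : GlStrip S Cb La Lc Ld Lb) (hP : GlPlace S Cb La Lc Ld Lb K K0 X e ec φ ψ) :
    glEnd La Lc Ld Lb ⊆ gpaBm S La Lc K e φ := by
  intro v hv
  obtain ⟨h1, h2⟩ := Finset.mem_sdiff.1 hv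
  have hvA : v ∈ S.A := by
    rcases Finset.mem_union.1 h1 with h | h
    · exact hS.ld h
    · exact hS.lb h
  refine Finset.mem_sdiff.2 ⟨Finset.mem_sdiff.2 ⟨hvA, h2⟩, fun h => ?_⟩
  have hK := (Finset.mem_sdiff.1 h).1
  rcases Finset.mem_union.1 h1 with h | h
  · exact (hP.far v hK).1 h
  · exact (hP.far v hK).2 h

/-- the sites of a cell of `X` which is not inside the first sheet are plus pins of `H_A` -/
theorem gpa_out_cell (hS : GlStrip S Cb La Lc Ld Lb) (hD : GlDouble S Cb La Lc K X e ec φ ψ) {y : Y'} (hy : y ∈ X.C)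
    (hn : ¬ X.sv y ⊆ S.A.image e) : X.sv y ⊆ (La ∪ Lc).image e ∪ (X.A \ S.A.image e) := by
  intro u hu
  by_cases h1 : u ∈ S.A.image e
  · obtain ⟨v, hv, rfl⟩ := Finset.mem_image.1 h1
    exact Finset.mem_union_left _ (Finset.mem_image_of_mem e (Finset.mem_inter.1 (hD.gate y hy hn v hv hu)).2)
  · exact Finset.mem_union_right _ (Finset.mem_sdiff.2 ⟨hD.disk.sub y hy hu, h1⟩)

theorem gpa_HA_po (hS : GlStrip S Cb La Lc Ld Lb) (hP : GlPlace S Cb La Lc Ld Lb K K0 X e ec φ ψ) :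
    GpaPO X (gpaHA S Cb La Lc Ld Lb K X e ec φ) := by
  have hD := hP.toGlDouble
  refine ⟨?_, ?_, ?_, ?_, rfl, rfl, rfl, rfl⟩
  · refine Finset.union_subset ?_ Finset.sdiff_subset
    exact (Finset.image_subset_image (gpa_side_sub hS)).trans (gpa_I1_sub hD)
  · exact (Finset.image_subset_image (gpa_Bm_sub S La Lc K e φ)).trans (gpa_I1_sub hD)
  · refine Finset.union_subset (Finset.filter_subset _ _) fun y hy => ?_
    obtain ⟨y₀, h0, rfl⟩ := Finset.mem_image.1 hy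
    exact (Finset.mem_filter.1 h0).2
  · intro y hy
    obtain ⟨y₀, h0, rfl⟩ := Finset.mem_image.1 hy
    exact (gpa_Om hS hP h0).2.2.1

/-- the sites of the open-plus cells of `H_A` are plus pins -/
theorem gpa_HA_op (hS : GlStrip S Cb La Lc Ld Lb) (hP : GlPlace S Cb La Lc Ld Lb K K0 X e ec φ ψ) {y : Y'}
    (hy : y ∈ (gpaHA S Cb La Lc Ld Lb K X e ec φ).Op) : X.sv y ⊆ (gpaHA S Cb La Lc Ld Lb K X e ec φ).Bp := by
  have hD := hP.toGlDouble
  rcases Finset.mem_union.1 hy with h | h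
  · obtain ⟨h1, h2⟩ := Finset.mem_filter.1 h
    exact gpa_out_cell hS hD h1 h2
  · obtain ⟨y₀, h0, rfl⟩ := Finset.mem_image.1 h
    obtain ⟨h1, h2⟩ := Finset.mem_filter.1 h0
    obtain ⟨h3, h4⟩ := Finset.mem_filter.1 (show y₀ ∈ Cb.filter (fun y => S.sv y ⊆ La ∪ Lc) from h1)
    rcases hD.kept y₀ (hS.cb h3) with ⟨_, h5, _⟩ | ⟨_, _, h5⟩
    · rw [h5]
      exact (Finset.image_subset_image h4).trans Finset.subset_union_left
    · exact absurd h2 h5

theorem gpa_HA_om (hS : GlStrip S Cb La Lc Ld Lb) (hP : GlPlace S Cb La Lc Ld Lb K K0 X e ec φ ψ) {y : Y'}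
    (hy : y ∈ (gpaHA S Cb La Lc Ld Lb K X e ec φ).Om) : X.sv y ⊆ (gpaHA S Cb La Lc Ld Lb K X e ec φ).Bm := by
  obtain ⟨y₀, h0, rfl⟩ := Finset.mem_image.1 hy
  obtain ⟨_, h2, _, h4, _⟩ := gpa_Om hS hP h0
  rw [h4]
  exact Finset.image_subset_image (h2.trans (gpa_end_Bm hS hP))

theorem gpa_HA_legal (hS : GlStrip S Cb La Lc Ld Lb) (hP : GlPlace S Cb La Lc Ld Lb K K0 X e ec φ ψ) :
    ClLegal X (gpaHA S Cb La Lc Ld Lb K X e ec φ) := by
  refine ⟨rfl, rfl, fun y _ ho => ?_, fun e he => by simp [gpaHA] at he⟩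
  rcases Finset.mem_union.1 ho with h | h
  · rcases Finset.mem_union.1 h with h | h
    · exact (gpa_HA_op hS hP h).trans Finset.subset_union_left
    · exact (gpa_HA_om hS hP h).trans Finset.subset_union_right
  · simp [gpaHA] at h

theorem gpa_HA_dis (hS : GlStrip S Cb La Lc Ld Lb) (hP : GlPlace S Cb La Lc Ld Lb K K0 X e ec φ ψ) :
    Disjoint (gpaHA S Cb La Lc Ld Lb K X e ec φ).Bp (gpaHA S Cb La Lc Ld Lb K X e ec φ).Bm := by
  have hD := hP.toGlDouble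
  refine Finset.disjoint_left.2 fun u h1 h2 => ?_
  obtain ⟨v, hv, rfl⟩ := Finset.mem_image.1 h2
  have hvA := gpa_Bm_sub S La Lc K e φ hv
  rcases Finset.mem_union.1 h1 with h | h
  · exact gpa_Bm_side hv ((gpa_e_inj hD (gpa_side_sub hS) hvA).1 h)
  · exact (Finset.mem_sdiff.1 h).2 (Finset.mem_image_of_mem e hvA)

theorem gpa_HA_feas (hS : GlStrip S Cb La Lc Ld Lb) (hP : GlPlace S Cb La Lc Ld Lb K K0 X e ec φ ψ) :
    0 < X.Z ((gpaHA S Cb La Lc Ld Lb K X e ec φ).Holds X) := by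
  have hpo := gpa_HA_po hS hP
  refine dis_feas X hP.disk.toClOk _ (gpa_HA_legal hS hP) ⟨hpo.bp, gpa_HA_dis hS hP, hpo.op, hpo.om,
    fun y hy => gpa_HA_op hS hP hy, fun y hy => gpa_HA_om hS hP hy, fun y hy => by simp [gpaHA] at hy, ?_,
    by simp [gpaHA], by simp [gpaHA]⟩
  refine Finset.disjoint_left.2 fun y h1 h2 => ?_
  obtain ⟨v, hv⟩ := hP.disk.ne y (hpo.op h1)
  exact Finset.disjoint_left.1 (gpa_HA_dis hS hP) (gpa_HA_op hS hP h1 hv) (gpa_HA_om hS hP h2 hv)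

/-- `T H_A ≤ H_A` -/
theorem gpa_HA_le (hS : GlStrip S Cb La Lc Ld Lb) (hP : GlPlace S Cb La Lc Ld Lb K K0 X e ec φ ψ) :
    ClLe ((gpaHA S Cb La Lc Ld Lb K X e ec φ).mir φ ψ) (gpaHA S Cb La Lc Ld Lb K X e ec φ) := by
  have hD := hP.toGlDouble
  have hpo := gpa_HA_po hS hP
  have hbp : ∀ u ∈ (gpaHA S Cb La Lc Ld Lb K X e ec φ).Bm, φ u ∈ (gpaHA S Cb La Lc Ld Lb K X e ec φ).Bp := by
    intro u hu
    obtain ⟨v, hv, rfl⟩ := Finset.mem_image.1 hu
    exact gpa_bp hS hD hv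
  have hop : ∀ y ∈ (gpaHA S Cb La Lc Ld Lb K X e ec φ).Om, ψ y ∈ (gpaHA S Cb La Lc Ld Lb K X e ec φ).Op := by
    intro y hy
    have hyC := hpo.om hy
    obtain ⟨y₀, h0, rfl⟩ := Finset.mem_image.1 hy
    obtain ⟨h1, _, _, h4, h5⟩ := gpa_Om hS hP h0
    refine Finset.mem_union_left _ (Finset.mem_filter.2 ⟨gpa_psi_mem hD hyC, fun hsub => ?_⟩)
    obtain ⟨v, hv⟩ := hS.disk.ne y₀ h1
    have h6 : φ (e v) ∈ X.sv (ψ (ec y₀)) := by
      rw [hD.iso.sv _ hyC, h4]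
      exact Finset.mem_image_of_mem φ (Finset.mem_image_of_mem e hv)
    exact (Finset.mem_sdiff.1 (gpa_off hD (hS.disk.sub y₀ h1 hv) (h5 v hv))).2 (hsub h6)
  refine ⟨?_, ?_, ?_, ?_, by simp [ClCon.mir], by simp [gpaHA], rfl⟩
  · intro u hu
    obtain ⟨v, hv, rfl⟩ := Finset.mem_image.1 hu
    exact hbp v hv
  · intro u hu
    exact Finset.mem_image.2 ⟨φ u, hbp u hu, hD.invV u (hpo.bm hu)⟩
  · intro y hy
    obtain ⟨y₀, h0, rfl⟩ := Finset.mem_image.1 hy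
    exact hop y₀ h0
  · intro y hy
    exact Finset.mem_image.2 ⟨ψ y, hop y hy, hD.invY y (hpo.om hy)⟩

end placeA

/-! ### LEMMA A: transfer, dichotomy, assembly -/

/-- the outer constraint: everything off the first sheet is plus, all cells off the first sheet are open-plus -/
def GpaOut (S : ClSys V Y) (X : ClSys V' Y') (e : V → V') (ω : ClCfg V' Y') : Prop :=
  X.A \ S.A.image e ⊆ ω.B ∧ ∀ y ∈ X.cout (S.A.image e), clTau X ω y = 1

theorem gpa_cout_sub (X : ClSys V' Y') (hX : ClOk X) (I : Finset V') {y : Y'} (hy : y ∈ X.cout I) : X.sv y ⊆ X.A \ I := by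
  obtain ⟨hyC, h1, h2⟩ := Finset.mem_filter.1 hy
  intro u hu
  refine Finset.mem_sdiff.2 ⟨hX.sub y hyC hu, fun hI => h2 ⟨⟨u, hu, hI⟩, ?_⟩⟩
  by_contra hn
  exact h1 fun v hv => by
    by_contra hv'
    exact hn ⟨v, hv, hv'⟩

theorem gpa_out_loc (S : ClSys V Y) (X : ClSys V' Y') (hX : ClOk X) (e : V → V') :
    ClLocP (X.A \ S.A.image e) (X.cout (S.A.image e)) (GpaOut S X e) := by
  have key : ∀ ω ω' : ClCfg V' Y', ω.B ∩ (X.A \ S.A.image e) = ω'.B ∩ (X.A \ S.A.image e) →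
      ω.O ∩ X.cout (S.A.image e) = ω'.O ∩ X.cout (S.A.image e) → GpaOut S X e ω → GpaOut S X e ω' := by
    intro ω ω' hB hO ⟨h1, h2⟩
    have hmem : ∀ v ∈ X.A \ S.A.image e, v ∈ ω'.B := fun v hv => (dcu_mem_of_inter hB hv).1 (h1 hv)
    refine ⟨hmem, fun y hy => ?_⟩
    obtain ⟨h3, _⟩ := dis_tau_one.1 (h2 y hy)
    exact dis_tau_one.2 ⟨(dcu_mem_of_inter hO hy).1 h3, fun v hv => hmem v (gpa_cout_sub X hX _ hy hv)⟩
  intro ω ω' hB _ hO
  exact ⟨key ω ω' hB hO, key ω' ω hB.symm hO.symm⟩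

section placeA2

variable {S : ClSys V Y} {Cb : Finset Y} {La Lc Ld Lb K K0 : Finset V} {X : ClSys V' Y'} {e : V → V'} {ec : Y → Y'}
  {φ : V' → V'} {ψ : Y' → Y'}

theorem gpa_pull_B (S : ClSys V Y) (X : ClSys V' Y') (e : V → V') (ec : Y → Y') (ω : ClCfg V' Y') (v : V) :
    v ∈ (glPull S X e ec ω).B ↔ v ∈ S.A ∧ e v ∈ ω.B := by
  unfold glPull; exact Finset.mem_filter

/-- the status of a kept cell -/
theorem gpa_pull_tau (hS : ClOk S) (ω : ClCfg V' Y') {y : Y} (hy : y ∈ S.C) (h1 : ec y ∈ X.C)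
    (h2 : X.sv (ec y) = (S.sv y).image e) : clTau S (glPull S X e ec ω) y = clTau X ω (ec y) := by
  have a1 : y ∈ (glPull S X e ec ω).O ↔ ec y ∈ ω.O := by
    unfold glPull
    simp only [Finset.mem_filter]
    exact ⟨fun h => h.2.resolve_right (fun hn => hn h1), fun h => ⟨hy, Or.inl h⟩⟩
  have a2 : S.sv y ⊆ (glPull S X e ec ω).B ↔ X.sv (ec y) ⊆ ω.B := by
    rw [h2]
    constructor
    · intro h u hu
      obtain ⟨v, hv, rfl⟩ := Finset.mem_image.1 hu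
      exact ((gpa_pull_B S X e ec ω v).1 (h hv)).2
    · intro h v hv
      exact (gpa_pull_B S X e ec ω v).2 ⟨hS.sub y hy hv, h (Finset.mem_image_of_mem e hv)⟩
  unfold clTau
  simp only [a1, a2]

theorem gpa_HA_holds (hS : GlStrip S Cb La Lc Ld Lb) (hP : GlPlace S Cb La Lc Ld Lb K K0 X e ec φ ψ) (ω : ClCfg V' Y') :
    (gpaHA S Cb La Lc Ld Lb K X e ec φ).Holds X ω ↔
      (ClCut X true (S.A.image e) ω ∧ (gpaHm S Cb La Lc Ld Lb K e φ).Holds S (glPull S X e ec ω) ∧ GpaOut S X e ω) := by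
  have hD := hP.toGlDouble
  have hOk := hS.disk.toClOk
  have hOpmem : ∀ y, y ∈ (glH0 S Cb La Lc Ld Lb).Op ↔ y ∈ Cb ∧ S.sv y ⊆ La ∪ Lc := fun y => Finset.mem_filter
  constructor
  · rintro ⟨l1, l2, -, l4, l5, -, -, -⟩
    have l1' : (La ∪ Lc).image e ∪ (X.A \ S.A.image e) ⊆ ω.B := l1
    have l2' : ∀ v ∈ (gpaBm S La Lc K e φ).image e, v ∉ ω.B := l2
    have l4' : ∀ y ∈ X.C.filter (fun y => ¬ X.sv y ⊆ S.A.image e) ∪
        ((glH0 S Cb La Lc Ld Lb).Op.filter (fun y => ec y ∈ X.C)).image ec, clTau X ω y = 1 := l4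
    have l5' : ∀ y ∈ (glH0 S Cb La Lc Ld Lb).Om.image ec, clTau X ω y = -1 := l5
    have hside : La ∪ Lc ⊆ (glPull S X e ec ω).B := fun v hv =>
      (gpa_pull_B S X e ec ω v).2 ⟨gpa_side_sub hS hv, l1' (Finset.mem_union_left _ (Finset.mem_image_of_mem e hv))⟩
    refine ⟨?_, ⟨hside, ?_, fun e he => by simp [gpaHm, glH0] at he, ?_, ?_, fun y hy => by simp [gpaHm, glH0] at hy,
      by simp [gpaHm, glH0], fun y hy => by simp [gpaHm, glH0] at hy⟩, ?_, ?_⟩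
    · intro y hy hc
      obtain ⟨_, v, hv, hvI⟩ := hc
      exact l4' y (Finset.mem_union_left _ (Finset.mem_filter.2 ⟨hy, fun h => hvI (h hv)⟩))
    · intro v hv h
      exact l2' _ (Finset.mem_image_of_mem e hv) ((gpa_pull_B S X e ec ω v).1 h).2
    · intro y hy
      have hy' : y ∈ (glH0 S Cb La Lc Ld Lb).Op := hy
      obtain ⟨h1, h2⟩ := (hOpmem y).1 hy'
      rcases hD.kept y (hS.cb h1) with ⟨k1, k2, _⟩ | ⟨_, _, k3⟩
      · rw [gpa_pull_tau hOk ω (hS.cb h1) k1 k2]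
        exact l4' _ (Finset.mem_union_right _ (Finset.mem_image_of_mem ec (Finset.mem_filter.2 ⟨hy', k1⟩)))
      · refine dis_tau_one.2 ⟨?_, h2.trans hside⟩
        unfold glPull
        exact Finset.mem_filter.2 ⟨hS.cb h1, Or.inr k3⟩
    · intro y hy
      have hy' : y ∈ (glH0 S Cb La Lc Ld Lb).Om := hy
      obtain ⟨h1, _, h3, h4, _⟩ := gpa_Om hS hP hy'
      rw [gpa_pull_tau hOk ω h1 h3 h4]
      exact l5' _ (Finset.mem_image_of_mem ec hy')
    · exact Finset.union_subset_right l1'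
    · intro y hy
      obtain ⟨h1, h2, _⟩ := Finset.mem_filter.1 hy
      exact l4' y (Finset.mem_union_left _ (Finset.mem_filter.2 ⟨h1, h2⟩))
  · rintro ⟨r1, ⟨a, b, -, d, f, -, -, -⟩, r3, r4⟩
    have a' : La ∪ Lc ⊆ (glPull S X e ec ω).B := a
    have b' : ∀ v ∈ gpaBm S La Lc K e φ, v ∉ (glPull S X e ec ω).B := b
    have d' : ∀ y ∈ (glH0 S Cb La Lc Ld Lb).Op, clTau S (glPull S X e ec ω) y = 1 := d
    have f' : ∀ y ∈ (glH0 S Cb La Lc Ld Lb).Om, clTau S (glPull S X e ec ω) y = -1 := f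
    refine ⟨?_, ?_, fun e he => by simp [gpaHA] at he, ?_, ?_, fun y hy => by simp [gpaHA] at hy, by simp [gpaHA],
      fun y hy => by simp [gpaHA] at hy⟩
    · refine Finset.union_subset (fun u hu => ?_) r3
      obtain ⟨v, hv, rfl⟩ := Finset.mem_image.1 hu
      exact ((gpa_pull_B S X e ec ω v).1 (a' hv)).2
    · intro u hu h
      obtain ⟨v, hv, rfl⟩ := Finset.mem_image.1 hu
      exact b' v hv ((gpa_pull_B S X e ec ω v).2 ⟨gpa_Bm_sub S La Lc K e φ hv, h⟩)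
    · intro y hy
      rcases Finset.mem_union.1 hy with h | h
      · obtain ⟨h1, h2⟩ := Finset.mem_filter.1 h
        by_cases hc : clCross X (S.A.image e) y
        · exact r1 y h1 hc
        · exact r4 y (Finset.mem_filter.2 ⟨h1, h2, hc⟩)
      · obtain ⟨y₀, h0, rfl⟩ := Finset.mem_image.1 h
        obtain ⟨h1, h2⟩ := Finset.mem_filter.1 h0
        obtain ⟨h3, _⟩ := (hOpmem y₀).1 h1
        rcases hD.kept y₀ (hS.cb h3) with ⟨k1, k2, _⟩ | ⟨_, _, k3⟩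
        · rw [← gpa_pull_tau hOk ω (hS.cb h3) k1 k2]
          exact d' y₀ h1
        · exact absurd h2 k3
    · intro y hy
      obtain ⟨y₀, h0, rfl⟩ := Finset.mem_image.1 hy
      obtain ⟨h1, _, h3, h4, _⟩ := gpa_Om hS hP h0
      rw [← gpa_pull_tau hOk ω h1 h3 h4]
      exact f' y₀ h0

/-- adjacency is transported by the mirror map of the core -/
theorem gpa_adj (hS : GlStrip S Cb La Lc Ld Lb) (hP : GlPlace S Cb La Lc Ld Lb K K0 X e ec φ ψ) {u u' b b' : V}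
    (hu : u ∈ K0) (hu' : u' ∈ K0) (huu : φ (e u) = e u') (hb : b ∈ S.A) (hb' : b' ∈ S.A) (hbb : φ (e b) = e b')
    (hadj : S.gr.Adj u b) : S.gr.Adj u' b' := by
  have hD := hP.toGlDouble
  have hOk := hS.disk.toClOk
  have hK0A : K0 ⊆ S.A := hP.k0.trans hD.kA
  obtain ⟨hne, y, hy, huy, hby⟩ := hadj
  have hside : ∀ w ∈ K0, w ∉ La ∪ Lc := fun w hw h => by
    rcases Finset.mem_union.1 h with h | h
    · exact (hP.free w hw).1 h
    · exact (hP.free w hw).2.1 h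
  rcases hD.kept y hy with ⟨k1, k2, _⟩ | ⟨_, k2, _⟩
  · have h1 : ψ (ec y) ∈ X.C := gpa_psi_mem hD k1
    have hsv : X.sv (ψ (ec y)) = ((S.sv y).image e).image φ := by rw [hD.iso.sv _ k1, k2]
    have m1 : e u' ∈ X.sv (ψ (ec y)) := by
      rw [hsv, ← huu]; exact Finset.mem_image_of_mem φ (Finset.mem_image_of_mem e huy)
    have m2 : e b' ∈ X.sv (ψ (ec y)) := by
      rw [hsv, ← hbb]; exact Finset.mem_image_of_mem φ (Finset.mem_image_of_mem e hby)
    have hin : X.sv (ψ (ec y)) ⊆ S.A.image e := by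
      by_contra hn
      exact hside u' hu' (Finset.mem_inter.1 (hD.gate _ h1 hn u' (hK0A hu') m1)).2
    obtain ⟨y₂, hy₂, he₂⟩ := hD.back _ h1 hin
    rcases hD.kept y₂ hy₂ with ⟨_, j2, _⟩ | ⟨_, _, j3⟩
    · rw [← he₂, j2] at m1 m2
      refine ⟨fun h => hne ?_, y₂, hy₂, (gpa_e_inj hD (hOk.sub y₂ hy₂) (hK0A hu')).1 m1,
        (gpa_e_inj hD (hOk.sub y₂ hy₂) hb').1 m2⟩
      have h3 : φ (e u) = φ (e b) := by rw [huu, hbb, h]
      have h4 := hD.iso.injV (Finset.mem_coe.2 (gpa_e_mem hD (hK0A hu))) (Finset.mem_coe.2 (gpa_e_mem hD hb)) h3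
      exact hD.eInj (Finset.mem_coe.2 (hK0A hu)) (Finset.mem_coe.2 hb) h4
    · exact absurd (he₂ ▸ h1) j3
  · exact absurd (Finset.mem_inter.1 (k2 huy)).2 (hside u hu)

/-- the dichotomy on the double -/
theorem gpa_dich (hS : GlStrip S Cb La Lc Ld Lb) (hP : GlPlace S Cb La Lc Ld Lb K K0 X e ec φ ψ) (ω : ClCfg V' Y') :
    GlEA S La Lc K0 (glPull S X e ec ω) ∨ GlEA S La Lc K0 (glPull S X e ec (gpaT X φ ψ ω)) := by
  classical
  have hD := hP.toGlDouble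
  have hK0A : K0 ⊆ S.A := hP.k0.trans hD.kA
  rcases hP.dich (↑(glPull S X e ec ω).B) with h | h
  · exact Or.inl h
  · right
    obtain ⟨μ, hμ⟩ : ∃ μ : V → V, ∀ v ∈ K0, μ v ∈ K0 ∧ φ (e v) = e (μ v) :=
      ⟨fun v => if h : v ∈ K0 then (hP.symm v h).choose else v, fun v hv => by
        simp only [dif_pos hv]; exact (hP.symm v hv).choose_spec⟩
    have hmem : ∀ v, v ∈ (↑K0 \ ↑(glPull S X e ec ω).B : Set V) →
        μ v ∈ (↑K0 ∩ ↑(glPull S X e ec (gpaT X φ ψ ω)).B : Set V) := by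
      rintro v ⟨h1, h2⟩
      have h1' : v ∈ K0 := Finset.mem_coe.1 h1
      refine ⟨Finset.mem_coe.2 (hμ v h1').1, Finset.mem_coe.2 ?_⟩
      rw [gpa_pull_B]
      refine ⟨hK0A (hμ v h1').1, ?_⟩
      rw [← (hμ v h1').2]
      refine Finset.mem_image_of_mem φ (Finset.mem_sdiff.2 ⟨gpa_e_mem hD (hK0A h1'), fun h3 => h2 ?_⟩)
      exact Finset.mem_coe.2 ((gpa_pull_B S X e ec ω v).2 ⟨hK0A h1', h3⟩)
    obtain ⟨u, v, hu, hv, ⟨a, ha, hua⟩, ⟨c, hc, hvc⟩, hR⟩ := h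
    have hend : ∀ (L : Finset V), L ⊆ S.A → ∀ w, w ∈ (↑K0 \ ↑(glPull S X e ec ω).B : Set V) → ∀ a ∈ (↑(glMir K e φ L) : Set V),
        S.gr.Adj w a → ∃ a' ∈ (↑L : Set V), S.gr.Adj (μ w) a' := by
      intro L hL w hw a ha hadj
      obtain ⟨haK, ha2⟩ := Finset.mem_filter.1 (Finset.mem_coe.1 ha)
      obtain ⟨a', ha', hae⟩ := Finset.mem_image.1 ha2
      have hw' : w ∈ K0 := Finset.mem_coe.1 hw.1
      exact ⟨a', Finset.mem_coe.2 ha', gpa_adj hS hP hw' (hμ w hw').1 (hμ w hw').2 (hD.kA haK) (hL ha') hae.symm hadj⟩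
    refine ⟨μ u, μ v, hmem u hu, hmem v hv, hend La hS.la u hu a ha hua, hend Lc hS.lc v hv c hc hvc, ?_⟩
    refine ReflTransGen.lift μ (fun p q hpq => ?_) u v hR
    obtain ⟨h1, h2, h3⟩ := hpq
    have hp : p ∈ K0 := Finset.mem_coe.1 h2.1
    have hq : q ∈ K0 := Finset.mem_coe.1 h3.1
    exact ⟨gpa_adj hS hP hp (hμ p hp).1 (hμ p hp).2 (hK0A hq) (hK0A (hμ q hq).1) (hμ q hq).2 h1, hmem p h2, hmem q h3⟩

theorem gpa_Hm_legal (hS : GlStrip S Cb La Lc Ld Lb) (hP : GlPlace S Cb La Lc Ld Lb K K0 X e ec φ ψ) :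
    ClLegal S (gpaHm S Cb La Lc Ld Lb K e φ) := by
  refine ⟨rfl, rfl, fun y _ hy => ?_, fun e he => by simp [gpaHm, glH0] at he⟩
  simp only [gpaHm, glH0, Finset.union_empty, Finset.mem_union, Finset.mem_filter] at hy
  rcases hy with hy | hy
  · exact hy.2.trans Finset.subset_union_left
  · exact (hy.2.trans (gpa_end_Bm hS hP)).trans Finset.subset_union_right

theorem gpa_Hm_le (hS : GlStrip S Cb La Lc Ld Lb) (hP : GlPlace S Cb La Lc Ld Lb K K0 X e ec φ ψ) :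
    ClLe (gpaHm S Cb La Lc Ld Lb K e φ) (glH0 S Cb La Lc Ld Lb) :=
  ⟨subset_rfl, gpa_end_Bm hS hP, subset_rfl, subset_rfl, Finset.subset_union_left, Finset.subset_union_left, rfl⟩

theorem gpa_Hm_feas (hS : GlStrip S Cb La Lc Ld Lb) (hP : GlPlace S Cb La Lc Ld Lb K K0 X e ec φ ψ) :
    0 < S.Z ((gpaHm S Cb La Lc Ld Lb K e φ).Holds S) := by
  have hdis : Disjoint (La ∪ Lc) (gpaBm S La Lc K e φ) := Finset.disjoint_left.2 fun v h1 h2 => gpa_Bm_side h2 h1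
  have hop : ∀ y ∈ Cb.filter (fun y => S.sv y ⊆ La ∪ Lc), S.sv y ⊆ La ∪ Lc := fun y hy => (Finset.mem_filter.1 hy).2
  have hom : ∀ y ∈ Cb.filter (fun y => S.sv y ⊆ glEnd La Lc Ld Lb), S.sv y ⊆ gpaBm S La Lc K e φ := fun y hy =>
    (Finset.mem_filter.1 hy).2.trans (gpa_end_Bm hS hP)
  refine dis_feas S hS.disk.toClOk _ (gpa_Hm_legal hS hP) ⟨gpa_side_sub hS, hdis,
    (Finset.filter_subset _ _).trans hS.cb, (Finset.filter_subset _ _).trans hS.cb, hop, hom,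
    fun y hy => by simp [gpaHm, glH0] at hy, ?_, by simp [gpaHm, glH0], by simp [gpaHm, glH0]⟩
  refine Finset.disjoint_left.2 fun y h1 h2 => ?_
  obtain ⟨v, hv⟩ := hS.disk.ne y (hS.cb (Finset.mem_filter.1 h1).1)
  exact Finset.disjoint_left.1 hdis (hop y h1 hv) (hom y h2 hv)

end placeA2

/-- **LEMMA A** (187 A, in the form R1 of 55: ordered histories on the double; no equality, no patch, no corner).
PROVED by 146 (from `gl_transfer`; `Om` of `H_A`, `H_min` = the boundary cells on the two ends only).   PLAN (note v2, Sec. 4): `H_A` on `X`: first sheet off `K`: minus except `La ∪ Lc`, homogeneous minus cells open-minus; second sheet off `K`: plus, all its cells not inside `K` open-plus; on `K`: plus on `La ∪ Lc`, minus on the rest of the mirror sides.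
(1) `T H_A ≤ H_A` (`ClLe`), `T` = `φ` ∘ flip;  (2) `dich` ⟹ `E ∨ T E`;  (3) `dis_order` on `X` ⟹ `P_X(E | H_A) ≥ 1/2`;  (4) `am_cut` at the first sheet + `am_iso`: `P_X(· | H_A)` = `P_S(· | H_min)`;  (5) `dis_order` on `S`: `H_min ≤ glH0`. -/
theorem gl_placeA (S : ClSys V Y) (Cb : Finset Y) (La Lc Ld Lb K K0 : Finset V) (X : ClSys V' Y') (e : V → V') (ec : Y → Y') (φ : V' → V') (ψ : Y' → Y')
    (hS : GlStrip S Cb La Lc Ld Lb) (hP : GlPlace S Cb La Lc Ld Lb K K0 X e ec φ ψ) :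
    1 / 2 * S.Z ((glH0 S Cb La Lc Ld Lb).Holds S) ≤ S.N ((glH0 S Cb La Lc Ld Lb).Holds S) (glInd (GlEA S La Lc K0)) := by
  have hOk : ClOk S := hS.disk.toClOk
  have hXk : ClOk X := hP.disk.toClOk
  -- the symmetry lemma on the double
  have sym := gpa_sym X hP.disk φ ψ hP.iso _ (gpa_HA_po hS hP) (gpa_HA_legal hS hP) (gpa_HA_le hS hP)
    (fun ω => GlEA S La Lc K0 (glPull S X e ec ω)) (by
      intro ω ω' h1 _ hE
      refine gl_join_mono (Set.inter_subset_inter_right _ (Finset.coe_subset.2 fun v hv => ?_)) hE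
      rw [gpa_pull_B] at hv ⊢
      exact ⟨hv.1, h1 hv.2⟩) (fun ω _ => gpa_dich hS hP ω)
  -- transfer to the strip
  have tr := gl_transfer S Cb La Lc K X e ec φ ψ hOk hP.toGlDouble (gpaHm S Cb La Lc Ld Lb K e φ)
    (Finset.inter_subset_right) (subset_rfl) (GpaOut S X e) (gpa_out_loc S X hXk e) (glInd (GlEA S La Lc K0))
  have hcon : (fun ω => ClCut X true (S.A.image e) ω ∧ (gpaHm S Cb La Lc Ld Lb K e φ).Holds S (glPull S X e ec ω) ∧ GpaOut S X e ω)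
      = (gpaHA S Cb La Lc Ld Lb K X e ec φ).Holds X := funext fun ω => propext (gpa_HA_holds hS hP ω).symm
  rw [hcon] at tr
  have hZA := gpa_HA_feas hS hP
  have hZm := gpa_Hm_feas hS hP
  have h1 : 1 / 2 * S.Z ((gpaHm S Cb La Lc Ld Lb K e φ).Holds S) ≤
      S.N ((gpaHm S Cb La Lc Ld Lb K e φ).Holds S) (glInd (GlEA S La Lc K0)) := by
    have h2 : X.N ((gpaHA S Cb La Lc Ld Lb K X e ec φ).Holds X) (glInd fun ω => GlEA S La Lc K0 (glPull S X e ec ω))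
        = X.N ((gpaHA S Cb La Lc Ld Lb K X e ec φ).Holds X) (fun ω => glInd (GlEA S La Lc K0) (glPull S X e ec ω)) := rfl
    rw [h2] at sym
    have h3 := mul_le_mul_of_nonneg_right sym hZm.le
    rw [tr] at h3
    have h4 : X.Z ((gpaHA S Cb La Lc Ld Lb K X e ec φ).Holds X) * (1 / 2 * S.Z ((gpaHm S Cb La Lc Ld Lb K e φ).Holds S)) ≤
        X.Z ((gpaHA S Cb La Lc Ld Lb K X e ec φ).Holds X) * S.N ((gpaHm S Cb La Lc Ld Lb K e φ).Holds S) (glInd (GlEA S La Lc K0)) := by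
      linarith
    exact le_of_mul_le_mul_left h4 hZA
  -- order on the strip
  have ord := dis_order S hS.disk _ _ (gpa_Hm_legal hS hP) (gl_H0_legal S Cb La Lc Ld Lb) (gpa_Hm_le hS hP)
    (glInd (GlEA S La Lc K0)) (gl_ind_mono S (gl_EA_mono S La Lc K0))
  have hZ0 : 0 ≤ S.Z ((glH0 S Cb La Lc Ld Lb).Holds S) := len_Z_nonneg S hOk _
  have h5 := mul_le_mul_of_nonneg_right h1 hZ0
  have h6 : S.Z ((gpaHm S Cb La Lc Ld Lb K e φ).Holds S) * (1 / 2 * S.Z ((glH0 S Cb La Lc Ld Lb).Holds S)) ≤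
      S.Z ((gpaHm S Cb La Lc Ld Lb K e φ).Holds S) * S.N ((glH0 S Cb La Lc Ld Lb).Holds S) (glInd (GlEA S La Lc K0)) := by
    linarith
  exact le_of_mul_le_mul_left h6 hZm

open Classical in
/-- the minus cluster of `E` -/
noncomputable def glClu (S : ClSys V Y) (E : Finset V) (ω : ClCfg V Y) : Finset V :=
  S.A.filter (fun v => ∃ u ∈ E, TscR S.gr (↑S.A \ ↑ω.B) u v)

theorem gl_mem_clu (S : ClSys V Y) (E : Finset V) (ω : ClCfg V Y) (v : V) :
    v ∈ glClu S E ω ↔ v ∈ S.A ∧ ∃ u ∈ E, TscR S.gr (↑S.A \ ↑ω.B) u v := by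
  classical
  unfold glClu
  exact Finset.mem_filter

open Classical in
/-- the outer boundary of `C` -/
noncomputable def glBdy (S : ClSys V Y) (C : Finset V) : Finset V := S.A.filter (fun v => v ∉ C ∧ ∃ c ∈ C, S.gr.Adj c v)

/-- the history "the minus cluster of the two ends is `C`" -/
noncomputable def glHC (S : ClSys V Y) (Cb : Finset Y) (La Lc Ld Lb C : Finset V) : ClCon V Y :=
  { glH0 S Cb La Lc Ld Lb with Bp := La ∪ Lc ∪ glBdy S C, Bm := C }

/-- STOPPING PROPERTY of the cluster (hypothesis `hR` of `len_fibre`).   OWNER free. -/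
theorem gl_clu_iff (S : ClSys V Y) (Cb : Finset Y) (La Lc Ld Lb : Finset V) (hS : GlStrip S Cb La Lc Ld Lb) (ω₀ ω : ClCfg V Y) :
    (glHC S Cb La Lc Ld Lb (glClu S (glEnd La Lc Ld Lb) ω₀)).Holds S ω ↔
      (glH0 S Cb La Lc Ld Lb).Holds S ω ∧ glClu S (glEnd La Lc Ld Lb) ω = glClu S (glEnd La Lc Ld Lb) ω₀ := by
  classical
  have hEA : glEnd La Lc Ld Lb ⊆ S.A := by
    intro v hv
    rcases Finset.mem_union.1 (Finset.mem_sdiff.1 hv).1 with h | h
    · exact hS.ld h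
    · exact hS.lb h
  have hmem : ∀ (ω' : ClCfg V Y) (v : V), v ∈ glClu S (glEnd La Lc Ld Lb) ω' ↔
      v ∈ S.A ∧ ∃ u ∈ glEnd La Lc Ld Lb, TscR S.gr (↑S.A \ ↑ω'.B) u v := fun ω' v => by
    unfold glClu; rw [Finset.mem_filter]
  have hEC : ∀ ω' : ClCfg V Y, glEnd La Lc Ld Lb ⊆ glClu S (glEnd La Lc Ld Lb) ω' :=
    fun ω' v hv => (hmem ω' v).2 ⟨hEA hv, v, hv, ReflTransGen.refl⟩
  constructor
  · rintro ⟨h1, h2, h3, h4, h5, h6, h7, h8⟩
    have h1' : La ∪ Lc ∪ glBdy S (glClu S (glEnd La Lc Ld Lb) ω₀) ⊆ ω.B := h1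
    have h2' : ∀ v ∈ glClu S (glEnd La Lc Ld Lb) ω₀, v ∉ ω.B := h2
    refine ⟨⟨fun v hv => h1' (Finset.mem_union_left _ hv), fun v hv => h2' v (hEC ω₀ hv), h3, h4, h5, h6, h7, h8⟩, ?_⟩
    ext v
    constructor
    · intro hv
      obtain ⟨-, u, hu, huv⟩ := (hmem ω v).1 hv
      induction huv with
      | refl => exact hEC ω₀ hu
      | @tail b c hab hbc ih =>
        by_contra hc
        have hb : b ∈ glClu S (glEnd La Lc Ld Lb) ω₀ := ih ((hmem ω b).2 ⟨Finset.mem_coe.1 hbc.2.1.1, u, hu, hab⟩)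
        have hcB : c ∈ glBdy S (glClu S (glEnd La Lc Ld Lb) ω₀) :=
          Finset.mem_filter.2 ⟨Finset.mem_coe.1 hbc.2.2.1, hc, b, hb, hbc.1⟩
        exact hbc.2.2.2 (Finset.mem_coe.2 (h1' (Finset.mem_union_right _ hcB)))
    · intro hv
      obtain ⟨hvA, u, hu, huv⟩ := (hmem ω₀ v).1 hv
      refine (hmem ω v).2 ⟨hvA, u, hu, ?_⟩
      clear hv hvA
      induction huv with
      | refl => exact ReflTransGen.refl
      | @tail b c hab hbc ih =>
        have hb : b ∈ glClu S (glEnd La Lc Ld Lb) ω₀ := (hmem ω₀ b).2 ⟨Finset.mem_coe.1 hbc.2.1.1, u, hu, hab⟩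
        have hc : c ∈ glClu S (glEnd La Lc Ld Lb) ω₀ := (hmem ω₀ c).2 ⟨Finset.mem_coe.1 hbc.2.2.1, u, hu, hab.tail hbc⟩
        exact ih.tail ⟨hbc.1, ⟨hbc.2.1.1, fun h => h2' b hb (Finset.mem_coe.1 h)⟩, ⟨hbc.2.2.1, fun h => h2' c hc (Finset.mem_coe.1 h)⟩⟩
  · rintro ⟨⟨h1, h2, h3, h4, h5, h6, h7, h8⟩, hC⟩
    have h1' : La ∪ Lc ⊆ ω.B := h1
    have h2' : ∀ v ∈ glEnd La Lc Ld Lb, v ∉ ω.B := h2
    have hin : ∀ v ∈ glClu S (glEnd La Lc Ld Lb) ω, v ∈ (↑S.A \ ↑ω.B : Set V) := by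
      intro v hv
      obtain ⟨-, u, hu, huv⟩ := (hmem ω v).1 hv
      exact tsc_R_mem huv ⟨Finset.mem_coe.2 (hEA hu), fun h => h2' u hu (Finset.mem_coe.1 h)⟩
    refine ⟨?_, ?_, h3, h4, h5, h6, h7, h8⟩
    · intro v hv
      have hv' : v ∈ La ∪ Lc ∪ glBdy S (glClu S (glEnd La Lc Ld Lb) ω₀) := hv
      rcases Finset.mem_union.1 hv' with hv1 | hv1
      · exact h1' hv1
      · rw [← hC] at hv1
        obtain ⟨hvA, hvC, c, hc, hadj⟩ := Finset.mem_filter.1 hv1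
        by_contra hvB
        apply hvC
        obtain ⟨-, u, hu, huc⟩ := (hmem ω c).1 hc
        exact (hmem ω v).2 ⟨hvA, u, hu, huc.tail ⟨hadj, hin c hc, ⟨Finset.mem_coe.2 hvA, fun h => hvB (Finset.mem_coe.1 h)⟩⟩⟩
    · intro v hv
      have hv' : v ∈ glClu S (glEnd La Lc Ld Lb) ω₀ := hv
      rw [← hC] at hv'
      exact fun h => (hin v hv').2 (Finset.mem_coe.2 h)

/-! `gl_mid` (B.2 for one good cluster) and `gl_three` (LEMMA B) are in `Glue/Mid.lean` (62), which imports this file. -/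

end abstract

/-- the equation lemmas of the definitions of this file are generated HERE -/
theorem gl_place_eqns_cite : True := by
  have := @GlJoin.eq_1
  have := @glCg.eq_1
  have := @GlJoinC.eq_1
  have := @glOn.eq_1
  have := @glOn.congr_simp
  have := @glInd.eq_1
  have := @glEnd.eq_1
  have := @glH0.eq_1
  have := @glMir.eq_1
  have := @GlEA.eq_1
  have := @GlBlk.eq_1
  have := @glTie.eq_1
  have := @glPo2.eq_1
  have := @glHp.eq_1
  have := @glPull.eq_1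
  have := @glClu.eq_1
  have := @glBdy.eq_1
  have := @glHC.eq_1
  have := @gpaT.eq_1
  have := @ClCon.mir.eq_1
  have := @gpaBm.eq_1
  have := @gpaHm.eq_1
  have := @gpaHA.eq_1
  have := @GpaOut.eq_1
  trivial

end Claimed.Agent.R291
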