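import Claimed.Agent.R291.Glue.Place
import Claimed.Agent.R291.Ann.PortsCl
import Claimed.Agent.R291.Ann.LenSE

/-!
# Row 291 (S0539), unit ANN, block A1, Glue/Enter : THE ENTRANCE  (G3 `exit_enter`)      (owner helper164; prefix `ent_`, defs `Ent…` / `ent…`)

TEX[annulus:gluing] TEX[annulus:ports]      Design: `origin/helper55:notes/R291/ann_A1_55_v2.md` Sec. 6, `origin/helper36:notes/R291/adv36_A1A3.md` Sec. III (S1 "THE SEA HISTORY"), ports of 116 (`Ann/PortsCl`: `prc_two_amb`).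

THE LAW OF ANY AMBIENT `T` GIVEN ANY RECORD `h` DOMINATES, UP TO A FACTOR `2 ^ k`, THE CLOSED STRIP LAW `P_Q` (`S`, `glH0`) ON THE INCREASING EVENTS WHICH READ THE RETAINED PART.
* `T` ambient system, `S` closed strip system on `Q = S.A ⊆ T.A`;  `YR` = the retained cells (cells of both systems, same sites `⊆ Q`, same parameter);  `Cb` = the other cells of `S` (boundary cells).
* `h` = ANY legal feasible history of `T` (the record) which knows nothing inside: no minus pin in `Q` off the layer, no observed retained cell, no equality edge touching `Q`.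
* `Pl ⊆ h.Bp` the plus pins which are KEPT,  `Rib ⊆ h.Op` the open-plus cells which are KEPT (their sites lie in `Pl`).
* `entLay T Q YR` the LAYER: sites of `Q` in a cell which is not retained;   `entM` the SEA: everything off `Q` and the layer, except `Pl`.
* **`entSea T h Q YR Pl Rib`** THE SEA HISTORY: plus on `Pl`, minus on the sea, `Rib` open-plus, every non retained cell inside the sea open-minus, the closed cells of `h` which are not inside the sea stay closed.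
  `ent_sea_legal`, `ent_sea_feas`, `ent_sea_le : ClLe (sea) h`.   EVERYTHING off the retained part is pinned: no patch.
* ports: `entP1` = sites of `Q` in the non retained cells of `T` which are neither in `Rib` nor inside the sea (the junction cells);  `entP2` = the same for the boundary cells of `S`.
* **`ent_main`** : `S.N (glH0) F * T.Z h ≤ 2 ^ ((P2.card - 1) + (P1.card - 1)) * (S.Z (glH0) * T.N h F)`  for `F ≥ 0`, `ClMono T F`, `PrcLoc Q YR F`.    ORDER is a hypothesis `EntOrd`;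
  `ent_main_disk` (`ClDisk T`: `dis_order`),  `ent_main_ord` (`LseOrd T K` of 20: mixed cylinder; the pins of `K` are kept).
* **`ent_join`** : the same for the event "`La` and `Lc` are joined by open-plus cells of `Kc`", read in `T`.
* §5 `entClip T Q qb` = the closed system on `Q` cut out of ANY ambient (all cells meeting `Q`, clipped), `entCb T Q` its boundary cells, retained cells `T.cin Q`;  `EntRec` = the 12 fields on the record and the sides;
  `ent_geo_clip : EntRec … → EntGeo T (entClip T Q qb) …`;  `ent_mem_P1` (a port = a site of `Q` in a non retained, non kept cell which contains a kept plus pin);  `ent_P2_sub : P2 ⊆ P1`.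
* §6 transport along `CuIso S₀ S φ ψ`: `ent_iso_holds`, `ent_iso_N`, `ent_iso_event`, **`ent_join_iso`** (bound under the strip law of a REFERENCE strip `S₀`, e.g. planar `clAmb x Q₀` ⟹ bound in the ambient given the record).
  Concrete isomorphisms (planar ambient, cylinder window, both classes): `Glue/EnterB.lean` (helper63).
-/

set_option autoImplicit false
set_option linter.unusedSectionVars false
set_option linter.unusedVariables false

namespace Claimed.Agent.R291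

open Relation

section abstract

variable {V Y : Type} [DecidableEq V] [DecidableEq Y]

/-! ### 1. the sea history -/

/-- the LAYER of `Q`: the sites of `Q` which lie in a cell that is not retained -/
def entLay (T : ClSys V Y) (Q : Finset V) (YR : Finset Y) : Finset V := Q.filter (fun v => ∃ y ∈ T.C \ YR, v ∈ T.sv y)

/-- THE SEA: everything off `Q`, and the layer, except the kept plus pins (and the minus pins of the record) -/
def entM (T : ClSys V Y) (h : ClCon V Y) (Q : Finset V) (YR : Finset Y) (Pl : Finset V) : Finset V :=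
  (((T.A \ Q) ∪ entLay T Q YR) \ Pl) ∪ h.Bm

/-- **THE SEA HISTORY** (36, S1) -/
def entSea (T : ClSys V Y) (h : ClCon V Y) (Q : Finset V) (YR : Finset Y) (Pl : Finset V) (Rib : Finset Y) : ClCon V Y :=
  ⟨Pl, entM T h Q YR Pl, h.Eq, Rib, (T.C \ YR).filter (fun y => T.sv y ⊆ entM T h Q YR Pl),
    h.Cl.filter (fun y => ¬ (y ∈ T.C ∧ T.sv y ⊆ entM T h Q YR Pl)), ∅, ∅⟩

/-- the ports of the ambient: sites of `Q` in the non retained cells which are neither kept open-plus nor inside the sea -/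
def entP1 (T : ClSys V Y) (h : ClCon V Y) (Q : Finset V) (YR : Finset Y) (Pl : Finset V) (Rib : Finset Y) : Finset V :=
  ((T.C \ YR).filter (fun y => y ∉ Rib ∧ ¬ T.sv y ⊆ entM T h Q YR Pl)).biUnion (fun y => T.sv y ∩ Q)

/-- the ports of the closed strip system: sites of the mixed boundary cells -/
def entP2 (S : ClSys V Y) (Cb : Finset Y) (La Lc Ld Lb : Finset V) : Finset V :=
  (Cb.filter (fun y => ¬ S.sv y ⊆ La ∪ Lc ∧ ¬ S.sv y ⊆ glEnd La Lc Ld Lb)).biUnion S.sv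

/-- conditional order between two histories -/
def EntOrd (T : ClSys V Y) (K₁ K₂ : ClCon V Y) : Prop :=
  ∀ F : ClCfg V Y → ℝ, ClMono T F → T.N (K₁.Holds T) F * T.Z (K₂.Holds T) ≤ T.Z (K₁.Holds T) * T.N (K₂.Holds T) F

/-- **what the entrance needs to know** -/
structure EntGeo (T S : ClSys V Y) (h : ClCon V Y) (Q : Finset V) (YR Cb : Finset Y) (La Lc Ld Lb Pl : Finset V) (Rib : Finset Y) : Prop where
  okT : ClOk T
  okS : ClOk S
  legal : ClLegal T h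
  feas : 0 < T.Z (h.Holds T)
  QA : Q ⊆ T.A
  SA : S.A = Q
  YT : YR ⊆ T.C
  YS : YR ⊆ S.C
  /-- the other cells of the strip system are the boundary cells -/
  cb : ∀ y ∈ S.C, y ∉ YR → y ∈ Cb
  cbC : Cb ⊆ S.C
  cbY : ∀ y ∈ Cb, y ∉ YR
  cellR : ∀ y ∈ YR, T.sv y ⊆ Q
  sv : ∀ y ∈ YR, S.sv y = T.sv y
  q : ∀ y ∈ YR, S.q y = T.q y
  /-- what is kept of the record -/
  pl : Pl ⊆ h.Bp
  rib : Rib ⊆ h.Op
  ribS : ∀ y ∈ Rib, T.sv y ⊆ Pl
  /-- the record knows nothing inside -/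
  bm : ∀ v ∈ h.Bm, v ∈ Q → v ∈ entLay T Q YR
  obs : ∀ y ∈ YR, y ∉ h.Op ∧ y ∉ h.Om ∧ y ∉ h.Cl
  eq : ∀ e ∈ h.Eq, e.1 ∉ Q ∧ e.2 ∉ Q
  /-- the four sides -/
  plQ : Pl ∩ Q = La ∪ Lc
  lay : entLay T Q YR = La ∪ Lc ∪ Ld ∪ Lb
  cbL : ∀ y ∈ Cb, S.sv y ⊆ La ∪ Lc ∪ Ld ∪ Lb

theorem ent_eqns_cite : True := by
  have := @entLay.eq_1
  have := @entM.eq_1
  have := @entSea.eq_1
  have := @entP1.eq_1
  have := @entP2.eq_1
  have := @EntOrd.eq_1
  trivial

variable {T S : ClSys V Y} {h : ClCon V Y} {Q : Finset V} {YR Cb : Finset Y} {La Lc Ld Lb Pl : Finset V} {Rib : Finset Y}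

theorem ent_mem_lay {v : V} : v ∈ entLay T Q YR ↔ v ∈ Q ∧ ∃ y ∈ T.C \ YR, v ∈ T.sv y := by
  unfold entLay
  exact Finset.mem_filter

theorem ent_mem_M {v : V} : v ∈ entM T h Q YR Pl ↔ (((v ∈ T.A ∧ v ∉ Q) ∨ v ∈ entLay T Q YR) ∧ v ∉ Pl) ∨ v ∈ h.Bm := by
  unfold entM
  simp only [Finset.mem_union, Finset.mem_sdiff]

/-- a site of a non retained cell is a kept plus pin or lies in the sea -/
theorem ent_cell_pin (hT : ClOk T) {y : Y} (hy : y ∈ T.C) (hyR : y ∉ YR) {v : V} (hv : v ∈ T.sv y) :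
    v ∈ Pl ∨ v ∈ entM T h Q YR Pl := by
  by_cases hP : v ∈ Pl
  · exact Or.inl hP
  · right
    rw [ent_mem_M]
    left
    refine ⟨?_, hP⟩
    by_cases hQ : v ∈ Q
    · exact Or.inr (ent_mem_lay.2 ⟨hQ, y, Finset.mem_sdiff.2 ⟨hy, hyR⟩, hv⟩)
    · exact Or.inl ⟨hT.sub y hy hv, hQ⟩

/-- the local criterion for the record -/
theorem ent_feas_h (g : EntGeo T S h Q YR Cb La Lc Ld Lb Pl Rib) : ClFeas T h := dis_feas_conv T g.okT h g.legal g.feas

theorem ent_pl_M (g : EntGeo T S h Q YR Cb La Lc Ld Lb Pl Rib) : Disjoint Pl (entM T h Q YR Pl) := by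
  refine Finset.disjoint_left.2 fun v hv hM => ?_
  rcases ent_mem_M.1 hM with h1 | h1
  · exact h1.2 hv
  · exact Finset.disjoint_left.1 (ent_feas_h g).dis (g.pl hv) h1

theorem ent_rib_C (g : EntGeo T S h Q YR Cb La Lc Ld Lb Pl Rib) {y : Y} (hy : y ∈ Rib) : y ∈ T.C ∧ y ∉ YR :=
  ⟨(ent_feas_h g).opC (g.rib hy), fun hR => (g.obs y hR).1 (g.rib hy)⟩

/-- the sea history is legal -/
theorem ent_sea_legal (g : EntGeo T S h Q YR Cb La Lc Ld Lb Pl Rib) : ClLegal T (entSea T h Q YR Pl Rib) where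
  wp := rfl
  wm := rfl
  full := by
    intro y hy hobs v hv
    have hyR : y ∉ YR := by
      intro hR
      simp only [entSea, Finset.mem_union, Finset.mem_filter, Finset.mem_sdiff] at hobs
      rcases hobs with (h1 | h1) | h1
      · exact (ent_rib_C g h1).2 hR
      · exact h1.1.2 hR
      · exact (g.obs y hR).2.2 h1.1
    exact Finset.mem_union.2 (ent_cell_pin g.okT hy hyR hv)
  eq := g.legal.eq

/-- the sea history is below the record -/
theorem ent_sea_le (g : EntGeo T S h Q YR Cb La Lc Ld Lb Pl Rib) : ClLe (entSea T h Q YR Pl Rib) h where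
  bp := g.pl
  bm := fun v hv => ent_mem_M.2 (Or.inr hv)
  op := g.rib
  om := by
    intro y hy
    have hf := ent_feas_h g
    refine Finset.mem_filter.2 ⟨Finset.mem_sdiff.2 ⟨hf.omC hy, fun hR => (g.obs y hR).2.1 hy⟩, fun v hv => ?_⟩
    exact ent_mem_M.2 (Or.inr (hf.om y hy hv))
  cl1 := fun y hy => Finset.mem_union_left _ (Finset.mem_filter.1 hy).1
  cl2 := by
    intro y hy
    by_cases hc : y ∈ T.C ∧ T.sv y ⊆ entM T h Q YR Pl
    · exact Finset.mem_union_right _ (Finset.mem_filter.2 ⟨Finset.mem_sdiff.2 ⟨hc.1, fun hR => (g.obs y hR).2.2 hy⟩, hc.2⟩)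
    · exact Finset.mem_union_left _ (Finset.mem_filter.2 ⟨hy, hc⟩)
  eq := rfl

/-- the sea history satisfies the local criterion of feasibility -/
theorem ent_sea_crit (g : EntGeo T S h Q YR Cb La Lc Ld Lb Pl Rib) : ClFeas T (entSea T h Q YR Pl Rib) where
  bpA := g.pl.trans (ent_feas_h g).bpA
  dis := ent_pl_M g
  opC := fun y hy => (ent_rib_C g hy).1
  omC := fun y hy => (Finset.mem_sdiff.1 (Finset.mem_filter.1 hy).1).1
  op := g.ribS
  om := fun y hy => (Finset.mem_filter.1 hy).2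
  cl := by
    intro y hy hyC hc
    obtain ⟨h1, h2⟩ := Finset.mem_filter.1 hy
    rcases hc with hc | hc
    · exact (ent_feas_h g).cl y h1 hyC (Or.inl (hc.trans g.pl))
    · exact absurd ⟨hyC, hc⟩ h2
  d1 := by
    refine Finset.disjoint_left.2 fun y h1 h2 => ?_
    obtain ⟨v, hv⟩ := g.okT.ne y (ent_rib_C g h1).1
    exact Finset.disjoint_left.1 (ent_pl_M g) (g.ribS y h1 hv) ((Finset.mem_filter.1 h2).2 hv)
  d2 := by
    refine Finset.disjoint_left.2 fun y h1 h2 => ?_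
    exact Finset.disjoint_left.1 (ent_feas_h g).d2 (g.rib h1) (Finset.mem_filter.1 h2).1
  d3 := by
    refine Finset.disjoint_left.2 fun y h1 h2 => ?_
    obtain ⟨a1, a2⟩ := Finset.mem_filter.1 h1
    exact (Finset.mem_filter.1 h2).2 ⟨(Finset.mem_sdiff.1 a1).1, a2⟩

/-- the sea history is feasible -/
theorem ent_sea_feas (g : EntGeo T S h Q YR Cb La Lc Ld Lb Pl Rib) : 0 < T.Z ((entSea T h Q YR Pl Rib).Holds T) :=
  dis_feas T g.okT _ (ent_sea_legal g) (ent_sea_crit g)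

/-! ### 2. the two retained parts -/

theorem ent_split_T (g : EntGeo T S h Q YR Cb La Lc Ld Lb Pl Rib) :
    PrcSplit T (entSea T h Q YR Pl Rib) Q YR ∅ (entP1 T h Q YR Pl Rib) where
  RA := g.QA
  YC := g.YT
  sub := g.okT.sub
  q0 := fun y hy => (g.okT.q0 y hy).le
  q1 := g.okT.q1
  cellR := g.cellR
  pinX := by
    intro y hy hyR v hv
    exact Finset.mem_union.2 (ent_cell_pin g.okT hy hyR (Finset.mem_inter.1 hv).1)
  portC := by
    intro y hy hyR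
    by_cases h1 : y ∈ Rib
    · exact Or.inl (Finset.mem_union_left _ h1)
    · by_cases h2 : T.sv y ⊆ entM T h Q YR Pl
      · exact Or.inl (Finset.mem_union_right _ (Finset.mem_filter.2 ⟨Finset.mem_sdiff.2 ⟨hy, hyR⟩, h2⟩))
      · right
        intro v hv
        exact Finset.mem_biUnion.2 ⟨y, Finset.mem_filter.2 ⟨Finset.mem_sdiff.2 ⟨hy, hyR⟩, h1, h2⟩, hv⟩
  eqR := Finset.empty_subset _
  eqR_in := fun e he => absurd he (Finset.notMem_empty _)
  portE := fun e he _ => ⟨fun h1 => absurd h1 (g.eq e he).1, fun h1 => absurd h1 (g.eq e he).2⟩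
  eqA := by
    intro e he
    obtain ⟨y, hy, a1, a2⟩ := g.legal.eq e he
    exact ⟨g.okT.sub y hy a1, g.okT.sub y hy a2⟩
  wp := rfl
  wm := rfl

theorem ent_sides_Q (g : EntGeo T S h Q YR Cb La Lc Ld Lb Pl Rib) : La ∪ Lc ∪ Ld ∪ Lb ⊆ Q := by
  rw [← g.lay]
  exact Finset.filter_subset _ _

theorem ent_split_S (g : EntGeo T S h Q YR Cb La Lc Ld Lb Pl Rib) :
    PrcSplit S (glH0 S Cb La Lc Ld Lb) Q YR ∅ (entP2 S Cb La Lc Ld Lb) where
  RA := g.SA.ge
  YC := g.YS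
  sub := g.okS.sub
  q0 := fun y hy => (g.okS.q0 y hy).le
  q1 := g.okS.q1
  cellR := fun y hy => (g.sv y hy).le.trans (g.cellR y hy)
  pinX := by
    intro y hy hyR v hv
    have h1 := g.cbL y (g.cb y hy hyR) (Finset.mem_inter.1 hv).1
    show v ∈ (La ∪ Lc) ∪ glEnd La Lc Ld Lb
    unfold glEnd
    simp only [Finset.mem_union, Finset.mem_sdiff] at h1 ⊢
    tauto
  portC := by
    intro y hy hyR
    have hb := g.cb y hy hyR
    by_cases h1 : S.sv y ⊆ La ∪ Lc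
    · exact Or.inl (Finset.mem_union_left _ (Finset.mem_filter.2 ⟨hb, h1⟩))
    · by_cases h2 : S.sv y ⊆ glEnd La Lc Ld Lb
      · exact Or.inl (Finset.mem_union_right _ (Finset.mem_filter.2 ⟨hb, h2⟩))
      · right
        intro v hv
        exact Finset.mem_biUnion.2 ⟨y, Finset.mem_filter.2 ⟨hb, h1, h2⟩, (Finset.mem_inter.1 hv).1⟩
  eqR := Finset.empty_subset _
  eqR_in := fun e he => absurd he (Finset.notMem_empty _)
  portE := fun e he => absurd he (Finset.notMem_empty _)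
  eqA := fun e he => absurd he (Finset.notMem_empty _)
  wp := rfl
  wm := rfl

/-- the two histories have the same retained data -/
theorem ent_KR (g : EntGeo T S h Q YR Cb La Lc Ld Lb Pl Rib) :
    prcKR (glH0 S Cb La Lc Ld Lb) Q YR ∅ = prcKR (entSea T h Q YR Pl Rib) Q YR ∅ := by
  have hsQ := ent_sides_Q g
  have e1 : (La ∪ Lc) ∩ Q = Pl ∩ Q := by
    rw [g.plQ]
    exact Finset.inter_eq_left.2 (fun v hv => hsQ (by
      simp only [Finset.mem_union] at hv ⊢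
      tauto))
  have e2 : glEnd La Lc Ld Lb ∩ Q = entM T h Q YR Pl ∩ Q := by
    ext v
    have hPl : v ∈ Q → (v ∈ Pl ↔ v ∈ La ∪ Lc) := fun hQ => by
      rw [← g.plQ, Finset.mem_inter]
      exact ⟨fun h1 => ⟨h1, hQ⟩, fun h1 => h1.1⟩
    simp only [Finset.mem_inter]
    constructor
    · rintro ⟨h1, hQ⟩
      refine ⟨ent_mem_M.2 (Or.inl ⟨Or.inr ?_, ?_⟩), hQ⟩
      · rw [g.lay]
        unfold glEnd at h1
        simp only [Finset.mem_union, Finset.mem_sdiff] at h1 ⊢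
        tauto
      · rw [hPl hQ]
        exact (Finset.mem_sdiff.1 h1).2
    · rintro ⟨h1, hQ⟩
      refine ⟨?_, hQ⟩
      have key : v ∈ entLay T Q YR ∧ v ∉ Pl := by
        rcases ent_mem_M.1 h1 with ⟨h2 | h2, h3⟩ | h2
        · exact absurd hQ h2.2
        · exact ⟨h2, h3⟩
        · exact ⟨g.bm v h2 hQ, fun hP => Finset.disjoint_left.1 (ent_feas_h g).dis (g.pl hP) h2⟩
      rw [g.lay, hPl hQ] at key
      unfold glEnd
      obtain ⟨k1, k2⟩ := key
      simp only [Finset.mem_union, Finset.mem_sdiff] at k1 k2 ⊢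
      tauto
  have e3 : (Cb.filter (fun y => S.sv y ⊆ La ∪ Lc)) ∩ YR = Rib ∩ YR := by
    rw [Finset.disjoint_iff_inter_eq_empty.1 (Finset.disjoint_left.2 fun y h1 h2 => g.cbY y (Finset.mem_filter.1 h1).1 h2),
      Finset.disjoint_iff_inter_eq_empty.1 (Finset.disjoint_left.2 fun y h1 h2 => (ent_rib_C g h1).2 h2)]
  have e4 : (Cb.filter (fun y => S.sv y ⊆ glEnd La Lc Ld Lb)) ∩ YR =
      ((T.C \ YR).filter (fun y => T.sv y ⊆ entM T h Q YR Pl)) ∩ YR := by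
    rw [Finset.disjoint_iff_inter_eq_empty.1 (Finset.disjoint_left.2 fun y h1 h2 => g.cbY y (Finset.mem_filter.1 h1).1 h2),
      Finset.disjoint_iff_inter_eq_empty.1 (Finset.disjoint_left.2 fun y h1 h2 =>
        (Finset.mem_sdiff.1 (Finset.mem_filter.1 h1).1).2 h2)]
  have e5 : (∅ : Finset Y) ∩ YR = (h.Cl.filter (fun y => ¬ (y ∈ T.C ∧ T.sv y ⊆ entM T h Q YR Pl))) ∩ YR := by
    rw [Finset.empty_inter, Finset.disjoint_iff_inter_eq_empty.1 (Finset.disjoint_left.2 fun y h1 h2 =>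
      (g.obs y h2).2.2 (Finset.mem_filter.1 h1).1)]
  unfold prcKR glH0 entSea
  simp only [e1, e2, e3, e4, e5]

/-! ### 3. THE ENTRANCE -/

/-- **THE ENTRANCE** (`exit_enter`, G3), order as a hypothesis -/
theorem ent_main (g : EntGeo T S h Q YR Cb La Lc Ld Lb Pl Rib) (hord : EntOrd T (entSea T h Q YR Pl Rib) h)
    (F : ClCfg V Y → ℝ) (h0 : ∀ ω, 0 ≤ F ω) (hm : ClMono T F) (hl : PrcLoc Q YR F) :
    S.N ((glH0 S Cb La Lc Ld Lb).Holds S) F * T.Z (h.Holds T) ≤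
      2 ^ (((entP2 S Cb La Lc Ld Lb).card - 1) + ((entP1 T h Q YR Pl Rib).card - 1)) *
        (S.Z ((glH0 S Cb La Lc Ld Lb).Holds S) * T.N (h.Holds T) F) := by
  have p := prc_two_amb (ent_split_S g) (ent_split_T g) g.sv g.q (ent_KR g) hl h0
  have o := hord F hm
  have hZ := ent_sea_feas g
  have hZS : 0 ≤ S.Z ((glH0 S Cb La Lc Ld Lb).Holds S) := len_Z_nonneg S g.okS _
  have hz : 0 ≤ T.Z (h.Holds T) := g.feas.le
  have hc : (0 : ℝ) ≤ 2 ^ (((entP2 S Cb La Lc Ld Lb).card - 1) + ((entP1 T h Q YR Pl Rib).card - 1)) := by positivity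
  generalize (2 : ℝ) ^ (((entP2 S Cb La Lc Ld Lb).card - 1) + ((entP1 T h Q YR Pl Rib).card - 1)) = c at p hc ⊢
  generalize S.N ((glH0 S Cb La Lc Ld Lb).Holds S) F = n₁ at *
  generalize S.Z ((glH0 S Cb La Lc Ld Lb).Holds S) = z₁ at *
  generalize T.Z ((entSea T h Q YR Pl Rib).Holds T) = zs at *
  generalize T.N ((entSea T h Q YR Pl Rib).Holds T) F = ns at *
  generalize T.Z (h.Holds T) = z at *
  generalize T.N (h.Holds T) F = n at *
  have a1 : n₁ * zs * z ≤ c * (z₁ * ns) * z := mul_le_mul_of_nonneg_right p hz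
  have a2 : c * z₁ * (ns * z) ≤ c * z₁ * (zs * n) := mul_le_mul_of_nonneg_left o (mul_nonneg hc hZS)
  have a3 : (n₁ * z) * zs ≤ (c * (z₁ * n)) * zs := by nlinarith
  exact le_of_mul_le_mul_right a3 hZ

/-- the entrance in a disk -/
theorem ent_main_disk (g : EntGeo T S h Q YR Cb La Lc Ld Lb Pl Rib) (hT : ClDisk T)
    (F : ClCfg V Y → ℝ) (h0 : ∀ ω, 0 ≤ F ω) (hm : ClMono T F) (hl : PrcLoc Q YR F) :
    S.N ((glH0 S Cb La Lc Ld Lb).Holds S) F * T.Z (h.Holds T) ≤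
      2 ^ (((entP2 S Cb La Lc Ld Lb).card - 1) + ((entP1 T h Q YR Pl Rib).card - 1)) *
        (S.Z ((glH0 S Cb La Lc Ld Lb).Holds S) * T.N (h.Holds T) F) :=
  ent_main g (fun F hF => dis_order T hT _ _ (ent_sea_legal g) g.legal (ent_sea_le g) F hF) F h0 hm hl

/-- the entrance in a system with the conditional order `LseOrd T K` of 20 (mixed cylinder): the pins of `K` are kept -/
theorem ent_main_ord (g : EntGeo T S h Q YR Cb La Lc Ld Lb Pl Rib) (K : ClCon V Y) (hT : LseOrd T K)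
    (hKp : K.Bp ⊆ Pl) (hKm : K.Bm ⊆ h.Bm)
    (F : ClCfg V Y → ℝ) (h0 : ∀ ω, 0 ≤ F ω) (hm : ClMono T F) (hl : PrcLoc Q YR F) :
    S.N ((glH0 S Cb La Lc Ld Lb).Holds S) F * T.Z (h.Holds T) ≤
      2 ^ (((entP2 S Cb La Lc Ld Lb).card - 1) + ((entP1 T h Q YR Pl Rib).card - 1)) *
        (S.Z ((glH0 S Cb La Lc Ld Lb).Holds S) * T.N (h.Holds T) F) :=
  ent_main g (fun F hF => hT _ _ (ent_sea_legal g) g.legal hKp (fun v hv => ent_mem_M.2 (Or.inr (hKm hv)))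
    (hKp.trans g.pl) hKm (ent_sea_le g) F hF) F h0 hm hl

/-! ### 4. the event of the glue machine -/

/-- the status of a retained cell is the same in the two systems -/
theorem ent_tau (g : EntGeo T S h Q YR Cb La Lc Ld Lb Pl Rib) {y : Y} (hy : y ∈ YR) (ω : ClCfg V Y) : clTau S ω y = clTau T ω y := by
  unfold clTau
  rw [g.sv y hy]

theorem ent_on (g : EntGeo T S h Q YR Cb La Lc Ld Lb Pl Rib) {Kc : Finset Y} (hKc : Kc ⊆ YR) (ω : ClCfg V Y) :
    (↑Kc ∩ glOn S 1 ω : Set Y) = ↑Kc ∩ glOn T 1 ω := by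
  ext y
  simp only [Set.mem_inter_iff, Finset.mem_coe, glOn, Set.mem_ofPred_eq]
  constructor
  · rintro ⟨h1, _, h3⟩
    exact ⟨h1, g.YT (hKc h1), by rw [← ent_tau g (hKc h1)]; exact h3⟩
  · rintro ⟨h1, _, h3⟩
    exact ⟨h1, g.YS (hKc h1), by rw [ent_tau g (hKc h1)]; exact h3⟩

/-- a path of retained cells is the same in the two systems -/
theorem ent_joinC (g : EntGeo T S h Q YR Cb La Lc Ld Lb Pl Rib) {Z : Set Y} (hZ : ∀ y ∈ Z, y ∈ YR) (A C : Finset V) :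
    GlJoinC S Z A C ↔ GlJoinC T Z A C := by
  have hR : ∀ y y', TscR (glCg S) Z y y' ↔ TscR (glCg T) Z y y' := by
    intro y y'
    constructor
    · intro hp
      induction hp with
      | refl => exact ReflTransGen.refl
      | @tail b c _ hbc ih =>
        refine ih.tail ⟨⟨hbc.1.1, ?_⟩, hbc.2.1, hbc.2.2⟩
        obtain ⟨v, h1, h2⟩ := hbc.1.2
        exact ⟨v, by rw [← g.sv b (hZ b hbc.2.1)]; exact h1, by rw [← g.sv c (hZ c hbc.2.2)]; exact h2⟩
    · intro hp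
      induction hp with
      | refl => exact ReflTransGen.refl
      | @tail b c _ hbc ih =>
        refine ih.tail ⟨⟨hbc.1.1, ?_⟩, hbc.2.1, hbc.2.2⟩
        obtain ⟨v, h1, h2⟩ := hbc.1.2
        exact ⟨v, by rw [g.sv b (hZ b hbc.2.1)]; exact h1, by rw [g.sv c (hZ c hbc.2.2)]; exact h2⟩
  unfold GlJoinC
  constructor
  · rintro ⟨y, y', h1, h2, ⟨a, ha, h3⟩, ⟨c, hc, h4⟩, h5⟩
    exact ⟨y, y', h1, h2, ⟨a, ha, by rw [← g.sv y (hZ y h1)]; exact h3⟩, ⟨c, hc, by rw [← g.sv y' (hZ y' h2)]; exact h4⟩, (hR y y').1 h5⟩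
  · rintro ⟨y, y', h1, h2, ⟨a, ha, h3⟩, ⟨c, hc, h4⟩, h5⟩
    exact ⟨y, y', h1, h2, ⟨a, ha, by rw [g.sv y (hZ y h1)]; exact h3⟩, ⟨c, hc, by rw [g.sv y' (hZ y' h2)]; exact h4⟩, (hR y y').2 h5⟩

/-- the event of the glue machine, read in the strip system and in the ambient -/
theorem ent_event (g : EntGeo T S h Q YR Cb La Lc Ld Lb Pl Rib) {Kc : Finset Y} (hKc : Kc ⊆ YR) (ω : ClCfg V Y) :
    GlJoinC S (↑Kc ∩ glOn S 1 ω) La Lc ↔ GlJoinC T (↑Kc ∩ glOn T 1 ω) La Lc := by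
  rw [ent_on g hKc]
  exact ent_joinC g (fun y hy => hKc (Finset.mem_coe.1 hy.1)) La Lc

theorem ent_joinC_mono {U : ClSys V Y} {Z Z' : Set Y} {A C : Finset V} (hZ : Z ⊆ Z') (hj : GlJoinC U Z A C) : GlJoinC U Z' A C := by
  obtain ⟨y, y', h1, h2, h3, h4, h5⟩ := hj
  exact ⟨y, y', hZ h1, hZ h2, h3, h4, tsc_R_mono hZ h5⟩

/-- the event is increasing -/
theorem ent_event_mono (U : ClSys V Y) (Kc : Finset Y) (A C : Finset V) :
    ClMonoP U (fun ω => GlJoinC U (↑Kc ∩ glOn U 1 ω) A C) := by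
  intro ω ω' _ h2 hj
  refine ent_joinC_mono (fun y hy => ⟨hy.1, hy.2.1, ?_⟩) hj
  have h3 := h2 y hy.2.1
  have h4 : clTau U ω y = 1 := hy.2.2
  rcases dis_tau_cases U ω' y with h5 | h5 | h5
  · exact h5
  · rw [h4, h5] at h3; omega
  · rw [h4, h5] at h3; omega

/-- the event reads the retained part only -/
theorem ent_event_loc (g : EntGeo T S h Q YR Cb La Lc Ld Lb Pl Rib) {Kc : Finset Y} (hKc : Kc ⊆ YR) :
    PrcLoc Q YR (glInd (fun ω => GlJoinC T (↑Kc ∩ glOn T 1 ω) La Lc)) := by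
  intro ω ω' h1 h2
  have e : (↑Kc ∩ glOn T 1 ω : Set Y) = ↑Kc ∩ glOn T 1 ω' := by
    ext y
    simp only [Set.mem_inter_iff, Finset.mem_coe, glOn, Set.mem_ofPred_eq]
    refine and_congr_right fun hy => and_congr_right fun _ => ?_
    rw [prc_tau_loc g.cellR h1 h2 (hKc hy)]
  by_cases hj : GlJoinC T (↑Kc ∩ glOn T 1 ω) La Lc
  · rw [gl_ind_pos hj, gl_ind_pos (L := fun ω => GlJoinC T (↑Kc ∩ glOn T 1 ω) La Lc) (by rw [← e]; exact hj)]
  · rw [gl_ind_neg hj, gl_ind_neg (L := fun ω => GlJoinC T (↑Kc ∩ glOn T 1 ω) La Lc) (by rw [← e]; exact hj)]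

/-- the strip law is feasible -/
theorem ent_H0_feas (g : EntGeo T S h Q YR Cb La Lc Ld Lb Pl Rib) : 0 < S.Z ((glH0 S Cb La Lc Ld Lb).Holds S) := by
  refine dis_feas S g.okS _ (gl_H0_legal S Cb La Lc Ld Lb) ⟨?_, ?_, ?_, ?_, ?_, ?_, ?_, ?_, ?_, ?_⟩
  · intro v hv
    rw [g.SA]
    refine ent_sides_Q g ?_
    have hv' : v ∈ La ∪ Lc := hv
    simp only [Finset.mem_union] at hv' ⊢
    tauto
  · exact Finset.disjoint_sdiff
  · exact fun y hy => g.cbC (Finset.mem_filter.1 hy).1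
  · exact fun y hy => g.cbC (Finset.mem_filter.1 hy).1
  · exact fun y hy => (Finset.mem_filter.1 hy).2
  · exact fun y hy => (Finset.mem_filter.1 hy).2
  · exact fun y hy => absurd hy (Finset.notMem_empty _)
  · refine Finset.disjoint_left.2 fun y h1 h2 => ?_
    obtain ⟨a1, a2⟩ := Finset.mem_filter.1 h1
    obtain ⟨v, hv⟩ := g.okS.ne y (g.cbC a1)
    exact (Finset.mem_sdiff.1 ((Finset.mem_filter.1 h2).2 hv)).2 (a2 hv)
  · exact Finset.disjoint_empty_right _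
  · exact Finset.disjoint_empty_right _

/-- **THE ENTRANCE FOR THE EVENT OF THE GLUE MACHINE**: if `La` and `Lc` are joined by open-plus cells of `Kc` with `P_Q`-probability `≥ c`, the same holds in the ambient given the record, with `c / 2 ^ k` -/
theorem ent_join (g : EntGeo T S h Q YR Cb La Lc Ld Lb Pl Rib) (hord : EntOrd T (entSea T h Q YR Pl Rib) h)
    {Kc : Finset Y} (hKc : Kc ⊆ YR) {c : ℝ}
    (hc : c * S.Z ((glH0 S Cb La Lc Ld Lb).Holds S) ≤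
      S.N ((glH0 S Cb La Lc Ld Lb).Holds S) (glInd (fun ω => GlJoinC S (↑Kc ∩ glOn S 1 ω) La Lc))) :
    c * T.Z (h.Holds T) ≤ 2 ^ (((entP2 S Cb La Lc Ld Lb).card - 1) + ((entP1 T h Q YR Pl Rib).card - 1)) *
      T.N (h.Holds T) (glInd (fun ω => GlJoinC T (↑Kc ∩ glOn T 1 ω) La Lc)) := by
  have e : (glInd (fun ω => GlJoinC S (↑Kc ∩ glOn S 1 ω) La Lc)) = glInd (fun ω => GlJoinC T (↑Kc ∩ glOn T 1 ω) La Lc) := by
    funext ω
    by_cases hj : GlJoinC S (↑Kc ∩ glOn S 1 ω) La Lc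
    · rw [gl_ind_pos hj, gl_ind_pos (L := fun ω => GlJoinC T (↑Kc ∩ glOn T 1 ω) La Lc) ((ent_event g hKc ω).1 hj)]
    · rw [gl_ind_neg hj, gl_ind_neg (L := fun ω => GlJoinC T (↑Kc ∩ glOn T 1 ω) La Lc) (fun h' => hj ((ent_event g hKc ω).2 h'))]
  rw [e] at hc
  have hZS := ent_H0_feas g
  have m := ent_main g hord _ (gl_ind_nonneg _) (gl_ind_mono T (ent_event_mono T Kc La Lc)) (ent_event_loc g hKc)
  have hz : 0 ≤ T.Z (h.Holds T) := g.feas.le
  generalize (2 : ℝ) ^ (((entP2 S Cb La Lc Ld Lb).card - 1) + ((entP1 T h Q YR Pl Rib).card - 1)) = k at m ⊢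
  generalize S.N ((glH0 S Cb La Lc Ld Lb).Holds S) (glInd (fun ω => GlJoinC T (↑Kc ∩ glOn T 1 ω) La Lc)) = n₁ at *
  generalize S.Z ((glH0 S Cb La Lc Ld Lb).Holds S) = z₁ at *
  generalize T.Z (h.Holds T) = z at *
  generalize T.N (h.Holds T) (glInd (fun ω => GlJoinC T (↑Kc ∩ glOn T 1 ω) La Lc)) = n at *
  have a1 : c * z₁ * z ≤ n₁ * z := mul_le_mul_of_nonneg_right hc hz
  have a2 : (c * z) * z₁ ≤ (k * n) * z₁ := by nlinarith
  exact le_of_mul_le_mul_right a2 hZS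

/-! ### 5. the closed system cut out of an ambient -/

/-- **the closed system on `Q` cut out of the ambient `T`**: all the cells which meet `Q`, clipped; a clipped cell has the parameter `qb` -/
def entClip (T : ClSys V Y) (Q : Finset V) (qb : ℝ) : ClSys V Y :=
  ⟨Q, T.C.filter (fun y => (T.sv y ∩ Q).Nonempty), fun y => T.sv y ∩ Q, fun y => if T.sv y ⊆ Q then T.q y else qb⟩

/-- its boundary cells: the cells which cross `Q` -/
def entCb (T : ClSys V Y) (Q : Finset V) : Finset Y := T.C.filter (fun y => (T.sv y ∩ Q).Nonempty ∧ ¬ T.sv y ⊆ Q)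

/-- **what the entrance needs to know about the record** when the strip system is `entClip T Q qb` -/
structure EntRec (T : ClSys V Y) (h : ClCon V Y) (Q : Finset V) (La Lc Ld Lb Pl : Finset V) (Rib : Finset Y) : Prop where
  okT : ClOk T
  legal : ClLegal T h
  feas : 0 < T.Z (h.Holds T)
  QA : Q ⊆ T.A
  /-- what is kept of the record -/
  pl : Pl ⊆ h.Bp
  rib : Rib ⊆ h.Op
  ribS : ∀ y ∈ Rib, T.sv y ⊆ Pl
  /-- the record knows nothing inside -/
  bm : ∀ v ∈ h.Bm, v ∈ Q → v ∈ entLay T Q (T.cin Q)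
  obs : ∀ y ∈ T.cin Q, y ∉ h.Op ∧ y ∉ h.Om ∧ y ∉ h.Cl
  eq : ∀ e ∈ h.Eq, e.1 ∉ Q ∧ e.2 ∉ Q
  /-- the four sides -/
  plQ : Pl ∩ Q = La ∪ Lc
  lay : entLay T Q (T.cin Q) = La ∪ Lc ∪ Ld ∪ Lb

theorem ent_clip_eqns_cite : True := by
  have := @entClip.eq_1
  have := @entCb.eq_1
  trivial

theorem ent_mem_cin {y : Y} : y ∈ T.cin Q ↔ y ∈ T.C ∧ T.sv y ⊆ Q := by
  unfold ClSys.cin
  exact Finset.mem_filter

theorem ent_clip_ok (hT : ClOk T) (Q : Finset V) {qb : ℝ} (h0 : 0 < qb) (h1 : qb ≤ 1) : ClOk (entClip T Q qb) where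
  sub := fun y _ => Finset.inter_subset_right
  ne := fun y hy => (Finset.mem_filter.1 hy).2
  q0 := by
    intro y hy
    show 0 < if T.sv y ⊆ Q then T.q y else qb
    split_ifs
    · exact hT.q0 y (Finset.mem_filter.1 hy).1
    · exact h0
  q1 := by
    intro y hy
    show (if T.sv y ⊆ Q then T.q y else qb) ≤ 1
    split_ifs
    · exact hT.q1 y (Finset.mem_filter.1 hy).1
    · exact h1

/-- the structural fields of `EntGeo` are automatic for the clipped system -/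
theorem ent_geo_clip (r : EntRec T h Q La Lc Ld Lb Pl Rib) {qb : ℝ} (h0 : 0 < qb) (h1 : qb ≤ 1) :
    EntGeo T (entClip T Q qb) h Q (T.cin Q) (entCb T Q) La Lc Ld Lb Pl Rib where
  okT := r.okT
  okS := ent_clip_ok r.okT Q h0 h1
  legal := r.legal
  feas := r.feas
  QA := r.QA
  SA := rfl
  YT := Finset.filter_subset _ _
  YS := by
    intro y hy
    obtain ⟨a1, a2⟩ := ent_mem_cin.1 hy
    refine Finset.mem_filter.2 ⟨a1, ?_⟩
    rw [Finset.inter_eq_left.2 a2]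
    exact r.okT.ne y a1
  cb := by
    intro y hy hyR
    obtain ⟨a1, a2⟩ := Finset.mem_filter.1 hy
    exact Finset.mem_filter.2 ⟨a1, a2, fun hc => hyR (ent_mem_cin.2 ⟨a1, hc⟩)⟩
  cbC := by
    intro y hy
    obtain ⟨a1, a2, _⟩ := Finset.mem_filter.1 hy
    exact Finset.mem_filter.2 ⟨a1, a2⟩
  cbY := fun y hy hR => (Finset.mem_filter.1 hy).2.2 (ent_mem_cin.1 hR).2
  cellR := fun y hy => (ent_mem_cin.1 hy).2
  sv := fun y hy => Finset.inter_eq_left.2 (ent_mem_cin.1 hy).2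
  q := fun y hy => if_pos (ent_mem_cin.1 hy).2
  pl := r.pl
  rib := r.rib
  ribS := r.ribS
  bm := r.bm
  obs := r.obs
  eq := r.eq
  plQ := r.plQ
  lay := r.lay
  cbL := by
    intro y hy v hv
    obtain ⟨a1, _, a3⟩ := Finset.mem_filter.1 hy
    rw [← r.lay]
    obtain ⟨b1, b2⟩ := Finset.mem_inter.1 hv
    exact ent_mem_lay.2 ⟨b2, y, Finset.mem_sdiff.2 ⟨a1, fun hR => a3 (ent_mem_cin.1 hR).2⟩, b1⟩

/-- the ports of the ambient: a site of `Q` in a non retained cell which is not kept and contains a kept plus pin -/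
theorem ent_mem_P1 (g : EntGeo T S h Q YR Cb La Lc Ld Lb Pl Rib) {v : V} :
    v ∈ entP1 T h Q YR Pl Rib ↔ v ∈ Q ∧ ∃ y ∈ T.C, y ∉ YR ∧ y ∉ Rib ∧ v ∈ T.sv y ∧ ∃ u ∈ T.sv y, u ∈ Pl := by
  unfold entP1
  simp only [Finset.mem_biUnion, Finset.mem_filter, Finset.mem_sdiff, Finset.mem_inter]
  constructor
  · rintro ⟨y, ⟨⟨a1, a2⟩, a3, a4⟩, a5, a6⟩
    refine ⟨a6, y, a1, a2, a3, a5, ?_⟩
    by_contra hc
    push Not at hc
    exact a4 fun u hu => (ent_cell_pin g.okT a1 a2 hu).resolve_left (hc u hu)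
  · rintro ⟨a6, y, a1, a2, a3, a5, u, hu, hP⟩
    exact ⟨y, ⟨⟨a1, a2⟩, a3, fun hc => Finset.disjoint_left.1 (ent_pl_M g) hP (hc hu)⟩, a5, a6⟩

/-- for the clipped system the ports of the strip system are ports of the ambient -/
theorem ent_P2_sub (r : EntRec T h Q La Lc Ld Lb Pl Rib) {qb : ℝ} (h0 : 0 < qb) (h1 : qb ≤ 1) :
    entP2 (entClip T Q qb) (entCb T Q) La Lc Ld Lb ⊆ entP1 T h Q (T.cin Q) Pl Rib := by
  have g := ent_geo_clip r h0 h1
  intro v hv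
  unfold entP2 at hv
  obtain ⟨y, hy, hvy⟩ := Finset.mem_biUnion.1 hv
  obtain ⟨hb, a1, a2⟩ := Finset.mem_filter.1 hy
  obtain ⟨b1, _, b3⟩ := Finset.mem_filter.1 hb
  have hvy' : v ∈ T.sv y ∩ Q := hvy
  have hL := g.cbL y hb
  -- a site on the plus sides
  have hex : ∃ u ∈ T.sv y ∩ Q, u ∈ La ∪ Lc := by
    by_contra hc
    push Not at hc
    refine a2 fun u hu => ?_
    have h2 := hL hu
    have h3 := hc u hu
    unfold glEnd
    simp only [Finset.mem_union, Finset.mem_sdiff] at h2 h3 ⊢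
    tauto
  obtain ⟨u, hu, huL⟩ := hex
  have huP : u ∈ Pl := by
    rw [← r.plQ] at huL
    exact (Finset.mem_inter.1 huL).1
  -- a site off the plus sides
  obtain ⟨w, hw, hwL⟩ : ∃ w ∈ T.sv y ∩ Q, w ∉ La ∪ Lc := by
    by_contra hc
    push Not at hc
    exact a1 hc
  have hwP : w ∉ Pl := fun hP => hwL (by rw [← r.plQ]; exact Finset.mem_inter.2 ⟨hP, (Finset.mem_inter.1 hw).2⟩)
  refine (ent_mem_P1 g).2 ⟨(Finset.mem_inter.1 hvy').2, y, b1, fun hR => b3 (ent_mem_cin.1 hR).2, ?_, (Finset.mem_inter.1 hvy').1,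
    u, (Finset.mem_inter.1 hu).1, huP⟩
  exact fun hR => hwP (r.ribS y hR (Finset.mem_inter.1 hw).1)

/-! ### 6. transport of the strip law along an isomorphism -/

section iso

variable {V₀ Y₀ : Type} [DecidableEq V₀] [DecidableEq Y₀] {S₀ : ClSys V₀ Y₀} {φ : V₀ → V} {ψ : Y₀ → Y}
  {Cb₀ : Finset Y₀} {La₀ Lc₀ Ld₀ Lb₀ : Finset V₀}

theorem ent_iso_end (i : CuIso S₀ S φ ψ) (hLa : La₀ ⊆ S₀.A) (hLc : Lc₀ ⊆ S₀.A) (hLd : Ld₀ ⊆ S₀.A) (hLb : Lb₀ ⊆ S₀.A) :
    glEnd (La₀.image φ) (Lc₀.image φ) (Ld₀.image φ) (Lb₀.image φ) = (glEnd La₀ Lc₀ Ld₀ Lb₀).image φ := by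
  unfold glEnd
  rw [← Finset.image_union, ← Finset.image_union]
  ext v'
  simp only [Finset.mem_sdiff, Finset.mem_image]
  constructor
  · rintro ⟨⟨v, hv, rfl⟩, h2⟩
    exact ⟨v, ⟨hv, fun hc => h2 ⟨v, hc, rfl⟩⟩, rfl⟩
  · rintro ⟨v, ⟨hv, h2⟩, rfl⟩
    refine ⟨⟨v, hv, rfl⟩, fun hc => h2 ?_⟩
    exact (am_t5_mem i.injV (Finset.union_subset hLa hLc) (Finset.union_subset hLd hLb hv)).1 (Finset.mem_image.2 hc)

/-- the history of the strip law is transported -/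
theorem ent_iso_holds (i : CuIso S₀ S φ ψ) (ok₀ : ∀ y ∈ S₀.C, S₀.sv y ⊆ S₀.A) (hCb : Cb₀ ⊆ S₀.C)
    (hLa : La₀ ⊆ S₀.A) (hLc : Lc₀ ⊆ S₀.A) (hLd : Ld₀ ⊆ S₀.A) (hLb : Lb₀ ⊆ S₀.A) {ω : ClCfg V₀ Y₀} (hω : ω ∈ S₀.cfgs) :
    (glH0 S (Cb₀.image ψ) (La₀.image φ) (Lc₀.image φ) (Ld₀.image φ) (Lb₀.image φ)).Holds S (ω.map φ ψ) ↔
      (glH0 S₀ Cb₀ La₀ Lc₀ Ld₀ Lb₀).Holds S₀ ω := by
  obtain ⟨hB, hW, hO⟩ := (cl_mem_cfgs S₀ ω).1 hω
  have hE : glEnd La₀ Lc₀ Ld₀ Lb₀ ⊆ S₀.A := Finset.sdiff_subset.trans (Finset.union_subset hLd hLb)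
  have hAC : La₀ ∪ Lc₀ ⊆ S₀.A := Finset.union_subset hLa hLc
  unfold ClCon.Holds glH0
  simp only [Finset.notMem_empty, false_imp_iff, implies_true, Finset.empty_subset, true_and, and_true]
  rw [ent_iso_end i hLa hLc hLd hLb, ← Finset.image_union]
  refine and_congr ?_ (and_congr ?_ (and_congr ?_ ?_))
  · exact am_t5_sub i.injV hB hAC
  · constructor
    · intro h1 v hv hvB
      exact h1 (φ v) (Finset.mem_image_of_mem φ hv) (Finset.mem_image_of_mem φ hvB)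
    · intro h1 v' hv'
      obtain ⟨v, hv, rfl⟩ := Finset.mem_image.1 hv'
      exact fun hc => h1 v hv ((am_t5_mem i.injV hB (hE hv)).1 hc)
  · constructor
    · intro h1 y hy
      obtain ⟨a1, a2⟩ := Finset.mem_filter.1 hy
      rw [← am_iso_tau S₀ S φ ψ i ok₀ ω hω y (hCb a1)]
      refine h1 (ψ y) (Finset.mem_filter.2 ⟨Finset.mem_image_of_mem ψ a1, ?_⟩)
      rw [i.sv y (hCb a1)]
      exact Finset.image_subset_image a2
    · intro h1 y' hy'
      obtain ⟨a1, a2⟩ := Finset.mem_filter.1 hy'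
      obtain ⟨y, hy, rfl⟩ := Finset.mem_image.1 a1
      rw [am_iso_tau S₀ S φ ψ i ok₀ ω hω y (hCb hy)]
      refine h1 y (Finset.mem_filter.2 ⟨hy, ?_⟩)
      rw [i.sv y (hCb hy)] at a2
      exact (am_t5_sub i.injV hAC (ok₀ y (hCb hy))).1 a2
  · constructor
    · intro h1 y hy
      obtain ⟨a1, a2⟩ := Finset.mem_filter.1 hy
      rw [← am_iso_tau S₀ S φ ψ i ok₀ ω hω y (hCb a1)]
      refine h1 (ψ y) (Finset.mem_filter.2 ⟨Finset.mem_image_of_mem ψ a1, ?_⟩)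
      rw [i.sv y (hCb a1)]
      exact Finset.image_subset_image a2
    · intro h1 y' hy'
      obtain ⟨a1, a2⟩ := Finset.mem_filter.1 hy'
      obtain ⟨y, hy, rfl⟩ := Finset.mem_image.1 a1
      rw [am_iso_tau S₀ S φ ψ i ok₀ ω hω y (hCb hy)]
      refine h1 y (Finset.mem_filter.2 ⟨hy, ?_⟩)
      rw [i.sv y (hCb hy)] at a2
      exact (am_t5_sub i.injV hE (ok₀ y (hCb hy))).1 a2

/-- **the strip law is transported by an isomorphism** -/
theorem ent_iso_N (i : CuIso S₀ S φ ψ) (ok₀ : ∀ y ∈ S₀.C, S₀.sv y ⊆ S₀.A) (hCb : Cb₀ ⊆ S₀.C)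
    (hLa : La₀ ⊆ S₀.A) (hLc : Lc₀ ⊆ S₀.A) (hLd : Ld₀ ⊆ S₀.A) (hLb : Lb₀ ⊆ S₀.A) (F : ClCfg V Y → ℝ) :
    S.N ((glH0 S (Cb₀.image ψ) (La₀.image φ) (Lc₀.image φ) (Ld₀.image φ) (Lb₀.image φ)).Holds S) F =
      S₀.N ((glH0 S₀ Cb₀ La₀ Lc₀ Ld₀ Lb₀).Holds S₀) (fun ω => F (ω.map φ ψ)) := by
  rw [am_iso S₀ S φ ψ i ok₀]
  exact dam_N_congr S₀ (fun ω hω _ => ent_iso_holds i ok₀ hCb hLa hLc hLd hLb hω) _

/-- the event of the glue machine is transported -/
theorem ent_iso_event (i : CuIso S₀ S φ ψ) (ok₀ : ∀ y ∈ S₀.C, S₀.sv y ⊆ S₀.A) (Kc₀ : Finset Y₀) {ω : ClCfg V₀ Y₀} (hω : ω ∈ S₀.cfgs)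
    (hj : GlJoinC S₀ (↑Kc₀ ∩ glOn S₀ 1 ω) La₀ Lc₀) :
    GlJoinC S (↑(Kc₀.image ψ) ∩ glOn S 1 (ω.map φ ψ)) (La₀.image φ) (Lc₀.image φ) := by
  have hm : ∀ y, y ∈ (↑Kc₀ ∩ glOn S₀ 1 ω : Set Y₀) → ψ y ∈ (↑(Kc₀.image ψ) ∩ glOn S 1 (ω.map φ ψ) : Set Y) := by
    rintro y ⟨h1, h2, h3⟩
    refine ⟨Finset.mem_coe.2 (Finset.mem_image_of_mem ψ (Finset.mem_coe.1 h1)), ?_, ?_⟩
    · rw [← i.C]
      exact Finset.mem_image_of_mem ψ h2
    · rw [am_iso_tau S₀ S φ ψ i ok₀ ω hω y h2]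
      exact h3
  obtain ⟨y, y', h1, h2, ⟨a, ha, h3⟩, ⟨c, hc, h4⟩, h5⟩ := hj
  refine ⟨ψ y, ψ y', hm y h1, hm y' h2, ⟨φ a, Finset.mem_image_of_mem φ ha, ?_⟩, ⟨φ c, Finset.mem_image_of_mem φ hc, ?_⟩, ?_⟩
  · rw [i.sv y h1.2.1]
    exact Finset.mem_image_of_mem φ h3
  · rw [i.sv y' h2.2.1]
    exact Finset.mem_image_of_mem φ h4
  · clear h2 h4
    induction h5 with
    | refl => exact ReflTransGen.refl
    | @tail b d _ hbd ih =>
      refine ih.tail ⟨⟨?_, ?_⟩, hm b hbd.2.1, hm d hbd.2.2⟩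
      · exact fun e => hbd.1.1 (i.injY (Finset.mem_coe.2 hbd.2.1.2.1) (Finset.mem_coe.2 hbd.2.2.2.1) e)
      · obtain ⟨v, b1, b2⟩ := hbd.1.2
        refine ⟨φ v, ?_, ?_⟩
        · rw [i.sv b hbd.2.1.2.1]
          exact Finset.mem_image_of_mem φ b1
        · rw [i.sv d hbd.2.2.2.1]
          exact Finset.mem_image_of_mem φ b2

/-- **THE ENTRANCE, FROM A REFERENCE STRIP**: `S₀` (e.g. the planar `clAmb x Q₀`) is isomorphic to the closed strip system `S` of the ambient `T`; a bound for the event of the glue machine under the strip law of `S₀`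
passes to the ambient given the record -/
theorem ent_join_iso (i : CuIso S₀ S φ ψ) (ok₀ : ClOk S₀) (hCb : Cb₀ ⊆ S₀.C)
    (hLa : La₀ ⊆ S₀.A) (hLc : Lc₀ ⊆ S₀.A) (hLd : Ld₀ ⊆ S₀.A) (hLb : Lb₀ ⊆ S₀.A)
    (g : EntGeo T S h Q YR (Cb₀.image ψ) (La₀.image φ) (Lc₀.image φ) (Ld₀.image φ) (Lb₀.image φ) Pl Rib)
    (hord : EntOrd T (entSea T h Q YR Pl Rib) h) {Kc₀ : Finset Y₀} (hKc : Kc₀.image ψ ⊆ YR) {c : ℝ}
    (hc : c * S₀.Z ((glH0 S₀ Cb₀ La₀ Lc₀ Ld₀ Lb₀).Holds S₀) ≤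
      S₀.N ((glH0 S₀ Cb₀ La₀ Lc₀ Ld₀ Lb₀).Holds S₀) (glInd (fun ω => GlJoinC S₀ (↑Kc₀ ∩ glOn S₀ 1 ω) La₀ Lc₀))) :
    c * T.Z (h.Holds T) ≤
      2 ^ (((entP2 S (Cb₀.image ψ) (La₀.image φ) (Lc₀.image φ) (Ld₀.image φ) (Lb₀.image φ)).card - 1) + ((entP1 T h Q YR Pl Rib).card - 1)) *
        T.N (h.Holds T) (glInd (fun ω => GlJoinC T (↑(Kc₀.image ψ) ∩ glOn T 1 ω) (La₀.image φ) (Lc₀.image φ))) := by
  refine ent_join g hord hKc ?_
  rw [dis_Z_eq, ent_iso_N i ok₀.sub hCb hLa hLc hLd hLb, ent_iso_N i ok₀.sub hCb hLa hLc hLd hLb, ← dis_Z_eq]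
  refine hc.trans ?_
  unfold ClSys.N
  refine Finset.sum_le_sum fun ω hω => ?_
  split_ifs
  · refine mul_le_mul_of_nonneg_left ?_ (dis_wt_nonneg S₀ ok₀ ω)
    by_cases hj : GlJoinC S₀ (↑Kc₀ ∩ glOn S₀ 1 ω) La₀ Lc₀
    · rw [gl_ind_pos hj]
      exact (gl_ind_pos (L := fun ω => GlJoinC S (↑(Kc₀.image ψ) ∩ glOn S 1 ω) (La₀.image φ) (Lc₀.image φ))
        (ent_iso_event i ok₀.sub Kc₀ hω hj)).ge
    · rw [gl_ind_neg hj]
      exact gl_ind_nonneg _ _
  · exact le_rfl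

end iso

end abstract

end Claimed.Agent.R291
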