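/-
# Row 291 (S0539), unit ANN, block A1, Glue/Ports2 : PORTS BY CLASSES on `ClSys` / `ClCon`      (owner helper116; prefix `prc2_` / `Prc2` / `prc2`)

TEX[annulus:ports]      (09-annulus.tex l.264-284), in the form asked by 55 (`origin/helper55:notes/R291/ann_A1_55_v2.md` Sec. 5 (ii)).

`Ann/PortsCl.lean` pays `2 ^ (|P| - 1)` for a set `P` of ports.   HERE: the second spin is TIED on the ports by the RETAINED ties `ER` (they hold under every retained configuration), the ports fall into `k` classes, the price is `2 ^ (k - 1)`.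
Device: a REROUTING map `ρ : V → V` which sends every port to the representative of its class (`Prc2Cls R ER P P' ρ`, `P'` = the representatives).   In presence of the retained ties an exterior tie `(u, v)` says the same as `(ρ u, ρ v)`;
the rerouted exterior ties touch the retained set on `P'` only, and the counting kit of `Ann/PortsCl` applies verbatim.

* `prc2_chain`      a chain of ties transports the second spin
* `Prc2Cls R ER P P' ρ`;   `prc2_cls_id` (no class: `ρ = id`), `prc2_cls_of_map` (classes given by a map `κ : V → ι`: at most `|κ(P)|` representatives), `prc2_cls_two` (`κ : V → Bool`: at most 2)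
* `prc2_pt` one configuration;   `prc2_core` numerators
* EXITS **`prc2_two`** (two histories of ONE ambient), `prc2_two_gen`, `prc2_two_amb` (two ambients), `prc2_two_k` (with bounds `k₁`, `k₂` on the numbers of classes), `prc2_le`, `prc2_ge` (against the retained closed system)
-/
import Claimed.Agent.R291.Ann.PortsCl

set_option autoImplicit false
set_option linter.unusedSectionVars false
set_option linter.unusedVariables false
set_option linter.unusedSimpArgs false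

namespace Claimed.Agent.R291

open Finset Relation

section Cls

variable {V Y : Type} [DecidableEq V] [DecidableEq Y]

/-! ## 1. Classes of ports -/

/-- one tie, in either direction -/
def Prc2Step (E : Finset (V × V)) (u v : V) : Prop := (u, v) ∈ E ∨ (v, u) ∈ E

/-- a chain of ties transports the second spin -/
theorem prc2_chain {E : Finset (V × V)} {W : Finset V} (h : PrcResp E W) {u v : V} (huv : ReflTransGen (Prc2Step E) u v) : u ∈ W ↔ v ∈ W := by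
  induction huv with
  | refl => exact Iff.rfl
  | tail _ hbc ih =>
    refine ih.trans ?_
    rcases hbc with h1 | h1
    · exact h _ h1
    · exact (h _ h1).symm

/-- rerouting of the ends of the ties -/
def prc2Map (ρ : V → V) (T : Finset (V × V)) : Finset (V × V) := T.image fun e => (ρ e.1, ρ e.2)

/-- **classes of ports**: `ρ` sends a port to the representative of its class, `P'` = the representatives -/
structure Prc2Cls (R : Finset V) (ER : Finset (V × V)) (P P' : Finset V) (ρ : V → V) : Prop where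
  rep : ∀ v ∈ P, ρ v ∈ P'
  fix : ∀ v, v ∉ P → ρ v = v
  sub : P' ⊆ R
  tie : ∀ W, PrcResp ER W → ∀ v ∈ P, (v ∈ W ↔ ρ v ∈ W)

theorem prc2_cls_eqns_cite : True := by
  have := @Prc2Step.eq_1
  have := @prc2Map.eq_1
  trivial

/-- no class -/
theorem prc2_cls_id {R P : Finset V} (ER : Finset (V × V)) (h : P ⊆ R) : Prc2Cls R ER P P id :=
  ⟨fun _ hv => hv, fun _ _ => rfl, h, fun _ _ _ _ => Iff.rfl⟩

/-- the second spin does not see the rerouting -/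
theorem prc2_cls_mem {R P P' : Finset V} {ER : Finset (V × V)} {ρ : V → V} (hc : Prc2Cls R ER P P' ρ) {W : Finset V} (hW : PrcResp ER W) (v : V) :
    v ∈ W ↔ ρ v ∈ W := by
  by_cases hv : v ∈ P
  · exact hc.tie W hW v hv
  · rw [hc.fix v hv]

theorem prc2_resp_map {ρ : V → V} {T : Finset (V × V)} {W : Finset V} (h : ∀ v, v ∈ W ↔ ρ v ∈ W) : PrcResp (prc2Map ρ T) W ↔ PrcResp T W := by
  unfold PrcResp prc2Map
  constructor
  · intro H e he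
    have := H _ (mem_image_of_mem _ he)
    simp only at this
    rw [h e.1, h e.2]; exact this
  · intro H e he
    obtain ⟨e', he', rfl⟩ := mem_image.1 he
    simp only
    rw [← h e'.1, ← h e'.2]; exact H e' he'

open Classical in
/-- classes given by a map `κ`: two ports with the same value of `κ` are joined by a chain of retained ties -/
theorem prc2_cls_of_map {ι : Type} [DecidableEq ι] {R P : Finset V} {ER : Finset (V × V)} (κ : V → ι) (hR : P ⊆ R)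
    (hch : ∀ u ∈ P, ∀ v ∈ P, κ u = κ v → ReflTransGen (Prc2Step ER) u v) :
    ∃ (ρ : V → V) (P' : Finset V), Prc2Cls R ER P P' ρ ∧ P'.card ≤ (P.image κ).card := by
  let g : ι → V → V := fun i d => if h : ∃ u, u ∈ P ∧ κ u = i then h.choose else d
  have hg : ∀ v ∈ P, g (κ v) v ∈ P ∧ κ (g (κ v) v) = κ v := by
    intro v hv
    have h : ∃ u, u ∈ P ∧ κ u = κ v := ⟨v, hv, rfl⟩
    have : g (κ v) v = h.choose := dif_pos h
    rw [this]; exact h.choose_spec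
  have hg2 : ∀ u ∈ P, ∀ v ∈ P, κ u = κ v → g (κ u) u = g (κ v) v := by
    intro u hu v hv huv
    have h : ∃ w, w ∈ P ∧ κ w = κ v := ⟨v, hv, rfl⟩
    have e1 : g (κ v) v = h.choose := dif_pos h
    have e2 : g (κ v) u = h.choose := dif_pos h
    rw [huv, e1, e2]
  let ρ : V → V := fun v => if v ∈ P then g (κ v) v else v
  have hρ : ∀ v ∈ P, ρ v = g (κ v) v := fun v hv => if_pos hv
  refine ⟨ρ, P.image ρ, ⟨fun v hv => mem_image_of_mem _ hv, fun v hv => if_neg hv, ?_, ?_⟩, ?_⟩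
  · intro w hw
    obtain ⟨v, hv, rfl⟩ := mem_image.1 hw
    rw [hρ v hv]; exact hR (hg v hv).1
  · intro W hW v hv
    rw [hρ v hv]
    exact prc2_chain hW (hch v hv _ (hg v hv).1 (hg v hv).2.symm)
  · refine card_le_card_of_injOn κ ?_ ?_
    · intro w hw
      obtain ⟨v, hv, rfl⟩ := mem_image.1 (mem_coe.1 hw)
      rw [hρ v hv, (hg v hv).2]
      exact mem_coe.2 (mem_image_of_mem _ hv)
    · intro a ha b hb hab
      obtain ⟨u, hu, rfl⟩ := mem_image.1 (mem_coe.1 ha)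
      obtain ⟨v, hv, rfl⟩ := mem_image.1 (mem_coe.1 hb)
      rw [hρ u hu, hρ v hv] at hab ⊢
      rw [(hg u hu).2, (hg v hv).2] at hab
      exact hg2 u hu v hv hab

/-- two classes -/
theorem prc2_cls_two {R P : Finset V} {ER : Finset (V × V)} (κ : V → Bool) (hR : P ⊆ R)
    (hch : ∀ u ∈ P, ∀ v ∈ P, κ u = κ v → ReflTransGen (Prc2Step ER) u v) :
    ∃ (ρ : V → V) (P' : Finset V), Prc2Cls R ER P P' ρ ∧ P'.card ≤ 2 := by
  obtain ⟨ρ, P', h1, h2⟩ := prc2_cls_of_map κ hR hch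
  exact ⟨ρ, P', h1, h2.trans (card_le_univ _)⟩

/-! ## 2. One configuration -/

open Classical in
/-- the exterior weight, ties rerouted -/
noncomputable def prc2WX (S : ClSys V Y) (K : ClCon V Y) (R : Finset V) (YR : Finset Y) (ER : Finset (V × V)) (ρ : V → V) (B₂ : Finset V)
    (O₂ : Finset Y) : ℝ :=
  if PrcKX S K R YR B₂ O₂ then (∏ y ∈ S.C \ YR, prcKf (S.q y) (ClConst ((K.Bp ∩ R) ∪ B₂) (S.sv y)) (y ∈ O₂))
    * (prcCnt S.A (prc2Map ρ (prcTie S (S.C \ YR) (K.Eq \ ER) O₂)) : ℝ) else 0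

/-- the exterior constant -/
noncomputable def prc2AX (S : ClSys V Y) (K : ClCon V Y) (R : Finset V) (YR : Finset Y) (ER : Finset (V × V)) (ρ : V → V) : ℝ :=
  ∑ B₂ ∈ (S.A \ R).powerset, ∑ O₂ ∈ (S.C \ YR).powerset, prc2WX S K R YR ER ρ B₂ O₂

theorem prc2_wx_eqns_cite : True := by
  have := @prc2WX.eq_1
  have := @prc2AX.eq_1
  trivial

variable {S : ClSys V Y} {K : ClCon V Y} {R : Finset V} {YR : Finset Y} {ER : Finset (V × V)} {P P' : Finset V} {ρ : V → V}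

theorem prc2_WX_nonneg (hs : PrcSplit S K R YR ER P) (ρ : V → V) (B₂ : Finset V) (O₂ : Finset Y) : 0 ≤ prc2WX S K R YR ER ρ B₂ O₂ := by
  classical
  unfold prc2WX
  split_ifs
  · exact mul_nonneg (prod_nonneg fun y hy => prc_kf_nonneg (hs.q0 y (mem_sdiff.1 hy).1) (hs.q1 y (mem_sdiff.1 hy).1) _ _) (Nat.cast_nonneg _)
  · exact le_rfl

theorem prc2_AX_nonneg (hs : PrcSplit S K R YR ER P) (ρ : V → V) : 0 ≤ prc2AX S K R YR ER ρ :=
  sum_nonneg fun B₂ _ => sum_nonneg fun O₂ _ => prc2_WX_nonneg hs ρ B₂ O₂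

/-- the ties of the ambient, exterior ties rerouted -/
theorem prc2_tie_split (hs : PrcSplit S K R YR ER P) (hc : Prc2Cls R ER P P' ρ) {O₁ O₂ : Finset Y} (hO₁ : O₁ ⊆ YR) (hO₂ : O₂ ⊆ S.C \ YR)
    (W : Finset V) :
    PrcResp (prcTie S S.C K.Eq (O₁ ∪ O₂)) W ↔ PrcResp (prcTie S YR ER O₁ ∪ prc2Map ρ (prcTie S (S.C \ YR) (K.Eq \ ER) O₂)) W := by
  rw [prc_tie_split hs hO₁ hO₂, prc_resp_union, prc_resp_union]
  refine and_congr_right fun h1 => ?_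
  have h2 : PrcResp ER W := ((prc_resp_tie S YR ER O₁ W).1 h1).1
  exact (prc2_resp_map (prc2_cls_mem hc h2)).symm

theorem prc2_tieX_in (hs : PrcSplit S K R YR ER P) (hc : Prc2Cls R ER P P' ρ) (O₂ : Finset Y) :
    ∀ e ∈ prc2Map ρ (prcTie S (S.C \ YR) (K.Eq \ ER) O₂), e.1 ∈ S.A ∧ e.2 ∈ S.A := by
  have key : ∀ v ∈ S.A, ρ v ∈ S.A := by
    intro v hv
    by_cases h : v ∈ P
    · exact hs.RA (hc.sub (hc.rep v h))
    · rw [hc.fix v h]; exact hv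
  intro e he
  obtain ⟨e', he', rfl⟩ := mem_image.1 he
  have := prc_tieX_in hs O₂ e' he'
  exact ⟨key _ this.1, key _ this.2⟩

/-- the rerouted exterior ties touch the retained set at the representatives only -/
theorem prc2_tieX_port (hs : PrcSplit S K R YR ER P) (hc : Prc2Cls R ER P P' ρ) {B₂ : Finset V} {O₂ : Finset Y} (hk : PrcKX S K R YR B₂ O₂) {v : V}
    (hv : PrcTouch (prc2Map ρ (prcTie S (S.C \ YR) (K.Eq \ ER) O₂)) v) (hR : v ∈ R) : v ∈ P' := by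
  have key : ∀ u, PrcTouch (prcTie S (S.C \ YR) (K.Eq \ ER) O₂) u → ρ u ∈ R → ρ u ∈ P' := by
    intro u hu hRu
    by_cases h : u ∈ P
    · exact hc.rep u h
    · rw [hc.fix u h] at hRu
      exact absurd (prc_tieX_port hs hk hu hRu) h
  obtain ⟨e, he, hev⟩ := hv
  obtain ⟨e', he', rfl⟩ := mem_image.1 he
  rcases hev with h | h
  · simp only at h
    rw [← h] at hR ⊢
    exact key _ ⟨e', he', Or.inl rfl⟩ hR
  · simp only at h
    rw [← h] at hR ⊢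
    exact key _ ⟨e', he', Or.inr rfl⟩ hR

/-- **one configuration** -/
theorem prc2_pt (hs : PrcSplit S K R YR ER P) (hc : Prc2Cls R ER P P' ρ) {B₁ B₂ : Finset V} {O₁ O₂ : Finset Y} (hB₁ : B₁ ⊆ R) (hB₂ : B₂ ⊆ S.A \ R)
    (hO₁ : O₁ ⊆ YR) (hO₂ : O₂ ⊆ S.C \ YR) :
    prcW (prcSR S R YR) (prcKR K R YR ER) B₁ O₁ * prc2WX S K R YR ER ρ B₂ O₂ ≤ prcW S K (B₁ ∪ B₂) (O₁ ∪ O₂) * 2 ^ R.card ∧
    prcW S K (B₁ ∪ B₂) (O₁ ∪ O₂) * 2 ^ R.card
      ≤ 2 ^ (P'.card - 1) * (prcW (prcSR S R YR) (prcKR K R YR ER) B₁ O₁ * prc2WX S K R YR ER ρ B₂ O₂) := by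
  classical
  have hsplit := prc_KB_split hs hB₁ hB₂ hO₁ hO₂
  unfold prcW prc2WX
  by_cases c1 : PrcKB (prcKR K R YR ER) (prcSR S R YR) B₁ O₁
  swap
  · rw [if_neg c1, if_neg fun h => c1 (hsplit.1 h).1]; simp
  by_cases c2 : PrcKX S K R YR B₂ O₂
  swap
  · rw [if_neg c2, if_neg fun h => c2 (hsplit.1 h).2]; simp
  rw [if_pos c1, if_pos c2, if_pos (hsplit.2 ⟨c1, c2⟩), prc_kf_split hs hB₁ hB₂ hO₁ hO₂ c1.1 c1.2.1,
    prc_cnt_congr S.A (prc2_tie_split hs hc hO₁ hO₂)]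
  show (∏ y ∈ YR, prcKf (S.q y) (ClConst B₁ (S.sv y)) (y ∈ O₁)) * (prcCnt R (prcTie S YR ER O₁) : ℝ) * _ ≤ _ ∧
    _ ≤ _ * ((∏ y ∈ YR, prcKf (S.q y) (ClConst B₁ (S.sv y)) (y ∈ O₁)) * (prcCnt R (prcTie S YR ER O₁) : ℝ) * _)
  obtain ⟨a, ha⟩ : ∃ a, a = ∏ y ∈ YR, prcKf (S.q y) (ClConst B₁ (S.sv y)) (y ∈ O₁) := ⟨_, rfl⟩
  obtain ⟨b, hb⟩ : ∃ b, b = ∏ y ∈ S.C \ YR, prcKf (S.q y) (ClConst ((K.Bp ∩ R) ∪ B₂) (S.sv y)) (y ∈ O₂) := ⟨_, rfl⟩
  have ha0 : 0 ≤ a := by rw [ha]; exact prod_nonneg fun y hy => prc_kf_nonneg (hs.q0 y (hs.YC hy)) (hs.q1 y (hs.YC hy)) _ _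
  have hb0 : 0 ≤ b := by
    rw [hb]; exact prod_nonneg fun y hy => prc_kf_nonneg (hs.q0 y (mem_sdiff.1 hy).1) (hs.q1 y (mem_sdiff.1 hy).1) _ _
  rw [← ha, ← hb]
  have tR := prc_tieR_in hs O₁
  have tRA : ∀ e ∈ prcTie S YR ER O₁, e.1 ∈ S.A ∧ e.2 ∈ S.A := fun e he => ⟨hs.RA (tR e he).1, hs.RA (tR e he).2⟩
  have tX := prc2_tieX_in hs hc O₂
  have n1 := prc_cnt_mul_le S.A _ _ tRA tX
  have n2 := prc_cnt_port S.A _ _ tRA tX P' (fun v hv1 hv2 => by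
    refine prc2_tieX_port hs hc c2 hv2 ?_
    obtain ⟨e, he, hev⟩ := hv1
    rcases hev with rfl | rfl
    · exact (tR e he).1
    · exact (tR e he).2)
  have n3 := prc_cnt_res hs.RA _ tR
  obtain ⟨nR, hnR⟩ : ∃ n : ℝ, n = prcCnt R (prcTie S YR ER O₁) := ⟨_, rfl⟩
  obtain ⟨nX, hnX⟩ : ∃ n : ℝ, n = prcCnt S.A (prc2Map ρ (prcTie S (S.C \ YR) (K.Eq \ ER) O₂)) := ⟨_, rfl⟩
  obtain ⟨nU, hnU⟩ : ∃ n : ℝ, n = prcCnt S.A (prcTie S YR ER O₁ ∪ prc2Map ρ (prcTie S (S.C \ YR) (K.Eq \ ER) O₂)) := ⟨_, rfl⟩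
  have hcard : (2 : ℝ) ^ S.A.card = 2 ^ (S.A \ R).card * 2 ^ R.card := by
    rw [← pow_add, card_sdiff_add_card_eq_card hs.RA]
  have n1' : (2 : ℝ) ^ (S.A \ R).card * nR * nX ≤ nU * (2 ^ (S.A \ R).card * 2 ^ R.card) := by
    rw [hnR, hnX, hnU, ← n3, ← hcard]; exact_mod_cast n1
  have n2' : nU * ((2 : ℝ) ^ (S.A \ R).card * 2 ^ R.card) ≤ 2 ^ (P'.card - 1) * (2 ^ (S.A \ R).card * nR * nX) := by
    rw [hnR, hnX, hnU, ← n3, ← hcard]; exact_mod_cast n2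
  have hpos : (0 : ℝ) < 2 ^ (S.A \ R).card := by positivity
  have m1 : nR * nX ≤ nU * 2 ^ R.card := by
    refine le_of_mul_le_mul_left ?_ hpos
    calc _ = (2 : ℝ) ^ (S.A \ R).card * nR * nX := by ring
      _ ≤ _ := n1'
      _ = _ := by ring
  have m2 : nU * 2 ^ R.card ≤ 2 ^ (P'.card - 1) * (nR * nX) := by
    refine le_of_mul_le_mul_left ?_ hpos
    calc _ = nU * ((2 : ℝ) ^ (S.A \ R).card * 2 ^ R.card) := by ring
      _ ≤ _ := n2'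
      _ = _ := by ring
  rw [← hnR, ← hnX, ← hnU]
  have hab := mul_nonneg ha0 hb0
  constructor
  · calc a * nR * (b * nX) = a * b * (nR * nX) := by ring
      _ ≤ a * b * (nU * 2 ^ R.card) := mul_le_mul_of_nonneg_left m1 hab
      _ = _ := by ring
  · calc a * b * nU * 2 ^ R.card = a * b * (nU * 2 ^ R.card) := by ring
      _ ≤ a * b * (2 ^ (P'.card - 1) * (nR * nX)) := mul_le_mul_of_nonneg_left m2 hab
      _ = _ := by ring

/-! ## 3. Numerators -/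

/-- **PORTS BY CLASSES, numerators** -/
theorem prc2_core (hs : PrcSplit S K R YR ER P) (hc : Prc2Cls R ER P P' ρ) {G : ClCfg V Y → ℝ} (hG : PrcLoc R YR G) (h0 : ∀ ω, 0 ≤ G ω) :
    prcNR S K R YR ER G * prc2AX S K R YR ER ρ ≤ S.N (K.Holds S) G * 2 ^ R.card ∧
    S.N (K.Holds S) G * 2 ^ R.card ≤ 2 ^ (P'.card - 1) * (prcNR S K R YR ER G * prc2AX S K R YR ER ρ) := by
  have key : ∀ B₁ ∈ R.powerset, ∀ O₁ ∈ YR.powerset,
      prcW (prcSR S R YR) (prcKR K R YR ER) B₁ O₁ * prc2AX S K R YR ER ρ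
        ≤ (∑ B₂ ∈ (S.A \ R).powerset, ∑ O₂ ∈ (S.C \ YR).powerset, prcW S K (B₁ ∪ B₂) (O₁ ∪ O₂)) * 2 ^ R.card ∧
      (∑ B₂ ∈ (S.A \ R).powerset, ∑ O₂ ∈ (S.C \ YR).powerset, prcW S K (B₁ ∪ B₂) (O₁ ∪ O₂)) * 2 ^ R.card
        ≤ 2 ^ (P'.card - 1) * (prcW (prcSR S R YR) (prcKR K R YR ER) B₁ O₁ * prc2AX S K R YR ER ρ) := by
    intro B₁ hB₁ O₁ hO₁
    unfold prc2AX
    constructor
    · rw [mul_sum, sum_mul]
      refine sum_le_sum fun B₂ hB₂ => ?_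
      rw [mul_sum, sum_mul]
      exact sum_le_sum fun O₂ hO₂ =>
        (prc2_pt hs hc (mem_powerset.1 hB₁) (mem_powerset.1 hB₂) (mem_powerset.1 hO₁) (mem_powerset.1 hO₂)).1
    · rw [mul_sum, mul_sum, sum_mul]
      refine sum_le_sum fun B₂ hB₂ => ?_
      rw [mul_sum, mul_sum, sum_mul]
      exact sum_le_sum fun O₂ hO₂ =>
        (prc2_pt hs hc (mem_powerset.1 hB₁) (mem_powerset.1 hB₂) (mem_powerset.1 hO₁) (mem_powerset.1 hO₂)).2
  rw [prc_N_split hs hG, prc_NR_eq S K R YR ER hG]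
  constructor
  · rw [sum_mul, sum_mul]
    refine sum_le_sum fun B₁ hB₁ => ?_
    rw [sum_mul, sum_mul]
    refine sum_le_sum fun O₁ hO₁ => ?_
    calc _ = prcW (prcSR S R YR) (prcKR K R YR ER) B₁ O₁ * prc2AX S K R YR ER ρ * G ⟨B₁, ∅, O₁⟩ := by ring
      _ ≤ _ := mul_le_mul_of_nonneg_right (key B₁ hB₁ O₁ hO₁).1 (h0 _)
      _ = _ := by ring
  · rw [sum_mul, sum_mul, mul_sum]
    refine sum_le_sum fun B₁ hB₁ => ?_
    rw [sum_mul, sum_mul, mul_sum]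
    refine sum_le_sum fun O₁ hO₁ => ?_
    calc _ = (∑ B₂ ∈ (S.A \ R).powerset, ∑ O₂ ∈ (S.C \ YR).powerset, prcW S K (B₁ ∪ B₂) (O₁ ∪ O₂)) * 2 ^ R.card * G ⟨B₁, ∅, O₁⟩ := by
          ring
      _ ≤ _ := mul_le_mul_of_nonneg_right (key B₁ hB₁ O₁ hO₁).2 (h0 _)
      _ = _ := by ring

/-! ## 4. Exits -/

/-- **PORTS BY CLASSES, two histories / two ambients** with the same retained numerators -/
theorem prc2_two_gen {S₁ S₂ : ClSys V Y} {K₁ K₂ : ClCon V Y} {P₁ P₂ P₁' P₂' : Finset V} {ρ₁ ρ₂ : V → V} (h₁ : PrcSplit S₁ K₁ R YR ER P₁)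
    (h₂ : PrcSplit S₂ K₂ R YR ER P₂) (c₁ : Prc2Cls R ER P₁ P₁' ρ₁) (c₂ : Prc2Cls R ER P₂ P₂' ρ₂)
    (hN : ∀ G, PrcLoc R YR G → prcNR S₁ K₁ R YR ER G = prcNR S₂ K₂ R YR ER G)
    {F : ClCfg V Y → ℝ} (hF : PrcLoc R YR F) (h0 : ∀ ω, 0 ≤ F ω) :
    S₁.N (K₁.Holds S₁) F * S₂.Z (K₂.Holds S₂)
      ≤ 2 ^ ((P₁'.card - 1) + (P₂'.card - 1)) * (S₁.Z (K₁.Holds S₁) * S₂.N (K₂.Holds S₂) F) := by
  have o0 : ∀ ω : ClCfg V Y, (0 : ℝ) ≤ (fun _ => 1) ω := fun _ => zero_le_one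
  have a1 := prc2_core h₁ c₁ hF h0
  have a2 := prc2_core h₁ c₁ prc_loc_one o0
  have b1 := prc2_core h₂ c₂ hF h0
  have b2 := prc2_core h₂ c₂ prc_loc_one o0
  rw [← hN F hF] at b1
  rw [← hN _ prc_loc_one] at b2
  rw [dis_Z_eq, dis_Z_eq, pow_add]
  exact prc_cross_alg (by positivity) (by positivity) (by positivity) (prc_NR_nonneg h₁ hF h0) (prc_NR_nonneg h₁ prc_loc_one o0)
    (prc2_AX_nonneg h₁ ρ₁) (prc2_AX_nonneg h₂ ρ₂) (prc_N_nonneg h₂ prc_loc_one o0) a1.2 a2.1 b2.2 b1.1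

/-- **PORTS BY CLASSES, two histories of ONE ambient** -/
theorem prc2_two {K₁ K₂ : ClCon V Y} {P₁ P₂ P₁' P₂' : Finset V} {ρ₁ ρ₂ : V → V} (h₁ : PrcSplit S K₁ R YR ER P₁) (h₂ : PrcSplit S K₂ R YR ER P₂)
    (c₁ : Prc2Cls R ER P₁ P₁' ρ₁) (c₂ : Prc2Cls R ER P₂ P₂' ρ₂)
    (hBp : K₁.Bp ∩ R = K₂.Bp ∩ R) (hBm : K₁.Bm ∩ R = K₂.Bm ∩ R) (hOp : K₁.Op ∩ YR = K₂.Op ∩ YR) (hOm : K₁.Om ∩ YR = K₂.Om ∩ YR)
    (hCl : K₁.Cl ∩ YR = K₂.Cl ∩ YR) {F : ClCfg V Y → ℝ} (hF : PrcLoc R YR F) (h0 : ∀ ω, 0 ≤ F ω) :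
    S.N (K₁.Holds S) F * S.Z (K₂.Holds S) ≤ 2 ^ ((P₁'.card - 1) + (P₂'.card - 1)) * (S.Z (K₁.Holds S) * S.N (K₂.Holds S) F) := by
  refine prc2_two_gen h₁ h₂ c₁ c₂ (fun G _ => ?_) hF h0
  unfold prcNR prcKR
  rw [hBp, hBm, hOp, hOm, hCl]

/-- **PORTS BY CLASSES, two ambients** which agree on the retained cells -/
theorem prc2_two_amb {S₁ S₂ : ClSys V Y} {K₁ K₂ : ClCon V Y} {P₁ P₂ P₁' P₂' : Finset V} {ρ₁ ρ₂ : V → V} (h₁ : PrcSplit S₁ K₁ R YR ER P₁)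
    (h₂ : PrcSplit S₂ K₂ R YR ER P₂) (c₁ : Prc2Cls R ER P₁ P₁' ρ₁) (c₂ : Prc2Cls R ER P₂ P₂' ρ₂)
    (hsv : ∀ y ∈ YR, S₁.sv y = S₂.sv y) (hq : ∀ y ∈ YR, S₁.q y = S₂.q y)
    (hK : prcKR K₁ R YR ER = prcKR K₂ R YR ER) {F : ClCfg V Y → ℝ} (hF : PrcLoc R YR F) (h0 : ∀ ω, 0 ≤ F ω) :
    S₁.N (K₁.Holds S₁) F * S₂.Z (K₂.Holds S₂)
      ≤ 2 ^ ((P₁'.card - 1) + (P₂'.card - 1)) * (S₁.Z (K₁.Holds S₁) * S₂.N (K₂.Holds S₂) F) :=
  prc2_two_gen h₁ h₂ c₁ c₂ (fun _ hG => prc_NR_congr hsv hq hK hG) hF h0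

/-- the form with bounds on the numbers of classes: classes of the ports of `Kᵢ` given by `κᵢ`, at most `kᵢ` values -/
theorem prc2_two_k {ι₁ ι₂ : Type} [DecidableEq ι₁] [DecidableEq ι₂] {K₁ K₂ : ClCon V Y} {P₁ P₂ : Finset V} (h₁ : PrcSplit S K₁ R YR ER P₁)
    (h₂ : PrcSplit S K₂ R YR ER P₂) (hP₁ : P₁ ⊆ R) (hP₂ : P₂ ⊆ R) (κ₁ : V → ι₁) (κ₂ : V → ι₂)
    (ch₁ : ∀ u ∈ P₁, ∀ v ∈ P₁, κ₁ u = κ₁ v → ReflTransGen (Prc2Step ER) u v)
    (ch₂ : ∀ u ∈ P₂, ∀ v ∈ P₂, κ₂ u = κ₂ v → ReflTransGen (Prc2Step ER) u v)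
    (k₁ k₂ : ℕ) (hk₁ : (P₁.image κ₁).card ≤ k₁) (hk₂ : (P₂.image κ₂).card ≤ k₂)
    (hBp : K₁.Bp ∩ R = K₂.Bp ∩ R) (hBm : K₁.Bm ∩ R = K₂.Bm ∩ R) (hOp : K₁.Op ∩ YR = K₂.Op ∩ YR) (hOm : K₁.Om ∩ YR = K₂.Om ∩ YR)
    (hCl : K₁.Cl ∩ YR = K₂.Cl ∩ YR) {F : ClCfg V Y → ℝ} (hF : PrcLoc R YR F) (h0 : ∀ ω, 0 ≤ F ω) :
    S.N (K₁.Holds S) F * S.Z (K₂.Holds S) ≤ 2 ^ ((k₁ - 1) + (k₂ - 1)) * (S.Z (K₁.Holds S) * S.N (K₂.Holds S) F) := by
  obtain ⟨ρ₁, P₁', c₁, d₁⟩ := prc2_cls_of_map κ₁ hP₁ ch₁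
  obtain ⟨ρ₂, P₂', c₂, d₂⟩ := prc2_cls_of_map κ₂ hP₂ ch₂
  have o0 : ∀ ω : ClCfg V Y, (0 : ℝ) ≤ (fun _ => 1) ω := fun _ => zero_le_one
  refine (prc2_two h₁ h₂ c₁ c₂ hBp hBm hOp hOm hCl hF h0).trans ?_
  refine mul_le_mul_of_nonneg_right (pow_le_pow_right₀ (by norm_num) (by omega)) ?_
  refine mul_nonneg ?_ (prc_N_nonneg h₂ hF h0)
  rw [dis_Z_eq]; exact prc_N_nonneg h₁ prc_loc_one o0

/-- algebra of the upper bound against the retained closed system -/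
theorem prc2_alg_le {n z nR zR a c c₁ : ℝ} (hc : 0 < c) (ha : 0 ≤ a) (hc₁ : 0 ≤ c₁) (hn : 0 ≤ n) (hz : 0 ≤ z) (hnR : 0 ≤ nR) (hzR : 0 ≤ zR)
    (e1 : n * c ≤ c₁ * (nR * a)) (e2 : zR * a ≤ z * c) : n * zR ≤ c₁ * (nR * z) := by
  rcases ha.eq_or_lt with h | h
  · rw [← h] at e1
    have h5 : n * c ≤ 0 := by simpa using e1
    have h7 : n * c = 0 := le_antisymm h5 (mul_nonneg hn hc.le)
    rw [(mul_eq_zero.1 h7).resolve_right hc.ne', zero_mul]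
    exact mul_nonneg hc₁ (mul_nonneg hnR hz)
  · refine le_of_mul_le_mul_right ?_ (mul_pos hc h)
    calc n * zR * (c * a) = (n * c) * (zR * a) := by ring
      _ ≤ (c₁ * (nR * a)) * (zR * a) := mul_le_mul_of_nonneg_right e1 (mul_nonneg hzR ha)
      _ ≤ (c₁ * (nR * a)) * (z * c) := mul_le_mul_of_nonneg_left e2 (mul_nonneg hc₁ (mul_nonneg hnR ha))
      _ = c₁ * (nR * z) * (c * a) := by ring

/-- algebra of the lower bound against the retained closed system -/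
theorem prc2_alg_ge {n z nR zR a c c₁ : ℝ} (hc : 0 < c) (ha : 0 ≤ a) (hc₁ : 0 ≤ c₁) (hn : 0 ≤ n) (hz : 0 ≤ z) (hnR : 0 ≤ nR) (hzR : 0 ≤ zR)
    (e1 : nR * a ≤ n * c) (e2 : z * c ≤ c₁ * (zR * a)) : nR * z ≤ c₁ * (n * zR) := by
  rcases ha.eq_or_lt with h | h
  · rw [← h] at e2
    have h5 : z * c ≤ 0 := by simpa using e2
    have h7 : z * c = 0 := le_antisymm h5 (mul_nonneg hz hc.le)
    rw [(mul_eq_zero.1 h7).resolve_right hc.ne', mul_zero]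
    exact mul_nonneg hc₁ (mul_nonneg hn hzR)
  · refine le_of_mul_le_mul_right ?_ (mul_pos hc h)
    calc nR * z * (c * a) = (nR * a) * (z * c) := by ring
      _ ≤ (n * c) * (z * c) := mul_le_mul_of_nonneg_right e1 (mul_nonneg hz hc.le)
      _ ≤ (n * c) * (c₁ * (zR * a)) := mul_le_mul_of_nonneg_left e2 (mul_nonneg hn hc.le)
      _ = c₁ * (n * zR) * (c * a) := by ring

/-- **PORTS BY CLASSES, ambient against the retained closed system**, cross-multiplied, upper bound -/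
theorem prc2_le (hs : PrcSplit S K R YR ER P) (hc : Prc2Cls R ER P P' ρ) {G : ClCfg V Y → ℝ} (hG : PrcLoc R YR G) (h0 : ∀ ω, 0 ≤ G ω) :
    S.N (K.Holds S) G * prcNR S K R YR ER (fun _ => 1) ≤ 2 ^ (P'.card - 1) * (prcNR S K R YR ER G * S.Z (K.Holds S)) := by
  have o0 : ∀ ω : ClCfg V Y, (0 : ℝ) ≤ (fun _ => 1) ω := fun _ => zero_le_one
  rw [dis_Z_eq]
  exact prc2_alg_le (c := 2 ^ R.card) (by positivity) (prc2_AX_nonneg hs ρ) (by positivity) (prc_N_nonneg hs hG h0) (prc_N_nonneg hs prc_loc_one o0)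
    (prc_NR_nonneg hs hG h0) (prc_NR_nonneg hs prc_loc_one o0) (prc2_core hs hc hG h0).2 (prc2_core hs hc prc_loc_one o0).1

/-- **PORTS BY CLASSES, ambient against the retained closed system**, cross-multiplied, lower bound -/
theorem prc2_ge (hs : PrcSplit S K R YR ER P) (hc : Prc2Cls R ER P P' ρ) {G : ClCfg V Y → ℝ} (hG : PrcLoc R YR G) (h0 : ∀ ω, 0 ≤ G ω) :
    prcNR S K R YR ER G * S.Z (K.Holds S) ≤ 2 ^ (P'.card - 1) * (S.N (K.Holds S) G * prcNR S K R YR ER (fun _ => 1)) := by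
  have o0 : ∀ ω : ClCfg V Y, (0 : ℝ) ≤ (fun _ => 1) ω := fun _ => zero_le_one
  rw [dis_Z_eq]
  exact prc2_alg_ge (c := 2 ^ R.card) (by positivity) (prc2_AX_nonneg hs ρ) (by positivity) (prc_N_nonneg hs hG h0) (prc_N_nonneg hs prc_loc_one o0)
    (prc_NR_nonneg hs hG h0) (prc_NR_nonneg hs prc_loc_one o0) (prc2_core hs hc hG h0).1 (prc2_core hs hc prc_loc_one o0).2

end Cls

end Claimed.Agent.R291
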