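import Claimed.Agent.R291.Glue.Place
import Claimed.Agent.R291.Glue.Ports2

/-!
# Row 291 (S0539), unit ANN, block A1, Glue/Mid : LEMMA B, STEP 2 : ONE GOOD CLUSTER      (owner helper62; prefix `glm_` / `glm`)

TEX[annulus:straight-short] TEX[annulus:gluing] TEX[annulus:ports] TEX[annulus:plus-equalities];   design: `origin/helper55:notes/R291/ann_A1_55_v2.md` Sec. 5, Step 2 (i)-(v).
-/

set_option autoImplicit false
set_option linter.unusedSectionVars false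
set_option linter.unusedVariables false

namespace Claimed.Agent.R291

open Relation

section abstract

variable {V Y V' Y' : Type} [DecidableEq V] [DecidableEq Y] [DecidableEq V'] [DecidableEq Y']

/-! ### A. the domain `D0`, its ports -/

open Classical in
/-- the component of `k` in `S.A \ C` -/
noncomputable def glmD (S : ClSys V Y) (C : Finset V) (k : V) : Finset V :=
  S.A.filter (fun v => v ∈ tscComp S.gr (↑S.A \ ↑C : Set V) k)

open Classical in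
/-- the ports: the sites of the component which touch `C` -/
noncomputable def glmPo (S : ClSys V Y) (C : Finset V) (k : V) : Finset V :=
  (glmD S C k).filter (fun v => ∃ c ∈ C, S.gr.Adj c v)

theorem glm_mem_D (S : ClSys V Y) (C : Finset V) (k v : V) : v ∈ glmD S C k ↔ v ∈ tscComp S.gr (↑S.A \ ↑C : Set V) k := by
  classical
  unfold glmD
  rw [Finset.mem_filter]
  exact ⟨fun h => h.2, fun h => ⟨Finset.mem_coe.1 h.1.1, h⟩⟩

theorem glm_D_coe (S : ClSys V Y) (C : Finset V) (k : V) : (↑(glmD S C k) : Set V) = tscComp S.gr (↑S.A \ ↑C : Set V) k := by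
  ext v
  rw [Finset.mem_coe, glm_mem_D]

theorem glm_D_sub (S : ClSys V Y) (C : Finset V) (k : V) : glmD S C k ⊆ S.A :=
  fun v hv => Finset.mem_coe.1 ((glm_mem_D S C k v).1 hv).1.1

theorem glm_D_not (S : ClSys V Y) (C : Finset V) (k : V) {v : V} (hv : v ∈ glmD S C k) : v ∉ C :=
  fun h => ((glm_mem_D S C k v).1 hv).1.2 (Finset.mem_coe.2 h)

theorem glm_D_adj (S : ClSys V Y) (C : Finset V) (k : V) {v w : V} (hv : v ∈ glmD S C k) (hw : w ∈ S.A) (hwC : w ∉ C) (h : S.gr.Adj v w) :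
    w ∈ glmD S C k :=
  (glm_mem_D S C k w).2 (tsc_comp_adj ((glm_mem_D S C k v).1 hv) ⟨Finset.mem_coe.2 hw, fun h' => hwC (Finset.mem_coe.1 h')⟩ h)

theorem glm_mem_Po (S : ClSys V Y) (C : Finset V) (k v : V) : v ∈ glmPo S C k ↔ v ∈ glmD S C k ∧ ∃ c ∈ C, S.gr.Adj c v := by
  classical
  unfold glmPo
  exact Finset.mem_filter

theorem glm_Po_sub (S : ClSys V Y) (C : Finset V) (k : V) : glmPo S C k ⊆ glmD S C k := fun v hv => ((glm_mem_Po S C k v).1 hv).1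

/-- a connected set which misses `C` and contains `k` lies in the component -/
theorem glm_K_sub (S : ClSys V Y) (C K : Finset V) (k : V) (hk : k ∈ K) (hKA : K ⊆ S.A) (hKC : ∀ v ∈ K, v ∉ C) (hK : TscConn S.gr (↑K : Set V)) :
    K ⊆ glmD S C k := by
  intro v hv
  have hsub : (↑K : Set V) ⊆ ↑S.A \ ↑C := fun w hw => ⟨Finset.mem_coe.2 (hKA (Finset.mem_coe.1 hw)), fun h => hKC w (Finset.mem_coe.1 hw) (Finset.mem_coe.1 h)⟩
  exact (glm_mem_D S C k v).2 ⟨hsub (Finset.mem_coe.2 hv), tsc_R_mono hsub (hK k (Finset.mem_coe.2 hk) v (Finset.mem_coe.2 hv))⟩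

/-- a neighbour, off the component, of a site of the component lies in `C` -/
theorem glm_nb (S : ClSys V Y) (C : Finset V) (k : V) {v u : V} (hv : v ∈ glmD S C k) (hu : u ∈ S.A) (huD : u ∉ glmD S C k) (h : S.gr.Adj v u) : u ∈ C := by
  by_contra hC
  exact huD (glm_D_adj S C k hv hu hC h)

/-- a cell which is not inside the component meets it in the ports only -/
theorem glm_cell (S : ClSys V Y) (hS : ClOk S) (C : Finset V) (k : V) {y : Y} (hy : y ∈ S.C) (hn : ¬ S.sv y ⊆ glmD S C k) {v : V} (hv : v ∈ S.sv y)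
    (hvD : v ∈ glmD S C k) : v ∈ glmPo S C k := by
  obtain ⟨u, hu, huD⟩ := Finset.not_subset.1 hn
  have hne : v ≠ u := fun h => huD (h ▸ hvD)
  have hadj : S.gr.Adj v u := ⟨hne, y, hy, hv, hu⟩
  exact (glm_mem_Po S C k v).2 ⟨hvD, u, glm_nb S C k hvD (hS.sub y hy hu) huD hadj, hadj.symm⟩

theorem glm_Po_bdy (S : ClSys V Y) (C : Finset V) (k : V) : glBdy S C ∩ glmD S C k = glmPo S C k := by
  classical
  ext v
  rw [Finset.mem_inter, glm_mem_Po]
  unfold glBdy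
  rw [Finset.mem_filter]
  constructor
  · rintro ⟨⟨_, _, h⟩, hD⟩; exact ⟨hD, h⟩
  · rintro ⟨hD, h⟩; exact ⟨⟨glm_D_sub S C k hD, glm_D_not S C k hD, h⟩, hD⟩

/-- two adjacent ports are tied -/
theorem glm_tie_adj (S : ClSys V Y) (Po : Finset V) {a b : V} (ha : a ∈ Po) (hb : b ∈ Po) (h : S.gr.Adj a b) : (a, b) ∈ glTie S Po := by
  unfold glTie
  rw [Finset.mem_filter, Finset.mem_product]
  exact ⟨⟨ha, hb⟩, h.2⟩

/-- **the ports which touch one exterior component are chained by ties** (Timar) -/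
theorem glm_chain (S : ClSys V Y) (hsc : S.SC) (C : Finset V) (k x : V) {p p' : V}
    (hp : p ∈ glmD S C k ∧ ∃ d ∈ tscComp S.gr (↑S.A \ ↑(glmD S C k) : Set V) x, S.gr.Adj d p)
    (hp' : p' ∈ glmD S C k ∧ ∃ d ∈ tscComp S.gr (↑S.A \ ↑(glmD S C k) : Set V) x, S.gr.Adj d p') :
    ReflTransGen (Prc2Step (glTie S (glmPo S C k))) p p' := by
  have hDs : (↑(glmD S C k) : Set V) ⊆ ↑S.A := Finset.coe_subset.2 (glm_D_sub S C k)
  have hDc : TscConn S.gr (↑(glmD S C k) : Set V) := by rw [glm_D_coe]; exact tsc_comp_conn k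
  have ht := tsc_timar_in hsc hDs hDc x
  have hT : ∀ a, a ∈ {c | c ∈ (↑(glmD S C k) : Set V) ∧ ∃ d ∈ tscComp S.gr (↑S.A \ ↑(glmD S C k) : Set V) x, S.gr.Adj d c} → a ∈ glmPo S C k := by
    rintro a ⟨ha, d, hd, hda⟩
    have ha' : a ∈ glmD S C k := Finset.mem_coe.1 ha
    exact (glm_mem_Po S C k a).2 ⟨ha', d, glm_nb S C k ha' (Finset.mem_coe.1 hd.1.1) (fun h => hd.1.2 (Finset.mem_coe.2 h)) hda.symm, hda⟩
  have hR := ht p ⟨Finset.mem_coe.2 hp.1, hp.2⟩ p' ⟨Finset.mem_coe.2 hp'.1, hp'.2⟩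
  refine ReflTransGen.mono (fun a b hab => ?_) _ _ hR
  exact Or.inl (glm_tie_adj S _ (hT a hab.2.1) (hT b hab.2.2) hab.1)

/-- a path of the cluster stays in the cluster -/
theorem glm_clu_R (S : ClSys V Y) (E : Finset V) (ω₀ : ClCfg V Y) {u c : V} (hu : u ∈ E) (h : TscR S.gr (↑S.A \ ↑ω₀.B : Set V) u c) :
    TscR S.gr (↑(glClu S E ω₀) : Set V) u c := by
  induction h with
  | refl => exact ReflTransGen.refl
  | @tail b c hab hbc ih =>
    have hb : b ∈ glClu S E ω₀ := (gl_mem_clu S E ω₀ b).2 ⟨Finset.mem_coe.1 hbc.2.1.1, u, hu, hab⟩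
    have hc : c ∈ glClu S E ω₀ := (gl_mem_clu S E ω₀ c).2 ⟨Finset.mem_coe.1 hbc.2.2.1, u, hu, hab.tail hbc⟩
    exact ih.tail ⟨hbc.1, Finset.mem_coe.2 hb, Finset.mem_coe.2 hc⟩

theorem glm_clu_sub (S : ClSys V Y) (E : Finset V) (ω₀ : ClCfg V Y) : glClu S E ω₀ ⊆ S.A := fun v hv => ((gl_mem_clu S E ω₀ v).1 hv).1

/-- the port `p` touches the part of `C` which hangs on `L` -/
def GlmT (S : ClSys V Y) (C L : Finset V) (p : V) : Prop := ∃ c ∈ C, S.gr.Adj c p ∧ ∃ u ∈ L, TscR S.gr (↑C : Set V) u c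

/-- the ports which touch the part of `C` hanging on a connected set `L ⊆ C` are chained -/
theorem glm_chain_L (S : ClSys V Y) (hsc : S.SC) (C : Finset V) (hCA : C ⊆ S.A) (k : V) (L : Finset V) (hL : L ⊆ C) (hLc : TscConn S.gr (↑L : Set V))
    {p p' : V} (hp : p ∈ glmPo S C k) (hp' : p' ∈ glmPo S C k) (ht : GlmT S C L p) (ht' : GlmT S C L p') :
    ReflTransGen (Prc2Step (glTie S (glmPo S C k))) p p' := by
  obtain ⟨c, hc, hcp, u, hu, huc⟩ := ht
  obtain ⟨c', hc', hcp', u', hu', huc'⟩ := ht'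
  have hsub : (↑C : Set V) ⊆ ↑S.A \ ↑(glmD S C k) := fun w hw =>
    ⟨Finset.mem_coe.2 (hCA (Finset.mem_coe.1 hw)), fun h => glm_D_not S C k (Finset.mem_coe.1 h) (Finset.mem_coe.1 hw)⟩
  have hLsub : (↑L : Set V) ⊆ ↑S.A \ ↑(glmD S C k) := fun w hw => hsub (Finset.mem_coe.2 (hL (Finset.mem_coe.1 hw)))
  refine glm_chain S hsc C k u ⟨glm_Po_sub S C k hp, c, ⟨hsub (Finset.mem_coe.2 hc), tsc_R_mono hsub huc⟩, hcp⟩
    ⟨glm_Po_sub S C k hp', c', ⟨hsub (Finset.mem_coe.2 hc'), ?_⟩, hcp'⟩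
  exact tsc_R_trans (tsc_R_mono hLsub (hLc u (Finset.mem_coe.2 hu) u' (Finset.mem_coe.2 hu'))) (tsc_R_mono hsub huc')

/-- **TWO CLASSES OF PORTS** -/
theorem glm_classes (S : ClSys V Y) (Cb : Finset Y) (La Lc Ld Lb : Finset V) (hS : GlStrip S Cb La Lc Ld Lb) (ω₀ : ClCfg V Y) (k : V) :
    ∃ κ : V → Bool, ∀ u ∈ glmPo S (glClu S (glEnd La Lc Ld Lb) ω₀) k, ∀ v ∈ glmPo S (glClu S (glEnd La Lc Ld Lb) ω₀) k, κ u = κ v →
      ReflTransGen (Prc2Step (glTie S (glmPo S (glClu S (glEnd La Lc Ld Lb) ω₀) k))) u v := by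
  classical
  set E := glEnd La Lc Ld Lb with hE
  set C := glClu S E ω₀ with hC
  have hEA : E ⊆ S.A := by
    intro v hv
    rcases Finset.mem_union.1 (Finset.mem_sdiff.1 hv).1 with h | h
    · exact hS.ld h
    · exact hS.lb h
  have hEC : E ⊆ C := fun v hv => (gl_mem_clu S E ω₀ v).2 ⟨hEA hv, v, hv, ReflTransGen.refl⟩
  have hd : Ld \ (La ∪ Lc) ⊆ C := fun v hv => hEC (Finset.mem_sdiff.2 ⟨Finset.mem_union_left _ (Finset.mem_sdiff.1 hv).1, (Finset.mem_sdiff.1 hv).2⟩)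
  have hb : Lb \ (La ∪ Lc) ⊆ C := fun v hv => hEC (Finset.mem_sdiff.2 ⟨Finset.mem_union_right _ (Finset.mem_sdiff.1 hv).1, (Finset.mem_sdiff.1 hv).2⟩)
  have hor : ∀ p ∈ glmPo S C k, GlmT S C (Ld \ (La ∪ Lc)) p ∨ GlmT S C (Lb \ (La ∪ Lc)) p := by
    intro p hp
    obtain ⟨_, c, hc, hcp⟩ := (glm_mem_Po S C k p).1 hp
    obtain ⟨_, u, hu, huc⟩ := (gl_mem_clu S E ω₀ c).1 hc
    have hR := glm_clu_R S E ω₀ hu huc
    obtain ⟨hu1, hu2⟩ := Finset.mem_sdiff.1 hu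
    rcases Finset.mem_union.1 hu1 with h | h
    · exact Or.inl ⟨c, hc, hcp, u, Finset.mem_sdiff.2 ⟨h, hu2⟩, hR⟩
    · exact Or.inr ⟨c, hc, hcp, u, Finset.mem_sdiff.2 ⟨h, hu2⟩, hR⟩
  refine ⟨fun p => decide (GlmT S C (Ld \ (La ∪ Lc)) p), fun u hu v hv huv => ?_⟩
  beta_reduce at huv
  by_cases h : GlmT S C (Ld \ (La ∪ Lc)) u
  · have h' : GlmT S C (Ld \ (La ∪ Lc)) v := by
      have : decide (GlmT S C (Ld \ (La ∪ Lc)) v) = true := by rw [← huv]; exact decide_eq_true h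
      exact of_decide_eq_true this
    exact glm_chain_L S hS.sc C (glm_clu_sub S E ω₀) k _ hd hS.dconn hu hv h h'
  · have h' : ¬ GlmT S C (Ld \ (La ∪ Lc)) v := by
      have : decide (GlmT S C (Ld \ (La ∪ Lc)) v) = false := by rw [← huv]; exact decide_eq_false h
      exact of_decide_eq_false this
    exact glm_chain_L S hS.sc C (glm_clu_sub S E ω₀) k _ hb hS.bconn hu hv ((hor u hu).resolve_left h) ((hor v hv).resolve_left h')

/-! ### B. the strip side: ties along the ports, the exterior freed -/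

/-- the cluster history with the ports tied -/
noncomputable def glmH1 (S : ClSys V Y) (Cb : Finset Y) (La Lc Ld Lb C Po : Finset V) : ClCon V Y :=
  { glHC S Cb La Lc Ld Lb C with Eq := glTie S Po }

/-- the freed history `H⁺`: plus on the two sides and on the ports, the ports tied, the boundary cells on the sides open-plus; nothing else -/
def glmHp (S : ClSys V Y) (Cb : Finset Y) (La Lc Po : Finset V) : ClCon V Y :=
  ⟨La ∪ Lc ∪ Po, ∅, glTie S Po, Cb.filter (fun y => S.sv y ⊆ La ∪ Lc), ∅, ∅, ∅, ∅⟩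

theorem glm_tie_mem (S : ClSys V Y) (Po : Finset V) (e : V × V) : e ∈ glTie S Po ↔ (e.1 ∈ Po ∧ e.2 ∈ Po) ∧ ∃ y ∈ S.C, e.1 ∈ S.sv y ∧ e.2 ∈ S.sv y := by
  unfold glTie
  rw [Finset.mem_filter, Finset.mem_product]

theorem glm_HC_full (S : ClSys V Y) (Cb : Finset Y) (La Lc Ld Lb C : Finset V) (hE : glEnd La Lc Ld Lb ⊆ C) (y : Y)
    (hy : y ∈ (glHC S Cb La Lc Ld Lb C).Op ∪ (glHC S Cb La Lc Ld Lb C).Om ∪ (glHC S Cb La Lc Ld Lb C).Cl) :
    S.sv y ⊆ (glHC S Cb La Lc Ld Lb C).Bp ∪ (glHC S Cb La Lc Ld Lb C).Bm := by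
  simp only [glHC, glH0, Finset.union_empty, Finset.mem_union, Finset.mem_filter] at hy
  rcases hy with hy | hy
  · exact fun v hv => Finset.mem_union_left _ (Finset.mem_union_left _ (hy.2 hv))
  · exact fun v hv => Finset.mem_union_right _ (hE (hy.2 hv))

/-- **(i)** the ties along the ports lower -/
theorem glm_step1 (S : ClSys V Y) (hS : ClDisk S) (Cb : Finset Y) (La Lc Ld Lb C Po : Finset V) (hE : glEnd La Lc Ld Lb ⊆ C) (hPo : Po ⊆ glBdy S C)
    (F : ClCfg V Y → ℝ) (hF : ClMono S F) :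
    S.N ((glmH1 S Cb La Lc Ld Lb C Po).Holds S) F * S.Z ((glHC S Cb La Lc Ld Lb C).Holds S) ≤
      S.Z ((glmH1 S Cb La Lc Ld Lb C Po).Holds S) * S.N ((glHC S Cb La Lc Ld Lb C).Holds S) F := by
  refine am_order_eq S hS (glmH1 S Cb La Lc Ld Lb C Po) (glHC S Cb La Lc Ld Lb C) ⟨rfl, rfl, fun y _ hy => glm_HC_full S Cb La Lc Ld Lb C hE y hy⟩
    ⟨rfl, rfl, fun y _ hy => glm_HC_full S Cb La Lc Ld Lb C hE y hy⟩ ?_ F hF
  refine ⟨subset_rfl, subset_rfl, subset_rfl, subset_rfl, Finset.subset_union_left, Finset.subset_union_left, fun e he => Or.inr ?_, fun e he => ?_⟩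
  · obtain ⟨⟨h1, h2⟩, y, hy, h3, h4⟩ := (glm_tie_mem S Po e).1 he
    have hB : ∀ v ∈ Po, v ∈ (↑(glmH1 S Cb La Lc Ld Lb C Po).Bp : Set V) := fun v hv =>
      Finset.mem_coe.2 (Finset.mem_union_right _ (hPo hv))
    by_cases hne : e.1 = e.2
    · rw [hne]; exact ReflTransGen.refl
    · exact tsc_R_step ⟨hne, y, hy, h3, h4⟩ (hB _ h1) (hB _ h2)
  · simp [glHC, glH0] at he

/-- the two histories split along the ports -/
theorem glm_split (S : ClSys V Y) (hS : ClOk S) (C : Finset V) (k : V) (H : ClCon V Y) (hEq : H.Eq = glTie S (glmPo S C k)) (hBp : glmPo S C k ⊆ H.Bp)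
    (hwp : H.Wp = ∅) (hwm : H.Wm = ∅) :
    PrcSplit S H (glmD S C k) (S.cin (glmD S C k)) (glTie S (glmPo S C k)) (glmPo S C k) where
  RA := glm_D_sub S C k
  YC := Finset.filter_subset _ _
  sub := hS.sub
  q0 := fun y hy => (hS.q0 y hy).le
  q1 := hS.q1
  cellR := fun y hy => (Finset.mem_filter.1 hy).2
  pinX := fun y hy hn v hv => by
    obtain ⟨h1, h2⟩ := Finset.mem_inter.1 hv
    exact Finset.mem_union_left _ (hBp (glm_cell S hS C k hy (fun h => hn (Finset.mem_filter.2 ⟨hy, h⟩)) h1 h2))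
  portC := fun y hy hn => Or.inr fun v hv => by
    obtain ⟨h1, h2⟩ := Finset.mem_inter.1 hv
    exact glm_cell S hS C k hy (fun h => hn (Finset.mem_filter.2 ⟨hy, h⟩)) h1 h2
  eqR := hEq ▸ subset_rfl
  eqR_in := fun e he => by
    obtain ⟨⟨h1, h2⟩, _⟩ := (glm_tie_mem S _ e).1 he
    exact ⟨glm_Po_sub S C k h1, glm_Po_sub S C k h2⟩
  portE := fun e he hn => absurd (hEq ▸ he) hn
  eqA := fun e he => by
    obtain ⟨⟨h1, h2⟩, _⟩ := (glm_tie_mem S _ e).1 (hEq ▸ he)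
    exact ⟨glm_D_sub S C k (glm_Po_sub S C k h1), glm_D_sub S C k (glm_Po_sub S C k h2)⟩
  wp := hwp
  wm := hwm

/-- **(ii)** the exterior of the component is freed, at the price `4` (ports by classes, 116) -/
theorem glm_step2 (S : ClSys V Y) (Cb : Finset Y) (La Lc Ld Lb : Finset V) (hS : GlStrip S Cb La Lc Ld Lb) (ω₀ : ClCfg V Y) (k : V)
    (F : ClCfg V Y → ℝ) (hF : PrcLoc (glmD S (glClu S (glEnd La Lc Ld Lb) ω₀) k) (S.cin (glmD S (glClu S (glEnd La Lc Ld Lb) ω₀) k)) F) (h0 : ∀ ω, 0 ≤ F ω) :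
    S.N ((glmHp S Cb La Lc (glmPo S (glClu S (glEnd La Lc Ld Lb) ω₀) k)).Holds S) F *
        S.Z ((glmH1 S Cb La Lc Ld Lb (glClu S (glEnd La Lc Ld Lb) ω₀) (glmPo S (glClu S (glEnd La Lc Ld Lb) ω₀) k)).Holds S) ≤
      4 * (S.Z ((glmHp S Cb La Lc (glmPo S (glClu S (glEnd La Lc Ld Lb) ω₀) k)).Holds S) *
        S.N ((glmH1 S Cb La Lc Ld Lb (glClu S (glEnd La Lc Ld Lb) ω₀) (glmPo S (glClu S (glEnd La Lc Ld Lb) ω₀) k)).Holds S) F) := by
  classical
  obtain ⟨κ, hκ⟩ := glm_classes S Cb La Lc Ld Lb hS ω₀ k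
  set E := glEnd La Lc Ld Lb with hE
  set C := glClu S E ω₀ with hC
  set Po := glmPo S C k with hPo
  set D := glmD S C k with hD
  have hOk : ClOk S := hS.disk.toClOk
  have hEA : E ⊆ S.A := by
    intro v hv
    rcases Finset.mem_union.1 (Finset.mem_sdiff.1 hv).1 with h | h
    · exact hS.ld h
    · exact hS.lb h
  have hEC : E ⊆ C := fun v hv => (gl_mem_clu S E ω₀ v).2 ⟨hEA hv, v, hv, ReflTransGen.refl⟩
  have hPb : Po ⊆ glBdy S C := fun v hv => by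
    have : v ∈ glBdy S C ∩ D := by rw [hD, glm_Po_bdy]; exact hv
    exact (Finset.mem_inter.1 this).1
  have s1 : PrcSplit S (glmHp S Cb La Lc Po) D (S.cin D) (glTie S Po) Po :=
    glm_split S hOk C k _ rfl Finset.subset_union_right rfl rfl
  have s2 : PrcSplit S (glmH1 S Cb La Lc Ld Lb C Po) D (S.cin D) (glTie S Po) Po :=
    glm_split S hOk C k _ rfl (fun v hv => Finset.mem_union_right _ (hPb hv)) rfl rfl
  have hcard : (Po.image κ).card ≤ 2 := (Finset.card_le_univ _).trans (by simp)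
  have key := prc2_two_k s1 s2 (glm_Po_sub S C k) (glm_Po_sub S C k) κ κ hκ hκ 2 2 hcard hcard ?_ ?_ rfl ?_ rfl hF h0
  · norm_num at key
    exact key
  · show (La ∪ Lc ∪ Po) ∩ D = (La ∪ Lc ∪ glBdy S C) ∩ D
    rw [Finset.union_inter_distrib_right, Finset.union_inter_distrib_right (La ∪ Lc) (glBdy S C), hD, glm_Po_bdy,
      Finset.inter_eq_left.2 (glm_Po_sub S C k)]
  · show (∅ : Finset V) ∩ D = C ∩ D
    rw [Finset.empty_inter]
    symm
    rw [← Finset.disjoint_iff_inter_eq_empty]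
    exact Finset.disjoint_right.2 fun v hv => glm_D_not S C k hv
  · show (∅ : Finset Y) ∩ S.cin D = (Cb.filter (fun y => S.sv y ⊆ E)) ∩ S.cin D
    rw [Finset.empty_inter]
    symm
    rw [← Finset.disjoint_iff_inter_eq_empty]
    refine Finset.disjoint_left.2 fun y h1 h2 => ?_
    obtain ⟨hyC, hyD⟩ := Finset.mem_filter.1 h2
    obtain ⟨v, hv⟩ := hOk.ne y hyC
    exact glm_D_not S C k (hyD hv) (hEC ((Finset.mem_filter.1 h1).2 hv))

/-! ### C. the double -/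

theorem glm_kept {S : ClSys V Y} {Cb : Finset Y} {La Lc K : Finset V} {X : ClSys V' Y'} {e : V → V'} {ec : Y → Y'} {φ : V' → V'} {ψ : Y' → Y'}
    (hD : GlDouble S Cb La Lc K X e ec φ ψ) {y : Y} (hy : y ∈ S.C) (hX : ec y ∈ X.C) : X.sv (ec y) = (S.sv y).image e := by
  rcases hD.kept y hy with h | h
  · exact h.2.1
  · exact absurd hX h.2.2

theorem glm_e_mem {S : ClSys V Y} {Cb : Finset Y} {La Lc K : Finset V} {X : ClSys V' Y'} {e : V → V'} {ec : Y → Y'} {φ : V' → V'} {ψ : Y' → Y'}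
    (hD : GlDouble S Cb La Lc K X e ec φ ψ) {v : V} (hv : v ∈ S.A) : e v ∈ X.A := by
  rw [hD.cover]; exact Finset.mem_union_left _ (Finset.mem_image_of_mem _ hv)

/-- the mirror image of a site off `K` lies off the first sheet -/
theorem glm_mir_off {S : ClSys V Y} {Cb : Finset Y} {La Lc K : Finset V} {X : ClSys V' Y'} {e : V → V'} {ec : Y → Y'} {φ : V' → V'} {ψ : Y' → Y'}
    (hD : GlDouble S Cb La Lc K X e ec φ ψ) {p : V} (hp : p ∈ S.A) (hpK : p ∉ K) : φ (e p) ∈ X.A \ S.A.image e := by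
  rw [Finset.mem_sdiff]
  constructor
  · rw [hD.cover]; exact Finset.mem_union_right _ (Finset.mem_image_of_mem _ (Finset.mem_image_of_mem _ hp))
  · intro h
    obtain ⟨v, hv, hve⟩ := Finset.mem_image.1 h
    apply hpK
    rw [← hD.meet p hp]
    refine Finset.mem_image.2 ⟨e v, Finset.mem_image_of_mem _ hv, ?_⟩
    rw [hve, hD.invV _ (glm_e_mem hD hp)]

/-- the condition on the mirror ports -/
def GlmOut (X : ClSys V' Y') (e : V → V') (φ : V' → V') (Po : Finset V) (ω : ClCfg V' Y') : Prop :=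
  (Po.image e).image φ ⊆ ω.B ∧ ∀ p ∈ glTie X ((Po.image e).image φ), (p.1 ∈ ω.W ↔ p.2 ∈ ω.W)

theorem glm_out_loc {S : ClSys V Y} {Cb : Finset Y} {La Lc K : Finset V} {X : ClSys V' Y'} {e : V → V'} {ec : Y → Y'} {φ : V' → V'} {ψ : Y' → Y'}
    (hD : GlDouble S Cb La Lc K X e ec φ ψ) (Po : Finset V) (hPo : Po ⊆ S.A) (hPK : ∀ v ∈ Po, v ∉ K) :
    ClLocP (X.A \ S.A.image e) (X.cout (S.A.image e)) (GlmOut X e φ Po) := by
  intro ω ω' hB hW _
  have hT : ∀ a ∈ (Po.image e).image φ, a ∈ X.A \ S.A.image e := by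
    intro a ha
    obtain ⟨b, hb, rfl⟩ := Finset.mem_image.1 ha
    obtain ⟨p, hp, rfl⟩ := Finset.mem_image.1 hb
    exact glm_mir_off hD (hPo hp) (hPK p hp)
  have mB : ∀ a ∈ (Po.image e).image φ, (a ∈ ω.B ↔ a ∈ ω'.B) := fun a ha => by
    have : a ∈ ω.B ∩ (X.A \ S.A.image e) ↔ a ∈ ω'.B ∩ (X.A \ S.A.image e) := by rw [hB]
    simpa [Finset.mem_inter, hT a ha] using this
  have mW : ∀ a ∈ (Po.image e).image φ, (a ∈ ω.W ↔ a ∈ ω'.W) := fun a ha => by
    have : a ∈ ω.W ∩ (X.A \ S.A.image e) ↔ a ∈ ω'.W ∩ (X.A \ S.A.image e) := by rw [hW]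
    simpa [Finset.mem_inter, hT a ha] using this
  unfold GlmOut
  refine and_congr ⟨fun h a ha => (mB a ha).1 (h ha), fun h a ha => (mB a ha).2 (h ha)⟩ (forall₂_congr fun p hp => ?_)
  obtain ⟨⟨h1, h2⟩, _⟩ := (glm_tie_mem X _ p).1 hp
  rw [mW _ h1, mW _ h2]

/-- the history of the double: the event of `gl_transfer` for `H⁺` -/
def glmHG (S : ClSys V Y) (Cb : Finset Y) (La Lc Po : Finset V) (X : ClSys V' Y') (e : V → V') (ec : Y → Y') (φ : V' → V') : ClCon V' Y' :=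
  ⟨(La ∪ Lc ∪ Po).image e ∪ (Po.image e).image φ ∪ (X.cx (S.A.image e)).biUnion X.sv, ∅,
    (glTie S Po).image (fun p => (e p.1, e p.2)) ∪ glTie X ((Po.image e).image φ),
    X.cx (S.A.image e) ∪ ((Cb.filter (fun y => S.sv y ⊆ La ∪ Lc)).filter (fun y => ec y ∈ X.C)).image ec, ∅, ∅, ∅, ∅⟩

theorem glm_tau_one (S : ClSys V Y) (ω : ClCfg V Y) (y : Y) : clTau S ω y = 1 ↔ y ∈ ω.O ∧ S.sv y ⊆ ω.B := dis_tau_one

/-- the status of a kept cell -/
theorem glm_tau_pull {S : ClSys V Y} {Cb : Finset Y} {La Lc K : Finset V} {X : ClSys V' Y'} {e : V → V'} {ec : Y → Y'} {φ : V' → V'} {ψ : Y' → Y'}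
    (hS : ClOk S) (hD : GlDouble S Cb La Lc K X e ec φ ψ) (ω : ClCfg V' Y') {y : Y} (hy : y ∈ S.C) (hX : ec y ∈ X.C) :
    clTau S (glPull S X e ec ω) y = 1 ↔ clTau X ω (ec y) = 1 := by
  rw [glm_tau_one, glm_tau_one, glm_kept hD hy hX]
  unfold glPull
  simp only [Finset.mem_filter, hy, hX, true_and, not_true_eq_false, or_false]
  refine and_congr_right fun _ => ?_
  constructor
  · intro h a ha
    obtain ⟨v, hv, rfl⟩ := Finset.mem_image.1 ha
    exact (Finset.mem_filter.1 (h hv)).2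
  · intro h v hv
    exact Finset.mem_filter.2 ⟨hS.sub y hy hv, h (Finset.mem_image_of_mem _ hv)⟩

/-- the history `glmHG` is the event of `gl_transfer` -/
theorem glm_HG_iff {S : ClSys V Y} {Cb : Finset Y} {La Lc Ld Lb K : Finset V} {X : ClSys V' Y'} {e : V → V'} {ec : Y → Y'} {φ : V' → V'} {ψ : Y' → Y'}
    (hS : GlStrip S Cb La Lc Ld Lb) (hD : GlDouble S Cb La Lc K X e ec φ ψ) (Po : Finset V) (hPo : Po ⊆ S.A) (ω : ClCfg V' Y') :
    (glmHG S Cb La Lc Po X e ec φ).Holds X ω ↔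
      (ClCut X true (S.A.image e) ω ∧ (glmHp S Cb La Lc Po).Holds S (glPull S X e ec ω) ∧ GlmOut X e φ Po ω) := by
  have hOk : ClOk S := hS.disk.toClOk
  have hA : La ∪ Lc ∪ Po ⊆ S.A := Finset.union_subset (Finset.union_subset hS.la hS.lc) hPo
  have mB : ∀ v ∈ S.A, (v ∈ (glPull S X e ec ω).B ↔ e v ∈ ω.B) := fun v hv => by
    unfold glPull; simp only [Finset.mem_filter, hv, true_and]
  have mW : ∀ v ∈ S.A, (v ∈ (glPull S X e ec ω).W ↔ e v ∈ ω.W) := fun v hv => by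
    unfold glPull; simp only [Finset.mem_filter, hv, true_and]
  constructor
  · rintro ⟨h1, -, h3, h4, -, -, -, -⟩
    have h1a : ∀ v ∈ La ∪ Lc ∪ Po, e v ∈ ω.B := fun v hv =>
      h1 (Finset.mem_union_left _ (Finset.mem_union_left _ (Finset.mem_image_of_mem _ hv)))
    refine ⟨fun y hy hc => h4 y (Finset.mem_union_left _ (Finset.mem_filter.2 ⟨hy, hc⟩)), ⟨?_, ?_, ?_, ?_, ?_, ?_, ?_, ?_⟩, ?_, ?_⟩
    · exact fun v hv => (mB v (hA hv)).2 (h1a v hv)
    · intro v hv; simp [glmHp] at hv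
    · intro p hp
      obtain ⟨⟨q1, q2⟩, _⟩ := (glm_tie_mem S Po p).1 hp
      rw [mW _ (hPo q1), mW _ (hPo q2)]
      exact h3 (e p.1, e p.2) (Finset.mem_union_left _ (Finset.mem_image.2 ⟨p, hp, rfl⟩))
    · intro y hy
      have hy' : y ∈ Cb.filter (fun y => S.sv y ⊆ La ∪ Lc) := hy
      have hyC : y ∈ S.C := hS.cb (Finset.mem_filter.1 hy').1
      by_cases hX : ec y ∈ X.C
      · rw [glm_tau_pull hOk hD ω hyC hX]
        exact h4 _ (Finset.mem_union_right _ (Finset.mem_image.2 ⟨y, Finset.mem_filter.2 ⟨hy', hX⟩, rfl⟩))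
      · rw [glm_tau_one]
        refine ⟨?_, fun v hv => (mB v (hOk.sub y hyC hv)).2 (h1a v (Finset.mem_union_left _ ((Finset.mem_filter.1 hy').2 hv)))⟩
        unfold glPull
        exact Finset.mem_filter.2 ⟨hyC, Or.inr hX⟩
    · intro y hy; simp [glmHp] at hy
    · intro y hy; simp [glmHp] at hy
    · exact Finset.empty_subset _
    · intro y hy; simp [glmHp] at hy
    · exact fun a ha => h1 (Finset.mem_union_left _ (Finset.mem_union_right _ ha))
    · exact fun p hp => h3 p (Finset.mem_union_right _ hp)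
  · rintro ⟨hc, ⟨g1, -, g3, g4, -, -, -, -⟩, o1, o2⟩
    refine ⟨?_, ?_, ?_, ?_, ?_, ?_, ?_, ?_⟩
    · intro a ha
      have ha' : a ∈ (La ∪ Lc ∪ Po).image e ∪ (Po.image e).image φ ∪ (X.cx (S.A.image e)).biUnion X.sv := ha
      rcases Finset.mem_union.1 ha' with h | h
      · rcases Finset.mem_union.1 h with h | h
        · obtain ⟨v, hv, rfl⟩ := Finset.mem_image.1 h
          exact (mB v (hA hv)).1 (g1 hv)
        · exact o1 h
      · obtain ⟨y, hy, hay⟩ := Finset.mem_biUnion.1 h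
        obtain ⟨hyC, hyc⟩ := Finset.mem_filter.1 hy
        exact ((glm_tau_one X ω y).1 (hc y hyC hyc)).2 hay
    · intro v hv; simp [glmHG] at hv
    · intro p hp
      have hp' : p ∈ (glTie S Po).image (fun p => (e p.1, e p.2)) ∪ glTie X ((Po.image e).image φ) := hp
      rcases Finset.mem_union.1 hp' with h | h
      · obtain ⟨r, hr, rfl⟩ := Finset.mem_image.1 h
        obtain ⟨⟨q1, q2⟩, _⟩ := (glm_tie_mem S Po r).1 hr
        have := g3 r hr
        rwa [mW _ (hPo q1), mW _ (hPo q2)] at this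
      · exact o2 p h
    · intro y hy
      have hy' : y ∈ X.cx (S.A.image e) ∪ ((Cb.filter (fun y => S.sv y ⊆ La ∪ Lc)).filter (fun y => ec y ∈ X.C)).image ec := hy
      rcases Finset.mem_union.1 hy' with h | h
      · obtain ⟨hyC, hyc⟩ := Finset.mem_filter.1 h
        exact hc y hyC hyc
      · obtain ⟨z, hz, rfl⟩ := Finset.mem_image.1 h
        obtain ⟨hz1, hz2⟩ := Finset.mem_filter.1 hz
        rw [← glm_tau_pull hOk hD ω (hS.cb (Finset.mem_filter.1 hz1).1) hz2]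
        exact g4 z hz1
    · intro y hy; simp [glmHG] at hy
    · intro y hy; simp [glmHG] at hy
    · exact Finset.empty_subset _
    · intro y hy; simp [glmHG] at hy

/-- a history without minus pins, open-minus cells, closed cells and labels is feasible -/
theorem glm_feas_plus (X : ClSys V Y) (hX : ClOk X) (H : ClCon V Y) (hBp : H.Bp ⊆ X.A) (hBm : H.Bm = ∅) (hOp : H.Op ⊆ X.C) (hOm : H.Om = ∅)
    (hCl : H.Cl = ∅) (hWp : H.Wp = ∅) (hWm : H.Wm = ∅) : 0 < X.Z (H.Holds X) := by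
  have hmem : (⟨X.A, ∅, X.C⟩ : ClCfg V Y) ∈ X.cfgs := (cl_mem_cfgs X _).2 ⟨subset_rfl, Finset.empty_subset _, subset_rfl⟩
  have hH : H.Holds X ⟨X.A, ∅, X.C⟩ := by
    refine ⟨hBp, ?_, ?_, ?_, ?_, ?_, ?_, ?_⟩
    · rw [hBm]; intro v hv; simp at hv
    · intro p _; simp
    · intro y hy; exact (glm_tau_one X _ y).2 ⟨hOp hy, hX.sub y (hOp hy)⟩
    · rw [hOm]; intro v hv; simp at hv
    · rw [hCl]; intro v hv; simp at hv
    · rw [hWp]
    · rw [hWm]; intro v hv; simp at hv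
  refine lt_of_lt_of_le ?_ (amo_Z_ge X hX _ hmem hH)
  unfold ClSys.wt
  refine Finset.prod_pos fun y hy => ?_
  unfold clCellW
  rw [if_pos hy, if_pos (show ClConst (⟨X.A, ∅, X.C⟩ : ClCfg V Y).B (X.sv y) from Or.inl (hX.sub y hy))]
  exact hX.q0 y hy

theorem glm_tau_le (S : ClSys V Y) (ω : ClCfg V Y) (y : Y) : clTau S ω y ≤ 1 := by
  unfold clTau; split_ifs <;> norm_num

/-- a connection by open-plus cells is increasing -/
theorem glm_join_mono (X : ClSys V Y) (Z : Set Y) (A C : Finset V) : ClMonoP X (fun ω => GlJoinC X (Z ∩ glOn X 1 ω) A C) := by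
  intro ω ω' _ hτ h
  refine gsw_join_mono X A C (Set.inter_subset_inter_right _ fun y hy => ⟨hy.1, le_antisymm (glm_tau_le X ω' y) ?_⟩) h
  have := hτ y hy.1
  rwa [hy.2] at this

/-- **(iv)** the gates open-plus: the history of the double lies above `glHp` -/
theorem glm_order {S : ClSys V Y} {Cb : Finset Y} {La Lc Ld Lb K : Finset V} {X : ClSys V' Y'} {e : V → V'} {ec : Y → Y'} {φ : V' → V'} {ψ : Y' → Y'}
    (hS : GlStrip S Cb La Lc Ld Lb) (hD : GlDouble S Cb La Lc K X e ec φ ψ) (Po : Finset V) (hPK : ∀ v ∈ Po, v ∉ K)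
    (F : ClCfg V' Y' → ℝ) (hF : ClMono X F) :
    X.N ((glHp X e φ Po).Holds X) F * X.Z ((glmHG S Cb La Lc Po X e ec φ).Holds X) ≤
      X.Z ((glHp X e φ Po).Holds X) * X.N ((glmHG S Cb La Lc Po X e ec φ).Holds X) F := by
  refine am_order_eq X hD.disk (glHp X e φ Po) (glmHG S Cb La Lc Po X e ec φ) ⟨rfl, rfl, fun y _ hy => by simp [glHp] at hy⟩
    ⟨rfl, rfl, fun y _ hy => ?_⟩ ⟨?_, subset_rfl, Finset.empty_subset _, subset_rfl, Finset.empty_subset _, Finset.empty_subset _,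
      fun p hp => Or.inr ?_, fun p hp => Or.inl ?_⟩ F hF
  · have hy' : y ∈ X.cx (S.A.image e) ∪ ((Cb.filter (fun y => S.sv y ⊆ La ∪ Lc)).filter (fun y => ec y ∈ X.C)).image ec := by
      simpa [glmHG] using hy
    refine fun a ha => Finset.mem_union_left _ ?_
    show a ∈ (La ∪ Lc ∪ Po).image e ∪ (Po.image e).image φ ∪ (X.cx (S.A.image e)).biUnion X.sv
    rcases Finset.mem_union.1 hy' with h | h
    · exact Finset.mem_union_right _ (Finset.mem_biUnion.2 ⟨y, h, ha⟩)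
    · obtain ⟨z, hz, rfl⟩ := Finset.mem_image.1 h
      obtain ⟨hz1, hz2⟩ := Finset.mem_filter.1 hz
      obtain ⟨hz3, hz4⟩ := Finset.mem_filter.1 hz1
      rw [glm_kept hD (hS.cb hz3) hz2] at ha
      obtain ⟨v, hv, rfl⟩ := Finset.mem_image.1 ha
      exact Finset.mem_union_left _ (Finset.mem_union_left _ (Finset.mem_image_of_mem _ (Finset.mem_union_left _ (hz4 hv))))
  · intro a ha
    have ha' : a ∈ Po.image e ∪ (Po.image e).image φ := ha
    show a ∈ (La ∪ Lc ∪ Po).image e ∪ (Po.image e).image φ ∪ (X.cx (S.A.image e)).biUnion X.sv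
    rcases Finset.mem_union.1 ha' with h | h
    · obtain ⟨v, hv, rfl⟩ := Finset.mem_image.1 h
      exact Finset.mem_union_left _ (Finset.mem_union_left _ (Finset.mem_image_of_mem _ (Finset.mem_union_right _ hv)))
    · exact Finset.mem_union_left _ (Finset.mem_union_right _ h)
  · obtain ⟨⟨h1, h2⟩, y, hy, h3, h4⟩ := (glm_tie_mem X _ p).1 hp
    by_cases hne : p.1 = p.2
    · rw [hne]; exact ReflTransGen.refl
    · exact tsc_R_step ⟨hne, y, hy, h3, h4⟩ (Finset.mem_coe.2 h1) (Finset.mem_coe.2 h2)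
  · have hp' : p ∈ (glTie S Po).image (fun p => (e p.1, e p.2)) ∪ glTie X ((Po.image e).image φ) := hp
    have key : (p.1 ∈ glPo2 e φ Po ∧ p.2 ∈ glPo2 e φ Po) ∧ ∃ y ∈ X.C, p.1 ∈ X.sv y ∧ p.2 ∈ X.sv y := by
      rcases Finset.mem_union.1 hp' with h | h
      · obtain ⟨r, hr, rfl⟩ := Finset.mem_image.1 h
        obtain ⟨⟨q1, q2⟩, y, hy, q3, q4⟩ := (glm_tie_mem S Po r).1 hr
        refine ⟨⟨Finset.mem_union_left _ (Finset.mem_image_of_mem _ q1), Finset.mem_union_left _ (Finset.mem_image_of_mem _ q2)⟩, ec y, ?_⟩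
        rcases hD.kept y hy with hk | hk
        · rw [hk.2.1]
          exact ⟨hk.1, Finset.mem_image_of_mem _ q3, Finset.mem_image_of_mem _ q4⟩
        · exact absurd (Finset.mem_inter.1 (hk.2.1 q3)).1 (hPK _ q1)
      · obtain ⟨⟨q1, q2⟩, hy⟩ := (glm_tie_mem X _ p).1 h
        exact ⟨⟨Finset.mem_union_right _ q1, Finset.mem_union_right _ q2⟩, hy⟩
    exact ⟨(glm_tie_mem X _ p).2 key, Or.inl key.2⟩

/-- a connection in the double, inside the core of cells, is a connection in the strip -/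
theorem glm_join_pull {S : ClSys V Y} {Cb : Finset Y} {La Lc Ld Lb K K0 : Finset V} {Kc : Finset Y} {X : ClSys V' Y'} {e : V → V'} {ec : Y → Y'}
    {φ : V' → V'} {ψ : Y' → Y'} (hS : GlStrip S Cb La Lc Ld Lb) (hP : GlPlaceC S Cb La Lc Ld Lb K K0 Kc X e ec φ ψ) (ω : ClCfg V' Y')
    (h : GlJoinC X (↑(Kc.image ec) ∩ glOn X 1 ω) (La.image e) (Lc.image e)) :
    GlJoinC S (↑Kc ∩ glOn S 1 (glPull S X e ec ω)) La Lc := by
  have hOk : ClOk S := hS.disk.toClOk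
  have hD : GlDouble S Cb La Lc K X e ec φ ψ := hP.toGlPlace.toGlDouble
  -- every cell of the path comes from the core
  have back : ∀ y' ∈ (↑(Kc.image ec) ∩ glOn X 1 ω : Set Y'), ∃ z, z ∈ (↑Kc ∩ glOn S 1 (glPull S X e ec ω) : Set Y) ∧ ec z = y' := by
    rintro y' ⟨h1, h2⟩
    obtain ⟨z, hz, rfl⟩ := Finset.mem_image.1 (Finset.mem_coe.1 h1)
    obtain ⟨k1, k2, k3⟩ := hP.kc z hz
    exact ⟨z, ⟨Finset.mem_coe.2 hz, k1, (glm_tau_pull hOk hD ω k1 k3).2 h2.2⟩, rfl⟩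
  have sv : ∀ z ∈ Kc, X.sv (ec z) = (S.sv z).image e := fun z hz => glm_kept hD (hP.kc z hz).1 (hP.kc z hz).2.2
  have inj : ∀ z ∈ Kc, ∀ v ∈ S.A, e v ∈ X.sv (ec z) → v ∈ S.sv z := by
    intro z hz v hv hm
    rw [sv z hz] at hm
    obtain ⟨w, hw, hwe⟩ := Finset.mem_image.1 hm
    have : w = v := hD.eInj (Finset.mem_coe.2 (hOk.sub z (hP.kc z hz).1 hw)) (Finset.mem_coe.2 hv) hwe
    exact this ▸ hw
  obtain ⟨y, y', hy, hy', ⟨a, ha, hay⟩, ⟨c, hc, hcy⟩, hR⟩ := h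
  obtain ⟨z, hz, rfl⟩ := back y hy
  have path : ∀ b', TscR (glCg X) (↑(Kc.image ec) ∩ glOn X 1 ω) (ec z) b' →
      ∃ b, b ∈ (↑Kc ∩ glOn S 1 (glPull S X e ec ω) : Set Y) ∧ ec b = b' ∧ TscR (glCg S) (↑Kc ∩ glOn S 1 (glPull S X e ec ω)) z b := by
    intro b' hb'
    induction hb' with
    | refl => exact ⟨z, hz, rfl, ReflTransGen.refl⟩
    | @tail b' c' _ hbc ih =>
      obtain ⟨b, hb, rfl, hzb⟩ := ih
      obtain ⟨d, hd, rfl⟩ := back c' hbc.2.2
      obtain ⟨hne, v', hv1, hv2⟩ := hbc.1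
      rw [sv b (Finset.mem_coe.1 hb.1)] at hv1
      obtain ⟨v, hv, rfl⟩ := Finset.mem_image.1 hv1
      have hvA : v ∈ S.A := hOk.sub b (hP.kc b (Finset.mem_coe.1 hb.1)).1 hv
      exact ⟨d, hd, rfl, hzb.tail ⟨⟨fun h => hne (by rw [h]), v, hv, inj d (Finset.mem_coe.1 hd.1) v hvA hv2⟩, hb, hd⟩⟩
  obtain ⟨z', hz', rfl, hzz⟩ := path y' hR
  obtain ⟨a0, ha0, rfl⟩ := Finset.mem_image.1 ha
  obtain ⟨c0, hc0, rfl⟩ := Finset.mem_image.1 hc
  exact ⟨z, z', hz, hz', ⟨a0, ha0, inj z (Finset.mem_coe.1 hz.1) a0 (hS.la ha0) hay⟩, ⟨c0, hc0, inj z' (Finset.mem_coe.1 hz'.1) c0 (hS.lc hc0) hcy⟩, hzz⟩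

/-- **(iii) + (iv) + (v)**: the freed strip law joins the two sides with probability at least `1/4` -/
theorem glm_X (S : ClSys V Y) (Cb : Finset Y) (La Lc Ld Lb K K0 : Finset V) (Kc : Finset Y) (X : ClSys V' Y') (e : V → V') (ec : Y → Y') (φ : V' → V') (ψ : Y' → Y')
    (hS : GlStrip S Cb La Lc Ld Lb) (hP : GlPlaceC S Cb La Lc Ld Lb K K0 Kc X e ec φ ψ) (Po : Finset V) (hPo : Po ⊆ S.A) (hPK : ∀ v ∈ Po, v ∉ K) :
    1 / 4 * S.Z ((glmHp S Cb La Lc Po).Holds S) ≤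
      S.N ((glmHp S Cb La Lc Po).Holds S) (glInd (fun ω => GlJoinC S (↑Kc ∩ glOn S 1 ω) La Lc)) := by
  have hOk : ClOk S := hS.disk.toClOk
  have hD : GlDouble S Cb La Lc K X e ec φ ψ := hP.toGlPlace.toGlDouble
  have hXok : ClOk X := hD.disk.toClOk
  have hA : La ∪ Lc ∪ Po ⊆ S.A := Finset.union_subset (Finset.union_subset hS.la hS.lc) hPo
  have sw := gl_swap S Cb La Lc Ld Lb K K0 Kc X e ec φ ψ hS hP Po hPo
  have od := glm_order hS hD Po hPK _ (gl_ind_mono X (glm_join_mono X (↑(Kc.image ec)) (La.image e) (Lc.image e)))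
  have mir : (Po.image e).image φ ⊆ X.A := by
    intro a ha
    obtain ⟨b, hb, rfl⟩ := Finset.mem_image.1 ha
    obtain ⟨p, hp, rfl⟩ := Finset.mem_image.1 hb
    exact (Finset.mem_sdiff.1 (glm_mir_off hD (hPo hp) (hPK p hp))).1
  have z1 : 0 < X.Z ((glHp X e φ Po).Holds X) := by
    refine glm_feas_plus X hXok _ ?_ rfl (Finset.empty_subset _) rfl rfl rfl rfl
    refine Finset.union_subset (fun a ha => ?_) mir
    obtain ⟨p, hp, rfl⟩ := Finset.mem_image.1 ha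
    exact glm_e_mem hD (hPo hp)
  have z2 : 0 < X.Z ((glmHG S Cb La Lc Po X e ec φ).Holds X) := by
    refine glm_feas_plus X hXok _ ?_ rfl ?_ rfl rfl rfl rfl
    · refine Finset.union_subset (Finset.union_subset (fun a ha => ?_) mir) (fun a ha => ?_)
      · obtain ⟨p, hp, rfl⟩ := Finset.mem_image.1 ha
        exact glm_e_mem hD (hA hp)
      · obtain ⟨y, hy, hay⟩ := Finset.mem_biUnion.1 ha
        exact hXok.sub y (Finset.mem_filter.1 hy).1 hay
    · refine Finset.union_subset (Finset.filter_subset _ _) (fun a ha => ?_)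
      obtain ⟨z, hz, rfl⟩ := Finset.mem_image.1 ha
      exact (Finset.mem_filter.1 hz).2
  have a1 : 1 / 4 * X.Z ((glmHG S Cb La Lc Po X e ec φ).Holds X) ≤ X.N ((glmHG S Cb La Lc Po X e ec φ).Holds X)
      (glInd (fun ω => GlJoinC X (↑(Kc.image ec) ∩ glOn X 1 ω) (La.image e) (Lc.image e))) := by
    refine le_of_mul_le_mul_left ?_ z1
    have := mul_le_mul_of_nonneg_right sw z2.le
    linarith
  have tr := gl_transfer S Cb La Lc K X e ec φ ψ hOk hD (glmHp S Cb La Lc Po)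
    (fun v hv => Finset.mem_union_left _ (Finset.mem_inter.1 hv).2) subset_rfl (GlmOut X e φ Po) (glm_out_loc hD Po hPo hPK)
    (glInd (fun ω => GlJoinC S (↑Kc ∩ glOn S 1 ω) La Lc))
  have ev : (fun ω => ClCut X true (S.A.image e) ω ∧ (glmHp S Cb La Lc Po).Holds S (glPull S X e ec ω) ∧ GlmOut X e φ Po ω) =
      (glmHG S Cb La Lc Po X e ec φ).Holds X := funext fun ω => propext (glm_HG_iff hS hD Po hPo ω).symm
  rw [ev] at tr
  have a2 : X.N ((glmHG S Cb La Lc Po X e ec φ).Holds X) (glInd (fun ω => GlJoinC X (↑(Kc.image ec) ∩ glOn X 1 ω) (La.image e) (Lc.image e))) ≤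
      X.N ((glmHG S Cb La Lc Po X e ec φ).Holds X) (fun ω => glInd (fun ω => GlJoinC S (↑Kc ∩ glOn S 1 ω) La Lc) (glPull S X e ec ω)) := by
    refine len_N_mono X hXok _ _ _ fun ω _ => ?_
    by_cases h : GlJoinC X (↑(Kc.image ec) ∩ glOn X 1 ω) (La.image e) (Lc.image e)
    · rw [gl_ind_pos h, gl_ind_pos (L := fun ω => GlJoinC S (↑Kc ∩ glOn S 1 ω) La Lc) (glm_join_pull hS hP ω h)]
    · rw [gl_ind_neg h]; exact gl_ind_nonneg _ _
  refine le_of_mul_le_mul_left ?_ z2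
  rw [← tr]
  have hz : 0 ≤ S.Z ((glmHp S Cb La Lc Po).Holds S) := len_Z_nonneg S hOk _
  have := mul_le_mul_of_nonneg_right (a1.trans a2) hz
  linarith

/-- the event is read inside the component -/
theorem glm_loc (S : ClSys V Y) (Kc : Finset Y) (La Lc D : Finset V) (hKc : ∀ y ∈ Kc, y ∈ S.C ∧ S.sv y ⊆ D) :
    PrcLoc D (S.cin D) (glInd (fun ω => GlJoinC S (↑Kc ∩ glOn S 1 ω) La Lc)) := by
  intro ω ω' h1 h2
  have e : (↑Kc ∩ glOn S 1 ω : Set Y) = ↑Kc ∩ glOn S 1 ω' := by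
    ext y
    refine and_congr_right fun hy => ?_
    have hy' := hKc y (Finset.mem_coe.1 hy)
    have := prc_tau_loc (S := S) (R := D) (YR := S.cin D) (fun y hy => (Finset.mem_filter.1 hy).2) h1 h2 (Finset.mem_filter.2 hy')
    exact ⟨fun h => ⟨h.1, this ▸ h.2⟩, fun h => ⟨h.1, this.symm ▸ h.2⟩⟩
  unfold glInd
  beta_reduce
  rw [e]

/-- **B.2 for one good cluster** (statement `gl_mid` of 55) -/
theorem glm_mid (S : ClSys V Y) (Cb : Finset Y) (La Lc Ld Lb K K0 : Finset V) (Kc : Finset Y) (X : ClSys V' Y') (e : V → V') (ec : Y → Y') (φ : V' → V') (ψ : Y' → Y')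
    (hS : GlStrip S Cb La Lc Ld Lb) (hP : GlPlaceC S Cb La Lc Ld Lb K K0 Kc X e ec φ ψ) (hK : TscConn S.gr (↑K : Set V)) (hKn : K.Nonempty)
    (ω₀ : ClCfg V Y) (hω₀ : (glH0 S Cb La Lc Ld Lb).Holds S ω₀)
    (hgood : ∀ z ∈ glClu S (glEnd La Lc Ld Lb) ω₀, z ∉ K ∧ ∀ k ∈ K, ¬ S.gr.Adj z k) :
    1 / 16 * S.Z ((glHC S Cb La Lc Ld Lb (glClu S (glEnd La Lc Ld Lb) ω₀)).Holds S) ≤
      S.N ((glHC S Cb La Lc Ld Lb (glClu S (glEnd La Lc Ld Lb) ω₀)).Holds S) (glInd (fun ω => GlJoinC S (↑Kc ∩ glOn S 1 ω) La Lc)) := by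
  classical
  obtain ⟨k, hk⟩ := hKn
  have hOk : ClOk S := hS.disk.toClOk
  have hD : GlDouble S Cb La Lc K X e ec φ ψ := hP.toGlPlace.toGlDouble
  have s2 := glm_step2 S Cb La Lc Ld Lb hS ω₀ k
  set E := glEnd La Lc Ld Lb with hE
  set C := glClu S E ω₀ with hC
  set Po := glmPo S C k with hPo
  set D := glmD S C k with hDd
  have hEA : E ⊆ S.A := by
    intro v hv
    rcases Finset.mem_union.1 (Finset.mem_sdiff.1 hv).1 with h | h
    · exact hS.ld h
    · exact hS.lb h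
  have hEC : E ⊆ C := fun v hv => (gl_mem_clu S E ω₀ v).2 ⟨hEA hv, v, hv, ReflTransGen.refl⟩
  have hKD : K ⊆ D := glm_K_sub S C K k hk hD.kA (fun v hv hvC => (hgood v hvC).1 hv) hK
  have hPoA : Po ⊆ S.A := (glm_Po_sub S C k).trans (glm_D_sub S C k)
  have hPK : ∀ v ∈ Po, v ∉ K := by
    intro v hv hvK
    obtain ⟨_, c, hc, hcv⟩ := (glm_mem_Po S C k v).1 hv
    exact (hgood c hc).2 v hvK hcv
  have hPb : Po ⊆ glBdy S C := fun v hv => by
    have : v ∈ glBdy S C ∩ D := by rw [hDd, glm_Po_bdy]; exact hv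
    exact (Finset.mem_inter.1 this).1
  obtain ⟨F, hF⟩ : ∃ F, F = glInd (fun ω => GlJoinC S (↑Kc ∩ glOn S 1 ω) La Lc) := ⟨_, rfl⟩
  rw [← hF]
  have hF0 : ∀ ω, 0 ≤ F ω := fun ω => by rw [hF]; exact gl_ind_nonneg _ _
  have hFm : ClMono S F := by rw [hF]; exact gl_ind_mono S (glm_join_mono S (↑Kc) La Lc)
  have hFl : PrcLoc D (S.cin D) F := by
    rw [hF]; exact glm_loc S Kc La Lc D fun y hy => ⟨(hP.kc y hy).1, (hP.kc y hy).2.1.trans hKD⟩
  have x := glm_X S Cb La Lc Ld Lb K K0 Kc X e ec φ ψ hS hP Po hPoA hPK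
  rw [← hF] at x
  have s2' := s2 F hFl hF0
  have s1 := glm_step1 S hS.disk Cb La Lc Ld Lb C Po hEC hPb F hFm
  have zp : 0 < S.Z ((glmHp S Cb La Lc Po).Holds S) :=
    glm_feas_plus S hOk _ (Finset.union_subset (Finset.union_subset hS.la hS.lc) hPoA) rfl
      ((Finset.filter_subset _ _).trans hS.cb) rfl rfl rfl rfl
  have hN : 0 ≤ S.N ((glHC S Cb La Lc Ld Lb C).Holds S) F := len_N_nonneg S hOk _ _ fun ω _ => hF0 ω
  rcases (len_Z_nonneg S hOk ((glHC S Cb La Lc Ld Lb C).Holds S)).eq_or_lt with h0 | hpos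
  · rw [← h0, mul_zero]; exact hN
  · have lC : ClLegal S (glHC S Cb La Lc Ld Lb C) :=
      ⟨rfl, rfl, fun y _ hy => glm_HC_full S Cb La Lc Ld Lb C hEC y hy, fun p hp => by simp [glHC, glH0] at hp⟩
    have fC := dis_feas_conv S hOk _ lC hpos
    have l1 : ClLegal S (glmH1 S Cb La Lc Ld Lb C Po) :=
      ⟨rfl, rfl, fun y _ hy => glm_HC_full S Cb La Lc Ld Lb C hEC y hy, fun p hp => ((glm_tie_mem S Po p).1 hp).2⟩
    have z1 : 0 < S.Z ((glmH1 S Cb La Lc Ld Lb C Po).Holds S) :=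
      dis_feas S hOk _ l1 ⟨fC.bpA, fC.dis, fC.opC, fC.omC, fC.op, fC.om, fC.cl, fC.d1, fC.d2, fC.d3⟩
    have b1 : 1 / 16 * S.Z ((glmH1 S Cb La Lc Ld Lb C Po).Holds S) ≤ S.N ((glmH1 S Cb La Lc Ld Lb C Po).Holds S) F := by
      refine le_of_mul_le_mul_left ?_ zp
      have := mul_le_mul_of_nonneg_right x z1.le
      linarith
    refine le_of_mul_le_mul_left ?_ z1
    have := mul_le_mul_of_nonneg_right b1 hpos.le
    linarith

/-- **B.2 for one good cluster**.   PROVED (62: `glm_mid`).   PLAN: note v2 Sec. 5: `D0` := component of `S.A \ C` which contains `K`, `Po` := sites of `D0` adjacent to `C`;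
(i) ties along `Po` lower (`am_order_eq`, both ends are plus pins);  (ii) `Po` splits into at most 2 connected pieces (`tsc_timar_in`, `dconn`, `bconn`), `W` is constant on each: the exterior of `D0` may be FREED at the price `2^2` (ports lemma by classes, 116);
(iii) `gl_transfer`;  (iv) the gates open-plus: `am_order_eq` upwards from `glHp`;  (v) `gl_swap`. -/
theorem gl_mid (S : ClSys V Y) (Cb : Finset Y) (La Lc Ld Lb K K0 : Finset V) (Kc : Finset Y) (X : ClSys V' Y') (e : V → V') (ec : Y → Y') (φ : V' → V') (ψ : Y' → Y')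
    (hS : GlStrip S Cb La Lc Ld Lb) (hP : GlPlaceC S Cb La Lc Ld Lb K K0 Kc X e ec φ ψ) (hK : TscConn S.gr (↑K : Set V)) (hKn : K.Nonempty)
    (ω₀ : ClCfg V Y) (hω₀ : (glH0 S Cb La Lc Ld Lb).Holds S ω₀)
    (hgood : ∀ z ∈ glClu S (glEnd La Lc Ld Lb) ω₀, z ∉ K ∧ ∀ k ∈ K, ¬ S.gr.Adj z k) :
    1 / 16 * S.Z ((glHC S Cb La Lc Ld Lb (glClu S (glEnd La Lc Ld Lb) ω₀)).Holds S) ≤
      S.N ((glHC S Cb La Lc Ld Lb (glClu S (glEnd La Lc Ld Lb) ω₀)).Holds S) (glInd (fun ω => GlJoinC S (↑Kc ∩ glOn S 1 ω) La Lc)) :=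
  glm_mid S Cb La Lc Ld Lb K K0 Kc X e ec φ ψ hS hP hK hKn ω₀ hω₀ hgood

/-! ### LEMMA B -/

/-- **LEMMA B** (three places ⟹ occupied connection).   The three doubles may live on different carriers; only the middle one needs cells.
PLAN (note v2, Sec. 5).  Step 1: `gl_placeA` twice + `dis_assoc`: `P_Q[E_K1 ∩ E_K3] ≥ 1/4`; fibre sum (`len_fibre`) over the minus cluster `C` of the two ends; on `E_K1 ∩ E_K3` (`blk`) `C` and its plus boundary miss `K2`.
Step 2, for one good `C`: ties along the ports (`am_order_eq`), exterior freed (ports lemma, 2 classes), transfer to `X2` (`am_cut`, `am_iso`), open-plus gates (`am_order_eq`), then `gl_swap`: `P_X2(E⁺ | H₊) ≥ 1/4`. -/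
theorem gl_three {V₁ Y₁ V₃ Y₃ : Type} [DecidableEq V₁] [DecidableEq Y₁] [DecidableEq V₃] [DecidableEq Y₃]
    (S : ClSys V Y) (Cb : Finset Y) (La Lc Ld Lb : Finset V) (hS : GlStrip S Cb La Lc Ld Lb)
    (K1 K10 : Finset V) (X1 : ClSys V₁ Y₁) (e1 : V → V₁) (ec1 : Y → Y₁) (φ1 : V₁ → V₁) (ψ1 : Y₁ → Y₁) (h1 : GlPlace S Cb La Lc Ld Lb K1 K10 X1 e1 ec1 φ1 ψ1)
    (K3 K30 : Finset V) (X3 : ClSys V₃ Y₃) (e3 : V → V₃) (ec3 : Y → Y₃) (φ3 : V₃ → V₃) (ψ3 : Y₃ → Y₃) (h3 : GlPlace S Cb La Lc Ld Lb K3 K30 X3 e3 ec3 φ3 ψ3)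
    (K2 K20 : Finset V) (Kc : Finset Y) (X2 : ClSys V' Y') (e2 : V → V') (ec2 : Y → Y') (φ2 : V' → V') (ψ2 : Y' → Y')
    (h2 : GlPlaceC S Cb La Lc Ld Lb K2 K20 Kc X2 e2 ec2 φ2 ψ2) (hK2 : TscConn S.gr (↑K2 : Set V)) (hK2n : K2.Nonempty)
    (b1 : GlBlk S La Lc K10 Ld K2) (b3 : GlBlk S La Lc K30 Lb K2) :
    1 / 64 * S.Z ((glH0 S Cb La Lc Ld Lb).Holds S) ≤
      S.N ((glH0 S Cb La Lc Ld Lb).Holds S) (glInd (fun ω => GlJoinC S (↑Kc ∩ glOn S 1 ω) La Lc)) := by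
  have hOk : ClOk S := hS.disk.toClOk
  set H0 := glH0 S Cb La Lc Ld Lb with hH0
  set E := glEnd La Lc Ld Lb with hE
  have a1 := gl_placeA S Cb La Lc Ld Lb K1 K10 X1 e1 ec1 φ1 ψ1 hS h1
  have a3 := gl_placeA S Cb La Lc Ld Lb K3 K30 X3 e3 ec3 φ3 ψ3 hS h3
  rw [← hH0] at a1 a3
  have fk := dis_assoc S hS.disk H0 (gl_H0_legal S Cb La Lc Ld Lb) (glInd (GlEA S La Lc K10)) (glInd (GlEA S La Lc K30))
    (gl_ind_mono S (gl_EA_mono S La Lc K10)) (gl_ind_mono S (gl_EA_mono S La Lc K30))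
  have hZ : 0 ≤ S.Z (H0.Holds S) := len_Z_nonneg S hOk _
  -- the fibre sum
  have fib := len_fibre S (H0.Holds S) (glClu S E) (fun C => (glHC S Cb La Lc Ld Lb C).Holds S)
    (fun ω₀ ω => gl_clu_iff S Cb La Lc Ld Lb hS ω₀ ω)
    (fun ω => glInd (GlEA S La Lc K10) ω * glInd (GlEA S La Lc K30) ω)
    (glInd (fun ω => GlJoinC S (↑Kc ∩ glOn S 1 ω) La Lc)) (1 / 16) (by
      intro ω₀ hω₀ hK₀
      by_cases hgood : ∀ z ∈ glClu S E ω₀, z ∉ K2 ∧ ∀ k ∈ K2, ¬ S.gr.Adj z k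
      · have hm := gl_mid S Cb La Lc Ld Lb K2 K20 Kc X2 e2 ec2 φ2 ψ2 hS h2 hK2 hK2n ω₀ hK₀ hgood
        refine le_trans ?_ hm
        refine mul_le_mul_of_nonneg_left ?_ (by norm_num)
        rw [dis_Z_eq]
        refine len_N_mono S hOk _ _ _ fun ω _ => ?_
        exact mul_le_one₀ (gl_ind_le_one _ _) (gl_ind_nonneg _ _) (gl_ind_le_one _ _)
      · have hzero : S.N ((glHC S Cb La Lc Ld Lb (glClu S E ω₀)).Holds S)
            (fun ω => glInd (GlEA S La Lc K10) ω * glInd (GlEA S La Lc K30) ω) ≤ 0 := by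
          have : S.N ((glHC S Cb La Lc Ld Lb (glClu S E ω₀)).Holds S) (fun _ => (0 : ℝ)) = 0 := by
            unfold ClSys.N; simp
          rw [← this]
          refine len_N_mono S hOk _ _ _ fun ω hω => ?_
          obtain ⟨hKω, hkey⟩ := (gl_clu_iff S Cb La Lc Ld Lb hS ω₀ ω).1 hω
          by_cases hE1 : GlEA S La Lc K10 ω
          · by_cases hE3 : GlEA S La Lc K30 ω
            · exfalso
              apply hgood
              intro z hz
              rw [← hkey] at hz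
              obtain ⟨hzA, u, hu, hR⟩ := (gl_mem_clu S E ω z).1 hz
              have hBp : La ∪ Lc ⊆ ω.B := hKω.1
              have hLa : (↑La : Set V) ⊆ ↑ω.B := Finset.coe_subset.2 (Finset.subset_union_left.trans hBp)
              have hLc : (↑Lc : Set V) ⊆ ↑ω.B := Finset.coe_subset.2 (Finset.subset_union_right.trans hBp)
              have hu' := Finset.mem_sdiff.1 hu
              have key : ∀ z', z' = z → (z' ∈ K2 ∨ ∃ k ∈ K2, S.gr.Adj z' k) → False := by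
                rintro z' rfl hz'
                rcases Finset.mem_union.1 hu'.1 with hd | hb
                · exact b1 ↑ω.B hLa hLc hE1 u (Finset.mem_sdiff.2 ⟨hd, hu'.2⟩) z' hzA hz' hR
                · exact b3 ↑ω.B hLa hLc hE3 u (Finset.mem_sdiff.2 ⟨hb, hu'.2⟩) z' hzA hz' hR
              exact ⟨fun h => key z rfl (Or.inl h), fun k hk h => key z rfl (Or.inr ⟨k, hk, h⟩)⟩
            · rw [gl_ind_neg hE3, mul_zero]
          · rw [gl_ind_neg hE1, zero_mul]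
        have hnn : 0 ≤ S.N ((glHC S Cb La Lc Ld Lb (glClu S E ω₀)).Holds S) (glInd (fun ω => GlJoinC S (↑Kc ∩ glOn S 1 ω) La Lc)) :=
          len_N_nonneg S hOk _ _ fun ω _ => gl_ind_nonneg _ _
        nlinarith)
  -- arithmetic
  rcases hZ.eq_or_lt with h0 | hpos
  · rw [← h0, mul_zero]
    exact len_N_nonneg S hOk _ _ fun ω _ => gl_ind_nonneg _ _
  · have h4 : 1 / 4 * S.Z (H0.Holds S) ≤ S.N (H0.Holds S) (fun ω => glInd (GlEA S La Lc K10) ω * glInd (GlEA S La Lc K30) ω) := by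
      have : (1 / 2 * S.Z (H0.Holds S)) * (1 / 2 * S.Z (H0.Holds S)) ≤
          S.Z (H0.Holds S) * S.N (H0.Holds S) (fun ω => glInd (GlEA S La Lc K10) ω * glInd (GlEA S La Lc K30) ω) :=
        le_trans (mul_le_mul a1 a3 (by positivity) (le_trans (by positivity) a1)) fk
      have h5 : S.Z (H0.Holds S) * (1 / 4 * S.Z (H0.Holds S)) ≤
          S.Z (H0.Holds S) * S.N (H0.Holds S) (fun ω => glInd (GlEA S La Lc K10) ω * glInd (GlEA S La Lc K30) ω) := by
        nlinarith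
      exact le_of_mul_le_mul_left h5 hpos
    linarith

end abstract

/-- the equation lemmas of the definitions of this file are generated HERE -/
theorem glm_eqns_cite : True := by
  have := @glmD.eq_1
  have := @glmPo.eq_1
  have := @GlmT.eq_1
  have := @glmH1.eq_1
  have := @glmHp.eq_1
  have := @GlmOut.eq_1
  have := @glmHG.eq_1
  trivial

end Claimed.Agent.R291
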