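import Claimed.Agent.R291.Glue.AdaptP
import Claimed.Agent.R291.Glue.Mid
import Claimed.Agent.R291.Pl.Closed
import Claimed.Agent.R291.Pl.Record
import Claimed.Agent.R291.Ann.RswGeo

/-!
# Row 291 (S0539), Glue/AdaptT : THREE PLACES OF THE INDEX LATTICE GIVE THE STRIP ESTIMATE      (owner helper1; prefix `gat_`, `Gat`)

Unit ANN, block A3-II (L): THE GENERIC ASSEMBLY, common to TIP and TUBE (class `true`).   Nothing new is proved here: `gl_three` (55 + 62) is fed with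
* the per-place adapter of 31 (`gap_place`, `gap_placeC` : a place of the lattice of the cell indices is a `GlPlace(C)`; `K := gapK ρ Q (gapZ Kc)` = the component of `Q ∩ ρ Q`),
* the order and the blocking of 187 on the SITES of the closed strip (`pcl_three`, barriers).

A producer of places owes, for each of the three places, `GatPlace` :
  the INDEX place (`kq kn kc ki dichC` = `HxrPlace` of 105) + `rows` (the site component stays strictly between the two extreme site rows),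
and `dis` : the three site components are pairwise disjoint.   Proved here from that:
* `gat_far`     field `far` of 31
* `gat_cross`   the component contains a site of `La` and a site of `Lc`      (`dichC` at `P = univ` + the shared site of two adjacent cells)
* `gat_hcl`     a site of `La ∪ Lc` next to the free core lies in the component      (`lay` + `rows` + `gap_K_comp`)
* `gat_pcl`     `PclPlace`
* `gat_blk`     `PclBlk` ⟹ `GlBlk`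
* **`gat_three`**   `1/64 Z ≤ N(La and Lc joined by open-plus cells of one of the three places)`
* `gat_of_hxr`  a place of 105 (`HxrPlace`, a `Set` of free indices) + `rows` is a `GatPlace`;   `gat_side_A`, `gat_side_C` : hypotheses `hA`, `hC` for the solid sides of a pair
* **`gat_three_hxr`**   the same assembly for the strip of a pair (`HxrPair`): `M` = the free cells, places = `HxrPlace`
* **`gat_tube`**    THE TUBE: three mirrors at 30 degrees (`hxr_tube_one`); `Q ∩ ρ Q` lies in a rhombus, so `rows` and `dis` are arithmetic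
* `gat_strip_rsg`   `GatStrip` for the strip data `D : RsgDat` of class `true` from the interface `RsgGeo D` of 278 (`Ann/RswGeo`);   `gat_est_rsg` : the conclusion is `RsgEst x D`
* **`gat_est_hxr`**, **`gat_est_tube`**   the two assemblies in the dictionary of record
-/

set_option autoImplicit false
set_option linter.unusedSectionVars false
set_option linter.unusedVariables false
set_option linter.unusedSimpArgs false

namespace Claimed.Agent.R291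

open Relation Claims Claims.C0467

/-- **what the producer of ONE place owes** (`y0`, `y1` : the two extreme SITE rows of the closed strip `Q`) -/
structure GatPlace (y0 y1 : ℤ) (Q : Finset TV) (AAc CCc : Set TV) (ρ : GshRefl) (Kc : Finset TV) : Prop where
  kq : ∀ y ∈ Kc, cellV y ⊆ Q
  kn : Kc.Nonempty
  kc : TscConn tscG (↑Kc : Set TV)
  ki : ∀ y ∈ Kc, ρ.c y ∈ Kc
  dichC : ∀ P : Set TV, GlJoin tscG (↑Kc ∩ P) AAc CCc ∨ GlJoin tscG (↑Kc ∩ {v | ρ.c v ∉ P}) AAc CCc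
  rows : ∀ z ∈ gapK ρ Q (gapZ Kc), y0 < z.2 ∧ z.2 < y1

section one

variable {y0 y1 : ℤ} {Q La Lc Ld Lb : Finset TV} {AAc CCc : Set TV} {ρ : GshRefl} {Kc : Finset TV}

/-- field `far` of the adapter of 31 -/
theorem gat_far (h : GatPlace y0 y1 Q AAc CCc ρ Kc) (hd : ∀ z ∈ Ld, z.2 = y0) (hb : ∀ z ∈ Lb, z.2 = y1) :
    ∀ z ∈ gapK ρ Q (gapZ Kc), z ∉ Ld ∧ z ∉ Lb := by
  intro z hz
  have := h.rows z hz
  refine ⟨fun hh => ?_, fun hh => ?_⟩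
  · have := hd z hh; omega
  · have := hb z hh; omega

/-- the place is crossed on the index lattice -/
theorem gat_join (h : GatPlace y0 y1 Q AAc CCc ρ Kc) : GlJoin tscG (↑Kc : Set TV) AAc CCc := by
  rcases h.dichC Set.univ with hj | hj
  · exact gl_join_mono Set.inter_subset_left hj
  · obtain ⟨u, _, hu, _⟩ := hj
    exact absurd (Set.mem_univ _) hu.2

/-- the component contains a site of each side -/
theorem gat_cross (h : GatPlace y0 y1 Q AAc CCc ρ Kc) (hA : ∀ a ∈ AAc, ∀ s ∈ cellV a, s ∈ Q → s ∈ La) (hC : ∀ a ∈ CCc, ∀ s ∈ cellV a, s ∈ Q → s ∈ Lc) :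
    ∃ a ∈ La, ∃ c ∈ Lc, a ∈ gapK ρ Q (gapZ Kc) ∧ c ∈ gapK ρ Q (gapZ Kc) := by
  obtain ⟨u, v, hu, hv, ⟨a, ha, hua⟩, ⟨c, hc, hvc⟩, _⟩ := gat_join h
  obtain ⟨s, s1, s2⟩ := pcp_share_site hua
  obtain ⟨t, t1, t2⟩ := pcp_share_site hvc
  exact ⟨s, hA a ha s s2 (h.kq u hu s1), t, hC c hc t t2 (h.kq v hv t1), gap_cell_K ρ Q Kc h.kq h.ki hu s1, gap_cell_K ρ Q Kc h.kq h.ki hv t1⟩

/-- a site of `Q` next to the free core lies in the component -/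
theorem gat_hcl (h : GatPlace y0 y1 Q AAc CCc ρ Kc) (lay : latBd Q ⊆ La ∪ Lc ∪ Ld ∪ Lb) (hd : ∀ z ∈ Ld, z.2 = y0) (hb : ∀ z ∈ Lb, z.2 = y1) :
    ∀ k ∈ gapK0 ρ La Lc Kc, ∀ w ∈ Q, triAdj k w → w ∈ gapK ρ Q (gapZ Kc) := by
  intro k hk w hw hkw
  obtain ⟨hkZ, _, _, h3, h4⟩ := gap_mem_K0.1 hk
  have hkK : k ∈ gapK ρ Q (gapZ Kc) := gap_Z_sub (gap_Z_subI h.kq h.ki) hkZ
  have hρK : ρ.f k ∈ gapK ρ Q (gapZ Kc) := gap_K_inv (gap_Z_inv h.ki) k hkK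
  have hfar := gat_far h hd hb _ hρK
  refine gap_K_comp ρ Q _ w hw ?_ k hkK hkw
  by_contra hn
  have : ρ.f k ∈ latBd Q := lat_mem_bd.2 ⟨gap_K_sub ρ Q _ hρK, ρ.f w, gsh_r_adj ρ hkw, hn⟩
  have := lay this
  simp only [Finset.mem_union] at this
  rcases this with ((h' | h') | h') | h'
  · exact h3 h'
  · exact h4 h'
  · exact hfar.1 h'
  · exact hfar.2 h'

/-- the component is a closed place in the sense of 187 -/
theorem gat_pcl (h : GatPlace y0 y1 Q AAc CCc ρ Kc) (hA : ∀ a ∈ AAc, ∀ s ∈ cellV a, s ∈ Q → s ∈ La) (hC : ∀ a ∈ CCc, ∀ s ∈ cellV a, s ∈ Q → s ∈ Lc) :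
    PclPlace y0 y1 (↑Q) (↑La) (↑Lc) (↑(gapK ρ Q (gapZ Kc)) : Set TV) where
  sub := Finset.coe_subset.2 (gap_K_sub ρ Q _)
  conn := gap_K_conn0 ρ Q Kc h.kq h.kc h.ki
  rows := fun k hk => h.rows k (Finset.mem_coe.1 hk)
  cross := by
    obtain ⟨a, ha, c, hc, h1, h2⟩ := gat_cross h hA hC
    exact ⟨a, Finset.mem_coe.2 ha, c, Finset.mem_coe.2 hc, Finset.mem_coe.2 h1, Finset.mem_coe.2 h2⟩

end one

/-- **the blocking of 187 is the blocking of 55** -/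
theorem gat_blk (x : ℝ) {Q La Lc K0 L K2 : Finset TV} (hLa : La ⊆ Q) (hLc : Lc ⊆ Q) (hK0 : K0 ⊆ Q)
    (h : PclBlk (↑Q) (↑La) (↑Lc) (↑K0) (↑(L \ (La ∪ Lc)) : Set TV) (↑K2)) : GlBlk (clAmb x Q) La Lc K0 L K2 := by
  intro P hPa hPc hj u hu z hz hzK hp
  have hj' : GlJoin tscG (↑K0 ∩ P) ↑La ↑Lc :=
    (gl_join_lat x Q (Set.inter_subset_left.trans (Finset.coe_subset.2 hK0)) (Finset.coe_subset.2 hLa) (Finset.coe_subset.2 hLc)).1 hj
  obtain ⟨p, q, hp1, hq1, hpa, hqc, hpq⟩ := hj'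
  have hp' : TscR tscG (↑Q \ P) u z := (gl_amb_R x Q Set.sdiff_subset).1 hp
  obtain ⟨n1, n2⟩ := h P hPa hPc ⟨p, q, hp1, hq1, hpa, hqc, hpq⟩ u (Finset.mem_coe.2 hu) z hp'
  rcases hzK with hzK | ⟨k, hk, hzk⟩
  · exact n1 (Finset.mem_coe.2 hzK)
  · exact n2 k (Finset.mem_coe.2 hk) (gl_amb_adj x Q hzk).1

/-- **THE GENERIC ASSEMBLY**: three places of the index lattice whose site components are pairwise disjoint -/
theorem gat_three {x : ℝ} (hx : 0 < x) (hx1 : x ≤ 1) (hh : 1 / 2 ≤ x ^ 2) (Q La Lc Ld Lb Cb : Finset TV) (hS : GlStrip (clAmb x Q) Cb La Lc Ld Lb)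
    (hQ : TriSCOn (ZMod 2) tscG (↑Q : Set TV)) (lay : latBd Q ⊆ La ∪ Lc ∪ Ld ∪ Lb) (hCb : glCb Q ⊆ Cb) {y0 y1 xm xM : ℤ}
    (hP : PclStrip y0 y1 xm xM (↑Q) (↑La) (↑Lc) (↑(Ld \ (La ∪ Lc)) : Set TV) (↑(Lb \ (La ∪ Lc)) : Set TV))
    (hd : ∀ z ∈ Ld, z.2 = y0) (hb : ∀ z ∈ Lb, z.2 = y1) (AAc CCc : Set TV)
    (hA : ∀ a ∈ AAc, ∀ s ∈ cellV a, s ∈ Q → s ∈ La) (hC : ∀ a ∈ CCc, ∀ s ∈ cellV a, s ∈ Q → s ∈ Lc)
    (ρ : Fin 3 → GshRefl) (Kc : Fin 3 → Finset TV) (hK : ∀ i, GatPlace y0 y1 Q AAc CCc (ρ i) (Kc i))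
    (dis : ∀ i j, i ≠ j → ∀ z ∈ gapK (ρ i) Q (gapZ (Kc i)), z ∉ gapK (ρ j) Q (gapZ (Kc j))) :
    ∃ j : Fin 3, 1 / 64 * (clAmb x Q).Z ((glH0 (clAmb x Q) Cb La Lc Ld Lb).Holds (clAmb x Q)) ≤
      (clAmb x Q).N ((glH0 (clAmb x Q) Cb La Lc Ld Lb).Holds (clAmb x Q))
        (glInd (fun ω => GlJoinC (clAmb x Q) (↑(Kc j) ∩ glOn (clAmb x Q) 1 ω) La Lc)) := by
  have hLa : La ⊆ Q := hS.la
  have hLc : Lc ⊆ Q := hS.lc
  have cQ : TscConn tscG (↑Q : Set TV) := hP.conn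
  have ac : ∀ u ∈ La, ∀ v ∈ Lc, u ≠ v ∧ ¬ triAdj u v := fun u hu v hv =>
    ⟨(hS.ac u hu v hv).1, fun h => (hS.ac u hu v hv).2 ((gl_amb_gr x Q (hLa hu) (hLc hv)).2 h)⟩
  have hk0 : ∀ i, gapK0 (ρ i) La Lc (Kc i) ⊆ gapK (ρ i) Q (gapZ (Kc i)) := fun i v hv =>
    gap_Z_sub (gap_Z_subI (hK i).kq (hK i).ki) (gap_mem_K0.1 hv).1
  obtain ⟨i, j, k, _, _, _, b1, b3⟩ := pcl_three hP (fun i => (↑(gapK (ρ i) Q (gapZ (Kc i))) : Set TV)) (fun i => (↑(gapK0 (ρ i) La Lc (Kc i)) : Set TV))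
    (fun i => gat_pcl (hK i) hA hC) (fun i j hij z hz hz' => dis i j hij z (Finset.mem_coe.1 hz) (Finset.mem_coe.1 hz'))
    (fun i => Finset.coe_subset.2 (hk0 i))
    (fun i k hk w hw hkw => Finset.mem_coe.2 (gat_hcl (hK i) lay hd hb k (Finset.mem_coe.1 hk) w (by
      rcases hw with hw | hw
      · exact hLa (Finset.mem_coe.1 hw)
      · exact hLc (Finset.mem_coe.1 hw)) hkw))
  have pl : ∀ i, GlPlaceC (clAmb x Q) Cb La Lc Ld Lb (gapK (ρ i) Q (gapZ (Kc i))) (gapK0 (ρ i) La Lc (Kc i)) (Kc i)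
      (gshX x Q (Q.image (ρ i).f) (gapK (ρ i) Q (gapZ (Kc i)))) plrE1 (fun y => (y, true)) (plrSw (↑(gapK (ρ i) Q (gapZ (Kc i))) : Set TV) (ρ i).f)
      (gshPsi (ρ i) Q (gapK (ρ i) Q (gapZ (Kc i)))) := fun i =>
    gap_placeC hx hx1 hh (ρ i) Q La Lc Ld Lb (Kc i) Cb hQ cQ lay hCb (hK i).kq (hK i).kn (hK i).kc (hK i).ki (gat_far (hK i) hd hb) ac AAc CCc hA hC
      (hK i).dichC
  refine ⟨j, gl_three (clAmb x Q) Cb La Lc Ld Lb hS _ _ _ _ _ _ _ (pl i).toGlPlace _ _ _ _ _ _ _ (pl k).toGlPlace _ _ _ _ _ _ _ _ (pl j)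
    (gap_K_conn' (ρ j) Q (Kc j) (hK j).kq (hK j).kc (hK j).ki x) (gap_K_ne (ρ j) Q (Kc j) (hK j).kq (hK j).kn (hK j).ki)
    (gat_blk x hLa hLc ((hk0 i).trans (gap_K_sub _ _ _)) b1) (gat_blk x hLa hLc ((hk0 k).trans (gap_K_sub _ _ _)) b3)⟩

/-! ## the places of 105 -/

/-- a place of 105 inside the free cells, whose site component stays off the extreme site rows -/
theorem gat_of_hxr {y0 y1 s0 s1 : ℤ} {Q M : Finset TV} {AA CC : Set TV} {ρ : GshRefl} {K : Set TV} (hK : HxrPlace y0 y1 AA CC ρ.c K)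
    (hKM : K ⊆ (↑M : Set TV)) (hM : ∀ y ∈ M, cellV y ⊆ Q) (rows : ∀ z ∈ gapK ρ Q (gapZ (gapF M K)), s0 < z.2 ∧ z.2 < s1) :
    GatPlace s0 s1 Q AA CC ρ (gapF M K) := by
  have e := gap_F_coe hKM
  refine ⟨fun y hy => hM y (gap_mem_F.1 hy).1, ?_, by rw [e]; exact hK.conn, fun y hy => ?_, by rw [e]; exact hK.dich, rows⟩
  · obtain ⟨u, _, hu, _⟩ := hK.cross
    exact ⟨u, gap_mem_F.2 ⟨Finset.mem_coe.1 (hKM hu.1), hu.1⟩⟩
  · have h1 := hK.inv y (gap_mem_F.1 hy).2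
    exact gap_mem_F.2 ⟨Finset.mem_coe.1 (hKM h1), h1⟩

section pair

variable {y0 y1 xm xM : ℤ} {a c : Set TV} {pa qa pc qc : TV}

/-- a place of 105 lies in the free cells -/
theorem gat_place_free {ρ : TV → TV} {K : Set TV} (hK : HxrPlace y0 y1 (hxrAA y0 y1 xM a) (hxrCC y0 y1 xm c) ρ K) : K ⊆ hxrQ y0 y1 xm xM a c := by
  intro k hk
  have h1 := hK.rows k hk
  have h2 := hK.free k hk
  refine ⟨⟨h1.1.le, h1.2.le⟩, ?_⟩
  rintro (h | h)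
  · exact h2.1 h
  · exact h2.2.1 h

/-- a site of a free cell which lies in a cell of the solid left side lies in a cell of `a` -/
theorem gat_side_A (H : HxrPair y0 y1 xm xM a c pa qa pc qc) {z m s : TV} (hz : z ∈ hxrAA y0 y1 xM a) (hm : m ∈ hxrQ y0 y1 xm xM a c)
    (h1 : s ∈ cellV z) (h2 : s ∈ cellV m) : z ∈ a := by
  rcases (pcp_share m z).1 ⟨s, h2, h1⟩ with e | e
  · exact absurd (Or.inl (e ▸ hz)) hm.2
  · exact hxr_AA_bd H.A hm.1 (fun h => hm.2 (Or.inl h)) hz e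

/-- the same on the right -/
theorem gat_side_C (H : HxrPair y0 y1 xm xM a c pa qa pc qc) {z m s : TV} (hz : z ∈ hxrCC y0 y1 xm c) (hm : m ∈ hxrQ y0 y1 xm xM a c)
    (h1 : s ∈ cellV z) (h2 : s ∈ cellV m) : z ∈ c := by
  rcases (pcp_share m z).1 ⟨s, h2, h1⟩ with e | e
  · exact absurd (Or.inr (e ▸ hz)) hm.2
  · exact hxr_CC_bd H.C hm.1 (fun h => hm.2 (Or.inr h)) hz e

/-- **the facts on the closed strip of a pair which (L) needs** (class `true`): everything which is not a place.      `M` = the free cells, `Q` = their sites; the extreme SITE rows are `y0` and `y1 + 1`. -/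
structure GatStrip (x : ℝ) (y0 y1 xm xM : ℤ) (a c : Set TV) (M Q La Lc Ld Lb Cb : Finset TV) : Prop where
  strip : GlStrip (clAmb x Q) Cb La Lc Ld Lb
  sc : TriSCOn (ZMod 2) tscG (↑Q : Set TV)
  lay : latBd Q ⊆ La ∪ Lc ∪ Ld ∪ Lb
  cb : glCb Q ⊆ Cb
  pcl : PclStrip y0 (y1 + 1) xm (xM + 3) (↑Q) (↑La) (↑Lc) (↑(Ld \ (La ∪ Lc)) : Set TV) (↑(Lb \ (La ∪ Lc)) : Set TV)
  memM : ∀ y, y ∈ M ↔ y ∈ hxrQ y0 y1 xm xM a c
  memQ : ∀ s, s ∈ Q ↔ ∃ y ∈ M, s ∈ cellV y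
  memLa : ∀ s, s ∈ La ↔ s ∈ Q ∧ ∃ z ∈ a, s ∈ cellV z
  memLc : ∀ s, s ∈ Lc ↔ s ∈ Q ∧ ∃ z ∈ c, s ∈ cellV z
  memLd : ∀ s, s ∈ Ld ↔ s ∈ Q ∧ s.2 = y0
  memLb : ∀ s, s ∈ Lb ↔ s ∈ Q ∧ s.2 = y1 + 1

/-- **THE ASSEMBLY FOR THE STRIP OF A PAIR**: three places of 105 with `rows` and `dis` -/
theorem gat_three_hxr {x : ℝ} (hx : 0 < x) (hx1 : x ≤ 1) (hh : 1 / 2 ≤ x ^ 2) {M Q La Lc Ld Lb Cb : Finset TV} (H : HxrPair y0 y1 xm xM a c pa qa pc qc)
    (G : GatStrip x y0 y1 xm xM a c M Q La Lc Ld Lb Cb) (ρ : Fin 3 → GshRefl) (K : Fin 3 → Set TV)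
    (hK : ∀ i, HxrPlace y0 y1 (hxrAA y0 y1 xM a) (hxrCC y0 y1 xm c) (ρ i).c (K i))
    (rows : ∀ i, ∀ z ∈ gapK (ρ i) Q (gapZ (gapF M (K i))), y0 < z.2 ∧ z.2 < y1 + 1)
    (dis : ∀ i j, i ≠ j → ∀ z ∈ gapK (ρ i) Q (gapZ (gapF M (K i))), z ∉ gapK (ρ j) Q (gapZ (gapF M (K j)))) :
    ∃ Kc : Finset TV, Kc ⊆ M ∧ 1 / 64 * (clAmb x Q).Z ((glH0 (clAmb x Q) Cb La Lc Ld Lb).Holds (clAmb x Q)) ≤
      (clAmb x Q).N ((glH0 (clAmb x Q) Cb La Lc Ld Lb).Holds (clAmb x Q))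
        (glInd (fun ω => GlJoinC (clAmb x Q) (↑Kc ∩ glOn (clAmb x Q) 1 ω) La Lc)) := by
  have hM : ∀ y ∈ M, cellV y ⊆ Q := fun y hy s hs => (G.memQ s).2 ⟨y, hy, hs⟩
  have hKM : ∀ i, K i ⊆ (↑M : Set TV) := fun i k hk => Finset.mem_coe.2 ((G.memM k).2 (gat_place_free (hK i) hk))
  obtain ⟨j, hj⟩ := gat_three hx hx1 hh Q La Lc Ld Lb Cb G.strip G.sc G.lay G.cb G.pcl (fun z hz => ((G.memLd z).1 hz).2) (fun z hz => ((G.memLb z).1 hz).2)
    (hxrAA y0 y1 xM a) (hxrCC y0 y1 xm c)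
    (fun z hz s hs hsQ => by
      obtain ⟨m, hm, hsm⟩ := (G.memQ s).1 hsQ
      exact (G.memLa s).2 ⟨hsQ, z, gat_side_A H hz ((G.memM m).1 hm) hs hsm, hs⟩)
    (fun z hz s hs hsQ => by
      obtain ⟨m, hm, hsm⟩ := (G.memQ s).1 hsQ
      exact (G.memLc s).2 ⟨hsQ, z, gat_side_C H hz ((G.memM m).1 hm) hs hsm, hs⟩)
    ρ (fun i => gapF M (K i)) (fun i => gat_of_hxr (hK i) (hKM i) hM (rows i)) dis
  exact ⟨gapF M (K j), fun y hy => (gap_mem_F.1 hy).1, hj⟩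

/-! ## the tube -/

/-- `Q ∩ ρ Q` lies in a rhombus: the rows of the sites which lie, with their image under the mirror at 30 degrees, in the box `xm ≤ X ≤ xM + 3` -/
theorem gat_swap_rows (hw : 0 ≤ xM - xm) {h t : ℤ} (ht : xm + xM - 1 ≤ 2 * (2 * t + 3 * h) ∧ 2 * (2 * t + 3 * h) ≤ xm + xM + 3) {z : TV}
    (h1 : xm ≤ hxsX z ∧ hxsX z ≤ xM + 3) (h2 : xm ≤ hxsX ((glSwap t).f z) ∧ hxsX ((glSwap t).f z) ≤ xM + 3) :
    h - (xM - xm) - 2 ≤ z.2 ∧ z.2 ≤ h + (xM - xm) + 2 := by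
  rw [gl_swap_f] at h2
  simp only [hxsX] at h1 h2
  constructor <;> omega

/-- **(L-TUBE), class `true`** -/
theorem gat_tube {x : ℝ} (hx : 0 < x) (hx1 : x ≤ 1) (hh : 1 / 2 ≤ x ^ 2) {M Q La Lc Ld Lb Cb : Finset TV} (H : HxrPair y0 y1 xm xM a c pa qa pc qc)
    (G : GatStrip x y0 y1 xm xM a c M Q La Lc Ld Lb Cb) (hW : 12 * (xM - xm) + 64 ≤ y1 - y0) :
    ∃ Kc : Finset TV, Kc ⊆ M ∧ 1 / 64 * (clAmb x Q).Z ((glH0 (clAmb x Q) Cb La Lc Ld Lb).Holds (clAmb x Q)) ≤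
      (clAmb x Q).N ((glH0 (clAmb x Q) Cb La Lc Ld Lb).Holds (clAmb x Q))
        (glInd (fun ω => GlJoinC (clAmb x Q) (↑Kc ∩ glOn (clAmb x Q) 1 ω) La Lc)) := by
  have hw : 0 ≤ xM - xm := by
    have := H.A.box pa H.A.pa
    omega
  have one : ∀ h : ℤ, y0 + 2 * (xM - xm) + 8 ≤ h → h + 2 * (xM - xm) + 8 ≤ y1 →
      ∃ (t : ℤ) (K : Set TV), HxrPlace y0 y1 (hxrAA y0 y1 xM a) (hxrCC y0 y1 xm c) (glSwap t).c K ∧
        ∀ Z : Finset TV, ∀ z ∈ gapK (glSwap t) Q Z, h - (xM - xm) - 2 ≤ z.2 ∧ z.2 ≤ h + (xM - xm) + 2 := by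
    intro h h0 h1
    have ht : xm + xM - 1 ≤ 2 * (2 * ((xm + xM + 3 - 6 * h) / 4) + 3 * h) ∧ 2 * (2 * ((xm + xM + 3 - 6 * h) / 4) + 3 * h) ≤ xm + xM + 3 := by
      constructor <;> omega
    obtain ⟨K, hK, _⟩ := hxr_tube_one H (h := h) (t := (xm + xM + 3 - 6 * h) / 4) ht h0 h1
    refine ⟨_, K, hK, fun Z z hz => ?_⟩
    have hzI := gap_mem_I.1 (gap_K_subI _ _ _ hz)
    exact gat_swap_rows hw ht (G.pcl.box z (Finset.mem_coe.2 hzI.1)) (G.pcl.box _ (Finset.mem_coe.2 hzI.2))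
  obtain ⟨t0, K0, k0, r0⟩ := one (y0 + 2 * (xM - xm) + 8) le_rfl (by omega)
  obtain ⟨t1, K1, k1, r1⟩ := one (y0 + 4 * (xM - xm) + 14) (by omega) (by omega)
  obtain ⟨t2, K2, k2, r2⟩ := one (y0 + 6 * (xM - xm) + 20) (by omega) (by omega)
  refine gat_three_hxr hx hx1 hh H G (fun i => glSwap ((![t0, t1, t2] : Fin 3 → ℤ) i)) ![K0, K1, K2] ?_ ?_ ?_
  · intro i
    fin_cases i
    · exact k0
    · exact k1
    · exact k2
  · intro i z hz
    fin_cases i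
    · have := r0 _ z hz; constructor <;> omega
    · have := r1 _ z hz; constructor <;> omega
    · have := r2 _ z hz; constructor <;> omega
  · intro i j hij z hz hz'
    fin_cases i <;> fin_cases j
    · exact hij rfl
    · have := r0 _ z hz; have := r1 _ z hz'; omega
    · have := r0 _ z hz; have := r2 _ z hz'; omega
    · have := r1 _ z hz; have := r0 _ z hz'; omega
    · exact hij rfl
    · have := r1 _ z hz; have := r2 _ z hz'; omega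
    · have := r2 _ z hz; have := r0 _ z hz'; omega
    · have := r2 _ z hz; have := r1 _ z hz'; omega
    · exact hij rfl

end pair

/-! ## the dictionary of record (`Defs/RswStrip`, `Defs/RswGeo`), class `true` -/

/-- the record-level debt is paid by the interface of 278 -/
theorem gat_strip_rsg {x : ℝ} (hx : 0 < x) (hx1 : x ≤ 1) (hh : 1 / 2 ≤ x ^ 2) (D : RsgDat) (hT : D.T = true) (hg : RsgGeo D) {pa qa pc qc : TV}
    (H : HxrPair D.y0 D.y1 D.xm D.xM D.a D.c pa qa pc qc) :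
    GatStrip x D.y0 D.y1 D.xm D.xM D.a D.c (rsgM D) (rsgQ D) (rsgLa D) (rsgLc D) (rsgLd D) (rsgLb D) (rsgCb D) := by
  have hS := rgo_strip hx hx1 hh hg
  have hcb := rgo_cb hT
  have hLa := fun s => rgo_mem_La (D := D) (u := s)
  have hLc := fun s => rgo_mem_Lc (D := D) (u := s)
  have hQ : ∀ s, s ∈ rsgQ D ↔ ∃ y ∈ rsgM D, s ∈ rsgCs D.T y := fun s => by
    unfold rsgQ
    rw [Finset.mem_biUnion]
  have hsys : rsgS x D = rsgSQ x D.T (rsgQ D) := rfl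
  rw [hsys] at hS
  rw [hT] at hS hLa hLc hQ
  exact
    { strip := hS
      sc := rgo_sc hg
      lay := rgo_lay hg
      cb := hcb
      pcl := rgo_pcl hg H
      memM := fun y => rgo_mem_M hg
      memQ := hQ
      memLa := hLa
      memLc := hLc
      memLd := fun s => rgo_mem_Ld
      memLb := fun s => rgo_mem_Lb }

/-- the conclusion of the assemblies is the strip estimate of 269 -/
theorem gat_est_rsg {x : ℝ} (D : RsgDat) (hT : D.T = true)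
    (h : ∃ Kc : Finset TV, Kc ⊆ rsgM D ∧ 1 / 64 * (clAmb x (rsgQ D)).Z ((glH0 (clAmb x (rsgQ D)) (rsgCb D) (rsgLa D) (rsgLc D) (rsgLd D) (rsgLb D)).Holds
        (clAmb x (rsgQ D))) ≤ (clAmb x (rsgQ D)).N ((glH0 (clAmb x (rsgQ D)) (rsgCb D) (rsgLa D) (rsgLc D) (rsgLd D) (rsgLb D)).Holds (clAmb x (rsgQ D)))
        (glInd (fun ω => GlJoinC (clAmb x (rsgQ D)) (↑Kc ∩ glOn (clAmb x (rsgQ D)) 1 ω) (rsgLa D) (rsgLc D)))) : RsgEst x D := by
  have hsys : rsgS x D = clAmb x (rsgQ D) := by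
    show rsgSQ x D.T (rsgQ D) = _
    rw [hT]
    rfl
  unfold RsgEst rsgH0
  rw [hsys]
  exact h

/-- **three places of 105 with `rows` and `dis` ⟹ `RsgEst`** (for TIP: places of `hxd_right` / `hxd_left`, mirrors `glMirV`) -/
theorem gat_est_hxr {x : ℝ} (hx : 0 < x) (hx1 : x ≤ 1) (hh : 1 / 2 ≤ x ^ 2) (D : RsgDat) (hT : D.T = true) (hg : RsgGeo D) {pa qa pc qc : TV}
    (H : HxrPair D.y0 D.y1 D.xm D.xM D.a D.c pa qa pc qc) (ρ : Fin 3 → GshRefl) (K : Fin 3 → Set TV)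
    (hK : ∀ i, HxrPlace D.y0 D.y1 (hxrAA D.y0 D.y1 D.xM D.a) (hxrCC D.y0 D.y1 D.xm D.c) (ρ i).c (K i))
    (rows : ∀ i, ∀ z ∈ gapK (ρ i) (rsgQ D) (gapZ (gapF (rsgM D) (K i))), D.y0 < z.2 ∧ z.2 < D.y1 + 1)
    (dis : ∀ i j, i ≠ j → ∀ z ∈ gapK (ρ i) (rsgQ D) (gapZ (gapF (rsgM D) (K i))), z ∉ gapK (ρ j) (rsgQ D) (gapZ (gapF (rsgM D) (K j)))) :
    RsgEst x D :=
  gat_est_rsg D hT (gat_three_hxr hx hx1 hh H (gat_strip_rsg hx hx1 hh D hT hg H) ρ K hK rows dis)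

/-- **(L-TUBE), class `true`, in the dictionary of record** -/
theorem gat_est_tube {x : ℝ} (hx : 0 < x) (hx1 : x ≤ 1) (hh : 1 / 2 ≤ x ^ 2) (D : RsgDat) (hT : D.T = true) (hg : RsgGeo D) {pa qa pc qc : TV}
    (H : HxrPair D.y0 D.y1 D.xm D.xM D.a D.c pa qa pc qc) (hW : 12 * (D.xM - D.xm) + 64 ≤ D.y1 - D.y0) : RsgEst x D :=
  gat_est_rsg D hT (gat_tube hx hx1 hh H (gat_strip_rsg hx hx1 hh D hT hg H) hW)

end Claimed.Agent.R291
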