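import Claimed.Agent.R291.Defs.RswStrip
import Claimed.Agent.R291.Glue.Enter
import Claimed.Agent.R291.Ann.RswRec
import Claimed.Agent.R291.Ann.RswPl

/-!
# Row 291 (S0539), unit ANN, block A3 PART II (L), Glue/Flip : THE CLASS `false` (DOWN CELLS) BY REFLECTION      (owner helper62; prefix `glf_`, defs `glf…` / `Glf…`; ruling of 24 07:48Z (R3))

TEX[annulus:RSW] TEX[annulus:gluing]      The reflection of the plane in a horizontal line, `glfS (u, v) = (u + v, - v)`, exchanges the two classes of cells: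
the mirror image of the down cell of index `z` is the up cell of index `glfI z = (z.1 + z.2 + 1, - z.2 - 1)`; inverse on the indices `glfJ z = (z.1 + z.2, - z.2 - 1)`.
On the SITES `X = 2 u + v` is preserved and the rows are reversed; on the INDICES `X` is shifted by `1`, the row `j` becomes the row `- j - 1`:  band `[y0, y1] ↦ [- y1 - 1, - y0 - 1]`, box `[xm, xM] ↦ [xm + 1, xM + 1]`,
feet `↔` heads, `Ld ↔ Lb`.

* §1 the three maps;  §2 `GlfAut G f g` (automorphism + inverse), equivariance of `TscR`, `TscConn`, `pleI`, `pleGam`, `hxrSol` in PREIMAGE form (`g ⁻¹' s`)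
* §3 index lattice: `glf_band`, `glf_AA`, `glf_CC`, `glf_Q`, **`glf_pair`** (`HxrPair`), `glf_T1`, `glf_T2`, `glf_X`
* §4 **`glfD D`** the reflected strip data (class `true`), dictionary of all the finite sets of `Defs/RswStrip` (`glf_mem_M`, `glf_mem_Q`, `glf_mem_La`, …)
* §5 **`glf_iso`** : `CuIso (rsgS x (glfD D)) (rsgS x D) glfS glfJ`;   `glf_iso_est` (abstract: the estimate of the glue machine is transported by an isomorphism)
* §6 **`glf_est`** : `RsgEst x (glfD D) → RsgEst x D` for `D.T = false`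
* §7 THE RECORD: the reflected data of two explorations are the data of the two explorations of the reflected set: `glf_rect`, `glf_SgL`, `glf_SgR`, `glf_Lam`, **`glf_Ga`**, **`glf_Gc`**, `glf_I`, `glf_G0`, `glf_G1`.
* §8 the same in the vocabulary of 206 (`Ann/RswPl`): `glf_rpl_I/J/A/C`, `glf_rpl_G0`, `glf_rpl_D`, **`glf_rpl`**, and the two reductions **`glf_rpl_tip`**, **`glf_rpl_tube`** of the contracts (L) of `Ann/RswGlue` to the class `true`.
  So every statement "for all `A B c d w m m' P` …  `RsgEst x ⟨true, c, d, A, B, a (P), c (P)⟩`" gives the same statement for the class `false`: **`glf_record`**.   (L) AND ITS RECORD-LEVEL PRODUCERS ARE NEEDED FOR THE CLASS `true` ONLY.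
-/

set_option autoImplicit false
set_option linter.unusedSectionVars false
set_option linter.unusedVariables false
set_option linter.unusedSimpArgs false

namespace Claimed.Agent.R291

open Relation Claims Claims.C0467

/-! ## §1 the reflection -/

/-- the reflection on the sites -/
def glfS (v : TV) : TV := (v.1 + v.2, -v.2)

/-- index of a down cell `↦` index of the up cell which is its mirror image -/
def glfI (z : TV) : TV := (z.1 + z.2 + 1, -z.2 - 1)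

/-- index of an up cell `↦` index of the down cell which is its mirror image -/
def glfJ (z : TV) : TV := (z.1 + z.2, -z.2 - 1)

theorem glf_SS (v : TV) : glfS (glfS v) = v := by
  obtain ⟨a, b⟩ := v
  simp [glfS]

theorem glf_IJ (z : TV) : glfI (glfJ z) = z := by
  obtain ⟨a, b⟩ := z
  simp only [glfI, glfJ, Prod.mk.injEq]
  constructor <;> ring

theorem glf_JI (z : TV) : glfJ (glfI z) = z := by
  obtain ⟨a, b⟩ := z
  simp only [glfI, glfJ, Prod.mk.injEq]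
  constructor <;> ring

theorem glf_S_inj : Function.Injective glfS := fun a b e => by rw [← glf_SS a, ← glf_SS b, e]

theorem glf_J_inj : Function.Injective glfJ := fun a b e => by rw [← glf_IJ a, ← glf_IJ b, e]

theorem glf_S_adj (u v : TV) (h : triAdj u v) : triAdj (glfS u) (glfS v) := by
  rw [tsc_adj_iff] at *
  simp only [glfS]
  omega

theorem glf_I_adj (u v : TV) (h : triAdj u v) : triAdj (glfI u) (glfI v) := by
  rw [tsc_adj_iff] at *
  simp only [glfI]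
  omega

theorem glf_J_adj (u v : TV) (h : triAdj u v) : triAdj (glfJ u) (glfJ v) := by
  rw [tsc_adj_iff] at *
  simp only [glfJ]
  omega

/-- the mirror image of an up cell is a down cell -/
theorem glf_mem_cs (v z : TV) : v ∈ rsgCs true z ↔ glfS v ∈ rsgCs false (glfJ z) := by
  rw [rsg_mem_cs, rsg_mem_cs]
  simp only [glfS, glfJ, true_and, false_and, or_false, false_or, Bool.false_eq_true, Bool.true_eq_false]
  omega

theorem glf_X_J (z : TV) : hxsX (glfJ z) = hxsX z - 1 := by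
  simp only [hxsX, glfJ]; ring

theorem glf_X_I (z : TV) : hxsX (glfI z) = hxsX z + 1 := by
  simp only [hxsX, glfI]; ring

theorem glf_X_S (v : TV) : hxsX (glfS v) = hxsX v := by
  simp only [hxsX, glfS]; ring

/-! ## §2 equivariance, abstract -/

section equi

variable {V : Type*} {G : SimpleGraph V} {f g : V → V}

/-- an automorphism `g` of the graph with its inverse `f` -/
structure GlfAut (G : SimpleGraph V) (f g : V → V) : Prop where
  fg : ∀ z, f (g z) = z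
  gf : ∀ z, g (f z) = z
  af : ∀ a b, G.Adj a b → G.Adj (f a) (f b)
  ag : ∀ a b, G.Adj a b → G.Adj (g a) (g b)

theorem GlfAut.symm (h : GlfAut G f g) : GlfAut G g f := ⟨h.gf, h.fg, h.ag, h.af⟩

theorem glf_R_pre (hg : ∀ a b, G.Adj a b → G.Adj (g a) (g b)) {s : Set V} {u v : V} (h : TscR G (g ⁻¹' s) u v) : TscR G s (g u) (g v) := by
  induction h with
  | refl => exact ReflTransGen.refl
  | tail _ hbc ih => exact ih.tail ⟨hg _ _ hbc.1, hbc.2.1, hbc.2.2⟩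

theorem glf_R_iff (h : GlfAut G f g) {s : Set V} {u v : V} : TscR G (g ⁻¹' s) u v ↔ TscR G s (g u) (g v) := by
  refine ⟨glf_R_pre h.ag, fun hp => ?_⟩
  have e : s = f ⁻¹' (g ⁻¹' s) := by
    ext z
    show z ∈ s ↔ g (f z) ∈ s
    rw [h.gf]
  rw [e] at hp
  have := glf_R_pre h.af hp
  rwa [h.fg, h.fg] at this

theorem glf_conn_pre (h : GlfAut G f g) {s : Set V} (hs : TscConn G s) : TscConn G (g ⁻¹' s) :=
  fun u hu v hv => (glf_R_iff h).2 (hs _ hu _ hv)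

theorem glf_I_pre (h : GlfAut G f g) (N σ : Set V) : pleI G (g ⁻¹' N) (g ⁻¹' σ) = g ⁻¹' pleI G N σ := by
  ext z
  constructor
  · rintro ⟨t, h1, h2, h3⟩
    exact ⟨g t, h1, h2, (glf_R_iff h).1 h3⟩
  · rintro ⟨t, h1, h2, h3⟩
    refine ⟨f t, ?_, ?_, (glf_R_iff h).2 ?_⟩
    · show g (f t) ∈ N
      rwa [h.gf]
    · show g (f t) ∈ σ
      rwa [h.gf]
    · rwa [h.gf]

theorem glf_Gam_pre (h : GlfAut G f g) (R σ σ' I : Set V) : pleGam G (g ⁻¹' R) (g ⁻¹' σ) (g ⁻¹' σ') (g ⁻¹' I) = g ⁻¹' pleGam G R σ σ' I := by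
  have e : pleI G (g ⁻¹' R \ g ⁻¹' I) (g ⁻¹' σ') = g ⁻¹' pleI G (R \ I) σ' := glf_I_pre h (R \ I) σ'
  ext z
  unfold pleGam
  rw [e]
  constructor
  · rintro ⟨h1, h2 | ⟨i, hi, hiz⟩⟩
    · exact ⟨h1, Or.inl h2⟩
    · exact ⟨h1, Or.inr ⟨g i, hi, h.ag _ _ hiz⟩⟩
  · rintro ⟨h1, h2 | ⟨i, hi, hiz⟩⟩
    · exact ⟨h1, Or.inl h2⟩
    · refine ⟨h1, Or.inr ⟨f i, ?_, ?_⟩⟩
      · show g (f i) ∈ I
        rwa [h.gf]
      · have := h.af _ _ hiz
        rwa [h.fg] at this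

theorem glf_sol_pre (h : GlfAut G f g) (Bd a T : Set V) : hxrSol G (g ⁻¹' Bd) (g ⁻¹' a) (g ⁻¹' T) = g ⁻¹' hxrSol G Bd a T := by
  ext z
  constructor
  · rintro ⟨h1, h2⟩
    refine ⟨h1, fun t ht hp => h2 (f t) ?_ ?_⟩
    · show g (f t) ∈ T
      rwa [h.gf]
    · refine (glf_R_iff (s := Bd \ a) h).2 ?_
      rwa [h.gf]
  · rintro ⟨h1, h2⟩
    exact ⟨h1, fun t ht hp => h2 (g t) ht ((glf_R_iff (s := Bd \ a) h).1 hp)⟩

end equi

/-! ## §3 the index lattice -/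

theorem glf_aut : GlfAut tscG glfI glfJ := ⟨glf_IJ, glf_JI, glf_I_adj, glf_J_adj⟩

theorem glf_autS : GlfAut tscG glfS glfS := ⟨glf_SS, glf_SS, glf_S_adj, glf_S_adj⟩

theorem glf_band (c d : ℤ) : plsBand (-d - 1) (-c - 1) = glfJ ⁻¹' plsBand c d := by
  ext z
  simp only [plsBand, glfJ, Set.mem_preimage, Set.mem_ofPred_eq]
  omega

theorem glf_farR (c d x : ℤ) : hxrFarR (-d - 1) (-c - 1) (x + 1) = glfJ ⁻¹' hxrFarR c d x := by
  ext z
  simp only [hxrFarR, plsBand, glfJ, hxsX, Set.mem_preimage, Set.mem_ofPred_eq]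
  omega

theorem glf_farL (c d x : ℤ) : hxrFarL (-d - 1) (-c - 1) (x + 1) = glfJ ⁻¹' hxrFarL c d x := by
  ext z
  simp only [hxrFarL, plsBand, glfJ, hxsX, Set.mem_preimage, Set.mem_ofPred_eq]
  omega

theorem glf_AA (y0 y1 xM : ℤ) (a : Set TV) : hxrAA (-y1 - 1) (-y0 - 1) (xM + 1) (glfJ ⁻¹' a) = glfJ ⁻¹' hxrAA y0 y1 xM a := by
  unfold hxrAA
  rw [glf_band, glf_farR, glf_sol_pre glf_aut]

theorem glf_CC (y0 y1 xm : ℤ) (c : Set TV) : hxrCC (-y1 - 1) (-y0 - 1) (xm + 1) (glfJ ⁻¹' c) = glfJ ⁻¹' hxrCC y0 y1 xm c := by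
  unfold hxrCC
  rw [glf_band, glf_farL, glf_sol_pre glf_aut]

theorem glf_Q (y0 y1 xm xM : ℤ) (a c : Set TV) :
    hxrQ (-y1 - 1) (-y0 - 1) (xm + 1) (xM + 1) (glfJ ⁻¹' a) (glfJ ⁻¹' c) = glfJ ⁻¹' hxrQ y0 y1 xm xM a c := by
  unfold hxrQ
  rw [glf_band, glf_AA, glf_CC]
  rfl

/-- a crossing: foot and head are exchanged -/
theorem glf_cr {y0 y1 xm xM : ℤ} {a : Set TV} {p q : TV} (H : HxrCr y0 y1 xm xM a p q) :
    HxrCr (-y1 - 1) (-y0 - 1) (xm + 1) (xM + 1) (glfJ ⁻¹' a) (glfI q) (glfI p) where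
  sub := by
    rw [glf_band]
    exact fun z hz => H.sub hz
  conn := glf_conn_pre glf_aut H.conn
  box := fun z hz => by
    have := H.box _ hz
    rw [glf_X_J] at this
    omega
  pa := by
    show glfJ (glfI q) ∈ a
    rw [glf_JI]; exact H.qa
  qa := by
    show glfJ (glfI p) ∈ a
    rw [glf_JI]; exact H.pa
  p0 := by
    have := H.q1
    simp only [glfI]; omega
  q1 := by
    have := H.p0
    simp only [glfI]; omega

/-- **two crossings** -/
theorem glf_pair {y0 y1 xm xM : ℤ} {a c : Set TV} {pa qa pc qc : TV} (H : HxrPair y0 y1 xm xM a c pa qa pc qc) :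
    HxrPair (-y1 - 1) (-y0 - 1) (xm + 1) (xM + 1) (glfJ ⁻¹' a) (glfJ ⁻¹' c) (glfI qa) (glfI pa) (glfI qc) (glfI pc) where
  A := glf_cr H.A
  C := glf_cr H.C
  feet := by
    have h1 := H.heads
    have h2 := H.A.q1
    have h3 := H.C.q1
    simp only [glfI]; omega
  heads := by
    have h1 := H.feet
    have h2 := H.A.p0
    have h3 := H.C.p0
    simp only [glfI]; omega
  sep := fun u hu v hv => ⟨fun e => (H.sep _ hu _ hv).1 (by rw [e]), fun e => (H.sep _ hu _ hv).2 (glf_J_adj _ _ e)⟩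

theorem glf_T1 {a c : Set TV} : RsgT1 (glfJ ⁻¹' a) (glfJ ⁻¹' c) ↔ RsgT1 a c := by
  constructor
  · rintro ⟨u, hu, v, hv, h | h⟩
    · exact ⟨_, hu, _, hv, Or.inl (by rw [h])⟩
    · exact ⟨_, hu, _, hv, Or.inr (glf_J_adj _ _ h)⟩
  · rintro ⟨u, hu, v, hv, h | h⟩
    · exact ⟨glfI u, by show glfJ (glfI u) ∈ a; rwa [glf_JI], glfI v, by show glfJ (glfI v) ∈ c; rwa [glf_JI], Or.inl (by rw [h])⟩
    · exact ⟨glfI u, by show glfJ (glfI u) ∈ a; rwa [glf_JI], glfI v, by show glfJ (glfI v) ∈ c; rwa [glf_JI], Or.inr (glf_I_adj _ _ h)⟩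

theorem glf_T2 {y0 y1 : ℤ} {a c : Set TV} : RsgT2 (-y1 - 1) (-y0 - 1) (glfJ ⁻¹' a) (glfJ ⁻¹' c) ↔ RsgT2 y0 y1 a c := by
  unfold RsgT2
  rw [glf_band]
  constructor
  · rintro ⟨y, hy, ⟨u, hu, h1⟩, ⟨v, hv, h2⟩⟩
    exact ⟨_, hy, ⟨_, hu, glf_J_adj _ _ h1⟩, ⟨_, hv, glf_J_adj _ _ h2⟩⟩
  · rintro ⟨y, hy, ⟨u, hu, h1⟩, ⟨v, hv, h2⟩⟩
    exact ⟨glfI y, by show glfJ (glfI y) ∈ plsBand y0 y1; rwa [glf_JI], ⟨glfI u, by show glfJ (glfI u) ∈ a; rwa [glf_JI], glf_I_adj _ _ h1⟩,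
      ⟨glfI v, by show glfJ (glfI v) ∈ c; rwa [glf_JI], glf_I_adj _ _ h2⟩⟩

theorem glf_mem_pre {s : Set TV} {z : TV} (h : z ∈ s) : glfI z ∈ glfJ ⁻¹' s := by
  show glfJ (glfI z) ∈ s
  rwa [glf_JI]

/-- a cell of the reflected set with a given abscissa -/
theorem glf_tip_ge {a : Set TV} {μ : ℤ} (h : ∃ z ∈ a, μ ≤ hxsX z) : ∃ z ∈ glfJ ⁻¹' a, μ + 1 ≤ hxsX z := by
  obtain ⟨z, hz, h1⟩ := h
  exact ⟨glfI z, by show glfJ (glfI z) ∈ a; rwa [glf_JI], by rw [glf_X_I]; omega⟩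

theorem glf_tip_le {a : Set TV} {μ : ℤ} (h : ∃ z ∈ a, hxsX z ≤ μ) : ∃ z ∈ glfJ ⁻¹' a, hxsX z ≤ μ + 1 := by
  obtain ⟨z, hz, h1⟩ := h
  exact ⟨glfI z, by show glfJ (glfI z) ∈ a; rwa [glf_JI], by rw [glf_X_I]; omega⟩

/-! ## §4 the reflected strip data -/

/-- **the reflected strip data** (class `true`) -/
def glfD (D : RsgDat) : RsgDat := ⟨true, -D.y1 - 1, -D.y0 - 1, D.xm + 1, D.xM + 1, glfJ ⁻¹' D.a, glfJ ⁻¹' D.c⟩

theorem glf_eqns_cite : True := by
  have := @glfS.eq_1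
  have := @glfI.eq_1
  have := @glfJ.eq_1
  have := @glfD.eq_1
  trivial

/-- the strip lies in its box      (`hxr_Q_box` under `HxrPair`) -/
def GlfBox (D : RsgDat) : Prop := ∀ z ∈ hxrQ D.y0 D.y1 D.xm D.xM D.a D.c, D.xm ≤ hxsX z ∧ hxsX z ≤ D.xM

theorem glf_eqns_cite2 : True := by
  have := @GlfBox.eq_1
  trivial

theorem glf_box_of_pair {D : RsgDat} {pa qa pc qc : TV} (H : HxrPair D.y0 D.y1 D.xm D.xM D.a D.c pa qa pc qc) : GlfBox D := hxr_Q_box H

theorem glf_box_D {D : RsgDat} (h : GlfBox D) : GlfBox (glfD D) := by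
  intro z hz
  have hz' : z ∈ hxrQ (-D.y1 - 1) (-D.y0 - 1) (D.xm + 1) (D.xM + 1) (glfJ ⁻¹' D.a) (glfJ ⁻¹' D.c) := hz
  rw [glf_Q] at hz'
  have := h _ hz'
  rw [glf_X_J] at this
  show D.xm + 1 ≤ hxsX z ∧ hxsX z ≤ D.xM + 1
  omega

/-- the free cells, without the auxiliary box -/
theorem glf_mem_M0 {D : RsgDat} (h : GlfBox D) {z : TV} : z ∈ rsgM D ↔ z ∈ hxrQ D.y0 D.y1 D.xm D.xM D.a D.c := by
  classical
  unfold rsgM
  rw [Finset.mem_filter]
  refine ⟨fun h' => h'.2, fun h' => ⟨rsg_box_mem ⟨(h z h').1, (h z h').2, h'.1.1, h'.1.2⟩, h'⟩⟩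

theorem glf_mem_M {D : RsgDat} (h : GlfBox D) {z : TV} : z ∈ rsgM (glfD D) ↔ glfJ z ∈ rsgM D := by
  rw [glf_mem_M0 (glf_box_D h), glf_mem_M0 h]
  show z ∈ hxrQ (-D.y1 - 1) (-D.y0 - 1) (D.xm + 1) (D.xM + 1) (glfJ ⁻¹' D.a) (glfJ ⁻¹' D.c) ↔ _
  rw [glf_Q]
  rfl

theorem glf_mem_Q {D : RsgDat} (hT : D.T = false) (h : GlfBox D) {v : TV} : v ∈ rsgQ (glfD D) ↔ glfS v ∈ rsgQ D := by
  unfold rsgQ
  rw [Finset.mem_biUnion, Finset.mem_biUnion, hT]
  constructor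
  · rintro ⟨z, hz, hv⟩
    exact ⟨glfJ z, (glf_mem_M h).1 hz, (glf_mem_cs v z).1 hv⟩
  · rintro ⟨z, hz, hv⟩
    refine ⟨glfI z, (glf_mem_M h).2 (by rwa [glf_JI]), (glf_mem_cs v (glfI z)).2 (by rwa [glf_JI])⟩

theorem glf_mem_side {Q Q' : Finset TV} (hQ : ∀ v, v ∈ Q' ↔ glfS v ∈ Q) (Z : Set TV) {v : TV} :
    v ∈ rsgSide true Q' (glfJ ⁻¹' Z) ↔ glfS v ∈ rsgSide false Q Z := by
  classical
  unfold rsgSide
  rw [Finset.mem_filter, Finset.mem_filter, hQ]
  refine and_congr_right fun _ => ?_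
  constructor
  · rintro ⟨z, hz, hv⟩
    exact ⟨glfJ z, hz, (glf_mem_cs v z).1 hv⟩
  · rintro ⟨z, hz, hv⟩
    exact ⟨glfI z, by show glfJ (glfI z) ∈ Z; rwa [glf_JI], (glf_mem_cs v (glfI z)).2 (by rwa [glf_JI])⟩

theorem glf_mem_La {D : RsgDat} (hT : D.T = false) (h : GlfBox D) {v : TV} : v ∈ rsgLa (glfD D) ↔ glfS v ∈ rsgLa D := by
  unfold rsgLa
  rw [hT]
  exact glf_mem_side (fun v => glf_mem_Q hT h) D.a

theorem glf_mem_Lc {D : RsgDat} (hT : D.T = false) (h : GlfBox D) {v : TV} : v ∈ rsgLc (glfD D) ↔ glfS v ∈ rsgLc D := by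
  unfold rsgLc
  rw [hT]
  exact glf_mem_side (fun v => glf_mem_Q hT h) D.c

/-- the two ends are exchanged -/
theorem glf_mem_Ld {D : RsgDat} (hT : D.T = false) (h : GlfBox D) {v : TV} : v ∈ rsgLd (glfD D) ↔ glfS v ∈ rsgLb D := by
  unfold rsgLd rsgLb
  rw [Finset.mem_filter, Finset.mem_filter, glf_mem_Q hT h]
  refine and_congr_right fun _ => ?_
  simp only [glfD, glfS]
  omega

theorem glf_mem_Lb {D : RsgDat} (hT : D.T = false) (h : GlfBox D) {v : TV} : v ∈ rsgLb (glfD D) ↔ glfS v ∈ rsgLd D := by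
  unfold rsgLd rsgLb
  rw [Finset.mem_filter, Finset.mem_filter, glf_mem_Q hT h]
  refine and_congr_right fun _ => ?_
  simp only [glfD, glfS]
  omega

/-- the cells which meet `Q` -/
theorem glf_mem_cells {T : Bool} {Q : Finset TV} {z : TV} : z ∈ rsgCells T Q ↔ ∃ u ∈ rsgCs T z, u ∈ Q := by
  cases T
  · simp only [rsgCells, rsgCs, cellD, Bool.false_eq_true, if_false, Finset.mem_union, Finset.mem_image, Finset.mem_insert, Finset.mem_singleton,
      exists_eq_or_imp, exists_eq_left]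
    constructor
    · rintro ((⟨u, hu, rfl⟩ | ⟨u, hu, rfl⟩) | ⟨u, hu, rfl⟩)
      · left; simpa using hu
      · right; left; simpa using hu
      · right; right; simpa using hu
    · rintro (h | h | h)
      · exact Or.inl (Or.inl ⟨_, h, by simp⟩)
      · exact Or.inl (Or.inr ⟨_, h, by simp⟩)
      · exact Or.inr ⟨_, h, by simp⟩
  · exact lat_mem_cells

theorem glf_cells {Q Q' : Finset TV} (hQ : ∀ v, v ∈ Q' ↔ glfS v ∈ Q) {z : TV} : z ∈ rsgCells true Q' ↔ glfJ z ∈ rsgCells false Q := by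
  rw [glf_mem_cells, glf_mem_cells]
  constructor
  · rintro ⟨u, h1, h2⟩
    exact ⟨glfS u, (glf_mem_cs u z).1 h1, (hQ u).1 h2⟩
  · rintro ⟨u, h1, h2⟩
    exact ⟨glfS u, (glf_mem_cs _ z).2 (by rwa [glf_SS]), (hQ _).2 (by rwa [glf_SS])⟩

theorem glf_mem_Cb {D : RsgDat} (hT : D.T = false) (h : GlfBox D) {z : TV} : z ∈ rsgCb (glfD D) ↔ glfJ z ∈ rsgCb D := by
  unfold rsgCb
  rw [Finset.mem_sdiff, Finset.mem_sdiff, glf_mem_M h, hT]
  exact and_congr_left fun _ => glf_cells fun v => glf_mem_Q hT h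

/-- from the membership dictionary to images -/
theorem glf_image {α : Type*} [DecidableEq α] {f g : α → α} (gf : ∀ z, g (f z) = z) {A A' : Finset α} (h : ∀ v, v ∈ A' ↔ g v ∈ A) (fg : ∀ z, f (g z) = z) :
    A'.image g = A := by
  ext v
  rw [Finset.mem_image]
  constructor
  · rintro ⟨w, hw, rfl⟩
    exact (h w).1 hw
  · intro hv
    exact ⟨f v, (h _).2 (by rwa [gf]), gf v⟩

/-! ## §5 the isomorphism of the closed strip systems -/

theorem glf_sv {Q Q' : Finset TV} (hQ : ∀ v, v ∈ Q' ↔ glfS v ∈ Q) (y : TV) :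
    rsgCs false (glfJ y) ∩ Q = (rsgCs true y ∩ Q').image glfS := by
  refine (glf_image (f := glfS) glf_SS (fun v => ?_) glf_SS).symm
  rw [Finset.mem_inter, Finset.mem_inter, glf_mem_cs, hQ]

/-- **the reflection is an isomorphism of the closed strip system of the reflected data (class `true`) onto the closed strip system (class `false`)** -/
theorem glf_iso (x : ℝ) {D : RsgDat} (hT : D.T = false) (h : GlfBox D) : CuIso (rsgS x (glfD D)) (rsgS x D) glfS glfJ := by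
  have hQ : ∀ v, v ∈ rsgQ (glfD D) ↔ glfS v ∈ rsgQ D := fun v => glf_mem_Q hT h
  unfold rsgS
  rw [hT]
  exact
  { injV := glf_S_inj.injOn
    injY := glf_J_inj.injOn
    A := glf_image (f := glfS) glf_SS hQ glf_SS
    C := glf_image (f := glfI) glf_JI (fun z => glf_cells hQ) glf_IJ
    sv := fun y _ => glf_sv hQ y
    q := fun y _ => by
      show (if (rsgCs false (glfJ y) ∩ rsgQ D).card = 3 then x ^ 2 else x) = if (rsgCs true y ∩ rsgQ (glfD D)).card = 3 then x ^ 2 else x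
      rw [glf_sv hQ y, Finset.card_image_of_injective _ glf_S_inj] }

section abs

variable {V Y V₀ Y₀ : Type} [DecidableEq V] [DecidableEq Y] [DecidableEq V₀] [DecidableEq Y₀]

/-- the history of the strip law does not see the order of the two ends -/
theorem glf_H0_comm (S : ClSys V Y) (Cb : Finset Y) (La Lc Ld Lb : Finset V) : glH0 S Cb La Lc Ld Lb = glH0 S Cb La Lc Lb Ld := by
  unfold glH0 glEnd
  rw [Finset.union_comm Ld Lb]

/-- **the estimate of the glue machine is transported by an isomorphism** -/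
theorem glf_iso_est {S₀ : ClSys V₀ Y₀} {S : ClSys V Y} {φ : V₀ → V} {ψ : Y₀ → Y} (i : CuIso S₀ S φ ψ) (ok₀ : ClOk S₀)
    {Cb₀ : Finset Y₀} {La₀ Lc₀ Ld₀ Lb₀ : Finset V₀} (hCb : Cb₀ ⊆ S₀.C) (hLa : La₀ ⊆ S₀.A) (hLc : Lc₀ ⊆ S₀.A) (hLd : Ld₀ ⊆ S₀.A) (hLb : Lb₀ ⊆ S₀.A)
    {Kc₀ : Finset Y₀} {c : ℝ}
    (hc : c * S₀.Z ((glH0 S₀ Cb₀ La₀ Lc₀ Ld₀ Lb₀).Holds S₀) ≤
      S₀.N ((glH0 S₀ Cb₀ La₀ Lc₀ Ld₀ Lb₀).Holds S₀) (glInd (fun ω => GlJoinC S₀ (↑Kc₀ ∩ glOn S₀ 1 ω) La₀ Lc₀))) :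
    c * S.Z ((glH0 S (Cb₀.image ψ) (La₀.image φ) (Lc₀.image φ) (Ld₀.image φ) (Lb₀.image φ)).Holds S) ≤
      S.N ((glH0 S (Cb₀.image ψ) (La₀.image φ) (Lc₀.image φ) (Ld₀.image φ) (Lb₀.image φ)).Holds S)
        (glInd (fun ω => GlJoinC S (↑(Kc₀.image ψ) ∩ glOn S 1 ω) (La₀.image φ) (Lc₀.image φ))) := by
  rw [dis_Z_eq, ent_iso_N i ok₀.sub hCb hLa hLc hLd hLb, ent_iso_N i ok₀.sub hCb hLa hLc hLd hLb, ← dis_Z_eq]
  refine hc.trans ?_
  unfold ClSys.N
  refine Finset.sum_le_sum fun ω hω => ?_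
  split_ifs
  · refine mul_le_mul_of_nonneg_left ?_ (dis_wt_nonneg S₀ ok₀ ω)
    by_cases hj : GlJoinC S₀ (↑Kc₀ ∩ glOn S₀ 1 ω) La₀ Lc₀
    · rw [gl_ind_pos hj]
      exact (gl_ind_pos (L := fun ω => GlJoinC S (↑(Kc₀.image ψ) ∩ glOn S 1 ω) (La₀.image φ) (Lc₀.image φ))
        (ent_iso_event i ok₀.sub Kc₀ hω hj)).ge
    · rw [gl_ind_neg hj]
      exact gl_ind_nonneg _ _
  · exact le_rfl

end abs

/-- the closed system of class `T` on `Q` is a cell system -/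
theorem glf_SQ_ok {x : ℝ} (hx : 0 < x) (hx1 : x ≤ 1) (T : Bool) (Q : Finset TV) : ClOk (rsgSQ x T Q) where
  sub := fun y _ => Finset.inter_subset_right
  ne := fun y hy => by
    obtain ⟨u, h1, h2⟩ := glf_mem_cells.1 hy
    exact ⟨u, Finset.mem_inter.2 ⟨h1, h2⟩⟩
  q0 := fun y _ => by
    show 0 < if (rsgCs T y ∩ Q).card = 3 then x ^ 2 else x
    split_ifs
    · positivity
    · exact hx
  q1 := fun y _ => by
    show (if (rsgCs T y ∩ Q).card = 3 then x ^ 2 else x) ≤ 1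
    split_ifs
    · exact pow_le_one₀ hx.le hx1
    · exact hx1

/-! ## §6 the strip estimate for the class `false` -/

theorem glf_side_sub (T : Bool) (Q : Finset TV) (Z : Set TV) : rsgSide T Q Z ⊆ Q := by
  classical
  unfold rsgSide
  exact Finset.filter_subset _ _

/-- **THE STRIP ESTIMATE FOR THE DOWN CELLS FOLLOWS FROM THE STRIP ESTIMATE FOR THE REFLECTED DATA (UP CELLS)** -/
theorem glf_est {x : ℝ} (hx : 0 < x) (hx1 : x ≤ 1) {D : RsgDat} (hT : D.T = false) (h : GlfBox D) (hE : RsgEst x (glfD D)) : RsgEst x D := by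
  obtain ⟨Kc, hKc, hc⟩ := hE
  refine ⟨Kc.image glfJ, fun z hz => ?_, ?_⟩
  · obtain ⟨w, hw, rfl⟩ := Finset.mem_image.1 hz
    exact (glf_mem_M h).1 (hKc hw)
  have i := glf_iso x hT h
  have key := glf_iso_est i (glf_SQ_ok hx hx1 _ _) (Cb₀ := rsgCb (glfD D)) (La₀ := rsgLa (glfD D)) (Lc₀ := rsgLc (glfD D)) (Ld₀ := rsgLd (glfD D))
    (Lb₀ := rsgLb (glfD D)) Finset.sdiff_subset (glf_side_sub _ _ _) (glf_side_sub _ _ _) (Finset.filter_subset _ _)
    (Finset.filter_subset _ _) (Kc₀ := Kc) (c := 1 / 64) hc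
  rw [glf_image (f := glfI) glf_JI (fun z => glf_mem_Cb hT h) glf_IJ, glf_image (f := glfS) glf_SS (fun v => glf_mem_La hT h) glf_SS,
    glf_image (f := glfS) glf_SS (fun v => glf_mem_Lc hT h) glf_SS, glf_image (f := glfS) glf_SS (fun v => glf_mem_Ld hT h) glf_SS,
    glf_image (f := glfS) glf_SS (fun v => glf_mem_Lb hT h) glf_SS, glf_H0_comm] at key
  exact key

/-! ## §7 the record: the reflected data of two explorations are the data of the explorations of the reflected set -/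

theorem glf_rect (A B c d : ℤ) : rswRect (A + 1) (B + 1) (-d - 1) (-c - 1) = glfJ ⁻¹' rswRect A B c d := by
  ext z
  simp only [rswRect, rswX, glfJ, Set.mem_preimage, Set.mem_ofPred_eq]
  omega

theorem glf_SgL (A c d m w : ℤ) : rsrSgL (A + 1) (-d - 1) (-c - 1) (m + 1) w = glfJ ⁻¹' rsrSgL A c d m w := by
  ext z
  simp only [rsrSgL, rswX, glfJ, Set.mem_preimage, Set.mem_ofPred_eq]
  omega

theorem glf_SgR (B c d m w : ℤ) : rsrSgR (B + 1) (-d - 1) (-c - 1) (m + 1) w = glfJ ⁻¹' rsrSgR B c d m w := by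
  ext z
  simp only [rsrSgR, rswX, glfJ, Set.mem_preimage, Set.mem_ofPred_eq]
  omega

theorem glf_Lam (j i w : ℤ) : rsrLam (-j - 1) (i + 1) w = glfJ ⁻¹' rsrLam j i w := by
  ext z
  simp only [rsrLam, rswX, glfJ, Set.mem_preimage, Set.mem_ofPred_eq]
  omega

/-- the cluster of the left arc -/
theorem glf_clI (A B c d w m : ℤ) (P : Set TV) :
    pleI tscG (rswRect (A + 1) (B + 1) (-d - 1) (-c - 1) \ glfJ ⁻¹' P) (rsrSgL (A + 1) (-d - 1) (-c - 1) (m + 1) w) =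
      glfJ ⁻¹' pleI tscG (rswRect A B c d \ P) (rsrSgL A c d m w) := by
  rw [glf_rect, glf_SgL]
  exact glf_I_pre glf_aut (rswRect A B c d \ P) _

/-- the cluster of the right arc -/
theorem glf_clJ (A B c d w m : ℤ) (P : Set TV) :
    pleI tscG (rswRect (A + 1) (B + 1) (-d - 1) (-c - 1) \ glfJ ⁻¹' P) (rsrSgR (B + 1) (-d - 1) (-c - 1) (m + 1) w) =
      glfJ ⁻¹' pleI tscG (rswRect A B c d \ P) (rsrSgR B c d m w) := by
  rw [glf_rect, glf_SgR]
  exact glf_I_pre glf_aut (rswRect A B c d \ P) _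

/-- **the layer `a`** -/
theorem glf_Ga (A B c d w m : ℤ) (I : Set TV) : rsrGa (A + 1) (B + 1) (-d - 1) (-c - 1) w (m + 1) (glfJ ⁻¹' I) = glfJ ⁻¹' rsrGa A B c d w m I := by
  unfold rsrGa
  rw [glf_rect, glf_SgL, glf_SgR, glf_Gam_pre glf_aut]

/-- **the layer `c`** -/
theorem glf_Gc (A B c d w m : ℤ) (J : Set TV) : rsrGc (A + 1) (B + 1) (-d - 1) (-c - 1) w (m + 1) (glfJ ⁻¹' J) = glfJ ⁻¹' rsrGc A B c d w m J := by
  unfold rsrGc
  rw [glf_rect, glf_SgL, glf_SgR, glf_Gam_pre glf_aut]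

/-- a statement on all the cells of a preimage -/
theorem glf_forall {s : Set TV} {p : TV → Prop} : (∀ z ∈ glfJ ⁻¹' s, p (glfJ z)) ↔ ∀ z ∈ s, p z := by
  constructor
  · intro h z hz
    have := h (glfI z) (by show glfJ (glfI z) ∈ s; rwa [glf_JI])
    rwa [glf_JI] at this
  · exact fun h z hz => h _ hz

/-- both crossings exist -/
theorem glf_G0 {A B c d w m m' : ℤ} {I J : Set TV} :
    RsrG0 (A + 1) (B + 1) (-d - 1) (-c - 1) w (m + 1) (m' + 1) (glfJ ⁻¹' I) (glfJ ⁻¹' J) ↔ RsrG0 A B c d w m m' I J := by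
  unfold RsrG0
  rw [glf_rect, glf_SgL, glf_SgR]
  exact and_congr (glf_forall (s := rswRect A B c d ∩ rsrSgR B c d m w) (p := fun z => z ∉ I))
    (glf_forall (s := rswRect A B c d ∩ rsrSgL A c d m' w) (p := fun z => z ∉ J))

/-- the tips -/
theorem glf_G1 {A B c d w m m' ta tc : ℤ} {I J : Set TV} :
    RsrG1 (A + 1) (B + 1) (-d - 1) (-c - 1) w (m + 1) (m' + 1) (ta + 1) (tc + 1) (glfJ ⁻¹' I) (glfJ ⁻¹' J) ↔ RsrG1 A B c d w m m' ta tc I J := by
  unfold RsrG1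
  rw [glf_G0, glf_Ga, glf_Gc]
  refine and_congr_right fun _ => and_congr ?_ ?_
  · constructor
    · rintro ⟨z, hz, h⟩
      refine ⟨glfJ z, hz, ?_⟩
      have := glf_X_J z
      unfold hxsX at this
      unfold rswX at *
      omega
    · rintro ⟨z, hz, h⟩
      refine ⟨glfI z, glf_mem_pre hz, ?_⟩
      have := glf_X_I z
      unfold hxsX at this
      unfold rswX at *
      omega
  · constructor
    · rintro ⟨z, hz, h⟩
      refine ⟨glfJ z, hz, ?_⟩
      have := glf_X_J z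
      unfold hxsX at this
      unfold rswX at *
      omega
    · rintro ⟨z, hz, h⟩
      refine ⟨glfI z, glf_mem_pre hz, ?_⟩
      have := glf_X_I z
      unfold hxsX at this
      unfold rswX at *
      omega

/-- the strip data of the two explorations of `P` in the box `rswRect A B c d`      (`= rsgD T A B c d w m m' P` of `Ann/RswGlue`, by `rfl`) -/
def glfRec (T : Bool) (A B c d w m m' : ℤ) (P : Set TV) : RsgDat :=
  ⟨T, c, d, A, B, rsrGa A B c d w m (pleI tscG (rswRect A B c d \ P) (rsrSgL A c d m w)),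
    rsrGc A B c d w m' (pleI tscG (rswRect A B c d \ P) (rsrSgR B c d m' w))⟩

theorem glf_eqns_cite3 : True := by
  have := @glfRec.eq_1
  trivial

/-- **the reflected data of the explorations of `P` are the data of the explorations of the reflected set** -/
theorem glf_D_rec (A B c d w m m' : ℤ) (P : Set TV) :
    glfD (glfRec false A B c d w m m' P) = glfRec true (A + 1) (B + 1) (-d - 1) (-c - 1) w (m + 1) (m' + 1) (glfJ ⁻¹' P) := by
  unfold glfRec glfD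
  rw [glf_clI, glf_clJ, glf_Ga, glf_Gc]

/-- **THE CLASS `false` AT THE LEVEL OF THE RECORD**: the strip estimate for the explorations of the reflected set (up cells) gives the strip estimate for the explorations of `P` (down cells) -/
theorem glf_record {x : ℝ} (hx : 0 < x) (hx1 : x ≤ 1) {A B c d w m m' : ℤ} {P : Set TV} (h : GlfBox (glfRec false A B c d w m m' P))
    (hE : RsgEst x (glfRec true (A + 1) (B + 1) (-d - 1) (-c - 1) w (m + 1) (m' + 1) (glfJ ⁻¹' P))) : RsgEst x (glfRec false A B c d w m m' P) :=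
  glf_est hx hx1 rfl h (by rw [glf_D_rec]; exact hE)

/-- **REDUCTION OF THE CLASS**: a hypothesis on the record data which is invariant under the reflection and gives the strip estimate for the up cells gives it for both classes.
(`Hyp` = numerics + `RsrG0` / `RsrG1` + not T1 + not T2: `glf_G0`, `glf_G1`, `glf_T1`, `glf_T2`, `glf_Ga`, `glf_Gc`, `glf_clI`, `glf_clJ`.) -/
theorem glf_class {x : ℝ} (hx : 0 < x) (hx1 : x ≤ 1) (Hyp : ℤ → ℤ → ℤ → ℤ → ℤ → ℤ → ℤ → Set TV → Prop)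
    (hinv : ∀ A B c d w m m' P, Hyp A B c d w m m' P → Hyp (A + 1) (B + 1) (-d - 1) (-c - 1) w (m + 1) (m' + 1) (glfJ ⁻¹' P))
    (hbox : ∀ A B c d w m m' P, Hyp A B c d w m m' P → GlfBox (glfRec false A B c d w m m' P))
    (htrue : ∀ A B c d w m m' P, Hyp A B c d w m m' P → RsgEst x (glfRec true A B c d w m m' P))
    (T : Bool) (A B c d w m m' : ℤ) (P : Set TV) (h : Hyp A B c d w m m' P) : RsgEst x (glfRec T A B c d w m m' P) := by
  cases T
  · exact glf_record hx hx1 (hbox _ _ _ _ _ _ _ _ h) (htrue _ _ _ _ _ _ _ _ (hinv _ _ _ _ _ _ _ _ h))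
  · exact htrue _ _ _ _ _ _ _ _ h

/-! ## §8 the vocabulary of `Ann/RswPl` -/

section rpl

variable {c d w σ m e : ℤ} {P : Set TV}

theorem glf_rpl_I : rplI (-d - 1) (-c - 1) w σ (m + 1) e (glfJ ⁻¹' P) = glfJ ⁻¹' rplI c d w σ m e P := by
  unfold rplI
  have e1 : m + 1 - e = m - e + 1 := by ring
  have e2 : m + 1 + σ + e = m + σ + e + 1 := by ring
  rw [e1, e2]
  exact glf_clI _ _ _ _ _ _ _

theorem glf_rpl_J : rplJ (-d - 1) (-c - 1) w σ (m + 1) e (glfJ ⁻¹' P) = glfJ ⁻¹' rplJ c d w σ m e P := by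
  unfold rplJ
  have e1 : m + 1 - e = m - e + 1 := by ring
  have e2 : m + 1 + σ + e = m + σ + e + 1 := by ring
  have e3 : m + 1 + σ = m + σ + 1 := by ring
  rw [e1, e2, e3]
  exact glf_clJ _ _ _ _ _ _ _

theorem glf_rpl_A : rplA (-d - 1) (-c - 1) w σ (m + 1) e (glfJ ⁻¹' P) = glfJ ⁻¹' rplA c d w σ m e P := by
  unfold rplA
  have e1 : m + 1 - e = m - e + 1 := by ring
  have e2 : m + 1 + σ + e = m + σ + e + 1 := by ring
  rw [glf_rpl_I, e1, e2]
  exact glf_Ga _ _ _ _ _ _ _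

theorem glf_rpl_C : rplC (-d - 1) (-c - 1) w σ (m + 1) e (glfJ ⁻¹' P) = glfJ ⁻¹' rplC c d w σ m e P := by
  unfold rplC
  have e1 : m + 1 - e = m - e + 1 := by ring
  have e2 : m + 1 + σ + e = m + σ + e + 1 := by ring
  have e3 : m + 1 + σ = m + σ + 1 := by ring
  rw [glf_rpl_J, e1, e2, e3]
  exact glf_Gc _ _ _ _ _ _ _

theorem glf_rpl_G0 : RplG0 (-d - 1) (-c - 1) w σ (m + 1) e (glfJ ⁻¹' P) ↔ RplG0 c d w σ m e P := by
  unfold RplG0
  have e1 : m + 1 - e = m - e + 1 := by ring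
  have e2 : m + 1 + σ + e = m + σ + e + 1 := by ring
  have e3 : m + 1 + σ = m + σ + 1 := by ring
  rw [glf_rpl_I, glf_rpl_J, e1, e2, e3]
  exact glf_G0

/-- the reflected data of the record -/
theorem glf_rpl_D : glfD (rplD false c d w σ m e P) = rplD true (-d - 1) (-c - 1) w σ (m + 1) e (glfJ ⁻¹' P) := by
  unfold rplD glfD
  have e1 : m + 1 - e = m - e + 1 := by ring
  have e2 : m + 1 + σ + e = m + σ + e + 1 := by ring
  rw [glf_rpl_A, glf_rpl_C, e1, e2]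

theorem glf_rpl_box (hcd : c < d) (hw : 1 ≤ w) (hσ : 0 ≤ σ) (he : w + 4 ≤ e) (h0 : RplG0 c d w σ m e P) (T : Bool) : GlfBox (rplD T c d w σ m e P) := by
  intro z hz
  have := rpl_Q_R hcd hw hσ he h0 hz
  exact ⟨this.1, this.2.1⟩

/-- **the class `false` at the record, vocabulary of 206** -/
theorem glf_rpl {x : ℝ} (hx : 0 < x) (hx1 : x ≤ 1) (hcd : c < d) (hw : 1 ≤ w) (hσ : 0 ≤ σ) (he : w + 4 ≤ e) (h0 : RplG0 c d w σ m e P)
    (hE : RsgEst x (rplD true (-d - 1) (-c - 1) w σ (m + 1) e (glfJ ⁻¹' P))) : RsgEst x (rplD false c d w σ m e P) :=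
  glf_est hx hx1 rfl (glf_rpl_box hcd hw hσ he h0 false) (by rw [glf_rpl_D]; exact hE)

theorem glf_rpl_gt {a : Set TV} {t : ℤ} (h : ∃ z ∈ a, t < rswX z) : ∃ z ∈ glfJ ⁻¹' a, t + 1 < rswX z := by
  obtain ⟨z, hz, h1⟩ := h
  refine ⟨glfI z, glf_mem_pre hz, ?_⟩
  have := glf_X_I z
  unfold hxsX at this
  unfold rswX at *
  omega

theorem glf_rpl_lt {a : Set TV} {t : ℤ} (h : ∃ z ∈ a, rswX z < t) : ∃ z ∈ glfJ ⁻¹' a, rswX z < t + 1 := by
  obtain ⟨z, hz, h1⟩ := h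
  refine ⟨glfI z, glf_mem_pre hz, ?_⟩
  have := glf_X_I z
  unfold hxsX at this
  unfold rswX at *
  omega

end rpl

/-- **(L-TIP): THE CLASS `true` IS ENOUGH** (statement of `rsg_est_tip` of `Ann/RswGlue`; `k` = the number of `σ` in the room of the tips) -/
theorem glf_rpl_tip {x : ℝ} (hx : 0 < x) (hx1 : x ≤ 1) (k : ℤ)
    (htrue : ∀ {c d w σ m e e2 : ℤ} {P : Set TV}, c < d → 1 ≤ w → 2 * w < σ → w + 4 ≤ e → e2 ≤ e → e + k * σ + w + 8 ≤ 2 * e2 → RplG0 c d w σ m e P →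
      ¬ RsgT1 (rplA c d w σ m e P) (rplC c d w σ m e P) → ¬ RsgT2 c d (rplA c d w σ m e P) (rplC c d w σ m e P) →
      (∃ z ∈ rplA c d w σ m e P, m + e2 < rswX z) → (∃ z ∈ rplC c d w σ m e P, rswX z < m + σ - e2) → RsgEst x (rplD true c d w σ m e P))
    (T : Bool) {c d w σ m e e2 : ℤ} {P : Set TV} (hcd : c < d) (hw : 1 ≤ w) (hσ : 2 * w < σ) (he : w + 4 ≤ e) (h21 : e2 ≤ e)
    (h22 : e + k * σ + w + 8 ≤ 2 * e2) (h0 : RplG0 c d w σ m e P)
    (h1 : ¬ RsgT1 (rplA c d w σ m e P) (rplC c d w σ m e P)) (h2 : ¬ RsgT2 c d (rplA c d w σ m e P) (rplC c d w σ m e P))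
    (hta : ∃ z ∈ rplA c d w σ m e P, m + e2 < rswX z) (htc : ∃ z ∈ rplC c d w σ m e P, rswX z < m + σ - e2) : RsgEst x (rplD T c d w σ m e P) := by
  cases T
  · refine glf_rpl hx hx1 hcd hw (by omega) he h0 (htrue (e2 := e2) (by omega) hw hσ he h21 h22 (glf_rpl_G0.2 h0) ?_ ?_ ?_ ?_)
    · rw [glf_rpl_A, glf_rpl_C, glf_T1]; exact h1
    · rw [glf_rpl_A, glf_rpl_C, glf_T2]; exact h2
    · rw [glf_rpl_A]
      have := glf_rpl_gt hta
      have e1 : m + 1 + e2 = m + e2 + 1 := by ring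
      rwa [e1]
    · rw [glf_rpl_C]
      have := glf_rpl_lt htc
      have e1 : m + 1 + σ - e2 = m + σ - e2 + 1 := by ring
      rwa [e1]
  · exact htrue hcd hw hσ he h21 h22 h0 h1 h2 hta htc

/-- **(L-TUBE): THE CLASS `true` IS ENOUGH** (statement of `rsg_est_tube` of `Ann/RswGlue`) -/
theorem glf_rpl_tube {x : ℝ} (hx : 0 < x) (hx1 : x ≤ 1)
    (htrue : ∀ {c d w σ m e : ℤ} {P : Set TV}, c < d → 1 ≤ w → 2 * w < σ → w + 4 ≤ e → 12 * (σ + 2 * e) + 64 ≤ d - c → RplG0 c d w σ m e P →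
      ¬ RsgT1 (rplA c d w σ m e P) (rplC c d w σ m e P) → ¬ RsgT2 c d (rplA c d w σ m e P) (rplC c d w σ m e P) → RsgEst x (rplD true c d w σ m e P))
    (T : Bool) {c d w σ m e : ℤ} {P : Set TV} (hcd : c < d) (hw : 1 ≤ w) (hσ : 2 * w < σ) (he : w + 4 ≤ e) (hnar : 12 * (σ + 2 * e) + 64 ≤ d - c)
    (h0 : RplG0 c d w σ m e P) (h1 : ¬ RsgT1 (rplA c d w σ m e P) (rplC c d w σ m e P))
    (h2 : ¬ RsgT2 c d (rplA c d w σ m e P) (rplC c d w σ m e P)) : RsgEst x (rplD T c d w σ m e P) := by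
  cases T
  · refine glf_rpl hx hx1 hcd hw (by omega) he h0 (htrue (by omega) hw hσ he (by omega) (glf_rpl_G0.2 h0) ?_ ?_)
    · rw [glf_rpl_A, glf_rpl_C, glf_T1]; exact h1
    · rw [glf_rpl_A, glf_rpl_C, glf_T2]; exact h2
  · exact htrue hcd hw hσ he hnar h0 h1 h2

end Claimed.Agent.R291
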