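import Claimed.Agent.R291.Glue.AdaptP
import Claimed.Agent.R291.Pl.Deep
import Claimed.Agent.R291.Pl.Closed
import Claimed.Agent.R291.Glue.AdaptT
import Claimed.Agent.R291.Ann.RswPl
import Claimed.Agent.R291.Pl.StripBar
import Claimed.Agent.R291.Glue.Flip

/-!
# Row 291 (S0539), Glue/AdaptTip : THE THREE PLACES OF A PAIR OF LATERAL TIPS, AS SITE COMPONENTS      (owner helper187; prefix `gtp_`)

Unit ANN, block A3-II (L-TIP), class of the up-cells.   Pure lattice: no model, no record.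
INPUT: `HxrPair` (two crossings `a`, `c` of the band of the cell indices), the tip hypotheses of `rsg_est_tip`, the free cells `M = hxrQ` as a `Finset`, `Q = sites(M)` simply connected, and ONE core cell of the left side on the thick
right axis (a cell of `hxrAA` no site of which lies in `Q`: cure of the thin tip trap).
OUTPUT: three class preserving mirrors `ρ i` and three index places `K i` (`HxrPlace`, 105) such that the SITE components `gapK (ρ i) Q (sites (K i))` of `Q ∩ ρ Q` (31) lie strictly inside the site rows and are pairwise disjoint: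
the place inputs of the generic assembly `gat_three` (helper1).

* `gtp_c_eq`, `gtp_I_coe`      the mirror `glMirV (μ + 1)` : on the indices it is `hxsM μ`, on the sites `hxsM (μ + 1)`
* `gtp_rows`                   `Q ∩ ρ Q` misses the two extreme site rows as soon as the extreme rows of `M` lie on one side of the thick axis
* `gtp_slab`                   `Q ∩ ρ Q` lies in the slab of the mirror
* **`gtp_axis`**               two places of ONE axis (`HxdTwo`) + a core cell: the two site components are disjoint and not adjacent      (`pcl_c2_cells`)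
* `gtp_row_right`, `gtp_row_left`, `gtp_place_sub`      band level facts
* **`gtp_tip`**                the three places
* **`gtp_est`**                (L-TIP), class `true`, on the strip of a pair (`GatStrip` of helper1): twin of `gat_tube`
* §6 (text of helper143, file `Ann/RswAsm` reverted by the small file rule) **`rsa_tip_geo`**, **`rsa_tip_true`** = `rsg_est_tip` of `Ann/RswGlue` at `T = true`, NO debt
* §7 (text of helper191, file `Glue/TubeB` reverted by the small file rule) `gtb_*`, **`gtb_est`** = (L-TUBE), class `true`, from `GlStrip` + `PclStrip`;   **`rsa_tube_true`** = `rsg_est_tube` at `T = true`, NO debt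
* §8 the class `false` by the reflection of 62 (`Glue/Flip`): `gtp_flip_*`;   **`rsa_tip`**, **`rsa_tube`** = `rsg_est_tip`, `rsg_est_tube` of `Ann/RswGlue` VERBATIM, both classes, NO debt
* **`gtp_est_rec`**            the same at the record (vocabulary of 206, `Ann/RswPl`): the statement `rsg_est_tip` of `Ann/RswGlue` for `T = true`, from `GatStrip` only
-/

set_option autoImplicit false
set_option linter.unusedSectionVars false
set_option linter.unusedVariables false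
set_option linter.unusedSimpArgs false

namespace Claimed.Agent.R291

open Relation Claims Claims.C0467

/-! ## §1 the vertical mirror -/

theorem gtp_c_eq (μ : ℤ) : (glMirV (μ + 1)).c = hxsM μ := by
  funext p
  show ((μ + 1 - p.1 - p.2 - 1, p.2) : ℤ × ℤ) = (μ - p.1 - p.2, p.2)
  exact Prod.ext (by simp only; omega) rfl

theorem gtp_f_eq (μ : ℤ) : (glMirV μ).f = hxsM μ := rfl

theorem gtp_I_coe (μ : ℤ) (Q : Finset TV) : (↑(gapI (glMirV μ) Q) : Set TV) = {v | v ∈ (↑Q : Set TV) ∧ hxsM μ v ∈ (↑Q : Set TV)} := by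
  ext v
  rw [Finset.mem_coe, gap_mem_I]
  rfl

theorem gtp_mem_cell {y v : TV} : v ∈ cellV y ↔ v = y ∨ v = (y.1 + 1, y.2) ∨ v = (y.1, y.2 + 1) := by
  obtain ⟨y1, y2⟩ := y
  obtain ⟨v1, v2⟩ := v
  simp only [cellV, Finset.mem_insert, Finset.mem_singleton, Prod.mk_add_mk, Prod.mk.injEq, add_zero]

/-! ## §2 rows and slabs -/

/-- `Q ∩ ρ Q` misses the two extreme site rows -/
theorem gtp_rows {Q M : Finset TV} {y0 y1 μ : ℤ} (hQ : ∀ v ∈ Q, ∃ y ∈ M, v ∈ cellV y) (hMb : ∀ y ∈ M, y0 ≤ y.2 ∧ y.2 ≤ y1)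
    (hrow : (∀ y ∈ M, (y.2 = y0 ∨ y.2 = y1) → hxsX y < μ - 1) ∨ (∀ y ∈ M, (y.2 = y0 ∨ y.2 = y1) → μ + 1 < hxsX y)) :
    ∀ z ∈ gapI (glMirV (μ + 1)) Q, y0 < z.2 ∧ z.2 < y1 + 1 := by
  intro z hz
  obtain ⟨h1, h2⟩ := gap_mem_I.1 hz
  obtain ⟨y, hy, hzy⟩ := hQ z h1
  obtain ⟨y', hy', hzy'⟩ := hQ _ h2
  rw [gl_mirV_f] at hzy'
  have b := hMb y hy
  have b' := hMb y' hy'
  rw [gtp_mem_cell] at hzy hzy'
  obtain ⟨z1, z2⟩ := z
  obtain ⟨u1, u2⟩ := y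
  obtain ⟨w1, w2⟩ := y'
  simp only [Prod.mk.injEq] at hzy hzy' b b' ⊢
  rcases hrow with hrow | hrow
  · have r := hrow _ hy
    have r' := hrow _ hy'
    simp only [hxsX] at r r'
    constructor
    · by_contra hcon
      have e1 : u2 = y0 := by omega
      have e2 : w2 = y0 := by omega
      have := r (Or.inl e1)
      have := r' (Or.inl e2)
      omega
    · by_contra hcon
      have e1 : u2 = y1 := by omega
      have e2 : w2 = y1 := by omega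
      have := r (Or.inr e1)
      have := r' (Or.inr e2)
      omega
  · have r := hrow _ hy
    have r' := hrow _ hy'
    simp only [hxsX] at r r'
    constructor
    · by_contra hcon
      have e1 : u2 = y0 := by omega
      have e2 : w2 = y0 := by omega
      have := r (Or.inl e1)
      have := r' (Or.inl e2)
      omega
    · by_contra hcon
      have e1 : u2 = y1 := by omega
      have e2 : w2 = y1 := by omega
      have := r (Or.inr e1)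
      have := r' (Or.inr e2)
      omega

/-- `Q ∩ ρ Q` lies in the slab of the mirror -/
theorem gtp_slab {Q : Finset TV} {xm xM μ : ℤ} (hbox : ∀ v ∈ Q, xm ≤ hxsX v ∧ hxsX v ≤ xM) :
    ∀ z ∈ gapI (glMirV μ) Q, 2 * μ - xM ≤ hxsX z ∧ hxsX z ≤ 2 * μ - xm := by
  intro z hz
  obtain ⟨h1, h2⟩ := gap_mem_I.1 hz
  have := hbox _ h2
  rw [gl_mirV_f] at this
  simp only [hxsX] at this ⊢
  omega

/-- the sites of the cells of a box -/
theorem gtp_site_box {Q M : Finset TV} {xm xM : ℤ} (hQ : ∀ v ∈ Q, ∃ y ∈ M, v ∈ cellV y) (hM : ∀ y ∈ M, xm ≤ hxsX y ∧ hxsX y ≤ xM) :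
    ∀ v ∈ Q, xm ≤ hxsX v ∧ hxsX v ≤ xM + 2 := by
  intro v hv
  obtain ⟨y, hy, hvy⟩ := hQ v hv
  have := hM y hy
  rw [gtp_mem_cell] at hvy
  simp only [hxsX] at this ⊢
  rcases hvy with rfl | rfl | rfl <;> omega

/-! ## §3 two places of one axis -/

/-- **two places of one axis**: with a core cell on the thick axis the two site components are disjoint and not adjacent -/
theorem gtp_axis {Q M : Finset TV} (hs : TriSCOn (ZMod 2) tscG (↑Q : Set TV)) (hM : ∀ y ∈ M, cellV y ⊆ Q) {y0 y1 : ℤ} (hlow : ∀ v ∈ Q, y0 ≤ v.2)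
    {AA CC T : Set TV} {μ sl su : ℤ} {K0 K1 : Set TV} {lo0 hi0 lo1 hi1 : ℤ} (H : HxdTwo y0 y1 AA CC T μ sl su K0 K1 lo0 hi0 lo1 hi1)
    (h0 : K0 ⊆ (↑M : Set TV)) (h1 : K1 ⊆ (↑M : Set TV))
    (core : ∃ i ∈ T, μ - 1 ≤ hxsX i ∧ hxsX i ≤ μ + 1 ∧ ∀ s ∈ cellV i, s ∉ Q) :
    ∀ u ∈ gapK (glMirV (μ + 1)) Q (gapZ (gapF M K0)), ∀ v ∈ gapK (glMirV (μ + 1)) Q (gapZ (gapF M K1)), u ≠ v ∧ ¬ triAdj u v := by
  obtain ⟨i, hiT, hi1, hi2, hiQ⟩ := core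
  obtain ⟨m1, m2⟩ := H.mid i hiT hi1 hi2
  set ρ := glMirV (μ + 1) with hρ
  -- the two axis cells
  have hk0 : hxsAx μ hi0 ∈ K0 := H.run0 ⟨H.le0, le_rfl, (hxs_Ax_X μ hi0).1, (hxs_Ax_X μ hi0).2⟩
  have hk1 : hxsAx μ lo1 ∈ K1 := H.run1 ⟨le_rfl, H.le1, (hxs_Ax_X μ lo1).1, (hxs_Ax_X μ lo1).2⟩
  have inv0 : ∀ y ∈ gapF M K0, ρ.c y ∈ gapF M K0 := fun y hy => by
    have := H.p0.inv y (gap_mem_F.1 hy).2
    rw [hρ, gtp_c_eq]
    exact gap_mem_F.2 ⟨Finset.mem_coe.1 (h0 this), this⟩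
  have inv1 : ∀ y ∈ gapF M K1, ρ.c y ∈ gapF M K1 := fun y hy => by
    have := H.p1.inv y (gap_mem_F.1 hy).2
    rw [hρ, gtp_c_eq]
    exact gap_mem_F.2 ⟨Finset.mem_coe.1 (h1 this), this⟩
  have q0 : ∀ y ∈ gapF M K0, cellV y ⊆ Q := fun y hy => hM y (gap_mem_F.1 hy).1
  have q1 : ∀ y ∈ gapF M K1, cellV y ⊆ Q := fun y hy => hM y (gap_mem_F.1 hy).1
  have c0 : TscConn tscG (↑(gapZ (gapF M K0)) : Set TV) := gap_Z_conn (by rw [gap_F_coe h0]; exact H.p0.conn)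
  have c1 : TscConn tscG (↑(gapZ (gapF M K1)) : Set TV) := gap_Z_conn (by rw [gap_F_coe h1]; exact H.p1.conn)
  have s0 : (↑(gapZ (gapF M K0)) : Set TV) ⊆ ↑(gapI ρ Q) := Finset.coe_subset.2 (gap_Z_subI q0 inv0)
  have s1 : (↑(gapZ (gapF M K1)) : Set TV) ⊆ ↑(gapI ρ Q) := Finset.coe_subset.2 (gap_Z_subI q1 inv1)
  have f0 : hxsAx μ hi0 ∈ gapF M K0 := gap_mem_F.2 ⟨Finset.mem_coe.1 (h0 hk0), hk0⟩
  have f1 : hxsAx μ lo1 ∈ gapF M K1 := gap_mem_F.2 ⟨Finset.mem_coe.1 (h1 hk1), hk1⟩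
  have x0 : hxsAx μ hi0 ∈ cellV (hxsAx μ hi0) := gtp_mem_cell.2 (Or.inl rfl)
  have x1 : hxsAx μ lo1 ∈ cellV (hxsAx μ lo1) := gtp_mem_cell.2 (Or.inl rfl)
  refine gap_K_disj fun k hk k' hk' hp => ?_
  have p0 : TscR tscG (↑(gapI ρ Q) : Set TV) (hxsAx μ hi0) k :=
    tsc_R_mono s0 (c0 _ (Finset.mem_coe.2 (gap_mem_Z.2 ⟨_, f0, x0⟩)) _ (Finset.mem_coe.2 hk))
  have p1 : TscR tscG (↑(gapI ρ Q) : Set TV) k' (hxsAx μ lo1) :=
    tsc_R_mono s1 (c1 _ (Finset.mem_coe.2 hk') _ (Finset.mem_coe.2 (gap_mem_Z.2 ⟨_, f1, x1⟩)))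
  have path := tsc_R_trans (tsc_R_trans p0 hp) p1
  rw [hρ, gtp_I_coe] at path
  have a0 := hxs_Ax_X μ hi0
  have a1 := hxs_Ax_X μ lo1
  have r0 := (H.p0.rows _ hk0).1
  have e0 : (hxsAx μ hi0).2 = hi0 := rfl
  have e1 : (hxsAx μ lo1).2 = lo1 := rfl
  have mir : ∀ y : TV, ((μ + 1 - y.1 - y.2 - 1, y.2) : TV) = ρ.c y := fun y => rfl
  refine pcl_c2_cells (Q := (↑Q : Set TV)) hs (μ := μ + 1) (jb := y0 - 1) (k0 := hxsAx μ hi0) (k1 := hxsAx μ lo1) (i0 := i) ?_ (by omega)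
    (by simp only [hxsX] at a0; omega) (by simp only [hxsX] at a1; omega) (by simp only [hxsX] at hi1 hi2; omega)
    (Finset.coe_subset.2 (q0 _ f0)) (by rw [mir]; exact Finset.coe_subset.2 (q0 _ (inv0 _ f0)))
    (Finset.coe_subset.2 (q1 _ f1)) (by rw [mir]; exact Finset.coe_subset.2 (q1 _ (inv1 _ f1)))
    (fun s hs' h => hiQ s hs' (Finset.mem_coe.1 h)) (by omega) (by omega) x0 x1 path
  intro hsub
  have : hxsAx (μ + 1) (y0 - 1) ∈ (↑Q : Set TV) := hsub ⟨le_rfl, le_rfl, (hxs_Ax_X _ _).1, (hxs_Ax_X _ _).2⟩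
  have := hlow _ (Finset.mem_coe.1 this)
  have e : (hxsAx (μ + 1) (y0 - 1)).2 = y0 - 1 := rfl
  omega

/-! ## §4 the band level -/

section band

variable {y0 y1 xm xM : ℤ} {a c : Set (ℤ × ℤ)} {pa qa pc qc : ℤ × ℤ}

/-- the extreme rows of the strip lie on the left of the right axis -/
theorem gtp_row_right (H : HxrPair y0 y1 xm xM a c pa qa pc qc) {μ : ℤ} (h1 : hxsX pc + xM < 2 * μ) (h2 : hxsX qc + xM < 2 * μ) :
    ∀ y ∈ hxrQ y0 y1 xm xM a c, (y.2 = y0 ∨ y.2 = y1) → hxsX y < μ - 1 := by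
  intro y hy hrow
  have bp := (H.C.box pc H.C.pa).2
  have bq := (H.C.box qc H.C.qa).2
  have ep := H.C.p0
  have eq := H.C.q1
  rcases hrow with e | e
  · have : ¬ pc.1 ≤ y.1 := fun h => hy.2 (Or.inr (hxr_CC_bot H.C e h))
    simp only [hxsX] at *
    omega
  · have : ¬ qc.1 ≤ y.1 := fun h => hy.2 (Or.inr (hxr_CC_top H.C e h))
    simp only [hxsX] at *
    omega

/-- the extreme rows of the strip lie on the right of the left axis -/
theorem gtp_row_left (H : HxrPair y0 y1 xm xM a c pa qa pc qc) {μ : ℤ} (h1 : 2 * μ < hxsX pa + xm) (h2 : 2 * μ < hxsX qa + xm) :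
    ∀ y ∈ hxrQ y0 y1 xm xM a c, (y.2 = y0 ∨ y.2 = y1) → μ + 1 < hxsX y := by
  intro y hy hrow
  have bp := (H.A.box pa H.A.pa).1
  have bq := (H.A.box qa H.A.qa).1
  have ep := H.A.p0
  have eq := H.A.q1
  rcases hrow with e | e
  · have : ¬ y.1 ≤ pa.1 := fun h => hy.2 (Or.inl (hxr_AA_bot H.A e h))
    simp only [hxsX] at *
    omega
  · have : ¬ y.1 ≤ qa.1 := fun h => hy.2 (Or.inl (hxr_AA_top H.A e h))
    simp only [hxsX] at *
    omega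

/-- a place lies in the strip -/
theorem gtp_place_sub {ρ : ℤ × ℤ → ℤ × ℤ} {K : Set (ℤ × ℤ)} (hK : HxrPlace y0 y1 (hxrAA y0 y1 xM a) (hxrCC y0 y1 xm c) ρ K) :
    K ⊆ hxrQ y0 y1 xm xM a c :=
  fun k hk => ⟨hxr_place_sub hK hk, fun h => h.elim (hK.free k hk).1 (hK.free k hk).2.1⟩

/-- **THE THREE PLACES OF A PAIR OF TIPS.**   `K 0`, `K 1`: below and above the right tip of `a` (mirror of axis `μr`), `K 2`: one place of the left tip of `c` (mirror of axis `μl`).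
The site components lie strictly inside the site rows `y0 .. y1 + 1` and are pairwise disjoint. -/
theorem gtp_tip (H : HxrPair y0 y1 xm xM a c pa qa pc qc) {μr μl : ℤ} (har : ∃ z ∈ a, μr ≤ hxsX z) (hcl : ∃ z ∈ c, hxsX z ≤ μl)
    (hr : μr + 1 ≤ xM) (hl : xm + 1 ≤ μl) (h1 : hxsX pc + xM < 2 * μr) (h2 : hxsX qc + xM < 2 * μr)
    (h3 : 2 * μl < hxsX pa + xm) (h4 : 2 * μl < hxsX qa + xm) (h5 : 2 * μl - xm + 2 < 2 * μr - xM)
    (Q M : Finset TV) (hM : (↑M : Set TV) = hxrQ y0 y1 xm xM a c) (hQ : ∀ v, v ∈ Q ↔ ∃ y ∈ M, v ∈ cellV y)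
    (hs : TriSCOn (ZMod 2) tscG (↑Q : Set TV))
    (core : ∃ i ∈ hxrAA y0 y1 xM a, μr - 1 ≤ hxsX i ∧ hxsX i ≤ μr + 1 ∧ ∀ s ∈ cellV i, s ∉ Q) :
    ∃ (ρ : Fin 3 → GshRefl) (K : Fin 3 → Set TV),
      (∀ i, HxrPlace y0 y1 (hxrAA y0 y1 xM a) (hxrCC y0 y1 xm c) (ρ i).c (K i)) ∧ (∀ i, K i ⊆ (↑M : Set TV)) ∧
      (∀ i, ∀ z ∈ gapK (ρ i) Q (gapZ (gapF M (K i))), y0 < z.2 ∧ z.2 < y1 + 1) ∧
      (∀ i j, i ≠ j → ∀ u ∈ gapK (ρ i) Q (gapZ (gapF M (K i))), u ∉ gapK (ρ j) Q (gapZ (gapF M (K j)))) := by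
  obtain ⟨K0, K1, lo0, hi0, lo1, hi1, HR⟩ := hxd_right H har hr h1 h2
  obtain ⟨K2, K3, lo2, hi2, lo3, hi3, HL⟩ := hxd_left H hcl hl h3 h4
  have hMmem : ∀ y, y ∈ M ↔ y ∈ hxrQ y0 y1 xm xM a c := fun y => by rw [← hM, Finset.mem_coe]
  have hQ1 : ∀ v ∈ Q, ∃ y ∈ M, v ∈ cellV y := fun v hv => (hQ v).1 hv
  have hMQ : ∀ y ∈ M, cellV y ⊆ Q := fun y hy v hv => (hQ v).2 ⟨y, hy, hv⟩
  have hMb : ∀ y ∈ M, y0 ≤ y.2 ∧ y.2 ≤ y1 := fun y hy => ((hMmem y).1 hy).1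
  have hMx : ∀ y ∈ M, xm ≤ hxsX y ∧ hxsX y ≤ xM := fun y hy => hxr_Q_box H y ((hMmem y).1 hy)
  have hbox := gtp_site_box hQ1 hMx
  have hlow : ∀ v ∈ Q, y0 ≤ v.2 := fun v hv => by
    obtain ⟨y, hy, hvy⟩ := hQ1 v hv
    have := (hMb y hy).1
    rw [gtp_mem_cell] at hvy
    rcases hvy with rfl | rfl | rfl <;> omega
  have k0 : K0 ⊆ (↑M : Set TV) := by rw [hM]; exact gtp_place_sub HR.p0
  have k1 : K1 ⊆ (↑M : Set TV) := by rw [hM]; exact gtp_place_sub HR.p1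
  have k2 : K2 ⊆ (↑M : Set TV) := by rw [hM]; exact gtp_place_sub HL.p0
  have rowR := gtp_rows (μ := μr) hQ1 hMb (Or.inl fun y hy => gtp_row_right H h1 h2 y ((hMmem y).1 hy))
  have rowL := gtp_rows (μ := μl) hQ1 hMb (Or.inr fun y hy => gtp_row_left H h3 h4 y ((hMmem y).1 hy))
  have slabR := gtp_slab (μ := μr + 1) hbox
  have slabL := gtp_slab (μ := μl + 1) hbox
  have d01 := gtp_axis hs hMQ hlow HR k0 k1 core
  have dRL : ∀ Z Z' : Finset TV, ∀ u ∈ gapK (glMirV (μr + 1)) Q Z, u ∉ gapK (glMirV (μl + 1)) Q Z' := fun Z Z' u hu hu' => by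
    have := (slabR u (gap_K_subI _ _ _ hu)).1
    have := (slabL u (gap_K_subI _ _ _ hu')).2
    omega
  refine ⟨![glMirV (μr + 1), glMirV (μr + 1), glMirV (μl + 1)], ![K0, K1, K2], ?_, ?_, ?_, ?_⟩
  · intro i
    fin_cases i
    · show HxrPlace _ _ _ _ (glMirV (μr + 1)).c K0
      rw [gtp_c_eq]; exact HR.p0
    · show HxrPlace _ _ _ _ (glMirV (μr + 1)).c K1
      rw [gtp_c_eq]; exact HR.p1
    · show HxrPlace _ _ _ _ (glMirV (μl + 1)).c K2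
      rw [gtp_c_eq]; exact HL.p0
  · intro i
    fin_cases i
    · exact k0
    · exact k1
    · exact k2
  · intro i
    fin_cases i
    · exact fun z hz => rowR z (gap_K_subI _ _ _ hz)
    · exact fun z hz => rowR z (gap_K_subI _ _ _ hz)
    · exact fun z hz => rowL z (gap_K_subI _ _ _ hz)
  · intro i j hij
    fin_cases i <;> fin_cases j
    · exact absurd rfl hij
    · exact fun u hu hu' => (d01 u hu u hu').1 rfl
    · exact fun u hu hu' => dRL _ _ u hu hu'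
    · exact fun u hu hu' => (d01 u hu' u hu).1 rfl
    · exact absurd rfl hij
    · exact fun u hu hu' => dRL _ _ u hu hu'
    · exact fun u hu hu' => dRL _ _ u hu' hu
    · exact fun u hu hu' => dRL _ _ u hu' hu
    · exact absurd rfl hij

/-- **(L-TIP), class `true`**, on the strip of a pair -/
theorem gtp_est {x : ℝ} (hx : 0 < x) (hx1 : x ≤ 1) (hh : 1 / 2 ≤ x ^ 2) {M Q La Lc Ld Lb Cb : Finset TV} (H : HxrPair y0 y1 xm xM a c pa qa pc qc)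
    (G : GatStrip x y0 y1 xm xM a c M Q La Lc Ld Lb Cb) {μr μl : ℤ} (har : ∃ z ∈ a, μr ≤ hxsX z) (hcl : ∃ z ∈ c, hxsX z ≤ μl)
    (hr : μr + 1 ≤ xM) (hl : xm + 1 ≤ μl) (h1 : hxsX pc + xM < 2 * μr) (h2 : hxsX qc + xM < 2 * μr)
    (h3 : 2 * μl < hxsX pa + xm) (h4 : 2 * μl < hxsX qa + xm) (h5 : 2 * μl - xm + 2 < 2 * μr - xM)
    (core : ∃ i ∈ hxrAA y0 y1 xM a, μr - 1 ≤ hxsX i ∧ hxsX i ≤ μr + 1 ∧ ∀ s ∈ cellV i, s ∉ Q) :
    ∃ Kc : Finset TV, Kc ⊆ M ∧ 1 / 64 * (clAmb x Q).Z ((glH0 (clAmb x Q) Cb La Lc Ld Lb).Holds (clAmb x Q)) ≤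
      (clAmb x Q).N ((glH0 (clAmb x Q) Cb La Lc Ld Lb).Holds (clAmb x Q))
        (glInd (fun ω => GlJoinC (clAmb x Q) (↑Kc ∩ glOn (clAmb x Q) 1 ω) La Lc)) := by
  have hM : (↑M : Set TV) = hxrQ y0 y1 xm xM a c := by
    ext y
    rw [Finset.mem_coe]
    exact G.memM y
  obtain ⟨ρ, K, hK, _, rows, dis⟩ := gtp_tip H har hcl hr hl h1 h2 h3 h4 h5 Q M hM G.memQ G.sc core
  exact gat_three_hxr hx hx1 hh H G ρ K hK rows dis

end band

/-! ## §5 the record -/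

/-- **(L-TIP), class `true`, at the record**: the contract `rsg_est_tip` of `Ann/RswGlue` for `T = true`; the only debt is `GatStrip` (the facts on the closed strip). -/
theorem gtp_est_rec {x : ℝ} (hx : 0 < x) (hx1 : x ≤ 1) (hh : 1 / 2 ≤ x ^ 2) {c d w σ m e e2 : ℤ} {P : Set TV} (hcd : c < d) (hw : 1 ≤ w) (hσ : 2 * w < σ)
    (he : w + 4 ≤ e) (h21 : e2 ≤ e) (h22 : e + 3 * σ + w + 8 ≤ 2 * e2) (h0 : RplG0 c d w σ m e P)
    (h1 : ¬ RsgT1 (rplA c d w σ m e P) (rplC c d w σ m e P))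
    (hta : ∃ z ∈ rplA c d w σ m e P, m + e2 < rswX z) (htc : ∃ z ∈ rplC c d w σ m e P, rswX z < m + σ - e2)
    (G : GatStrip x c d (m - e) (m + σ + e) (rplA c d w σ m e P) (rplC c d w σ m e P) (rsgM (rplD true c d w σ m e P)) (rsgQ (rplD true c d w σ m e P))
      (rsgLa (rplD true c d w σ m e P)) (rsgLc (rplD true c d w σ m e P)) (rsgLd (rplD true c d w σ m e P)) (rsgLb (rplD true c d w σ m e P))
      (rsgCb (rplD true c d w σ m e P))) :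
    RsgEst x (rplD true c d w σ m e P) := by
  obtain ⟨pa, qa, pc, qc, H, ⟨-, a1, a2⟩, ⟨-, a3, a4⟩, ⟨-, c1, c2⟩, ⟨-, c3, c4⟩⟩ := rpl_pair hcd hw hσ he h0 h1
  obtain ⟨za, hza, hxa⟩ := hta
  obtain ⟨zc, hzc, hxc⟩ := htc
  have e1 : ∀ z : TV, hxsX z = rswX z := fun _ => rfl
  obtain ⟨i0, hi0, i1, i2⟩ := rpl_core_R (c := c) (d := d) (σ := σ) (P := P) he (μ := m + e2) (by omega) ⟨za, hza, by omega⟩
  exact gtp_est hx hx1 hh H G (μr := m + e2) (μl := m + σ - e2) ⟨za, hza, by rw [e1]; omega⟩ ⟨zc, hzc, by rw [e1]; omega⟩ (by omega) (by omega)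
    (by rw [e1]; omega) (by rw [e1]; omega) (by rw [e1]; omega) (by rw [e1]; omega) (by omega)
    ⟨i0, rpl_I_AA hcd hw (by omega) he h0 hi0, by rw [e1]; exact i1, by rw [e1]; exact i2,
      rpl_core_off true hcd hw (by omega) he h0 (Or.inl hi0)⟩

/-! ## §6 the last glue of the tip, class of the up-cells      (author helper143) -/

/-- **(L-TIP), class true, from the geometry of the index lattice** -/
theorem rsa_tip_geo {x : ℝ} (hx0 : 0 < x) (hx1 : x ≤ 1) (hh : 1 / 2 ≤ x ^ 2) {y0 y1 xm xM : ℤ} {a c : Set TV} {i w i' w' : ℤ} {I J : Set TV} {pa qa pc qc : TV}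
    (G : RdiGeo xm xM y0 y1 (hxrQ y0 y1 xm xM a c) (rsrSgL xm y0 y1 i w) I a (rsrSgR xM y0 y1 i' w') J c)
    (hI : I ⊆ rswRect xm xM y0 y1) (hJ : J ⊆ rswRect xm xM y0 y1) (H : HxrPair y0 y1 xm xM a c pa qa pc qc)
    {μr μl : ℤ} (har : ∃ z ∈ a, μr ≤ hxsX z) (hcl : ∃ z ∈ c, hxsX z ≤ μl)
    (hr : μr + 1 ≤ xM) (hl : xm + 1 ≤ μl) (h1 : hxsX pc + xM < 2 * μr) (h2 : hxsX qc + xM < 2 * μr)
    (h3 : 2 * μl < hxsX pa + xm) (h4 : 2 * μl < hxsX qa + xm) (h5 : 2 * μl - xm + 2 < 2 * μr - xM)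
    (core : ∃ i ∈ hxrAA y0 y1 xM a, μr - 1 ≤ hxsX i ∧ hxsX i ≤ μr + 1 ∧ ∀ s ∈ cellV i, s ∉ rsgQ ⟨true, y0, y1, xm, xM, a, c⟩) :
    RsgEst x ⟨true, y0, y1, xm, xM, a, c⟩ := by
  set D : RsgDat := ⟨true, y0, y1, xm, xM, a, c⟩ with hD
  have G' : RdiGeo D.xm D.xM D.y0 D.y1 (hxrQ D.y0 D.y1 D.xm D.xM D.a D.c) (rsrSgL D.xm D.y0 D.y1 i w) I D.a (rsrSgR D.xM D.y0 D.y1 i' w') J D.c := G
  have H' : HxrPair D.y0 D.y1 D.xm D.xM D.a D.c pa qa pc qc := H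
  have hM : (↑(rsgM D) : Set TV) = hxrQ y0 y1 xm xM a c := by
    ext z
    exact rdi_rsg_M (D := D) G.sub z
  have hQ : ∀ v, v ∈ rsgQ D ↔ ∃ y ∈ rsgM D, v ∈ cellV y := fun v => by
    unfold rsgQ
    rw [Finset.mem_biUnion]
    rfl
  obtain ⟨ρ, K, hK, hKM, rows, hdis⟩ := gtp_tip H har hcl hr hl h1 h2 h3 h4 h5 (rsgQ D) (rsgM D) hM hQ (rdi_rsg_sc G') core
  exact gaq_three_set hx0 hx1 hh (rsgQ D) (rsgLa D) (rsgLc D) (rsgLd D) (rsgLb D) (rsgM D) (rsgCb D) (rdi_rsg_strip hx0 hx1 hh D G')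
    (rdi_rsg_glCb rfl) (fun y hy => rdi_rsg_kq hy) (psb_rsg_strip D G' hI hJ H') (fun d hd => rdi_rsg_Ld hd) (fun b hb => rdi_rsg_Lb hb)
    (hxrAA y0 y1 xM a) (hxrCC y0 y1 xm c) (rdi_rsg_hA G' H') (rdi_rsg_hC G' H') ρ K hKM (fun i => (hK i).conn) (fun i => (hK i).inv)
    (fun i => (hK i).dich) rows hdis

/-- **(L-TIP), class true, at the record** = `rsg_est_tip` of `Ann/RswGlue` at `T = true` -/
theorem rsa_tip_true (x : ℝ) (hx1 : 1 / Real.sqrt 2 ≤ x) (hx2 : x ≤ 1) {c d w σ m e e2 : ℤ} {P : Set TV} (hcd : c < d) (hw : 1 ≤ w) (hσ : 2 * w < σ)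
    (he : w + 4 ≤ e) (h21 : e2 ≤ e) (h22 : e + 3 * σ + w + 8 ≤ 2 * e2) (h0 : RplG0 c d w σ m e P)
    (h1 : ¬ RsgT1 (rplA c d w σ m e P) (rplC c d w σ m e P)) (h2 : ¬ RsgT2 c d (rplA c d w σ m e P) (rplC c d w σ m e P))
    (hta : ∃ z ∈ rplA c d w σ m e P, m + e2 < rswX z) (htc : ∃ z ∈ rplC c d w σ m e P, rswX z < m + σ - e2) : RsgEst x (rplD true c d w σ m e P) := by
  have hx0 : 0 < x := lt_of_lt_of_le (by positivity) hx1
  have hh : 1 / 2 ≤ x ^ 2 := by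
    have h3 : (1 / Real.sqrt 2) ^ 2 ≤ x ^ 2 := pow_le_pow_left₀ (by positivity) hx1 2
    rwa [div_pow, one_pow, Real.sq_sqrt (by norm_num)] at h3
  obtain ⟨pa, qa, pc, qc, H, ⟨-, a1, a2⟩, ⟨-, a3, a4⟩, ⟨-, c1, c2⟩, ⟨-, c3, c4⟩⟩ := rpl_pair hcd hw hσ he h0 h1
  have G := rdi_geo_rec (P := P) H (fun z hz => rpl_look hcd hw (by omega) he h0 hz) (fun y hy h => h2 ⟨y, hy, h.1, h.2⟩)
  obtain ⟨za, hza, hxa⟩ := hta
  obtain ⟨zc, hzc, hxc⟩ := htc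
  obtain ⟨i0, hi0, k1, k2⟩ := rpl_core_R (c := c) (d := d) (σ := σ) (P := P) he (μ := m + e2) (by omega) ⟨za, hza, by omega⟩
  have e1 : ∀ z : TV, hxsX z = rswX z := fun _ => rfl
  exact rsa_tip_geo hx0 hx2 hh G (fun z hz => (rpl_I_sub hz).1) (fun z hz => (rpl_J_sub hz).1) H (μr := m + e2) (μl := m + σ - e2)
    ⟨za, hza, by rw [e1]; omega⟩ ⟨zc, hzc, by rw [e1]; omega⟩ (by omega) (by omega)
    (by rw [e1]; omega) (by rw [e1]; omega) (by rw [e1]; omega) (by rw [e1]; omega) (by omega)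
    ⟨i0, rpl_I_AA hcd hw (by omega) he h0 hi0, k1, k2, rpl_core_off true hcd hw (by omega) he h0 (Or.inl hi0)⟩

/-! ## §7 the tube, class of the up-cells      (author helper191) -/

/-- **rows**: `Q ∩ ρ Q` lies in a window of rows around the height of the mirror -/
theorem gtb_I_rows {Q : Finset TV} {xm xM : ℤ} (hw : xm ≤ xM) (hQ : ∀ z ∈ Q, xm ≤ hxsX z ∧ hxsX z ≤ xM + 2) {h t : ℤ}
    (ht : xm + xM - 1 ≤ 2 * (2 * t + 3 * h) ∧ 2 * (2 * t + 3 * h) ≤ xm + xM + 3) {z : TV} (hz : z ∈ gapI (glSwap t) Q) :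
    h - (xM - xm) - 2 ≤ z.2 ∧ z.2 ≤ h + (xM - xm) + 2 := by
  obtain ⟨h1, h2⟩ := gap_mem_I.1 hz
  have a1 := hQ z h1
  have a2 := hQ _ h2
  simp only [hxsX, glSwap] at a1 a2
  omega

theorem gtb_K_rows {Q : Finset TV} {xm xM : ℤ} (hw : xm ≤ xM) (hQ : ∀ z ∈ Q, xm ≤ hxsX z ∧ hxsX z ≤ xM + 2) {h t : ℤ}
    (ht : xm + xM - 1 ≤ 2 * (2 * t + 3 * h) ∧ 2 * (2 * t + 3 * h) ≤ xm + xM + 3) (Z : Finset TV) {z : TV} (hz : z ∈ gapK (glSwap t) Q Z) :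
    h - (xM - xm) - 2 ≤ z.2 ∧ z.2 ≤ h + (xM - xm) + 2 :=
  gtb_I_rows hw hQ ht (gap_K_subI _ _ _ hz)

section dat

variable {D : RsgDat} {pa qa pc qc : TV}

theorem gtb_mem_M (H : HxrPair D.y0 D.y1 D.xm D.xM D.a D.c pa qa pc qc) (z : TV) : z ∈ rsgM D ↔ z ∈ hxrQ D.y0 D.y1 D.xm D.xM D.a D.c := by
  classical
  unfold rsgM
  rw [Finset.mem_filter]
  refine ⟨fun g => g.2, fun g => ⟨rsg_box_mem ?_, g⟩⟩
  have := hxr_Q_box H z g
  exact ⟨this.1, this.2, g.1.1, g.1.2⟩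

theorem gtb_mem_Q (hT : D.T = true) (u : TV) : u ∈ rsgQ D ↔ ∃ z ∈ rsgM D, u ∈ cellV z := by
  unfold rsgQ rsgCs
  rw [Finset.mem_biUnion, hT]
  rfl

theorem gtb_M_cell (hT : D.T = true) : ∀ y ∈ rsgM D, cellV y ⊆ rsgQ D :=
  fun y hy u hu => (gtb_mem_Q hT u).2 ⟨y, hy, hu⟩

/-- the sites of the free cells lie in the box -/
theorem gtb_Q_box (hT : D.T = true) (H : HxrPair D.y0 D.y1 D.xm D.xM D.a D.c pa qa pc qc) : ∀ z ∈ rsgQ D, D.xm ≤ hxsX z ∧ hxsX z ≤ D.xM + 2 := by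
  intro u hu
  obtain ⟨z, hz, huz⟩ := (gtb_mem_Q hT u).1 hu
  have hb := hxr_Q_box H z ((gtb_mem_M H z).1 hz)
  rw [pcp_mem_cell'] at huz
  unfold hxsX at *
  omega

theorem gtb_mem_side (hT : D.T = true) (Z : Set TV) (u : TV) : u ∈ rsgSide D.T (rsgQ D) Z ↔ u ∈ rsgQ D ∧ ∃ z ∈ Z, u ∈ cellV z := by
  classical
  unfold rsgSide rsgCs
  rw [Finset.mem_filter, hT]
  rfl

/-- a site of `Q` in a cell of the solid left side lies on the layer of `a` -/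
theorem gtb_hA (hT : D.T = true) (H : HxrPair D.y0 D.y1 D.xm D.xM D.a D.c pa qa pc qc) :
    ∀ a ∈ hxrAA D.y0 D.y1 D.xM D.a, ∀ s ∈ cellV a, s ∈ rsgQ D → s ∈ rsgLa D := by
  intro a ha s hs hsQ
  obtain ⟨z, hz, hsz⟩ := (gtb_mem_Q hT s).1 hsQ
  have hzQ := (gtb_mem_M H z).1 hz
  refine (gtb_mem_side hT _ s).2 ⟨hsQ, a, ?_, hs⟩
  rcases (pcp_share z a).1 ⟨s, hsz, hs⟩ with e | e
  · exact absurd (Or.inl (e ▸ ha)) hzQ.2
  · exact hxr_AA_bd H.A hzQ.1 (fun h => hzQ.2 (Or.inl h)) ha e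

theorem gtb_hC (hT : D.T = true) (H : HxrPair D.y0 D.y1 D.xm D.xM D.a D.c pa qa pc qc) :
    ∀ a ∈ hxrCC D.y0 D.y1 D.xm D.c, ∀ s ∈ cellV a, s ∈ rsgQ D → s ∈ rsgLc D := by
  intro a ha s hs hsQ
  obtain ⟨z, hz, hsz⟩ := (gtb_mem_Q hT s).1 hsQ
  have hzQ := (gtb_mem_M H z).1 hz
  refine (gtb_mem_side hT _ s).2 ⟨hsQ, a, ?_, hs⟩
  rcases (pcp_share z a).1 ⟨s, hsz, hs⟩ with e | e
  · exact absurd (Or.inr (e ▸ ha)) hzQ.2
  · exact hxr_CC_bd H.C hzQ.1 (fun h => hzQ.2 (Or.inr h)) ha e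

/-- the clipped cells are boundary cells -/
theorem gtb_cb (hT : D.T = true) : glCb (rsgQ D) ⊆ rsgCb D := by
  intro y hy
  obtain ⟨h1, h2⟩ := gl_mem_cb.1 hy
  unfold rsgCb rsgCells
  rw [hT]
  exact Finset.mem_sdiff.2 ⟨h1, fun h => h2 (gtb_M_cell hT y h)⟩

/-- a place of 105 lies in the free cells -/
theorem gtb_place_M (H : HxrPair D.y0 D.y1 D.xm D.xM D.a D.c pa qa pc qc) {ρ : TV → TV} {K : Set TV}
    (hK : HxrPlace D.y0 D.y1 (hxrAA D.y0 D.y1 D.xM D.a) (hxrCC D.y0 D.y1 D.xm D.c) ρ K) : K ⊆ (↑(rsgM D) : Set TV) := by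
  intro k hk
  have hr := hK.rows k hk
  have hf := hK.free k hk
  exact Finset.mem_coe.2 ((gtb_mem_M H k).2 ⟨⟨hr.1.le, hr.2.le⟩, fun h => h.elim hf.1 hf.2.1⟩)

/-- **(L-TUBE), class true**: the strip estimate of the tube from the two record-level facts `GlStrip` (182) and `PclStrip` (173) -/
theorem gtb_est (x : ℝ) (hx1 : 1 / Real.sqrt 2 ≤ x) (hx2 : x ≤ 1) (hT : D.T = true) (H : HxrPair D.y0 D.y1 D.xm D.xM D.a D.c pa qa pc qc)
    (hW : 12 * (D.xM - D.xm) + 64 ≤ D.y1 - D.y0)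
    (hS : GlStrip (rsgS x D) (rsgCb D) (rsgLa D) (rsgLc D) (rsgLd D) (rsgLb D)) {xm' xM' : ℤ}
    (hP : PclStrip D.y0 (D.y1 + 1) xm' xM' (↑(rsgQ D) : Set TV) ↑(rsgLa D) ↑(rsgLc D) ↑(rsgLd D \ (rsgLa D ∪ rsgLc D)) ↑(rsgLb D \ (rsgLa D ∪ rsgLc D))) :
    RsgEst x D := by
  have hx0 : 0 < x := lt_of_lt_of_le (by positivity) hx1
  have hh : 1 / 2 ≤ x ^ 2 := by
    have h1 : (1 / Real.sqrt 2) ^ 2 ≤ x ^ 2 := pow_le_pow_left₀ (by positivity) hx1 2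
    have h2 : (1 / Real.sqrt 2) ^ 2 = 1 / 2 := by rw [div_pow, one_pow, Real.sq_sqrt (by norm_num)]
    rwa [h2] at h1
  have hw : D.xm ≤ D.xM := by
    have := H.A.box pa H.A.pa
    omega
  have eS : rsgS x D = clAmb x (rsgQ D) := by
    unfold rsgS
    rw [hT]
    rfl
  have hbox := gtb_Q_box hT H
  have one : ∀ h : ℤ, D.y0 + 2 * (D.xM - D.xm) + 8 ≤ h → h + 2 * (D.xM - D.xm) + 8 ≤ D.y1 →
      ∃ (t : ℤ) (K : Set TV), HxrPlace D.y0 D.y1 (hxrAA D.y0 D.y1 D.xM D.a) (hxrCC D.y0 D.y1 D.xm D.c) (hxrSw t) K ∧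
        ∀ Z : Finset TV, ∀ z ∈ gapK (glSwap t) (rsgQ D) Z, h - (D.xM - D.xm) - 2 ≤ z.2 ∧ z.2 ≤ h + (D.xM - D.xm) + 2 := by
    intro h h0 h1
    have ht : D.xm + D.xM - 1 ≤ 2 * (2 * ((D.xm + D.xM + 3 - 6 * h) / 4) + 3 * h) ∧ 2 * (2 * ((D.xm + D.xM + 3 - 6 * h) / 4) + 3 * h) ≤ D.xm + D.xM + 3 := by
      constructor <;> omega
    obtain ⟨K, hK, -⟩ := hxr_tube_one H (h := h) (t := (D.xm + D.xM + 3 - 6 * h) / 4) ht h0 h1
    exact ⟨_, K, hK, fun Z z hz => gtb_K_rows hw hbox ht Z hz⟩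
  obtain ⟨t0, K0, k0, r0⟩ := one (D.y0 + 2 * (D.xM - D.xm) + 8) le_rfl (by omega)
  obtain ⟨t1, K1, k1, r1⟩ := one (D.y0 + 4 * (D.xM - D.xm) + 14) (by omega) (by omega)
  obtain ⟨t2, K2, k2, r2⟩ := one (D.y0 + 6 * (D.xM - D.xm) + 20) (by omega) (by omega)
  have hpl : ∀ i : Fin 3, HxrPlace D.y0 D.y1 (hxrAA D.y0 D.y1 D.xM D.a) (hxrCC D.y0 D.y1 D.xm D.c) (hxrSw ((![t0, t1, t2] : Fin 3 → ℤ) i))
      ((![K0, K1, K2] : Fin 3 → Set TV) i) := by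
    intro i
    fin_cases i
    · exact k0
    · exact k1
    · exact k2
  have hrw : ∀ i : Fin 3, ∀ Z : Finset TV, ∀ z ∈ gapK (glSwap ((![t0, t1, t2] : Fin 3 → ℤ) i)) (rsgQ D) Z,
      D.y0 + (2 * (i : ℤ) + 1) * (D.xM - D.xm) + 6 * (i : ℤ) + 6 ≤ z.2 ∧ z.2 ≤ D.y0 + (2 * (i : ℤ) + 3) * (D.xM - D.xm) + 6 * (i : ℤ) + 10 := by
    intro i Z z hz
    fin_cases i
    · have := r0 Z z hz
      simp only [Fin.zero_eta, Fin.val_zero, Nat.cast_zero]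
      omega
    · have := r1 Z z hz
      simp only [Fin.mk_one, Fin.val_one, Nat.cast_one]
      omega
    · have := r2 Z z hz
      simp only [Fin.reduceFinMk, Fin.val_two, Nat.cast_ofNat]
      omega
  unfold RsgEst rsgH0
  rw [eS] at hS ⊢
  refine gaq_three_set hx0 hx2 hh (rsgQ D) (rsgLa D) (rsgLc D) (rsgLd D) (rsgLb D) (rsgM D) (rsgCb D) hS (gtb_cb hT) (gtb_M_cell hT) hP
    (fun d hd => (Finset.mem_filter.1 hd).2) (fun b hb => (Finset.mem_filter.1 hb).2)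
    (hxrAA D.y0 D.y1 D.xM D.a) (hxrCC D.y0 D.y1 D.xm D.c) (gtb_hA hT H) (gtb_hC hT H)
    (fun i => glSwap ((![t0, t1, t2] : Fin 3 → ℤ) i)) ![K0, K1, K2] (fun i => gtb_place_M H (hpl i)) (fun i => (hpl i).conn)
    (fun i => (hpl i).inv) (fun i => (hpl i).dich) ?_ ?_
  · intro i z hz
    have := hrw i _ z hz
    have hi : (i : ℤ) = 0 ∨ (i : ℤ) = 1 ∨ (i : ℤ) = 2 := by
      have := i.2
      omega
    rcases hi with e | e | e <;> rw [e] at this <;> omega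
  · intro i j hij z hz hz'
    have a1 := hrw i _ z hz
    have a2 := hrw j _ z hz'
    have hi : (i : ℤ) = 0 ∨ (i : ℤ) = 1 ∨ (i : ℤ) = 2 := by
      have := i.2
      omega
    have hj : (j : ℤ) = 0 ∨ (j : ℤ) = 1 ∨ (j : ℤ) = 2 := by
      have := j.2
      omega
    have hne : (i : ℤ) ≠ (j : ℤ) := fun e => hij (Fin.ext (by exact_mod_cast e))
    rcases hi with e | e | e <;> rcases hj with e' | e' | e' <;> rw [e] at a1 hne <;> rw [e'] at a2 hne <;> first | exact hne rfl | omega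

end dat

/-- **(L-TUBE), class true, at the record** = `rsg_est_tube` of `Ann/RswGlue` at `T = true` -/
theorem rsa_tube_true (x : ℝ) (hx1 : 1 / Real.sqrt 2 ≤ x) (hx2 : x ≤ 1) {c d w σ m e : ℤ} {P : Set TV} (hcd : c < d) (hw : 1 ≤ w) (hσ : 2 * w < σ)
    (he : w + 4 ≤ e) (hnar : 12 * (σ + 2 * e) + 64 ≤ d - c) (h0 : RplG0 c d w σ m e P)
    (h1 : ¬ RsgT1 (rplA c d w σ m e P) (rplC c d w σ m e P)) (h2 : ¬ RsgT2 c d (rplA c d w σ m e P) (rplC c d w σ m e P)) :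
    RsgEst x (rplD true c d w σ m e P) := by
  have hx0 : 0 < x := lt_of_lt_of_le (by positivity) hx1
  have hh : 1 / 2 ≤ x ^ 2 := by
    have h3 : (1 / Real.sqrt 2) ^ 2 ≤ x ^ 2 := pow_le_pow_left₀ (by positivity) hx1 2
    rwa [div_pow, one_pow, Real.sq_sqrt (by norm_num)] at h3
  obtain ⟨pa, qa, pc, qc, H, -⟩ := rpl_pair hcd hw hσ he h0 h1
  have G := rdi_geo_rec (P := P) H (fun z hz => rpl_look hcd hw (by omega) he h0 hz) (fun y hy h => h2 ⟨y, hy, h.1, h.2⟩)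
  exact gtb_est (D := rplD true c d w σ m e P) x hx1 hx2 rfl H (by show 12 * (m + σ + e - (m - e)) + 64 ≤ d - c; omega)
    (rdi_rsg_strip hx0 hx2 hh (rplD true c d w σ m e P) G)
    (psb_rsg_strip (rplD true c d w σ m e P) G (fun z hz => (rpl_I_sub hz).1) (fun z hz => (rpl_J_sub hz).1) H)

/-! ## §8 both classes -/

section flip

variable {c d w σ m e : ℤ} {P : Set TV}

theorem gtp_flip_I : rplI (-d - 1) (-c - 1) w σ (m + 1) e (glfJ ⁻¹' P) = glfJ ⁻¹' rplI c d w σ m e P := by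
  have e1 : m + 1 - e = m - e + 1 := by ring
  have e2 : m + 1 + σ + e = m + σ + e + 1 := by ring
  unfold rplI
  rw [e1, e2]
  exact glf_clI _ _ _ _ _ _ _

theorem gtp_flip_J : rplJ (-d - 1) (-c - 1) w σ (m + 1) e (glfJ ⁻¹' P) = glfJ ⁻¹' rplJ c d w σ m e P := by
  have e1 : m + 1 - e = m - e + 1 := by ring
  have e2 : m + 1 + σ + e = m + σ + e + 1 := by ring
  have e3 : m + 1 + σ = m + σ + 1 := by ring
  unfold rplJ
  rw [e1, e2, e3]
  exact glf_clJ _ _ _ _ _ _ _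

theorem gtp_flip_A : rplA (-d - 1) (-c - 1) w σ (m + 1) e (glfJ ⁻¹' P) = glfJ ⁻¹' rplA c d w σ m e P := by
  have e1 : m + 1 - e = m - e + 1 := by ring
  have e2 : m + 1 + σ + e = m + σ + e + 1 := by ring
  unfold rplA
  rw [gtp_flip_I, e1, e2]
  exact glf_Ga _ _ _ _ _ _ _

theorem gtp_flip_C : rplC (-d - 1) (-c - 1) w σ (m + 1) e (glfJ ⁻¹' P) = glfJ ⁻¹' rplC c d w σ m e P := by
  have e1 : m + 1 - e = m - e + 1 := by ring
  have e2 : m + 1 + σ + e = m + σ + e + 1 := by ring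
  have e3 : m + 1 + σ = m + σ + 1 := by ring
  unfold rplC
  rw [gtp_flip_J, e1, e2, e3]
  exact glf_Gc _ _ _ _ _ _ _

theorem gtp_flip_G0 (h : RplG0 c d w σ m e P) : RplG0 (-d - 1) (-c - 1) w σ (m + 1) e (glfJ ⁻¹' P) := by
  have e1 : m + 1 - e = m - e + 1 := by ring
  have e2 : m + 1 + σ + e = m + σ + e + 1 := by ring
  have e3 : m + 1 + σ = m + σ + 1 := by ring
  unfold RplG0
  rw [gtp_flip_I, gtp_flip_J, e1, e2, e3]
  exact glf_G0.2 h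

theorem gtp_flip_D : glfD (rplD false c d w σ m e P) = rplD true (-d - 1) (-c - 1) w σ (m + 1) e (glfJ ⁻¹' P) := by
  have e1 : m + 1 - e = m - e + 1 := by ring
  have e2 : m + 1 + σ + e = m + σ + e + 1 := by ring
  unfold rplD glfD
  rw [gtp_flip_A, gtp_flip_C, e1, e2]

/-- the class `false` from the class `true` at the reflected record -/
theorem gtp_flip_est {x : ℝ} (hx : 0 < x) (hx1 : x ≤ 1) (hcd : c < d) (hw : 1 ≤ w) (hσ : 2 * w < σ) (he : w + 4 ≤ e) (h0 : RplG0 c d w σ m e P)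
    (h1 : ¬ RsgT1 (rplA c d w σ m e P) (rplC c d w σ m e P))
    (hE : RsgEst x (rplD true (-d - 1) (-c - 1) w σ (m + 1) e (glfJ ⁻¹' P))) : RsgEst x (rplD false c d w σ m e P) := by
  obtain ⟨pa, qa, pc, qc, H, -⟩ := rpl_pair hcd hw hσ he h0 h1
  exact glf_est hx hx1 rfl (glf_box_of_pair (D := rplD false c d w σ m e P) H) (by rw [gtp_flip_D]; exact hE)

/-- **(L-TIP)** = `rsg_est_tip` of `Ann/RswGlue`, both classes -/
theorem rsa_tip (x : ℝ) (hx1 : 1 / Real.sqrt 2 ≤ x) (hx2 : x ≤ 1) (T : Bool) {e2 : ℤ} (hcd : c < d) (hw : 1 ≤ w) (hσ : 2 * w < σ)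
    (he : w + 4 ≤ e) (h21 : e2 ≤ e) (h22 : e + 3 * σ + w + 8 ≤ 2 * e2) (h0 : RplG0 c d w σ m e P)
    (h1 : ¬ RsgT1 (rplA c d w σ m e P) (rplC c d w σ m e P)) (h2 : ¬ RsgT2 c d (rplA c d w σ m e P) (rplC c d w σ m e P))
    (hta : ∃ z ∈ rplA c d w σ m e P, m + e2 < rswX z) (htc : ∃ z ∈ rplC c d w σ m e P, rswX z < m + σ - e2) : RsgEst x (rplD T c d w σ m e P) := by
  cases T
  · have hx0 : 0 < x := lt_of_lt_of_le (by positivity) hx1
    refine gtp_flip_est hx0 hx2 hcd hw hσ he h0 h1 (rsa_tip_true x hx1 hx2 (by omega) hw hσ he h21 h22 (gtp_flip_G0 h0) ?_ ?_ ?_ ?_)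
    · rw [gtp_flip_A, gtp_flip_C, glf_T1]; exact h1
    · rw [gtp_flip_A, gtp_flip_C, glf_T2]; exact h2
    · obtain ⟨z, hz, hX⟩ := hta
      rw [gtp_flip_A]
      refine ⟨glfI z, glf_mem_pre hz, ?_⟩
      have := glf_X_I z
      unfold hxsX at this
      unfold rswX at *
      omega
    · obtain ⟨z, hz, hX⟩ := htc
      rw [gtp_flip_C]
      refine ⟨glfI z, glf_mem_pre hz, ?_⟩
      have := glf_X_I z
      unfold hxsX at this
      unfold rswX at *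
      omega
  · exact rsa_tip_true x hx1 hx2 hcd hw hσ he h21 h22 h0 h1 h2 hta htc

/-- **(L-TUBE)** = `rsg_est_tube` of `Ann/RswGlue`, both classes -/
theorem rsa_tube (x : ℝ) (hx1 : 1 / Real.sqrt 2 ≤ x) (hx2 : x ≤ 1) (T : Bool) (hcd : c < d) (hw : 1 ≤ w) (hσ : 2 * w < σ)
    (he : w + 4 ≤ e) (hnar : 12 * (σ + 2 * e) + 64 ≤ d - c) (h0 : RplG0 c d w σ m e P)
    (h1 : ¬ RsgT1 (rplA c d w σ m e P) (rplC c d w σ m e P)) (h2 : ¬ RsgT2 c d (rplA c d w σ m e P) (rplC c d w σ m e P)) :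
    RsgEst x (rplD T c d w σ m e P) := by
  cases T
  · have hx0 : 0 < x := lt_of_lt_of_le (by positivity) hx1
    refine gtp_flip_est hx0 hx2 hcd hw hσ he h0 h1 (rsa_tube_true x hx1 hx2 (by omega) hw hσ he (by omega) (gtp_flip_G0 h0) ?_ ?_)
    · rw [gtp_flip_A, gtp_flip_C, glf_T1]; exact h1
    · rw [gtp_flip_A, gtp_flip_C, glf_T2]; exact h2
  · exact rsa_tube_true x hx1 hx2 hcd hw hσ he hnar h0 h1 h2

end flip

end Claimed.Agent.R291
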