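import Claimed.Agent.R291.Glue.Mid
import Claimed.Agent.R291.Pl.SetForm
import Claimed.Agent.R291.Pl.CellPath
import Claimed.Agent.R291.Pl.Region

/-!
# Row 291 (S0539), unit ANN, block A1, Glue/Box : THE EMBEDDED DOUBLE AND THE STRAIGHT INSTANCE      (owner helper191; prefix `glb_` / `Glb` / `glb`)

Machine: `Glue/Place.lean` (55).   Design: `origin/helper55:notes/R291/ann_A1_55_v2.md` Sec. 1.   TEX[annulus:straight-short], TEX[annulus:gluing].

## Part A: the embedded double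
`Q` any finite set of sites, `(ρ, rc)` a class preserving involution of the lattice (`GlbRefl`), `K = Q ∩ ρ Q` THE WHOLE INTERSECTION.   Then the double is embedded on the sites:
`V' = TV`, `e = id`, `φ = ρ`, `X.A = Q ∪ ρ Q`; only the cells need a second sheet (`Y' = TV × Bool`): `glbX x Q (ρ Q)`, `glbPsi`.
* **`glb_double`** : `GlDouble (clAmb x Q) (latCells Q \ latCellsIn Q) La Lc (Q ∩ ρ Q) (glbX x Q (ρ Q)) id (·, true) ρ (glbPsi Q (ρ Q) rc)`

## Part B: the box
`Q = amBox a b c d`, `La` / `Lc` = rows `c` / `d`, `Ld` / `Lb` = columns `a` / `b`, `r = d - c ≥ 2`, mirrors `glbRho k c (u, v) = (v - c + k, u - k + c)`,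
`K = amBox k (k + r) c d`, `K0 = amBox (k + 1) (k + r - 1) (c + 1) (d - 1)`, `Kc = amBox k (k + r - 1) c (d - 1)`.
* `glb_strip`, `glb_place`, `glb_placeC`, `glb_blkL`, `glb_blkR`

## Part C: exits
* **`glb_three`** : `1/64 Z(glH0) ≤ N(glH0)(La and Lc are joined by open-plus cells of the middle rhombus)`
* `glb_block`     : (J1) such a path stops every walk of cell indices inside the rows `c .. d - 1` which crosses the middle rhombus
* **`glb_main`**  : both combined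
-/

set_option autoImplicit false
set_option linter.unusedSectionVars false
set_option linter.unusedVariables false
set_option linter.unusedSimpArgs false

namespace Claimed.Agent.R291

open Relation Claims Claims.C0467

/-! ## Part A: the embedded double -/

/-- a class preserving involution of the lattice: `ρ` on the sites, `rc` on the cell indices -/
structure GlbRefl (ρ rc : TV → TV) : Prop where
  inv : ∀ v, ρ (ρ v) = v
  invc : ∀ y, rc (rc y) = y
  cell : ∀ y, (cellV y).image ρ = cellV (rc y)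

/-- **the embedded double**: sites `Q ∪ Q2`; the cells of the first sheet (clipped to `Q`) which are not absorbed, the cells of the second sheet (clipped to `Q2`) which are not inside `Q` -/
noncomputable def glbX (x : ℝ) (Q Q2 : Finset TV) : ClSys TV (TV × Bool) where
  A := Q ∪ Q2
  C := ((latCells Q).filter (fun p => ¬ (cellV p ∩ Q ⊆ Q2 ∧ cellV p ∩ Q ≠ cellV p ∩ Q2))).image (fun p => (p, true)) ∪
    ((latCells Q2).filter (fun p => ¬ cellV p ∩ Q2 ⊆ Q)).image (fun p => (p, false))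
  sv := fun y => if y.2 then cellV y.1 ∩ Q else cellV y.1 ∩ Q2
  q := fun y => if (if y.2 then cellV y.1 ∩ Q else cellV y.1 ∩ Q2).card = 3 then x ^ 2 else x

/-- the exchange of the sheets on the cells -/
def glbPsi (Q Q2 : Finset TV) (rc : TV → TV) (y : TV × Bool) : TV × Bool :=
  if y.2 then (if cellV y.1 ∩ Q ⊆ Q2 then (rc y.1, true) else (rc y.1, false)) else (rc y.1, true)

section partA

variable {ρ rc : TV → TV}

theorem glb_inj (h : GlbRefl ρ rc) : Function.Injective ρ := fun a b hab => by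
  rw [← h.inv a, hab, h.inv]

theorem glb_injc (h : GlbRefl ρ rc) : Function.Injective rc := fun a b hab => by
  rw [← h.invc a, hab, h.invc]

theorem glb_mem_image (h : GlbRefl ρ rc) (Q : Finset TV) (v : TV) : v ∈ Q.image ρ ↔ ρ v ∈ Q := by
  rw [Finset.mem_image]
  constructor
  · rintro ⟨u, hu, rfl⟩; rwa [h.inv]
  · intro hv; exact ⟨ρ v, hv, h.inv v⟩

theorem glb_image_image (h : GlbRefl ρ rc) (Q : Finset TV) : (Q.image ρ).image ρ = Q := by
  ext v
  rw [glb_mem_image h, glb_mem_image h, h.inv]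

theorem glb_mem_cell (h : GlbRefl ρ rc) (y v : TV) : v ∈ cellV (rc y) ↔ ρ v ∈ cellV y := by
  rw [← h.cell, glb_mem_image h]

theorem glb_T_image (h : GlbRefl ρ rc) (Q : Finset TV) (p : TV) : (cellV p ∩ Q).image ρ = cellV (rc p) ∩ Q.image ρ := by
  ext v
  rw [glb_mem_image h, Finset.mem_inter, Finset.mem_inter, glb_mem_cell h, glb_mem_image h]

theorem glb_T_image' (h : GlbRefl ρ rc) (Q : Finset TV) (p : TV) : (cellV p ∩ Q.image ρ).image ρ = cellV (rc p) ∩ Q := by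
  rw [glb_T_image h, glb_image_image h]

theorem glb_adj_map (h : GlbRefl ρ rc) {u v : TV} (huv : triAdj u v) : triAdj (ρ u) (ρ v) := by
  obtain ⟨y, hu, hv⟩ := pcp_adj_cell huv
  have hne : u ≠ v := fun e => tscG.irrefl (e ▸ huv : tscG.Adj v v)
  refine pcp_cell_adj (y := rc y) ?_ ?_ fun e => hne (glb_inj h e)
  · rw [glb_mem_cell h, h.inv]; exact hu
  · rw [glb_mem_cell h, h.inv]; exact hv

theorem glb_cells_image (h : GlbRefl ρ rc) (Q : Finset TV) (p : TV) : rc p ∈ latCells (Q.image ρ) ↔ p ∈ latCells Q := by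
  rw [lat_mem_cells, lat_mem_cells]
  constructor
  · rintro ⟨u, hu, huQ⟩
    exact ⟨ρ u, (glb_mem_cell h p u).1 hu, (glb_mem_image h Q u).1 huQ⟩
  · rintro ⟨u, hu, huQ⟩
    exact ⟨ρ u, by rw [glb_mem_cell h, h.inv]; exact hu, by rw [glb_mem_image h, h.inv]; exact huQ⟩

theorem glb_cells_image' (h : GlbRefl ρ rc) (Q : Finset TV) (p : TV) : rc p ∈ latCells Q ↔ p ∈ latCells (Q.image ρ) := by
  rw [← glb_cells_image h, h.invc]

end partA

/-! ### the system `glbX` -/

section sysX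

variable (x : ℝ) (Q Q2 : Finset TV)

theorem glb_C_true (p : TV) : (p, true) ∈ (glbX x Q Q2).C ↔ p ∈ latCells Q ∧ ¬ (cellV p ∩ Q ⊆ Q2 ∧ cellV p ∩ Q ≠ cellV p ∩ Q2) := by
  simp [glbX]

theorem glb_C_false (p : TV) : (p, false) ∈ (glbX x Q Q2).C ↔ p ∈ latCells Q2 ∧ ¬ cellV p ∩ Q2 ⊆ Q := by
  simp [glbX]

theorem glb_sv_true (p : TV) : (glbX x Q Q2).sv (p, true) = cellV p ∩ Q := rfl

theorem glb_sv_false (p : TV) : (glbX x Q Q2).sv (p, false) = cellV p ∩ Q2 := rfl

theorem glb_q (y : TV × Bool) : (glbX x Q Q2).q y = if ((glbX x Q Q2).sv y).card = 3 then x ^ 2 else x := rfl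

theorem glb_A : (glbX x Q Q2).A = Q ∪ Q2 := rfl

theorem glb_ok (hx0 : 0 < x) (hx1 : x ≤ 1) : ClOk (glbX x Q Q2) where
  sub := by
    rintro ⟨p, _ | _⟩ _
    · rw [glb_sv_false, glb_A]; exact Finset.inter_subset_right.trans Finset.subset_union_right
    · rw [glb_sv_true, glb_A]; exact Finset.inter_subset_right.trans Finset.subset_union_left
  ne := by
    rintro ⟨p, _ | _⟩ hy
    · obtain ⟨u, hu, hu'⟩ := lat_mem_cells.1 ((glb_C_false x Q Q2 p).1 hy).1
      exact ⟨u, Finset.mem_inter.2 ⟨hu, hu'⟩⟩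
    · obtain ⟨u, hu, hu'⟩ := lat_mem_cells.1 ((glb_C_true x Q Q2 p).1 hy).1
      exact ⟨u, Finset.mem_inter.2 ⟨hu, hu'⟩⟩
  q0 := by
    intro y _
    rw [glb_q]; split_ifs <;> positivity
  q1 := by
    intro y _
    rw [glb_q]; split_ifs
    · exact pow_le_one₀ hx0.le hx1
    · exact hx1

theorem glb_card (y : TV × Bool) : ((glbX x Q Q2).sv y).card ≤ 3 := by
  obtain ⟨p, _ | _⟩ := y
  · rw [glb_sv_false]; exact (Finset.card_le_card Finset.inter_subset_left).trans (pcp_cell_card p).le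
  · rw [glb_sv_true]; exact (Finset.card_le_card Finset.inter_subset_left).trans (pcp_cell_card p).le

theorem glb_half (hx1 : x ≤ 1) (hxh : 1 / 2 ≤ x ^ 2) (hx0 : 0 < x) (y : TV × Bool) : 1 / 2 ≤ (glbX x Q Q2).q y := by
  rw [glb_q]; split_ifs
  · exact hxh
  · nlinarith

/-- **the graph of the double**: lattice edges inside one of the two sheets -/
theorem glb_adj (u v : TV) : (glbX x Q Q2).gr.Adj u v ↔ triAdj u v ∧ ((u ∈ Q ∧ v ∈ Q) ∨ (u ∈ Q2 ∧ v ∈ Q2)) := by
  constructor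
  · rintro ⟨hne, ⟨p, _ | _⟩, hy, hu, hv⟩
    · rw [glb_sv_false, Finset.mem_inter] at hu hv
      exact ⟨pcp_cell_adj hu.1 hv.1 hne, Or.inr ⟨hu.2, hv.2⟩⟩
    · rw [glb_sv_true, Finset.mem_inter] at hu hv
      exact ⟨pcp_cell_adj hu.1 hv.1 hne, Or.inl ⟨hu.2, hv.2⟩⟩
  · rintro ⟨hadj, hQ⟩
    have hne : u ≠ v := fun e => tscG.irrefl (e ▸ hadj : tscG.Adj v v)
    obtain ⟨p, hu, hv⟩ := pcp_adj_cell hadj
    refine ⟨hne, ?_⟩
    rcases hQ with ⟨huQ, hvQ⟩ | ⟨huQ, hvQ⟩
    · by_cases hab : cellV p ∩ Q ⊆ Q2 ∧ cellV p ∩ Q ≠ cellV p ∩ Q2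
      · -- absorbed: the cell of the second sheet
        have hsub : cellV p ∩ Q ⊆ cellV p ∩ Q2 := fun w hw => Finset.mem_inter.2 ⟨(Finset.mem_inter.1 hw).1, hab.1 hw⟩
        refine ⟨(p, false), (glb_C_false x Q Q2 p).2 ⟨lat_mem_cells.2 ⟨u, hu, hab.1 (Finset.mem_inter.2 ⟨hu, huQ⟩)⟩, fun hc => hab.2 ?_⟩, ?_, ?_⟩
        · exact Finset.Subset.antisymm hsub fun w hw => Finset.mem_inter.2 ⟨(Finset.mem_inter.1 hw).1, hc hw⟩
        · rw [glb_sv_false]; exact hsub (Finset.mem_inter.2 ⟨hu, huQ⟩)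
        · rw [glb_sv_false]; exact hsub (Finset.mem_inter.2 ⟨hv, hvQ⟩)
      · exact ⟨(p, true), (glb_C_true x Q Q2 p).2 ⟨lat_mem_cells.2 ⟨u, hu, huQ⟩, hab⟩, Finset.mem_inter.2 ⟨hu, huQ⟩, Finset.mem_inter.2 ⟨hv, hvQ⟩⟩
    · by_cases hc : cellV p ∩ Q2 ⊆ Q
      · have hsub : cellV p ∩ Q2 ⊆ cellV p ∩ Q := fun w hw => Finset.mem_inter.2 ⟨(Finset.mem_inter.1 hw).1, hc hw⟩
        refine ⟨(p, true), (glb_C_true x Q Q2 p).2 ⟨lat_mem_cells.2 ⟨u, hu, hc (Finset.mem_inter.2 ⟨hu, huQ⟩)⟩, fun hab => hab.2 ?_⟩, ?_, ?_⟩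
        · exact Finset.Subset.antisymm (fun w hw => Finset.mem_inter.2 ⟨(Finset.mem_inter.1 hw).1, hab.1 hw⟩) hsub
        · rw [glb_sv_true]; exact hsub (Finset.mem_inter.2 ⟨hu, huQ⟩)
        · rw [glb_sv_true]; exact hsub (Finset.mem_inter.2 ⟨hv, hvQ⟩)
      · exact ⟨(p, false), (glb_C_false x Q Q2 p).2 ⟨lat_mem_cells.2 ⟨u, hu, huQ⟩, hc⟩, Finset.mem_inter.2 ⟨hu, huQ⟩, Finset.mem_inter.2 ⟨hv, hvQ⟩⟩

theorem glb_sc (h1 : TriSCOn (ZMod 2) tscG (↑Q : Set TV)) (h2 : TriSCOn (ZMod 2) tscG (↑Q2 : Set TV)) (hK : TscConn tscG (↑(Q ∩ Q2) : Set TV)) :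
    (glbX x Q Q2).SC := by
  unfold ClSys.SC
  rw [glb_A, Finset.coe_union]
  refine tsc_union (pcp_sc_congr (ZMod 2) (fun u hu v hv => ?_) h1) (pcp_sc_congr (ZMod 2) (fun u hu v hv => ?_) h2) ?_ ?_
  · rw [glb_adj]; exact ⟨fun h => ⟨h, Or.inl ⟨hu, hv⟩⟩, fun h => h.1⟩
  · rw [glb_adj]; exact ⟨fun h => ⟨h, Or.inr ⟨hu, hv⟩⟩, fun h => h.1⟩
  · rw [← Finset.coe_inter]
    exact fun u hu v hv => pcp_R_congr (fun a ha b hb hab => (glb_adj x Q Q2 a b).2
      ⟨hab, Or.inl ⟨(Finset.mem_inter.1 (Finset.mem_coe.1 ha)).1, (Finset.mem_inter.1 (Finset.mem_coe.1 hb)).1⟩⟩) (hK u hu v hv)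
  · intro u _ v _ hadj
    exact ((glb_adj x Q Q2 u v).1 hadj).2

theorem glb_conn (h1 : TscConn tscG (↑Q : Set TV)) (h2 : TscConn tscG (↑Q2 : Set TV)) (hK : (Q ∩ Q2).Nonempty) :
    TscConn (glbX x Q Q2).gr (↑(glbX x Q Q2).A : Set TV) := by
  rw [glb_A, Finset.coe_union]
  obtain ⟨z, hz⟩ := hK
  rw [Finset.mem_inter] at hz
  refine tsc_conn_union (a := z) (b := z) ?_ ?_ hz.1 hz.2 (Or.inl rfl)
  · exact fun u hu v hv => pcp_R_congr (fun a ha b hb hab => (glb_adj x Q Q2 a b).2 ⟨hab, Or.inl ⟨ha, hb⟩⟩) (h1 u hu v hv)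
  · exact fun u hu v hv => pcp_R_congr (fun a ha b hb hab => (glb_adj x Q Q2 a b).2 ⟨hab, Or.inr ⟨ha, hb⟩⟩) (h2 u hu v hv)

end sysX

/-! ### the exchange of the sheets -/

section iso

variable {ρ rc : TV → TV}

theorem glb_sub_image (h : GlbRefl ρ rc) {s Q : Finset TV} : s.image ρ ⊆ Q ↔ s ⊆ Q.image ρ := by
  rw [Finset.image_subset_iff]
  exact forall₂_congr fun v _ => (glb_mem_image h Q v).symm

theorem glb_psi_spec (x : ℝ) (Q : Finset TV) (h : GlbRefl ρ rc) (y : TV × Bool) (hy : y ∈ (glbX x Q (Q.image ρ)).C) :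
    glbPsi Q (Q.image ρ) rc y ∈ (glbX x Q (Q.image ρ)).C ∧
      (glbX x Q (Q.image ρ)).sv (glbPsi Q (Q.image ρ) rc y) = ((glbX x Q (Q.image ρ)).sv y).image ρ ∧
      glbPsi Q (Q.image ρ) rc (glbPsi Q (Q.image ρ) rc y) = y := by
  obtain ⟨p, _ | _⟩ := y
  · obtain ⟨hp, hn⟩ := (glb_C_false x Q _ p).1 hy
    have e0 : glbPsi Q (Q.image ρ) rc (p, false) = (rc p, true) := by simp [glbPsi]
    have hn' : ¬ cellV (rc p) ∩ Q ⊆ Q.image ρ := by
      rw [← glb_T_image' h, glb_sub_image h, glb_image_image h]; exact hn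
    rw [e0]
    refine ⟨(glb_C_true x Q _ _).2 ⟨(glb_cells_image' h Q p).2 hp, fun hh => hn' hh.1⟩, ?_, ?_⟩
    · rw [glb_sv_true, glb_sv_false, glb_T_image' h]
    · simp only [glbPsi, if_true, if_neg hn', h.invc]
  · obtain ⟨hp, hn⟩ := (glb_C_true x Q _ p).1 hy
    by_cases hc : cellV p ∩ Q ⊆ Q.image ρ
    · have e0 : glbPsi Q (Q.image ρ) rc (p, true) = (rc p, true) := by simp [glbPsi, hc]
      have e12 : cellV p ∩ Q = cellV p ∩ Q.image ρ := by
        by_contra hne; exact hn ⟨hc, hne⟩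
      have hc' : cellV (rc p) ∩ Q ⊆ Q.image ρ := by
        rw [← glb_T_image' h, glb_sub_image h, glb_image_image h, ← e12]; exact Finset.inter_subset_right
      have hp2 : p ∈ latCells (Q.image ρ) := by
        obtain ⟨u, hu, huQ⟩ := lat_mem_cells.1 hp
        exact lat_mem_cells.2 ⟨u, hu, hc (Finset.mem_inter.2 ⟨hu, huQ⟩)⟩
      rw [e0]
      refine ⟨(glb_C_true x Q _ _).2 ⟨(glb_cells_image' h Q p).2 hp2, fun hh => hh.2 ?_⟩, ?_, ?_⟩
      · rw [← glb_T_image' h, ← glb_T_image h, e12]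
      · rw [glb_sv_true, glb_sv_true, ← glb_T_image' h, e12]
      · simp only [glbPsi, if_true, if_pos hc', h.invc]
    · have e0 : glbPsi Q (Q.image ρ) rc (p, true) = (rc p, false) := by simp [glbPsi, hc]
      rw [e0]
      refine ⟨(glb_C_false x Q _ _).2 ⟨(glb_cells_image h Q p).2 hp, ?_⟩, ?_, ?_⟩
      · rw [← glb_T_image h, glb_sub_image h]; exact hc
      · rw [glb_sv_true, glb_sv_false, glb_T_image h]
      · simp [glbPsi, h.invc]

theorem glb_iso (x : ℝ) (Q : Finset TV) (h : GlbRefl ρ rc) :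
    CuIso (glbX x Q (Q.image ρ)) (glbX x Q (Q.image ρ)) ρ (glbPsi Q (Q.image ρ) rc) where
  injV := (glb_inj h).injOn
  injY := by
    intro y hy y' hy' e
    rw [← (glb_psi_spec x Q h y hy).2.2, e, (glb_psi_spec x Q h y' hy').2.2]
  A := by
    rw [glb_A, Finset.image_union, glb_image_image h, Finset.union_comm]
  C := by
    ext y
    rw [Finset.mem_image]
    constructor
    · rintro ⟨z, hz, rfl⟩; exact (glb_psi_spec x Q h z hz).1
    · intro hy; exact ⟨_, (glb_psi_spec x Q h y hy).1, (glb_psi_spec x Q h y hy).2.2⟩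
  sv := fun y hy => (glb_psi_spec x Q h y hy).2.1
  q := by
    intro y hy
    rw [glb_q, glb_q, (glb_psi_spec x Q h y hy).2.1, Finset.card_image_of_injective _ (glb_inj h)]

/-- **THE EMBEDDED DOUBLE IS A DOUBLE.**   `L'` = the two ends. -/
theorem glb_double (x : ℝ) (hx0 : 0 < x) (hx1 : x ≤ 1) (hxh : 1 / 2 ≤ x ^ 2) (Q : Finset TV) (h : GlbRefl ρ rc)
    (hsc : TriSCOn (ZMod 2) tscG (↑Q : Set TV)) (hconn : TscConn tscG (↑Q : Set TV))
    (hK : TscConn tscG (↑(Q ∩ Q.image ρ) : Set TV)) (hKn : (Q ∩ Q.image ρ).Nonempty) (La Lc L' : Finset TV)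
    (hcb : ∀ y ∈ latCells Q, ¬ cellV y ⊆ Q → cellV y ∩ Q ⊆ La ∪ Lc ∪ L') (hfar : ∀ v ∈ Q ∩ Q.image ρ, v ∉ L') :
    GlDouble (clAmb x Q) (latCells Q \ latCellsIn Q) La Lc (Q ∩ Q.image ρ) (glbX x Q (Q.image ρ)) id (fun p => (p, true)) ρ
      (glbPsi Q (Q.image ρ) rc) where
  disk := by
    have hsc2 : TriSCOn (ZMod 2) tscG (↑(Q.image ρ) : Set TV) := by
      rw [Finset.coe_image]
      exact plr_sc_image ρ (glb_inj h).injOn (fun a _ b _ => ⟨fun hab => glb_adj_map h hab, fun hab => by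
        have := glb_adj_map h hab
        rwa [h.inv, h.inv] at this⟩) hsc
    have hconn2 : TscConn tscG (↑(Q.image ρ) : Set TV) := by
      rw [Finset.coe_image]
      exact tsc_conn_map ρ (fun a b hab => glb_adj_map h hab) hconn
    exact pcp_disk _ (glb_ok x Q _ hx0 hx1) (fun y _ => glb_card x Q _ y) (glb_sc x Q _ hsc hsc2 hK) (glb_conn x Q _ hconn hconn2 hKn)
  half := fun y _ => glb_half x Q _ hx1 hxh hx0 y
  iso := glb_iso x Q h
  invV := fun v _ => h.inv v
  invY := fun y hy => (glb_psi_spec x Q h y hy).2.2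
  kA := Finset.inter_subset_left
  eInj := Function.injective_id.injOn
  cover := by
    show Q ∪ Q.image ρ = Q.image id ∪ (Q.image id).image ρ
    rw [Finset.image_id]
  meet := by
    intro v hv
    show id v ∈ (Q.image id).image ρ ↔ _
    have hv' : v ∈ Q := hv
    rw [Finset.image_id, Finset.mem_inter]
    exact ⟨fun hh => ⟨hv', hh⟩, fun hh => hh.2⟩
  sheet := by
    rintro ⟨p, _ | _⟩ _
    · right
      show cellV p ∩ Q.image ρ ⊆ (Q.image id).image ρ
      rw [Finset.image_id]; exact Finset.inter_subset_right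
    · left
      show cellV p ∩ Q ⊆ Q.image id
      rw [Finset.image_id]; exact Finset.inter_subset_right
  ecInj := fun a _ b _ e => congrArg Prod.fst e
  kept := by
    intro y hy
    have hy' : y ∈ latCells Q := hy
    by_cases hab : cellV y ∩ Q ⊆ Q.image ρ ∧ cellV y ∩ Q ≠ cellV y ∩ Q.image ρ
    · right
      have hnin : ¬ cellV y ⊆ Q := by
        intro hin
        apply hab.2
        have e1 : cellV y ∩ Q = cellV y := Finset.inter_eq_left.2 hin
        rw [e1] at hab ⊢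
        exact (Finset.inter_eq_left.2 hab.1).symm
      refine ⟨Finset.mem_sdiff.2 ⟨hy', fun hh => hnin (lat_mem_cellsIn.1 hh)⟩, ?_, fun hh => ((glb_C_true x Q _ y).1 hh).2 hab⟩
      intro v hv
      have hv' : v ∈ cellV y ∩ Q := hv
      have hvK : v ∈ Q ∩ Q.image ρ := Finset.mem_inter.2 ⟨(Finset.mem_inter.1 hv').2, hab.1 hv'⟩
      refine Finset.mem_inter.2 ⟨hvK, ?_⟩
      rcases Finset.mem_union.1 (hcb y hy' hnin hv') with h1 | h1
      · exact h1
      · exact absurd h1 (hfar v hvK)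
    · left
      refine ⟨(glb_C_true x Q _ y).2 ⟨hy', hab⟩, ?_, rfl⟩
      show cellV y ∩ Q = (cellV y ∩ Q).image id
      rw [Finset.image_id]
  back := by
    rintro ⟨p, _ | _⟩ hy hsub
    · exfalso
      have hsub' : cellV p ∩ Q.image ρ ⊆ Q.image id := hsub
      rw [Finset.image_id] at hsub'
      exact ((glb_C_false x Q _ p).1 hy).2 hsub'
    · exact ⟨p, ((glb_C_true x Q _ p).1 hy).1, rfl⟩
  gate := by
    rintro ⟨p, _ | _⟩ hy hsub v hv hvy
    · have hv' : v ∈ Q := hv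
      have hvy' : v ∈ cellV p ∩ Q.image ρ := hvy
      have hsub' : ¬ cellV p ∩ Q.image ρ ⊆ Q := by
        intro hh; apply hsub
        show cellV p ∩ Q.image ρ ⊆ Q.image id
        rw [Finset.image_id]; exact hh
      have hvK : v ∈ Q ∩ Q.image ρ := Finset.mem_inter.2 ⟨hv', (Finset.mem_inter.1 hvy').2⟩
      refine Finset.mem_inter.2 ⟨hvK, ?_⟩
      have hnin : ¬ cellV p ⊆ Q := fun hin => hsub' (Finset.inter_subset_left.trans hin)
      rcases Finset.mem_union.1 (hcb p (lat_mem_cells.2 ⟨v, (Finset.mem_inter.1 hvy').1, hv'⟩) hnin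
        (Finset.mem_inter.2 ⟨(Finset.mem_inter.1 hvy').1, hv'⟩)) with h1 | h1
      · exact h1
      · exact absurd h1 (hfar v hvK)
    · exfalso; apply hsub
      show cellV p ∩ Q ⊆ Q.image id
      rw [Finset.image_id]; exact Finset.inter_subset_right

end iso

/-! ## Part B: the box -/

/-- the mirror of the rhombus with lower left corner `(k, c)` (axis at 30 degrees; it maps the up-cell `y` to the up-cell `glbRho k c y`) -/
def glbRho (k c : ℤ) (v : TV) : TV := (v.2 - c + k, v.1 - k + c)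

/-- the boundary cells of the box -/
noncomputable def glbCb (a b c d : ℤ) : Finset TV := latCells (amBox a b c d) \ latCellsIn (amBox a b c d)

/-- the history of the strip law of the box: rows `c` and `d` plus, the rest of the columns `a` and `b` minus, the homogeneous clipped cells open -/
noncomputable def glbH (x : ℝ) (a b c d : ℤ) : ClCon TV TV :=
  glH0 (clAmb x (amBox a b c d)) (glbCb a b c d) (amBox a b c c) (amBox a b d d) (amBox a a c d) (amBox b b c d)

theorem glb_rho_refl (k c : ℤ) : GlbRefl (glbRho k c) (glbRho k c) where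
  inv := fun v => by simp [glbRho]
  invc := fun v => by simp [glbRho]
  cell := fun y => by
    ext v
    simp only [Finset.mem_image, pcp_mem_cell, glbRho, Prod.ext_iff, Prod.fst_add, Prod.snd_add, Prod.exists]
    constructor
    · rintro ⟨p, q, h, h1, h2⟩; omega
    · intro h
      exact ⟨v.2 - c + k, v.1 - k + c, by omega, by omega, by omega⟩

theorem glb_mem_box (a b c d : ℤ) (v : TV) : v ∈ amBox a b c d ↔ a ≤ v.1 ∧ v.1 ≤ b ∧ c ≤ v.2 ∧ v.2 ≤ d := by
  simp only [amBox, Finset.mem_product, Finset.mem_Icc]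
  tauto

theorem glb_coe_box (a b c d : ℤ) : (↑(amBox a b c d) : Set TV) = tscBox a b c d := by
  ext v
  rw [Finset.mem_coe, glb_mem_box]; rfl

theorem glb_box_image (a b c d k : ℤ) : (amBox a b c d).image (glbRho k c) = amBox k (k + (d - c)) (a - k + c) (b - k + c) := by
  ext v
  rw [glb_mem_image (glb_rho_refl k c), glb_mem_box, glb_mem_box]
  simp only [glbRho]
  omega

theorem glb_K_eq {a b c d k : ℤ} (ha : a ≤ k) (hb : k + (d - c) ≤ b) :
    amBox a b c d ∩ (amBox a b c d).image (glbRho k c) = amBox k (k + (d - c)) c d := by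
  ext v
  rw [glb_box_image, Finset.mem_inter, glb_mem_box, glb_mem_box, glb_mem_box]
  omega

theorem glb_box_conn (x : ℝ) {a b c d a' b' c' d' : ℤ} (h1 : a ≤ a') (h2 : b' ≤ b) (h3 : c ≤ c') (h4 : d' ≤ d) :
    TscConn (clAmb x (amBox a b c d)).gr (tscBox a' b' c' d') :=
  fun u hu v hv => pcp_R_congr (fun p hp q hq hpq => (pcp_amb_adj x _ p q).2
    ⟨hpq, (glb_mem_box _ _ _ _ _).2 ⟨h1.trans hp.1, hp.2.1.trans h2, h3.trans hp.2.2.1, hp.2.2.2.trans h4⟩,
      (glb_mem_box _ _ _ _ _).2 ⟨h1.trans hq.1, hq.2.1.trans h2, h3.trans hq.2.2.1, hq.2.2.2.trans h4⟩⟩) (tsc_box_conn _ _ _ _ u hu v hv)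

theorem glb_box_sub {a b c d a' b' c' d' : ℤ} (h1 : a ≤ a') (h2 : b' ≤ b) (h3 : c ≤ c') (h4 : d' ≤ d) : amBox a' b' c' d' ⊆ amBox a b c d := by
  intro v hv
  rw [glb_mem_box] at hv ⊢
  omega

/-- the clipped cells of a box live on its four sides -/
theorem glb_cbL (a b c d : ℤ) (y : TV) (hn : ¬ cellV y ⊆ amBox a b c d) :
    cellV y ∩ amBox a b c d ⊆ amBox a b c c ∪ amBox a b d d ∪ (amBox a a c d ∪ amBox b b c d) := by
  intro v hv
  rw [Finset.mem_inter, glb_mem_box] at hv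
  simp only [Finset.mem_union, glb_mem_box]
  by_contra hc
  apply hn
  intro w hw
  rw [glb_mem_box]
  have h1 := hv.1
  rw [pcp_mem_cell'] at h1 hw
  omega

/-- **the box is a strip** -/
theorem glb_strip (x : ℝ) (hx0 : 0 < x) (hx1 : x ≤ 1) (hxh : 1 / 2 ≤ x ^ 2) (a b c d : ℤ) (hab : a ≤ b) (hr : c + 2 ≤ d) :
    GlStrip (clAmb x (amBox a b c d)) (glbCb a b c d) (amBox a b c c) (amBox a b d d) (amBox a a c d) (amBox b b c d) where
  disk := am_box_disk x hx0 hx1 a b c d hab (by omega)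
  sc := pcp_amb_sc_box x (glb_coe_box a b c d)
  conn := pcp_amb_conn x (by rw [glb_coe_box]; exact tsc_box_conn _ _ _ _)
  half := by
    intro y _
    show 1 / 2 ≤ if (cellV y ∩ amBox a b c d).card = 3 then x ^ 2 else x
    split_ifs
    · exact hxh
    · nlinarith
  cb := Finset.sdiff_subset
  la := glb_box_sub le_rfl le_rfl le_rfl (by omega)
  lc := glb_box_sub le_rfl le_rfl (by omega) le_rfl
  ld := glb_box_sub le_rfl hab le_rfl le_rfl
  lb := glb_box_sub hab le_rfl le_rfl le_rfl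
  cbL := by
    intro y hy
    have hn : ¬ cellV y ⊆ amBox a b c d := fun h => (Finset.mem_sdiff.1 hy).2 (lat_mem_cellsIn.2 h)
    have := glb_cbL a b c d y hn
    rw [← Finset.union_assoc] at this
    exact this
  ac := by
    intro u hu v hv
    rw [glb_mem_box] at hu hv
    refine ⟨fun e => by subst e; omega, fun h => ?_⟩
    have := tsc_adj_snd ((pcp_amb_adj x _ u v).1 h).1
    omega
  dconn := by
    have e : (↑(amBox a a c d \ (amBox a b c c ∪ amBox a b d d)) : Set TV) = tscBox a a (c + 1) (d - 1) := by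
      ext v
      simp only [Finset.coe_sdiff, Finset.coe_union, Set.mem_sdiff, Set.mem_union, Finset.mem_coe, glb_mem_box, tscBox, Set.mem_ofPred_eq]
      omega
    rw [e]
    exact glb_box_conn x le_rfl hab (by omega) (by omega)
  bconn := by
    have e : (↑(amBox b b c d \ (amBox a b c c ∪ amBox a b d d)) : Set TV) = tscBox b b (c + 1) (d - 1) := by
      ext v
      simp only [Finset.coe_sdiff, Finset.coe_union, Set.mem_sdiff, Set.mem_union, Finset.mem_coe, glb_mem_box, tscBox, Set.mem_ofPred_eq]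
      omega
    rw [e]
    exact glb_box_conn x hab le_rfl (by omega) (by omega)

theorem glb_R_up (x : ℝ) {a b c d : ℤ} {Z : Set TV} (hZ : Z ⊆ tscBox a b c d) {u v : TV} (h : TscR tscG Z u v) :
    TscR (clAmb x (amBox a b c d)).gr Z u v :=
  pcp_R_congr (fun p hp q hq hpq => (pcp_amb_adj x _ p q).2 ⟨hpq, (glb_mem_box _ _ _ _ _).2 (hZ hp), (glb_mem_box _ _ _ _ _).2 (hZ hq)⟩) h

theorem glb_R_down (x : ℝ) {a b c d : ℤ} {Z : Set TV} {u v : TV} (h : TscR (clAmb x (amBox a b c d)).gr Z u v) : TscR tscG Z u v :=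
  pcp_R_congr (fun p _ q _ hpq => ((pcp_amb_adj x _ p q).1 hpq).1) h

theorem glb_mem_mir (K L : Finset TV) (ρ : TV → TV) (v : TV) : v ∈ glMir K id ρ L ↔ v ∈ K ∧ ρ v ∈ L := by
  unfold glMir
  rw [Finset.mem_filter, Finset.image_id]; rfl

theorem glb_mir_a {a b c d k : ℤ} (hk1 : a ≤ k) (hk2 : k + (d - c) ≤ b) :
    glMir (amBox k (k + (d - c)) c d) id (glbRho k c) (amBox a b c c) = amBox k k c d := by
  ext v
  rw [glb_mem_mir, glb_mem_box, glb_mem_box, glb_mem_box]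
  simp only [glbRho]
  omega

theorem glb_mir_c {a b c d k : ℤ} (hk1 : a ≤ k) (hk2 : k + (d - c) ≤ b) :
    glMir (amBox k (k + (d - c)) c d) id (glbRho k c) (amBox a b d d) = amBox (k + (d - c)) (k + (d - c)) c d := by
  ext v
  rw [glb_mem_mir, glb_mem_box, glb_mem_box, glb_mem_box]
  simp only [glbRho]
  omega

/-- Hex in the open rhombus, in the form of the field `dich` -/
theorem glb_dich (x : ℝ) (a b c d k : ℤ) (hr : c + 2 ≤ d) (hk1 : a ≤ k) (hk2 : k + (d - c) ≤ b) (P : Set TV) :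
    GlJoin (clAmb x (amBox a b c d)).gr (↑(amBox (k + 1) (k + (d - c) - 1) (c + 1) (d - 1)) ∩ P) ↑(amBox a b c c) ↑(amBox a b d d) ∨
      GlJoin (clAmb x (amBox a b c d)).gr (↑(amBox (k + 1) (k + (d - c) - 1) (c + 1) (d - 1)) \ P) ↑(amBox k k c d)
        ↑(amBox (k + (d - c)) (k + (d - c)) c d) := by
  rw [glb_coe_box]
  have hsub : tscBox (k + 1) (k + (d - c) - 1) (c + 1) (d - 1) ⊆ tscBox a b c d := by
    intro z hz
    obtain ⟨h1, h2, h3, h4⟩ := hz
    exact ⟨by omega, by omega, by omega, by omega⟩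
  have e1 : tscBox (k + 1) (k + (d - c) - 1) (c + 1) (d - 1) ∩ Pᶜ = tscBox (k + 1) (k + (d - c) - 1) (c + 1) (d - 1) \ P := rfl
  have e2 : tscBox (k + 1) (k + (d - c) - 1) (c + 1) (d - 1) \ Pᶜ = tscBox (k + 1) (k + (d - c) - 1) (c + 1) (d - 1) ∩ P := by
    ext z; simp
  rcases tsc_hex_box (a := k + 1) (b := k + (d - c) - 1) (c := c + 1) (d := d - 1) (by omega) (by omega) Pᶜ with
    ⟨l, r, hl, hl1, hr1, hlr⟩ | ⟨u, v, hu, hu1, hv1, huv⟩
  · right
    rw [e1] at hl hlr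
    have hrm := tsc_R_mem hlr hl
    obtain ⟨l1, l2, l3, l4⟩ := hl.1
    obtain ⟨r1, r2, r3, r4⟩ := hrm.1
    refine ⟨l, r, hl, hrm, ⟨(k, l.2), ?_, ?_⟩, ⟨(k + (d - c), r.2), ?_, ?_⟩, glb_R_up x (Set.sdiff_subset.trans hsub) hlr⟩
    · rw [Finset.mem_coe, glb_mem_box]; simp only; omega
    · rw [pcp_amb_adj, tsc_adj_iff, glb_mem_box, glb_mem_box]; dsimp only; omega
    · rw [Finset.mem_coe, glb_mem_box]; simp only; omega
    · rw [pcp_amb_adj, tsc_adj_iff, glb_mem_box, glb_mem_box]; dsimp only; omega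
  · left
    rw [e2] at hu huv
    have hvm := tsc_R_mem huv hu
    obtain ⟨l1, l2, l3, l4⟩ := hu.1
    obtain ⟨r1, r2, r3, r4⟩ := hvm.1
    refine ⟨u, v, hu, hvm, ⟨(u.1, c), ?_, ?_⟩, ⟨(v.1, d), ?_, ?_⟩, glb_R_up x (Set.inter_subset_left.trans hsub) huv⟩
    · rw [Finset.mem_coe, glb_mem_box]; simp only; omega
    · rw [pcp_amb_adj, tsc_adj_iff, glb_mem_box, glb_mem_box]; dsimp only; omega
    · rw [Finset.mem_coe, glb_mem_box]; simp only; omega
    · rw [pcp_amb_adj, tsc_adj_iff, glb_mem_box, glb_mem_box]; dsimp only; omega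

/-- **the rhombus `[k, k + r] × [c, d]` is a place** -/
theorem glb_place (x : ℝ) (hx0 : 0 < x) (hx1 : x ≤ 1) (hxh : 1 / 2 ≤ x ^ 2) (a b c d k : ℤ) (hr : c + 2 ≤ d) (hk1 : a + 1 ≤ k) (hk2 : k + (d - c) + 1 ≤ b) :
    GlPlace (clAmb x (amBox a b c d)) (glbCb a b c d) (amBox a b c c) (amBox a b d d) (amBox a a c d) (amBox b b c d)
      (amBox k (k + (d - c)) c d) (amBox (k + 1) (k + (d - c) - 1) (c + 1) (d - 1))
      (glbX x (amBox a b c d) ((amBox a b c d).image (glbRho k c))) id (fun p => (p, true)) (glbRho k c)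
      (glbPsi (amBox a b c d) ((amBox a b c d).image (glbRho k c)) (glbRho k c)) where
  toGlDouble := by
    have hKe := glb_K_eq (a := a) (b := b) (c := c) (d := d) (k := k) (by omega) (by omega)
    have := glb_double x hx0 hx1 hxh (amBox a b c d) (glb_rho_refl k c) (by rw [glb_coe_box]; exact tsc_box_sc _ _ _ _ _)
      (by rw [glb_coe_box]; exact tsc_box_conn _ _ _ _) (by rw [hKe, glb_coe_box]; exact tsc_box_conn _ _ _ _)
      (by rw [hKe]; exact ⟨(k, c), (glb_mem_box _ _ _ _ _).2 ⟨le_rfl, by simp only; omega, le_rfl, by simp only; omega⟩⟩)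
      (amBox a b c c) (amBox a b d d) (amBox a a c d ∪ amBox b b c d) (fun y _ hn => glb_cbL a b c d y hn) (by
        rw [hKe]
        intro v hv
        rw [glb_mem_box] at hv
        simp only [Finset.mem_union, glb_mem_box]
        omega)
    rw [hKe] at this
    exact this
  far := by
    intro v hv
    rw [glb_mem_box] at hv
    rw [glb_mem_box, glb_mem_box]
    omega
  k0 := glb_box_sub (by omega) (by omega) (by omega) (by omega)
  free := by
    intro v hv
    rw [glb_mir_a (by omega) (by omega), glb_mir_c (by omega) (by omega)]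
    rw [glb_mem_box] at hv
    simp only [glb_mem_box]
    omega
  symm := by
    intro v hv
    refine ⟨glbRho k c v, ?_, rfl⟩
    rw [glb_mem_box] at hv ⊢
    simp only [glbRho]
    omega
  gate' := by
    intro y _ hn v hv hvy
    rw [glb_mir_a (by omega) (by omega), glb_mir_c (by omega) (by omega)]
    have hvy' : v ∈ cellV y ∩ amBox a b c d := hvy
    have hn' : ¬ cellV y ∩ amBox a b c d ⊆ amBox k (k + (d - c)) c d := hn
    by_contra hc
    apply hn'
    intro w hw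
    rw [Finset.mem_inter, pcp_mem_cell', glb_mem_box] at hw hvy'
    rw [glb_mem_box] at hv ⊢
    simp only [Finset.mem_union, glb_mem_box] at hc
    omega
  dich := by
    intro P
    rw [glb_mir_a (by omega) (by omega), glb_mir_c (by omega) (by omega)]
    exact glb_dich x a b c d k hr (by omega) (by omega) P

theorem glb_sv (x : ℝ) (Q : Finset TV) (y : TV) : (clAmb x Q).sv y = cellV y ∩ Q := rfl

theorem glb_cell_sub {a b c d : ℤ} {y : TV} (hy : y ∈ tscBox a (b - 1) c (d - 1)) : cellV y ⊆ amBox a b c d := by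
  intro w hw
  obtain ⟨h1, h2, h3, h4⟩ := hy
  rw [pcp_mem_cell'] at hw
  rw [glb_mem_box]
  omega

/-- paths of cell indices are paths of cells -/
theorem glb_Rc_up (x : ℝ) {a b c d : ℤ} {Z : Set TV} (hZ : Z ⊆ tscBox a (b - 1) c (d - 1)) {u v : TV} (h : TscR tscG Z u v) :
    TscR (glCg (clAmb x (amBox a b c d))) Z u v := by
  refine pcp_R_congr (fun p hp q hq hpq => ?_) h
  obtain ⟨w, hw1, hw2⟩ := pcp_share_site hpq
  refine ⟨fun e => tscG.irrefl (e ▸ hpq : tscG.Adj q q), w, ?_, ?_⟩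
  · rw [glb_sv]; exact Finset.mem_inter.2 ⟨hw1, glb_cell_sub (hZ hp) hw1⟩
  · rw [glb_sv]; exact Finset.mem_inter.2 ⟨hw2, glb_cell_sub (hZ hq) hw2⟩

/-- paths of cells are paths of cell indices -/
theorem glb_Rc_down (x : ℝ) (Q : Finset TV) {Z : Set TV} {u v : TV} (h : TscR (glCg (clAmb x Q)) Z u v) : TscR tscG Z u v := by
  refine pcp_R_congr (fun p _ q _ hpq => ?_) h
  obtain ⟨hne, w, hw1, hw2⟩ := hpq
  rw [glb_sv, Finset.mem_inter] at hw1 hw2
  rcases (pcp_share p q).1 ⟨w, hw1.1, hw2.1⟩ with e | e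
  · exact absurd e hne
  · exact e

/-- Hex in the rhombus of the cell indices, in the form of the field `dichC` -/
theorem glb_dichC (x : ℝ) (a b c d k : ℤ) (hr : c + 2 ≤ d) (hk1 : a ≤ k) (hk2 : k + (d - c) ≤ b) (P : Set TV) :
    GlJoinC (clAmb x (amBox a b c d)) (↑(amBox k (k + (d - c) - 1) c (d - 1)) ∩ P) (amBox a b c c) (amBox a b d d) ∨
      GlJoinC (clAmb x (amBox a b c d)) (↑(amBox k (k + (d - c) - 1) c (d - 1)) \ P) (amBox k k c d)
        (amBox (k + (d - c)) (k + (d - c)) c d) := by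
  rw [glb_coe_box]
  have hsub : tscBox k (k + (d - c) - 1) c (d - 1) ⊆ tscBox a (b - 1) c (d - 1) := by
    intro z hz
    obtain ⟨h1, h2, h3, h4⟩ := hz
    exact ⟨by omega, by omega, by omega, by omega⟩
  have e1 : tscBox k (k + (d - c) - 1) c (d - 1) ∩ Pᶜ = tscBox k (k + (d - c) - 1) c (d - 1) \ P := rfl
  have e2 : tscBox k (k + (d - c) - 1) c (d - 1) \ Pᶜ = tscBox k (k + (d - c) - 1) c (d - 1) ∩ P := by
    ext z; simp
  rcases tsc_hex_box (a := k) (b := k + (d - c) - 1) (c := c) (d := d - 1) (by omega) (by omega) Pᶜ with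
    ⟨l, r, hl, hl1, hr1, hlr⟩ | ⟨u, v, hu, hu1, hv1, huv⟩
  · right
    rw [e1] at hl hlr
    have hrm := tsc_R_mem hlr hl
    obtain ⟨l1, l2, l3, l4⟩ := hl.1
    obtain ⟨r1, r2, r3, r4⟩ := hrm.1
    refine ⟨l, r, hl, hrm, ⟨l, ?_, ?_⟩, ⟨r + (1, 0), ?_, ?_⟩, glb_Rc_up x (Set.sdiff_subset.trans hsub) hlr⟩
    · rw [glb_mem_box]; omega
    · rw [glb_sv, Finset.mem_inter, pcp_mem_cell', glb_mem_box]; omega
    · rw [glb_mem_box]; simp only [Prod.fst_add, Prod.snd_add]; omega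
    · rw [glb_sv, Finset.mem_inter, pcp_mem_cell', glb_mem_box]
      have e1 : (r + ((1, 0) : TV)).1 = r.1 + 1 := rfl
      have e2 : (r + ((1, 0) : TV)).2 = r.2 + 0 := rfl
      omega
  · left
    rw [e2] at hu huv
    have hvm := tsc_R_mem huv hu
    obtain ⟨l1, l2, l3, l4⟩ := hu.1
    obtain ⟨r1, r2, r3, r4⟩ := hvm.1
    refine ⟨u, v, hu, hvm, ⟨u, ?_, ?_⟩, ⟨v + (0, 1), ?_, ?_⟩, glb_Rc_up x (Set.inter_subset_left.trans hsub) huv⟩
    · rw [glb_mem_box]; omega
    · rw [glb_sv, Finset.mem_inter, pcp_mem_cell', glb_mem_box]; omega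
    · rw [glb_mem_box]; simp only [Prod.fst_add, Prod.snd_add]; omega
    · rw [glb_sv, Finset.mem_inter, pcp_mem_cell', glb_mem_box]
      have e1 : (v + ((0, 1) : TV)).1 = v.1 + 0 := rfl
      have e2 : (v + ((0, 1) : TV)).2 = v.2 + 1 := rfl
      omega

/-- **the rhombus is a place with cells** -/
theorem glb_placeC (x : ℝ) (hx0 : 0 < x) (hx1 : x ≤ 1) (hxh : 1 / 2 ≤ x ^ 2) (a b c d k : ℤ) (hr : c + 2 ≤ d) (hk1 : a + 1 ≤ k) (hk2 : k + (d - c) + 1 ≤ b) :
    GlPlaceC (clAmb x (amBox a b c d)) (glbCb a b c d) (amBox a b c c) (amBox a b d d) (amBox a a c d) (amBox b b c d)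
      (amBox k (k + (d - c)) c d) (amBox (k + 1) (k + (d - c) - 1) (c + 1) (d - 1)) (amBox k (k + (d - c) - 1) c (d - 1))
      (glbX x (amBox a b c d) ((amBox a b c d).image (glbRho k c))) id (fun p => (p, true)) (glbRho k c)
      (glbPsi (amBox a b c d) ((amBox a b c d).image (glbRho k c)) (glbRho k c)) := by
  have hKe := glb_K_eq (a := a) (b := b) (c := c) (d := d) (k := k) (by omega) (by omega)
  have hin : ∀ y ∈ amBox k (k + (d - c) - 1) c (d - 1), cellV y ⊆ amBox k (k + (d - c)) c d := by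
    intro y hy
    rw [glb_mem_box] at hy
    exact glb_cell_sub ⟨hy.1, by omega, hy.2.2.1, hy.2.2.2⟩
  have hin1 : ∀ y ∈ amBox k (k + (d - c) - 1) c (d - 1), cellV y ∩ amBox a b c d = cellV y := by
    intro y hy
    refine Finset.inter_eq_left.2 ((hin y hy).trans ?_)
    rw [← hKe]; exact Finset.inter_subset_left
  have hin2 : ∀ y ∈ amBox k (k + (d - c) - 1) c (d - 1), cellV y ∩ (amBox a b c d).image (glbRho k c) = cellV y := by
    intro y hy
    refine Finset.inter_eq_left.2 ((hin y hy).trans ?_)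
    rw [← hKe]; exact Finset.inter_subset_right
  refine { toGlPlace := glb_place x hx0 hx1 hxh a b c d k hr hk1 hk2, kc := ?_, symmC := ?_, dichC := ?_ }
  · intro y hy
    have hyC : y ∈ latCells (amBox a b c d) := by
      refine lat_mem_cells.2 ⟨y, by simp [cellV], ?_⟩
      have : y ∈ cellV y ∩ amBox a b c d := by rw [hin1 y hy]; simp [cellV]
      exact (Finset.mem_inter.1 this).2
    refine ⟨hyC, ?_, (glb_C_true x _ _ y).2 ⟨hyC, fun hh => hh.2 ?_⟩⟩
    · rw [glb_sv, hin1 y hy]; exact hin y hy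
    · rw [hin1 y hy, hin2 y hy]
  · intro y hy
    refine ⟨glbRho k c y, ?_, ?_⟩
    · rw [glb_mem_box] at hy ⊢
      simp only [glbRho]
      omega
    · have : cellV y ∩ amBox a b c d ⊆ (amBox a b c d).image (glbRho k c) := by
        rw [hin1 y hy, ← hin2 y hy]; exact Finset.inter_subset_right
      simp only [glbPsi, if_true, if_pos this]
  · intro P
    rw [glb_mir_a (by omega) (by omega), glb_mir_c (by omega) (by omega)]
    exact glb_dichC x a b c d k hr (by omega) (by omega) P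

/-- the common core of the two blocking leaves: a plus path of the open rhombus, extended by one site of each side, stops every walk off `P` across the columns `k .. k + r` -/
theorem glb88_blk (x : ℝ) (a b c d k : ℤ) (P : Set TV)
    (hLa : (↑(amBox a b c c) : Set TV) ⊆ P) (hLc : (↑(amBox a b d d) : Set TV) ⊆ P)
    (hj : GlJoin (clAmb x (amBox a b c d)).gr (↑(amBox (k + 1) (k + (d - c) - 1) (c + 1) (d - 1)) ∩ P) ↑(amBox a b c c) ↑(amBox a b d d))
    {p q : TV} (hp : p ∈ (↑(clAmb x (amBox a b c d)).A : Set TV) \ P) (hpq : TscR (clAmb x (amBox a b c d)).gr (↑(clAmb x (amBox a b c d)).A \ P) p q)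
    (hp1 : p.1 ≤ k) (hq1 : k + (d - c) ≤ q.1) : False := by
  obtain ⟨u0, v0, hu0, hv0, ⟨a0, ha0, hua⟩, ⟨c0, hc0, hvc⟩, hR⟩ := hj
  have hua' := ((pcp_amb_adj x _ u0 a0).1 hua).1
  have hvc' := ((pcp_amb_adj x _ v0 c0).1 hvc).1
  have ha0' := (glb_mem_box _ _ _ _ _).1 (Finset.mem_coe.1 ha0)
  have hc0' := (glb_mem_box _ _ _ _ _).1 (Finset.mem_coe.1 hc0)
  have hu0' := (glb_mem_box _ _ _ _ _).1 (Finset.mem_coe.1 hu0.1)
  have hv0' := (glb_mem_box _ _ _ _ _).1 (Finset.mem_coe.1 hv0.1)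
  set Z : Set TV := ↑(amBox (k + 1) (k + (d - c) - 1) (c + 1) (d - 1)) ∩ P with hZ
  set T : Set TV := Z ∪ {a0, c0} with hT
  have hZT : Z ⊆ T := Set.subset_union_left
  have haT : a0 ∈ T := Or.inr (Or.inl rfl)
  have hcT : c0 ∈ T := Or.inr (Or.inr rfl)
  have hTP : T ⊆ P := by
    rintro z (hz | hz | hz)
    · exact hz.2
    · rw [hz]; exact hLa ha0
    · rw [Set.mem_singleton_iff.1 hz]; exact hLc hc0
  have h1 : TscR tscG T a0 c0 := by
    have e1 : TscR tscG T a0 u0 := tsc_R_symm (tsc_R_step hua' (hZT hu0) haT)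
    have e2 : TscR tscG T u0 v0 := tsc_R_mono hZT (pcp_R_congr (fun s _ t _ hst => ((pcp_amb_adj x _ s t).1 hst).1) hR)
    have e3 : TscR tscG T v0 c0 := tsc_R_step hvc' (hZT hv0) hcT
    exact tsc_R_trans e1 (tsc_R_trans e2 e3)
  have h2 : TscR tscG (↑(clAmb x (amBox a b c d)).A \ P) p q :=
    pcp_R_congr (fun s _ t _ hst => ((pcp_amb_adj x _ s t).1 hst).1) hpq
  obtain ⟨z, hz1, hz2⟩ := pls_rect (a := k) (b := k + (d - c)) (c := c) (d := d) hp h2
    (fun z hz => by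
      have := (glb_mem_box a b c d z).1 (Finset.mem_coe.1 hz.1)
      exact ⟨this.2.2.1, this.2.2.2⟩) hp1 hq1 haT h1
    (fun z hz => by
      rcases hz with hz | hz | hz
      · have := (glb_mem_box _ _ _ _ _).1 (Finset.mem_coe.1 hz.1)
        omega
      · rw [hz]
        have := tsc_adj_fst hua'
        omega
      · rw [Set.mem_singleton_iff.1 hz]
        have := tsc_adj_fst hvc'
        omega) (by omega) (by omega)
  exact hz1.2 (hTP hz2)

/-- blocking, the left end -/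
theorem glb_blkL (x : ℝ) (a b c d k k' : ℤ) (hr : c + 2 ≤ d) (hk1 : a + 1 ≤ k) (hk : k + (d - c) + 1 ≤ k') (hk2 : k' + (d - c) ≤ b) :
    GlBlk (clAmb x (amBox a b c d)) (amBox a b c c) (amBox a b d d) (amBox (k + 1) (k + (d - c) - 1) (c + 1) (d - 1)) (amBox a a c d)
      (amBox k' (k' + (d - c)) c d) := by
  intro P hLa hLc hj u hu z hz hzK hR
  have hu' := (glb_mem_box _ _ _ _ _).1 (Finset.mem_sdiff.1 hu).1
  have hz1 : k + (d - c) ≤ z.1 := by
    rcases hzK with hzK | ⟨w, hw, hzw⟩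
    · have := (glb_mem_box _ _ _ _ _).1 hzK
      omega
    · have := (glb_mem_box _ _ _ _ _).1 hw
      have h2 := tsc_adj_fst ((pcp_amb_adj x _ z w).1 hzw).1
      omega
  rcases ReflTransGen.cases_head hR with e | ⟨w, hw, -⟩
  · rw [← e] at hz1; omega
  · exact glb88_blk x a b c d k P hLa hLc hj hw.2.1 hR (by omega) hz1

/-- blocking, the right end -/
theorem glb_blkR (x : ℝ) (a b c d k k' : ℤ) (hr : c + 2 ≤ d) (hk1 : a ≤ k') (hk : k' + (d - c) + 1 ≤ k) (hk2 : k + (d - c) + 1 ≤ b) :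
    GlBlk (clAmb x (amBox a b c d)) (amBox a b c c) (amBox a b d d) (amBox (k + 1) (k + (d - c) - 1) (c + 1) (d - 1)) (amBox b b c d)
      (amBox k' (k' + (d - c)) c d) := by
  intro P hLa hLc hj u hu z hz hzK hR
  have hu' := (glb_mem_box _ _ _ _ _).1 (Finset.mem_sdiff.1 hu).1
  have hz1 : z.1 ≤ k := by
    rcases hzK with hzK | ⟨w, hw, hzw⟩
    · have := (glb_mem_box _ _ _ _ _).1 hzK
      omega
    · have := (glb_mem_box _ _ _ _ _).1 hw
      have h2 := tsc_adj_fst ((pcp_amb_adj x _ z w).1 hzw).1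
      omega
  rcases ReflTransGen.cases_head hR with e | ⟨w, hw, -⟩
  · rw [← e] at hz1; omega
  · exact glb88_blk x a b c d k P hLa hLc hj (tsc_R_mem hR hw.2.1) (tsc_R_symm hR) hz1 (by omega)

/-! ## Part C: exits -/

/-- **THE STRAIGHT INSTANCE OF LEMMA B**: under the strip law of the box `[a, b] × [c, d]`, `b - a ≥ 3 (d - c) + 4`, the two long sides are joined by open-plus cells of the middle rhombus with probability at least `1/64` -/
theorem glb_three (x : ℝ) (hx0 : 0 < x) (hx1 : x ≤ 1) (hxh : 1 / 2 ≤ x ^ 2) (a b c d : ℤ) (hr : c + 2 ≤ d) (hL : a + 3 * (d - c) + 4 ≤ b) :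
    1 / 64 * (clAmb x (amBox a b c d)).Z ((glbH x a b c d).Holds (clAmb x (amBox a b c d))) ≤
      (clAmb x (amBox a b c d)).N ((glbH x a b c d).Holds (clAmb x (amBox a b c d)))
        (glInd (fun ω => GlJoinC (clAmb x (amBox a b c d))
          (↑(amBox (a + (d - c) + 2) (a + (d - c) + 2 + (d - c) - 1) c (d - 1)) ∩ glOn (clAmb x (amBox a b c d)) 1 ω) (amBox a b c c) (amBox a b d d))) := by
  have hS := glb_strip x hx0 hx1 hxh a b c d (by omega) hr
  have h1 := glb_place x hx0 hx1 hxh a b c d (a + 1) hr (by omega) (by omega)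
  have h2 := glb_placeC x hx0 hx1 hxh a b c d (a + (d - c) + 2) hr (by omega) (by omega)
  have h3 := glb_place x hx0 hx1 hxh a b c d (a + 2 * (d - c) + 3) hr (by omega) (by omega)
  have b1 := glb_blkL x a b c d (a + 1) (a + (d - c) + 2) hr (by omega) (by omega) (by omega)
  have b3 := glb_blkR x a b c d (a + 2 * (d - c) + 3) (a + (d - c) + 2) hr (by omega) (by omega) (by omega)
  refine gl_three _ _ _ _ _ _ hS _ _ _ _ _ _ _ h1 _ _ _ _ _ _ _ h3 _ _ _ _ _ _ _ _ h2 ?_ ?_ b1 b3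
  · rw [glb_coe_box]
    exact fun u hu v hv => pcp_R_congr (fun p hp q hq hpq => (pcp_amb_adj x _ p q).2
      ⟨hpq, (glb_mem_box _ _ _ _ _).2 ⟨by have := hp.1; omega, by have := hp.2.1; omega, hp.2.2.1, hp.2.2.2⟩,
        (glb_mem_box _ _ _ _ _).2 ⟨by have := hq.1; omega, by have := hq.2.1; omega, hq.2.2.1, hq.2.2.2⟩⟩) (tsc_box_conn _ _ _ _ u hu v hv)
  · exact ⟨(a + (d - c) + 2, c), (glb_mem_box _ _ _ _ _).2 ⟨le_refl _, by simp; omega, le_refl _, by simp; omega⟩⟩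

/-- **(J1) BLOCKING**: a path of cells of `P` inside the rhombus of indices `[k, k + r - 1] × [c, d - 1]` from the row `c` of sites to the row `d` of sites meets every walk of cell
indices inside the rows `c .. d - 1` from a column `≤ k` to a column `≥ k + r - 1` -/
theorem glb_block (x : ℝ) (a b c d k : ℤ) (hr : c + 2 ≤ d) (hk1 : a ≤ k) (hk2 : k + (d - c) ≤ b) (P : Set TV)
    (h : GlJoinC (clAmb x (amBox a b c d)) (↑(amBox k (k + (d - c) - 1) c (d - 1)) ∩ P) (amBox a b c c) (amBox a b d d))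
    {T : Set TV} (hT : ∀ z ∈ T, c ≤ z.2 ∧ z.2 ≤ d - 1) {u v : TV} (hu : u ∈ T) (huv : TscR tscG T u v) (hu1 : u.1 ≤ k) (hv1 : k + (d - c) - 1 ≤ v.1) :
    ∃ z ∈ T, z ∈ P ∧ z ∈ amBox k (k + (d - c) - 1) c (d - 1) := by
  obtain ⟨y, y', hy, hy', ⟨a0, ha0, hay⟩, ⟨c0, hc0, hcy⟩, hR⟩ := h
  have ha0' := (glb_mem_box _ _ _ _ _).1 ha0
  have hc0' := (glb_mem_box _ _ _ _ _).1 hc0
  have hyb := (glb_mem_box _ _ _ _ _).1 (Finset.mem_coe.1 hy.1)
  have hyb' := (glb_mem_box _ _ _ _ _).1 (Finset.mem_coe.1 hy'.1)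
  have hay' : a0 ∈ cellV y := (Finset.mem_inter.1 hay).1
  have hcy' : c0 ∈ cellV y' := (Finset.mem_inter.1 hcy).1
  have hR' : TscR tscG (↑(amBox k (k + (d - c) - 1) c (d - 1)) ∩ P) y y' := by
    refine pcp_R_congr (fun s _ t _ hst => ?_) hR
    obtain ⟨hne, w, hw1, hw2⟩ := hst
    rcases (pcp_share s t).1 ⟨w, (Finset.mem_inter.1 hw1).1, (Finset.mem_inter.1 hw2).1⟩ with e | e
    · exact absurd e hne
    · exact e
  obtain ⟨z, hz1, hz2⟩ := pls_rect (a := k) (b := k + (d - c) - 1) (c := c) (d := d - 1) hu huv hT hu1 hv1 hy hR'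
    (fun z hz => by
      have := (glb_mem_box _ _ _ _ _).1 (Finset.mem_coe.1 hz.1)
      exact ⟨this.1, this.2.1⟩)
    (by
      rw [pcp_mem_cell] at hay'
      have e2 : a0.2 = y.2 ∨ a0.2 = y.2 + 1 := by
        rcases hay' with e | e | e <;> rw [e] <;> simp
      omega)
    (by
      rw [pcp_mem_cell] at hcy'
      have e2 : c0.2 = y'.2 ∨ c0.2 = y'.2 + 1 := by
        rcases hcy' with e | e | e <;> rw [e] <;> simp
      omega)
  exact ⟨z, hz1, hz2.2, Finset.mem_coe.1 hz2.1⟩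

/-- the event of the exit: no walk of cell indices which are not open-plus, inside the rows `c .. d - 1`, from a column `≤ l` to a column `≥ l'` -/
def GlbNo (S : ClSys TV TV) (c d l l' : ℤ) (ω : ClCfg TV TV) : Prop :=
  ∀ u v : TV, u ∈ plsBand c (d - 1) \ glOn S 1 ω → u.1 ≤ l → l' ≤ v.1 → ¬ TscR tscG (plsBand c (d - 1) \ glOn S 1 ω) u v

/-- **THE STRAIGHT EXIT, BLOCKING FORM** -/
theorem glb_main (x : ℝ) (hx0 : 0 < x) (hx1 : x ≤ 1) (hxh : 1 / 2 ≤ x ^ 2) (a b c d : ℤ) (hr : c + 2 ≤ d) (hL : a + 3 * (d - c) + 4 ≤ b) :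
    1 / 64 * (clAmb x (amBox a b c d)).Z ((glbH x a b c d).Holds (clAmb x (amBox a b c d))) ≤
      (clAmb x (amBox a b c d)).N ((glbH x a b c d).Holds (clAmb x (amBox a b c d)))
        (glInd (GlbNo (clAmb x (amBox a b c d)) c d (a + (d - c) + 2) (a + 2 * (d - c) + 1))) := by
  refine (glb_three x hx0 hx1 hxh a b c d hr hL).trans ?_
  refine len_N_mono _ (pcp_amb_ok x hx0 hx1 _) _ _ _ fun ω _ => ?_
  by_cases hj : GlJoinC (clAmb x (amBox a b c d))
      (↑(amBox (a + (d - c) + 2) (a + (d - c) + 2 + (d - c) - 1) c (d - 1)) ∩ glOn (clAmb x (amBox a b c d)) 1 ω) (amBox a b c c) (amBox a b d d)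
  · rw [gl_ind_pos hj, gl_ind_pos]
    intro u v hu hu1 hv1 huv
    obtain ⟨z, hz, hzP, -⟩ := glb_block x a b c d (a + (d - c) + 2) hr (by omega) (by omega) _ hj (fun z hz => hz.1) hu huv hu1 (by omega)
    exact hz.2 hzP
  · rw [gl_ind_neg hj]; exact gl_ind_nonneg _ _

theorem glb_eqns_cite : True := by
  have := @glbX.eq_1
  have := @glbPsi.eq_1
  have := @glbRho.eq_1
  have := @glbCb.eq_1
  have := @glbH.eq_1
  have := @GlbNo.eq_1
  trivial

end Claimed.Agent.R291
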