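import Claimed.Agent.R291.Ann.Model
import Claimed.Agent.R291.Ann.Place
import Claimed.Agent.R291.Pl.Region
import Claimed.Agent.R291.Dis.Buffer
import Claimed.Agent.R291.Pl.Ball
import Claimed.Agent.R291.Tool.TriSCEdge

/-!
# Row 291 (S0539), Glue/Sheet : LEMMA S ON `ClSys`, CLOSED AND GLUED PLANAR SYSTEMS      (owner helper31; prefix `gsh_`, defs `gsh…` / `Gsh…`)

Unit ANN, block A1 (head 55).   TEX[annulus:straight-short] (09-annulus l.370-520), design `origin/helper55:notes/R291/ann_A1_55.md` Secs. 1, 3, `origin/helper36:notes/R291/adv36_A1A3.md` Sec. IV (LEMMA S).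
Everything on the carrier `ClSys` (Defs/Cell, Defs/Dis, Defs/Cut), so that the tools `dis_*`, `am_*` of A0 apply verbatim.

## Part 1 (abstract): LEMMA S
* `gshT S φ ψ ω`   = automorphism after the flip of the first spin;   `gshK φ ψ K` = the history transported and flipped
* `gsh_holds`, `gsh_N`, `gsh_Z`   reindexing:  `S.N ((gshK φ ψ K).Holds S) F = S.N (K.Holds S) (F ∘ T)`
* **`gsh_sym`**, `gsh_sym_eq`   `T K ≤ K`, `E` increasing, `E ω ∨ E (T ω)` on the support   ⟹   `S.Z K ≤ 2 * S.N K 1_E`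
* **`gsh_sym_path`**   the dichotomy from `plc_hex4`: `S2, S4` plus pinned, `φ S1 ⊆ S4`, `φ S3 ⊆ S2`   ⟹   a path of plus sites from `S2` to `S4` has conditional probability `≥ 1/2`
## Part 2 (plane): THE CLOSED SYSTEM
* `gshCells Q = latCells Q`, `gshQ x s` (`x ^ 2` on a full cell, `x` on a clipped one), **`gshC x Q`** `= clAmb x Q` (`gsh_C_eq`);   `gsh_C_ok`, `gsh_C_gr` (graph = induced lattice graph), `gsh_C_sc`, **`gsh_C_disk`**
## Part 3 (plane): THE GLUED SYSTEM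
* `GshRefl` (class preserving reflection `f`, `c`), `GshGlue Q R K`, `GshMir ρ Q K`;   `gshC1 Q R K`, `gshC2 R K` (every edge lies in exactly ONE cell: a clipped cell of one sheet inside `K` which is a part of a cell of the other sheet is absorbed)
* **`gshX x Q R K`** on `TV × Bool` (sheets `plrE1`, `plrE2 K`);   `gsh_X_ok`, `gsh_X_card`, `gsh_X_gr` (graph = induced `plrGl tscG K`), `gsh_X_sc`, `gsh_X_conn`, **`gsh_X_disk`**, `gsh_X_disk'`
* `gshPsi ρ Q K` (exchange of the sheets on the cells), `gsh_psi_spec`, `gsh_phi_spec`, **`gsh_X_iso`** : `CuIso X X (plrSw K ρ.f) (gshPsi ρ Q K)`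
INSTANCES of `GlStrip`, `GlDouble` (Glue/Place, 55): file `Glue/SheetI.lean`.
-/

set_option autoImplicit false
set_option linter.unusedSectionVars false
set_option linter.unusedVariables false
set_option linter.unusedSimpArgs false

namespace Claimed.Agent.R291

open Relation

section abstract

variable {V Y : Type} [DecidableEq V] [DecidableEq Y]

/-! ## Part 1: LEMMA S -/

/-- `T` = the automorphism after the flip of the first spin -/
def gshT (S : ClSys V Y) (φ : V → V) (ψ : Y → Y) (ω : ClCfg V Y) : ClCfg V Y := (ω.flipB S.A).map φ ψ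

/-- the history transported by the automorphism and flipped -/
def gshK (φ : V → V) (ψ : Y → Y) (K : ClCon V Y) : ClCon V Y :=
  ⟨K.Bm.image φ, K.Bp.image φ, K.Eq.image (Prod.map φ φ), K.Om.image ψ, K.Op.image ψ, K.Cl.image ψ, K.Wp.image φ, K.Wm.image φ⟩

theorem gsh_flip_cfgs (S : ClSys V Y) {ω : ClCfg V Y} (hω : ω ∈ S.cfgs) : ω.flipB S.A ∈ S.cfgs := by
  rw [cl_mem_cfgs] at hω ⊢
  exact ⟨Finset.sdiff_subset, hω.2.1, hω.2.2⟩

/-- statuses under `T` -/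
theorem gsh_tau (S : ClSys V Y) (hS : ClOk S) (φ : V → V) (ψ : Y → Y) (h : CuIso S S φ ψ) {ω : ClCfg V Y} (hω : ω ∈ S.cfgs)
    (hw : S.wt ω ≠ 0) {y : Y} (hy : y ∈ S.C) : clTau S (gshT S φ ψ ω) (ψ y) = - clTau S ω y := by
  unfold gshT
  rw [am_iso_tau S S φ ψ h hS.sub _ (gsh_flip_cfgs S hω) y hy, am_flipB_tau S hS ω hw y hy]

/-- first spins under `T` -/
theorem gsh_mem_B (S : ClSys V Y) (φ : V → V) (ψ : Y → Y) (h : CuIso S S φ ψ) (ω : ClCfg V Y) {v : V} (hv : v ∈ S.A) :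
    φ v ∈ (gshT S φ ψ ω).B ↔ v ∉ ω.B := by
  show φ v ∈ (S.A \ ω.B).image φ ↔ _
  rw [am_t5_mem h.injV Finset.sdiff_subset hv, Finset.mem_sdiff]
  exact ⟨fun h => h.2, fun h => ⟨hv, h⟩⟩

/-- second spins under `T` -/
theorem gsh_mem_W (S : ClSys V Y) (φ : V → V) (ψ : Y → Y) (h : CuIso S S φ ψ) {ω : ClCfg V Y} (hω : ω ∈ S.cfgs) {v : V} (hv : v ∈ S.A) :
    φ v ∈ (gshT S φ ψ ω).W ↔ v ∈ ω.W := by
  show φ v ∈ ω.W.image φ ↔ _
  exact am_t5_mem h.injV ((cl_mem_cfgs S ω).1 hω).2.1 hv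

/-- open cells under `T` -/
theorem gsh_mem_O (S : ClSys V Y) (φ : V → V) (ψ : Y → Y) (h : CuIso S S φ ψ) {ω : ClCfg V Y} (hω : ω ∈ S.cfgs) {y : Y} (hy : y ∈ S.C) :
    ψ y ∈ (gshT S φ ψ ω).O ↔ y ∈ ω.O := by
  show ψ y ∈ ω.O.image ψ ↔ _
  exact am_t5_mem h.injY ((cl_mem_cfgs S ω).1 hω).2.2 hy

/-- **the flipped history holds at `T ω` iff the history holds at `ω`** -/
theorem gsh_holds (S : ClSys V Y) (hS : ClOk S) (φ : V → V) (ψ : Y → Y) (h : CuIso S S φ ψ) (K : ClCon V Y) (hK : K.In S S.A)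
    {ω : ClCfg V Y} (hω : ω ∈ S.cfgs) (hw : S.wt ω ≠ 0) : (gshK φ ψ K).Holds S (gshT S φ ψ ω) ↔ K.Holds S ω := by
  have hop : K.Op ⊆ S.C := fun y hy => (Finset.mem_filter.1 (hK.op hy)).1
  have hom : K.Om ⊆ S.C := fun y hy => (Finset.mem_filter.1 (hK.om hy)).1
  have hcl : K.Cl ⊆ S.C := fun y hy => (Finset.mem_filter.1 (hK.cl hy)).1
  unfold ClCon.Holds
  have e1 : (gshK φ ψ K).Bp ⊆ (gshT S φ ψ ω).B ↔ ∀ v ∈ K.Bm, v ∉ ω.B := by
    show K.Bm.image φ ⊆ _ ↔ _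
    rw [Finset.image_subset_iff]
    exact forall₂_congr fun v hv => gsh_mem_B S φ ψ h ω (hK.bm hv)
  have e2 : (∀ v ∈ (gshK φ ψ K).Bm, v ∉ (gshT S φ ψ ω).B) ↔ K.Bp ⊆ ω.B := by
    show (∀ v ∈ K.Bp.image φ, _) ↔ _
    rw [Finset.forall_mem_image]
    refine forall₂_congr fun v hv => ?_
    rw [gsh_mem_B S φ ψ h ω (hK.bp hv), not_not]
  have e3 : (∀ e ∈ (gshK φ ψ K).Eq, (e.1 ∈ (gshT S φ ψ ω).W ↔ e.2 ∈ (gshT S φ ψ ω).W)) ↔ ∀ e ∈ K.Eq, (e.1 ∈ ω.W ↔ e.2 ∈ ω.W) := by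
    show (∀ e ∈ K.Eq.image (Prod.map φ φ), _) ↔ _
    rw [Finset.forall_mem_image]
    refine forall₂_congr fun e he => ?_
    simp only [Prod.map_fst, Prod.map_snd]
    rw [gsh_mem_W S φ ψ h hω (hK.eq e he).1, gsh_mem_W S φ ψ h hω (hK.eq e he).2]
  have e4 : (∀ y ∈ (gshK φ ψ K).Op, clTau S (gshT S φ ψ ω) y = 1) ↔ ∀ y ∈ K.Om, clTau S ω y = -1 := by
    show (∀ y ∈ K.Om.image ψ, _) ↔ _
    rw [Finset.forall_mem_image]
    refine forall₂_congr fun y hy => ?_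
    rw [gsh_tau S hS φ ψ h hω hw (hom hy)]
    constructor <;> intro h <;> linarith
  have e5 : (∀ y ∈ (gshK φ ψ K).Om, clTau S (gshT S φ ψ ω) y = -1) ↔ ∀ y ∈ K.Op, clTau S ω y = 1 := by
    show (∀ y ∈ K.Op.image ψ, _) ↔ _
    rw [Finset.forall_mem_image]
    refine forall₂_congr fun y hy => ?_
    rw [gsh_tau S hS φ ψ h hω hw (hop hy)]
    constructor <;> intro h <;> linarith
  have e6 : (∀ y ∈ (gshK φ ψ K).Cl, y ∉ (gshT S φ ψ ω).O) ↔ ∀ y ∈ K.Cl, y ∉ ω.O := by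
    show (∀ y ∈ K.Cl.image ψ, _) ↔ _
    rw [Finset.forall_mem_image]
    refine forall₂_congr fun y hy => ?_
    rw [gsh_mem_O S φ ψ h hω (hcl hy)]
  have e7 : (gshK φ ψ K).Wp ⊆ (gshT S φ ψ ω).W ↔ K.Wp ⊆ ω.W := by
    show K.Wp.image φ ⊆ _ ↔ _
    rw [Finset.image_subset_iff]
    exact forall₂_congr fun v hv => gsh_mem_W S φ ψ h hω (hK.wp hv)
  have e8 : (∀ v ∈ (gshK φ ψ K).Wm, v ∉ (gshT S φ ψ ω).W) ↔ ∀ v ∈ K.Wm, v ∉ ω.W := by
    show (∀ v ∈ K.Wm.image φ, _) ↔ _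
    rw [Finset.forall_mem_image]
    refine forall₂_congr fun v hv => ?_
    rw [gsh_mem_W S φ ψ h hω (hK.wm hv)]
  constructor
  · rintro ⟨a1, a2, a3, a4, a5, a6, a7, a8⟩
    exact ⟨e2.1 a2, e1.1 a1, e3.1 a3, e5.1 a5, e4.1 a4, e6.1 a6, e7.1 a7, e8.1 a8⟩
  · rintro ⟨a1, a2, a3, a4, a5, a6, a7, a8⟩
    exact ⟨e1.2 a2, e2.2 a1, e3.2 a3, e4.2 a5, e5.2 a4, e6.2 a6, e7.2 a7, e8.2 a8⟩

/-- **reindexing** by `T` -/
theorem gsh_N (S : ClSys V Y) (hS : ClOk S) (φ : V → V) (ψ : Y → Y) (h : CuIso S S φ ψ) (K : ClCon V Y) (hK : K.In S S.A)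
    (F : ClCfg V Y → ℝ) : S.N ((gshK φ ψ K).Holds S) F = S.N (K.Holds S) (fun ω => F (gshT S φ ψ ω)) := by
  rw [am_iso S S φ ψ h hS.sub, am_flipB_N S hS.sub]
  exact dam_N_congr S (fun ω hω hw => gsh_holds S hS φ ψ h K hK hω hw) _

theorem gsh_Z (S : ClSys V Y) (hS : ClOk S) (φ : V → V) (ψ : Y → Y) (h : CuIso S S φ ψ) (K : ClCon V Y) (hK : K.In S S.A) :
    S.Z ((gshK φ ψ K).Holds S) = S.Z (K.Holds S) := by
  rw [dis_Z_eq, dis_Z_eq, gsh_N S hS φ ψ h K hK]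

/-- core of LEMMA S: from the comparison of the two histories -/
theorem gsh_sym_core (S : ClSys V Y) (hS : ClOk S) (φ : V → V) (ψ : Y → Y) (h : CuIso S S φ ψ) (K : ClCon V Y) (hK : K.In S S.A)
    (E : ClCfg V Y → Prop)
    (hord : S.N ((gshK φ ψ K).Holds S) (clInd E) * S.Z (K.Holds S) ≤ S.Z ((gshK φ ψ K).Holds S) * S.N (K.Holds S) (clInd E))
    (hd : ∀ ω ∈ S.cfgs, S.wt ω ≠ 0 → K.Holds S ω → E ω ∨ E (gshT S φ ψ ω)) :
    S.Z (K.Holds S) ≤ 2 * S.N (K.Holds S) (clInd E) := by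
  classical
  have hN0 : 0 ≤ S.N (K.Holds S) (clInd E) := dis_N_nonneg S hS _ fun ω => by unfold clInd; split_ifs <;> norm_num
  rcases (dis_Z_nonneg S hS (K.Holds S)).eq_or_lt with h0 | hpos
  · rw [← h0]; linarith
  rw [gsh_Z S hS φ ψ h K hK] at hord
  have h1 : S.N ((gshK φ ψ K).Holds S) (clInd E) ≤ S.N (K.Holds S) (clInd E) := by
    refine le_of_mul_le_mul_right ?_ hpos
    linarith
  rw [gsh_N S hS φ ψ h K hK] at h1
  have h2 : S.Z (K.Holds S) ≤ S.N (K.Holds S) (fun ω => clInd E ω + clInd E (gshT S φ ψ ω)) := by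
    rw [dis_Z_eq]
    unfold ClSys.N
    refine Finset.sum_le_sum fun ω hω => ?_
    by_cases hk : K.Holds S ω
    · rw [if_pos hk, if_pos hk]
      by_cases hw : S.wt ω = 0
      · rw [hw]; simp
      · refine mul_le_mul_of_nonneg_left ?_ (dis_wt_nonneg S hS ω)
        have a1 : 0 ≤ clInd E ω := by unfold clInd; split_ifs <;> norm_num
        have a2 : 0 ≤ clInd E (gshT S φ ψ ω) := by unfold clInd; split_ifs <;> norm_num
        rcases hd ω hω hw hk with he | he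
        · have : clInd E ω = 1 := by unfold clInd; rw [if_pos he]
          linarith
        · have : clInd E (gshT S φ ψ ω) = 1 := by unfold clInd; rw [if_pos he]
          linarith
    · rw [if_neg hk, if_neg hk]
  rw [dis_N_add] at h2
  linarith

theorem gsh_ind_mono (S : ClSys V Y) {E : ClCfg V Y → Prop} (hE : ClMonoP S E) : ClMono S (clInd E) := by
  classical
  intro ω ω' hB hT
  unfold clInd
  by_cases he : E ω
  · rw [if_pos he, if_pos (hE ω ω' hB hT he)]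
  · rw [if_neg he]; split_ifs <;> norm_num

/-- **LEMMA S** (36; X1 of 55) on `ClSys` -/
theorem gsh_sym (S : ClSys V Y) (hS : ClDisk S) (φ : V → V) (ψ : Y → Y) (h : CuIso S S φ ψ) (K : ClCon V Y) (hK : K.In S S.A)
    (hl : ClLegal S K) (hl' : ClLegal S (gshK φ ψ K)) (hle : ClLe (gshK φ ψ K) K) (E : ClCfg V Y → Prop) (hE : ClMonoP S E)
    (hd : ∀ ω ∈ S.cfgs, S.wt ω ≠ 0 → K.Holds S ω → E ω ∨ E (gshT S φ ψ ω)) :
    S.Z (K.Holds S) ≤ 2 * S.N (K.Holds S) (clInd E) :=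
  gsh_sym_core S hS.toClOk φ ψ h K hK E (dis_order S hS _ _ hl' hl hle _ (gsh_ind_mono S hE)) hd

/-- **LEMMA S** with ties (`AmLe`) -/
theorem gsh_sym_eq (S : ClSys V Y) (hS : ClDisk S) (φ : V → V) (ψ : Y → Y) (h : CuIso S S φ ψ) (K : ClCon V Y) (hK : K.In S S.A)
    (hl : AmLegal S K) (hl' : AmLegal S (gshK φ ψ K)) (hle : AmLe S (gshK φ ψ K) K) (E : ClCfg V Y → Prop) (hE : ClMonoP S E)
    (hd : ∀ ω ∈ S.cfgs, S.wt ω ≠ 0 → K.Holds S ω → E ω ∨ E (gshT S φ ψ ω)) :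
    S.Z (K.Holds S) ≤ 2 * S.N (K.Holds S) (clInd E) :=
  gsh_sym_core S hS.toClOk φ ψ h K hK E (am_order_eq S hS _ _ hl' hl hle _ (gsh_ind_mono S hE)) hd

/-- the automorphism maps cells to cells -/
theorem gsh_psi_mem (S : ClSys V Y) (φ : V → V) (ψ : Y → Y) (h : CuIso S S φ ψ) {y : Y} (hy : y ∈ S.C) : ψ y ∈ S.C := by
  have := Finset.mem_image_of_mem ψ hy
  rwa [h.C] at this

theorem gsh_phi_mem (S : ClSys V Y) (φ : V → V) (ψ : Y → Y) (h : CuIso S S φ ψ) {v : V} (hv : v ∈ S.A) : φ v ∈ S.A := by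
  have := Finset.mem_image_of_mem φ hv
  rwa [h.A] at this

/-- the automorphism preserves the graph of the system -/
theorem gsh_gr_map (S : ClSys V Y) (hS : ClOk S) (φ : V → V) (ψ : Y → Y) (h : CuIso S S φ ψ) (a b : V) (hab : S.gr.Adj a b) :
    S.gr.Adj (φ a) (φ b) := by
  obtain ⟨hne, y, hy, ha, hb⟩ := hab
  refine ⟨fun e => hne (h.injV (Finset.mem_coe.2 (hS.sub y hy ha)) (Finset.mem_coe.2 (hS.sub y hy hb)) e), ψ y,
    gsh_psi_mem S φ ψ h hy, ?_, ?_⟩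
  · rw [h.sv y hy]; exact Finset.mem_image_of_mem φ ha
  · rw [h.sv y hy]; exact Finset.mem_image_of_mem φ hb

/-- the flipped history is legal -/
theorem gsh_legal (S : ClSys V Y) (φ : V → V) (ψ : Y → Y) (h : CuIso S S φ ψ) (K : ClCon V Y) (hK : K.In S S.A) (hl : ClLegal S K) :
    ClLegal S (gshK φ ψ K) := by
  have hop : K.Op ⊆ S.C := fun y hy => (Finset.mem_filter.1 (hK.op hy)).1
  have hom : K.Om ⊆ S.C := fun y hy => (Finset.mem_filter.1 (hK.om hy)).1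
  have hcl : K.Cl ⊆ S.C := fun y hy => (Finset.mem_filter.1 (hK.cl hy)).1
  refine ⟨?_, ?_, ?_, ?_⟩
  · show K.Wp.image φ = ∅
    rw [hl.wp, Finset.image_empty]
  · show K.Wm.image φ = ∅
    rw [hl.wm, Finset.image_empty]
  · intro y _ hy
    have key : ∀ y0 ∈ S.C, y0 ∈ K.Op ∪ K.Om ∪ K.Cl → S.sv (ψ y0) ⊆ (gshK φ ψ K).Bp ∪ (gshK φ ψ K).Bm := by
      intro y0 hy0 hm v hv
      rw [h.sv y0 hy0] at hv
      obtain ⟨u, hu, rfl⟩ := Finset.mem_image.1 hv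
      rcases Finset.mem_union.1 (hl.full y0 hy0 hm hu) with hu' | hu'
      · exact Finset.mem_union_right _ (Finset.mem_image_of_mem φ hu')
      · exact Finset.mem_union_left _ (Finset.mem_image_of_mem φ hu')
    have hy' : y ∈ K.Om.image ψ ∪ K.Op.image ψ ∪ K.Cl.image ψ := hy
    simp only [Finset.mem_union, Finset.mem_image] at hy'
    rcases hy' with (⟨y0, h0, rfl⟩ | ⟨y0, h0, rfl⟩) | ⟨y0, h0, rfl⟩
    · exact key y0 (hom h0) (by simp [h0])
    · exact key y0 (hop h0) (by simp [h0])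
    · exact key y0 (hcl h0) (by simp [h0])
  · intro e he
    obtain ⟨e0, he0, rfl⟩ := Finset.mem_image.1 (show e ∈ K.Eq.image (Prod.map φ φ) from he)
    obtain ⟨y, hy, h1, h2⟩ := hl.eq e0 he0
    refine ⟨ψ y, gsh_psi_mem S φ ψ h hy, ?_, ?_⟩
    · rw [h.sv y hy]; exact Finset.mem_image_of_mem φ h1
    · rw [h.sv y hy]; exact Finset.mem_image_of_mem φ h2

/-- the event "a path of plus sites joins `S2` to `S4`" -/
def GshJoin (S : ClSys V Y) (S2 S4 : Set V) (ω : ClCfg V Y) : Prop := ∃ u ∈ S2, ∃ v ∈ S4, TscR S.gr (↑ω.B : Set V) u v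

theorem gsh_join_mono (S : ClSys V Y) (S2 S4 : Set V) : ClMonoP S (GshJoin S S2 S4) := by
  rintro ω ω' hB _ ⟨u, hu, v, hv, hp⟩
  exact ⟨u, hu, v, hv, tsc_R_mono (Finset.coe_subset.2 hB) hp⟩

/-- the dichotomy of LEMMA S from Hex for four connected sets -/
theorem gsh_join_dich (S : ClSys V Y) (hS : ClOk S) (hsc : S.SC) (φ : V → V) (ψ : Y → Y) (h : CuIso S S φ ψ) (K : ClCon V Y)
    {S1 S2 S3 S4 : Set V} (h2 : S2 ⊆ (↑K.Bp : Set V)) (h4 : S4 ⊆ (↑K.Bp : Set V)) (c2 : TscConn S.gr S2) (c4 : TscConn S.gr S4)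
    (n2 : S2.Nonempty) (n4 : S4.Nonempty) (h1 : S1 ⊆ (↑S.A : Set V)) (h3 : S3 ⊆ (↑S.A : Set V)) (c1 : TscConn S.gr S1)
    (c3 : TscConn S.gr S3) (t12 : PlcTouch S.gr S1 S2) (t14 : PlcTouch S.gr S1 S4) (t32 : PlcTouch S.gr S3 S2)
    (t34 : PlcTouch S.gr S3 S4) (m1 : ∀ a ∈ S1, φ a ∈ S4) (m3 : ∀ a ∈ S3, φ a ∈ S2) :
    ∀ ω ∈ S.cfgs, S.wt ω ≠ 0 → K.Holds S ω → GshJoin S S2 S4 ω ∨ GshJoin S S2 S4 (gshT S φ ψ ω) := by
  intro ω hω _ hk
  have hB : (↑ω.B : Set V) ⊆ ↑S.A := Finset.coe_subset.2 ((cl_mem_cfgs S ω).1 hω).1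
  have hKB : (↑K.Bp : Set V) ⊆ ↑ω.B := Finset.coe_subset.2 hk.1
  rcases plc_hex4 hsc hB (h2.trans hKB) (h4.trans hKB) c2 c4 n2 n4 h1 h3 c1 c3 t12 t14 t32 t34 with hp | ⟨M, hM, hMc, ⟨a, haM, ha1⟩, ⟨b, hbM, hb3⟩⟩
  · exact Or.inl hp
  · right
    refine ⟨φ b, m3 b hb3, φ a, m1 a ha1, ?_⟩
    refine tsc_R_mono ?_ (tsc_R_map φ (gsh_gr_map S hS φ ψ h) (hMc b hbM a haM))
    rintro _ ⟨z, hz, rfl⟩
    exact Finset.mem_coe.2 ((gsh_mem_B S φ ψ h ω (Finset.mem_coe.1 (hM hz).1)).2 fun hzB => (hM hz).2 (Finset.mem_coe.2 hzB))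

/-- **LEMMA S, path form**: `S2`, `S4` plus pinned and connected, `S1`, `S3` connected, each touching `S2` and `S4`, `φ S1 ⊆ S4`, `φ S3 ⊆ S2`, `T K ≤ K`:
a path of plus sites joins `S2` to `S4` with conditional probability at least `1/2` -/
theorem gsh_sym_path (S : ClSys V Y) (hS : ClDisk S) (hsc : S.SC) (φ : V → V) (ψ : Y → Y) (h : CuIso S S φ ψ) (K : ClCon V Y)
    (hK : K.In S S.A) (hl : ClLegal S K) (hle : ClLe (gshK φ ψ K) K)
    {S1 S2 S3 S4 : Set V} (h2 : S2 ⊆ (↑K.Bp : Set V)) (h4 : S4 ⊆ (↑K.Bp : Set V)) (c2 : TscConn S.gr S2) (c4 : TscConn S.gr S4)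
    (n2 : S2.Nonempty) (n4 : S4.Nonempty) (h1 : S1 ⊆ (↑S.A : Set V)) (h3 : S3 ⊆ (↑S.A : Set V)) (c1 : TscConn S.gr S1)
    (c3 : TscConn S.gr S3) (t12 : PlcTouch S.gr S1 S2) (t14 : PlcTouch S.gr S1 S4) (t32 : PlcTouch S.gr S3 S2)
    (t34 : PlcTouch S.gr S3 S4) (m1 : ∀ a ∈ S1, φ a ∈ S4) (m3 : ∀ a ∈ S3, φ a ∈ S2) :
    S.Z (K.Holds S) ≤ 2 * S.N (K.Holds S) (clInd (GshJoin S S2 S4)) :=
  gsh_sym S hS φ ψ h K hK hl (gsh_legal S φ ψ h K hK hl) hle _ (gsh_join_mono S S2 S4)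
    (gsh_join_dich S hS.toClOk hsc φ ψ h K h2 h4 c2 c4 n2 n4 h1 h3 c1 c3 t12 t14 t32 t34 m1 m3)

end abstract

/-! ## Part 2: the closed planar system -/

open Claims Claims.C0467

/-- two graphs which agree on `s` have the same paths inside `s` -/
theorem gsh_R_congr {V : Type*} {G G' : SimpleGraph V} {s : Set V} (h : ∀ a ∈ s, ∀ b ∈ s, G.Adj a b → G'.Adj a b) {a b : V}
    (hp : TscR G s a b) : TscR G' s a b := by
  induction hp with
  | refl => exact ReflTransGen.refl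
  | tail _ hbc ih => exact ih.tail ⟨h _ hbc.2.1 _ hbc.2.2 hbc.1, hbc.2.1, hbc.2.2⟩

theorem gsh_conn_congr {V : Type*} {G G' : SimpleGraph V} {s : Set V} (h : ∀ a ∈ s, ∀ b ∈ s, G.Adj a b → G'.Adj a b)
    (hc : TscConn G s) : TscConn G' s := fun u hu v hv => gsh_R_congr h (hc u hu v hv)

/-- two sites of one up-cell are equal or adjacent -/
theorem gsh_cell_adj {y u w : TV} (hu : u ∈ cellV y) (hw : w ∈ cellV y) : u = w ∨ triAdj u w := by
  simp only [cellV, Finset.mem_insert, Finset.mem_singleton] at hu hw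
  rw [tsc_adj_iff, Prod.ext_iff]
  simp only [Prod.ext_iff, Prod.fst_add, Prod.snd_add] at hu hw
  omega

theorem gsh_cell_card (y : TV) : (cellV y).card = 3 := by
  unfold cellV
  rw [Finset.card_insert_of_notMem, Finset.card_insert_of_notMem, Finset.card_singleton]
  · simp [Prod.ext_iff]
  · simp [Prod.ext_iff]

/-- parameter of a clipped cell: `x ^ 2` for a full cell, `x` for a clipped one (the convention of `clAmb`) -/
noncomputable def gshQ (x : ℝ) (s : Finset TV) : ℝ := if s.card = 3 then x ^ 2 else x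

theorem gsh_Q_pos {x : ℝ} (hx : 0 < x) (s : Finset TV) : 0 < gshQ x s := by
  unfold gshQ; split_ifs <;> positivity

theorem gsh_Q_le {x : ℝ} (hx : 0 < x) (hx1 : x ≤ 1) (s : Finset TV) : gshQ x s ≤ 1 := by
  unfold gshQ; split_ifs
  · exact pow_le_one₀ hx.le hx1
  · exact hx1

/-- the positions of the cells of the closed system on `Q`: the up-cells which meet `Q` -/
def gshCells (Q : Finset TV) : Finset TV := latCells Q

theorem gsh_mem_cells {Q : Finset TV} {y : TV} : y ∈ gshCells Q ↔ 1 ≤ (cellV y ∩ Q).card := by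
  unfold gshCells
  rw [lat_mem_cells, Nat.succ_le_iff, Finset.card_pos]
  constructor
  · rintro ⟨u, h1, h2⟩; exact ⟨u, Finset.mem_inter.2 ⟨h1, h2⟩⟩
  · rintro ⟨u, hu⟩; exact ⟨u, (Finset.mem_inter.1 hu).1, (Finset.mem_inter.1 hu).2⟩

/-- the cell of an edge of `Q` -/
theorem gsh_edge_cell {Q : Finset TV} {a b : TV} (ha : a ∈ Q) (hb : b ∈ Q) (hab : triAdj a b) :
    plhCellOf (a, b) ∈ gshCells Q ∧ a ∈ cellV (plhCellOf (a, b)) ∩ Q ∧ b ∈ cellV (plhCellOf (a, b)) ∩ Q := by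
  have h := plh_cellOf_mem (e := (a, b)) hab
  have h1 : a ∈ cellV (plhCellOf (a, b)) ∩ Q := Finset.mem_inter.2 ⟨h.1, ha⟩
  have h2 : b ∈ cellV (plhCellOf (a, b)) ∩ Q := Finset.mem_inter.2 ⟨h.2, hb⟩
  exact ⟨gsh_mem_cells.2 (Finset.card_pos.2 ⟨a, h1⟩), h1, h2⟩

/-- the position of the up-cell which contains two given distinct sites is unique -/
theorem gsh_cell_unique {y y' a b : TV} (hab : a ≠ b) (ha : a ∈ cellV y) (hb : b ∈ cellV y) (ha' : a ∈ cellV y') (hb' : b ∈ cellV y') :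
    y = y' := by
  simp only [cellV, Finset.mem_insert, Finset.mem_singleton] at ha hb ha' hb'
  rw [Ne, Prod.ext_iff] at hab
  rw [Prod.ext_iff]
  simp only [Prod.ext_iff, Prod.fst_add, Prod.snd_add] at ha hb ha' hb'
  omega

/-- **the closed system on `Q`**: sites `Q`, all up-cells which meet `Q`, clipped to `Q`, parameter `x ^ 2` on the full cells and `x` on the clipped ones
(`= clAmb x Q`, `gsh_C_eq`; ann_A1_55_v2.md N6; trap T1 of adv36: every edge of `Q` lies in a cell) -/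
noncomputable def gshC (x : ℝ) (Q : Finset TV) : ClSys TV TV where
  A := Q
  C := gshCells Q
  sv := fun y => cellV y ∩ Q
  q := fun y => gshQ x (cellV y ∩ Q)

theorem gsh_C_eq (x : ℝ) (Q : Finset TV) : gshC x Q = clAmb x Q := rfl

theorem gsh_C_ok {x : ℝ} (hx : 0 < x) (hx1 : x ≤ 1) (Q : Finset TV) : ClOk (gshC x Q) where
  sub := fun _ _ => Finset.inter_subset_right
  ne := fun y hy => Finset.card_pos.1 (by
    have := gsh_mem_cells.1 hy
    show 0 < (cellV y ∩ Q).card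
    omega)
  q0 := fun _ _ => gsh_Q_pos hx _
  q1 := fun _ _ => gsh_Q_le hx hx1 _

theorem gsh_C_card (x : ℝ) (Q : Finset TV) (y : TV) : ((gshC x Q).sv y).card ≤ 3 := by
  rw [← gsh_cell_card y]
  exact Finset.card_le_card Finset.inter_subset_left

/-- the graph of the closed system is the induced lattice graph -/
theorem gsh_C_gr (x : ℝ) (Q : Finset TV) {a b : TV} (ha : a ∈ Q) (hb : b ∈ Q) : (gshC x Q).gr.Adj a b ↔ tscG.Adj a b := by
  constructor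
  · rintro ⟨hne, y, _, h1, h2⟩
    exact (gsh_cell_adj (Finset.mem_inter.1 h1).1 (Finset.mem_inter.1 h2).1).resolve_left hne
  · intro h
    obtain ⟨h1, h2, h3⟩ := gsh_edge_cell ha hb h
    exact ⟨lat_adj_ne h, _, h1, h2, h3⟩

theorem gsh_C_sc (x : ℝ) {Q : Finset TV} (hsc : TriSCOn (ZMod 2) tscG (↑Q : Set TV)) : (gshC x Q).SC :=
  tsc_congr (fun a ha b hb => (gsh_C_gr x Q (Finset.mem_coe.1 ha) (Finset.mem_coe.1 hb)).symm) hsc

theorem gsh_C_conn (x : ℝ) {Q : Finset TV} (hc : TscConn tscG (↑Q : Set TV)) : TscConn (gshC x Q).gr (↑(gshC x Q).A : Set TV) :=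
  gsh_conn_congr (fun a ha b hb => (gsh_C_gr x Q (Finset.mem_coe.1 ha) (Finset.mem_coe.1 hb)).2) hc

/-- **the closed system on a connected `Q` without holes is a disc** -/
theorem gsh_C_disk {x : ℝ} (hx : 0 < x) (hx1 : x ≤ 1) {Q : Finset TV} (hsc : TriSCOn (ZMod 2) tscG (↑Q : Set TV))
    (hc : TscConn tscG (↑Q : Set TV)) : ClDisk (gshC x Q) :=
  am_disk _ (gsh_C_ok hx hx1 Q) (fun y _ => gsh_C_card x Q y) (gsh_C_sc x hsc) (gsh_C_conn x hc)

/-! ## Part 3: the glued system -/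

/-- an involution of a finite set is injective on it and onto -/
theorem gsh_invol {α : Type*} [DecidableEq α] {s : Finset α} {f : α → α} (h1 : ∀ a ∈ s, f a ∈ s) (h2 : ∀ a ∈ s, f (f a) = a) :
    Set.InjOn f (↑s : Set α) ∧ s.image f = s := by
  refine ⟨fun a ha b hb e => ?_, ?_⟩
  · rw [← h2 a (Finset.mem_coe.1 ha), ← h2 b (Finset.mem_coe.1 hb), e]
  · ext a
    rw [Finset.mem_image]
    constructor
    · rintro ⟨b, hb, rfl⟩; exact h1 b hb
    · intro ha; exact ⟨f a, h1 a ha, h2 a ha⟩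

/-- a class preserving reflection of the lattice: `f` acts on the sites, `c` on the positions of the up-cells -/
structure GshRefl where
  f : TV → TV
  c : TV → TV
  ff : ∀ u, f (f u) = u
  cc : ∀ y, c (c y) = y
  cell : ∀ y, cellV (c y) = (cellV y).image f

theorem gsh_r_inj (ρ : GshRefl) : Function.Injective ρ.f := fun a b e => by rw [← ρ.ff a, ← ρ.ff b, e]

theorem gsh_r_mem (ρ : GshRefl) (Q : Finset TV) (z : TV) : z ∈ Q.image ρ.f ↔ ρ.f z ∈ Q := by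
  rw [Finset.mem_image]
  constructor
  · rintro ⟨w, hw, rfl⟩; rwa [ρ.ff]
  · intro h; exact ⟨ρ.f z, h, ρ.ff z⟩

theorem gsh_r_image2 (ρ : GshRefl) (Q : Finset TV) : (Q.image ρ.f).image ρ.f = Q := by
  ext z
  rw [gsh_r_mem, gsh_r_mem, ρ.ff]

theorem gsh_r_inter (ρ : GshRefl) (Q : Finset TV) (y : TV) : cellV (ρ.c y) ∩ Q.image ρ.f = (cellV y ∩ Q).image ρ.f := by
  rw [ρ.cell, Finset.image_inter _ _ (gsh_r_inj ρ)]

theorem gsh_r_inter' (ρ : GshRefl) (Q : Finset TV) (y : TV) : cellV (ρ.c y) ∩ Q = (cellV y ∩ Q.image ρ.f).image ρ.f := by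
  rw [ρ.cell, Finset.image_inter _ _ (gsh_r_inj ρ), gsh_r_image2]

theorem gsh_r_sub (ρ : GshRefl) {K : Finset TV} (hK : ∀ z ∈ K, ρ.f z ∈ K) (s : Finset TV) : s.image ρ.f ⊆ K ↔ s ⊆ K := by
  rw [Finset.image_subset_iff]
  constructor
  · intro h z hz
    have := hK _ (h z hz)
    rwa [ρ.ff] at this
  · intro h z hz; exact hK z (h hz)

theorem gsh_r_adj (ρ : GshRefl) {u v : TV} (h : triAdj u v) : triAdj (ρ.f u) (ρ.f v) := by
  have h1 := plh_cellOf_mem (e := (u, v)) h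
  have a1 : ρ.f u ∈ cellV (ρ.c (plhCellOf (u, v))) := by rw [ρ.cell]; exact Finset.mem_image_of_mem _ h1.1
  have a2 : ρ.f v ∈ cellV (ρ.c (plhCellOf (u, v))) := by rw [ρ.cell]; exact Finset.mem_image_of_mem _ h1.2
  exact (gsh_cell_adj a1 a2).resolve_left fun e => lat_adj_ne h (gsh_r_inj ρ e)

/-- gluing data: `K ⊆ Q ∩ R` -/
structure GshGlue (Q R K : Finset TV) : Prop where
  kq : K ⊆ Q
  kr : K ⊆ R

/-- the positions of the cells of the first sheet: a clipped cell inside `K` which is a part of a cell of the second sheet is ABSORBED -/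
def gshC1 (Q R K : Finset TV) : Finset TV := (gshCells Q).filter (fun y => ¬ cellV y ∩ Q ⊆ K ∨ cellV y ∩ R ⊆ K)

/-- the positions of the cells of the second sheet: those which are not inside `K` -/
def gshC2 (R K : Finset TV) : Finset TV := (gshCells R).filter (fun y => ¬ cellV y ∩ R ⊆ K)

/-- **the closed systems on `Q` and on `R` glued along `K`** (carrier `TV × Bool`, sheets `plrE1`, `plrE2 K` of 269) -/
noncomputable def gshX (x : ℝ) (Q R K : Finset TV) : ClSys (TV × Bool) (TV × Bool) where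
  A := Q.image plrE1 ∪ R.image (plrE2 (↑K : Set TV))
  C := (gshC1 Q R K).image (fun y => (y, true)) ∪ (gshC2 R K).image (fun y => (y, false))
  sv := fun p => if p.2 then (cellV p.1 ∩ Q).image plrE1 else (cellV p.1 ∩ R).image (plrE2 (↑K : Set TV))
  q := fun p => if p.2 then gshQ x (cellV p.1 ∩ Q) else gshQ x (cellV p.1 ∩ R)

theorem gsh_X_sv1 (x : ℝ) (Q R K : Finset TV) (y : TV) : (gshX x Q R K).sv (y, true) = (cellV y ∩ Q).image plrE1 := rfl
theorem gsh_X_sv2 (x : ℝ) (Q R K : Finset TV) (y : TV) :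
    (gshX x Q R K).sv (y, false) = (cellV y ∩ R).image (plrE2 (↑K : Set TV)) := rfl
theorem gsh_X_q1 (x : ℝ) (Q R K : Finset TV) (y : TV) : (gshX x Q R K).q (y, true) = gshQ x (cellV y ∩ Q) := rfl
theorem gsh_X_q2 (x : ℝ) (Q R K : Finset TV) (y : TV) : (gshX x Q R K).q (y, false) = gshQ x (cellV y ∩ R) := rfl

theorem gsh_X_mem_C1 (x : ℝ) (Q R K : Finset TV) (y : TV) : (y, true) ∈ (gshX x Q R K).C ↔ y ∈ gshC1 Q R K := by
  show (y, true) ∈ (gshC1 Q R K).image (fun y => (y, true)) ∪ (gshC2 R K).image (fun y => (y, false)) ↔ _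
  simp

theorem gsh_X_mem_C2 (x : ℝ) (Q R K : Finset TV) (y : TV) : (y, false) ∈ (gshX x Q R K).C ↔ y ∈ gshC2 R K := by
  show (y, false) ∈ (gshC1 Q R K).image (fun y => (y, true)) ∪ (gshC2 R K).image (fun y => (y, false)) ↔ _
  simp

/-- case analysis on the cells of the glued system -/
theorem gsh_X_cases (x : ℝ) (Q R K : Finset TV) {P : TV × Bool → Prop} (h1 : ∀ y ∈ gshC1 Q R K, P (y, true))
    (h2 : ∀ y ∈ gshC2 R K, P (y, false)) : ∀ p ∈ (gshX x Q R K).C, P p := by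
  rintro ⟨y, b⟩ hp
  cases b
  · exact h2 y ((gsh_X_mem_C2 x Q R K y).1 hp)
  · exact h1 y ((gsh_X_mem_C1 x Q R K y).1 hp)

theorem gsh_mem_C1 {Q R K : Finset TV} {y : TV} : y ∈ gshC1 Q R K ↔ 1 ≤ (cellV y ∩ Q).card ∧ (¬ cellV y ∩ Q ⊆ K ∨ cellV y ∩ R ⊆ K) := by
  unfold gshC1; rw [Finset.mem_filter, gsh_mem_cells]

theorem gsh_mem_C2 {R K : Finset TV} {y : TV} : y ∈ gshC2 R K ↔ 1 ≤ (cellV y ∩ R).card ∧ ¬ cellV y ∩ R ⊆ K := by
  unfold gshC2; rw [Finset.mem_filter, gsh_mem_cells]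

theorem gsh_X_coe (x : ℝ) (Q R K : Finset TV) :
    (↑(gshX x Q R K).A : Set (TV × Bool)) = plrE1 '' (↑Q : Set TV) ∪ plrE2 (↑K : Set TV) '' (↑R : Set TV) := by
  show (↑(Q.image plrE1 ∪ R.image (plrE2 (↑K : Set TV))) : Set (TV × Bool)) = _
  rw [Finset.coe_union, Finset.coe_image, Finset.coe_image]

theorem gsh_X_E1 (x : ℝ) {Q R K : Finset TV} (hg : GshGlue Q R K) (z : TV) : plrE1 z ∈ (gshX x Q R K).A ↔ z ∈ Q := by
  show plrE1 z ∈ Q.image plrE1 ∪ R.image (plrE2 (↑K : Set TV)) ↔ _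
  rw [Finset.mem_union, Finset.mem_image, Finset.mem_image]
  constructor
  · rintro (⟨w, hw, e⟩ | ⟨w, hw, e⟩)
    · rwa [← plr_E1_inj e]
    · exact hg.kq (Finset.mem_coe.1 (plr_E12 e.symm).2)
  · intro h; exact Or.inl ⟨z, h, rfl⟩

theorem gsh_X_E2 (x : ℝ) {Q R K : Finset TV} (hg : GshGlue Q R K) (z : TV) : plrE2 (↑K : Set TV) z ∈ (gshX x Q R K).A ↔ z ∈ R := by
  show plrE2 (↑K : Set TV) z ∈ Q.image plrE1 ∪ R.image (plrE2 (↑K : Set TV)) ↔ _
  rw [Finset.mem_union, Finset.mem_image, Finset.mem_image]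
  constructor
  · rintro (⟨w, hw, e⟩ | ⟨w, hw, e⟩)
    · have := plr_E12 e
      exact hg.kr (Finset.mem_coe.1 (this.1 ▸ this.2))
    · rwa [← plr_E2_inj e]
  · intro h; exact Or.inr ⟨z, h, rfl⟩

theorem gsh_card_E1 (s : Finset TV) : (s.image plrE1).card = s.card :=
  Finset.card_image_of_injective _ fun _ _ e => plr_E1_inj e

theorem gsh_card_E2 (K : Set TV) (s : Finset TV) : (s.image (plrE2 K)).card = s.card :=
  Finset.card_image_of_injective _ fun _ _ e => plr_E2_inj e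

theorem gsh_X_ok {x : ℝ} (hx : 0 < x) (hx1 : x ≤ 1) (Q R K : Finset TV) : ClOk (gshX x Q R K) where
  sub := gsh_X_cases x Q R K
    (fun y _ => (Finset.image_subset_image Finset.inter_subset_right).trans Finset.subset_union_left)
    (fun y _ => (Finset.image_subset_image Finset.inter_subset_right).trans Finset.subset_union_right)
  ne := gsh_X_cases x Q R K
    (fun y hy => Finset.card_pos.1 (by rw [gsh_X_sv1, gsh_card_E1]; have := (gsh_mem_C1.1 hy).1; omega))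
    (fun y hy => Finset.card_pos.1 (by rw [gsh_X_sv2, gsh_card_E2]; have := (gsh_mem_C2.1 hy).1; omega))
  q0 := gsh_X_cases x Q R K (fun _ _ => gsh_Q_pos hx _) (fun _ _ => gsh_Q_pos hx _)
  q1 := gsh_X_cases x Q R K (fun _ _ => gsh_Q_le hx hx1 _) (fun _ _ => gsh_Q_le hx hx1 _)

theorem gsh_X_card (x : ℝ) (Q R K : Finset TV) : ∀ p ∈ (gshX x Q R K).C, ((gshX x Q R K).sv p).card ≤ 3 :=
  gsh_X_cases x Q R K
    (fun y _ => by rw [gsh_X_sv1, gsh_card_E1, ← gsh_cell_card y]; exact Finset.card_le_card Finset.inter_subset_left)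
    (fun y _ => by rw [gsh_X_sv2, gsh_card_E2, ← gsh_cell_card y]; exact Finset.card_le_card Finset.inter_subset_left)

/-- the graph of the glued system is the induced glued lattice graph -/
theorem gsh_X_gr (x : ℝ) {Q R K : Finset TV} (hg : GshGlue Q R K) {a b : TV × Bool} (ha : a ∈ (gshX x Q R K).A)
    (hb : b ∈ (gshX x Q R K).A) : (gshX x Q R K).gr.Adj a b ↔ (plrGl tscG (↑K : Set TV)).Adj a b := by
  constructor
  · rintro ⟨hne, p, hp, h1, h2⟩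
    revert h1 h2
    refine gsh_X_cases x Q R K (P := fun p => a ∈ (gshX x Q R K).sv p → b ∈ (gshX x Q R K).sv p → (plrGl tscG (↑K : Set TV)).Adj a b)
      ?_ ?_ p hp
    · intro y _ h1 h2
      rw [gsh_X_sv1] at h1 h2
      obtain ⟨u, hu, rfl⟩ := Finset.mem_image.1 h1
      obtain ⟨v, hv, rfl⟩ := Finset.mem_image.1 h2
      rw [plr_gl_adj1]
      exact (gsh_cell_adj (Finset.mem_inter.1 hu).1 (Finset.mem_inter.1 hv).1).resolve_left fun e => hne (e ▸ rfl)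
    · intro y _ h1 h2
      rw [gsh_X_sv2] at h1 h2
      obtain ⟨u, hu, rfl⟩ := Finset.mem_image.1 h1
      obtain ⟨v, hv, rfl⟩ := Finset.mem_image.1 h2
      rw [plr_gl_adj2]
      exact (gsh_cell_adj (Finset.mem_inter.1 hu).1 (Finset.mem_inter.1 hv).1).resolve_left fun e => hne (e ▸ rfl)
  · intro hadj
    refine ⟨hadj.ne, ?_⟩
    rcases hadj with ⟨z, z', h, rfl, rfl⟩ | ⟨z, z', h, rfl, rfl⟩
    · have hz := (gsh_X_E1 x hg z).1 ha
      have hz' := (gsh_X_E1 x hg z').1 hb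
      obtain ⟨c1, c2, c3⟩ := gsh_edge_cell hz hz' h
      by_cases hc : ¬ cellV (plhCellOf (z, z')) ∩ Q ⊆ K ∨ cellV (plhCellOf (z, z')) ∩ R ⊆ K
      · exact ⟨(plhCellOf (z, z'), true), (gsh_X_mem_C1 x Q R K _).2 (gsh_mem_C1.2 ⟨gsh_mem_cells.1 c1, hc⟩),
          Finset.mem_image_of_mem _ c2, Finset.mem_image_of_mem _ c3⟩
      · push Not at hc
        have k1 : z ∈ K := hc.1 c2
        have k2 : z' ∈ K := hc.1 c3
        obtain ⟨d1, d2, d3⟩ := gsh_edge_cell (hg.kr k1) (hg.kr k2) h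
        refine ⟨(plhCellOf (z, z'), false), (gsh_X_mem_C2 x Q R K _).2 (gsh_mem_C2.2 ⟨gsh_mem_cells.1 d1, hc.2⟩), ?_, ?_⟩
        · rw [← plr_E2_mem (K := (↑K : Set TV)) (Finset.mem_coe.2 k1)]; exact Finset.mem_image_of_mem _ d2
        · rw [← plr_E2_mem (K := (↑K : Set TV)) (Finset.mem_coe.2 k2)]; exact Finset.mem_image_of_mem _ d3
    · have hz := (gsh_X_E2 x hg z).1 ha
      have hz' := (gsh_X_E2 x hg z').1 hb
      obtain ⟨c1, c2, c3⟩ := gsh_edge_cell hz hz' h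
      by_cases hc : cellV (plhCellOf (z, z')) ∩ R ⊆ K
      · have k1 : z ∈ K := hc c2
        have k2 : z' ∈ K := hc c3
        obtain ⟨d1, d2, d3⟩ := gsh_edge_cell (hg.kq k1) (hg.kq k2) h
        refine ⟨(plhCellOf (z, z'), true), (gsh_X_mem_C1 x Q R K _).2 (gsh_mem_C1.2 ⟨gsh_mem_cells.1 d1, Or.inr hc⟩), ?_, ?_⟩
        · rw [plr_E2_mem (K := (↑K : Set TV)) (Finset.mem_coe.2 k1)]; exact Finset.mem_image_of_mem _ d2
        · rw [plr_E2_mem (K := (↑K : Set TV)) (Finset.mem_coe.2 k2)]; exact Finset.mem_image_of_mem _ d3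
      · exact ⟨(plhCellOf (z, z'), false), (gsh_X_mem_C2 x Q R K _).2 (gsh_mem_C2.2 ⟨gsh_mem_cells.1 c1, hc⟩),
          Finset.mem_image_of_mem _ c2, Finset.mem_image_of_mem _ c3⟩

theorem gsh_X_sc (x : ℝ) {Q R K : Finset TV} (hg : GshGlue Q R K) (hQ : TriSCOn (ZMod 2) tscG (↑Q : Set TV))
    (hR : TriSCOn (ZMod 2) tscG (↑R : Set TV)) (hK : TscConn tscG (↑K : Set TV)) : (gshX x Q R K).SC := by
  have h := plr_gl_sc hQ hR (Finset.coe_subset.2 hg.kq) (Finset.coe_subset.2 hg.kr) hK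
  rw [← gsh_X_coe x Q R K] at h
  exact tsc_congr (fun a ha b hb => (gsh_X_gr x hg (Finset.mem_coe.1 ha) (Finset.mem_coe.1 hb)).symm) h

theorem gsh_X_conn (x : ℝ) {Q R K : Finset TV} (hg : GshGlue Q R K) (hQ : TscConn tscG (↑Q : Set TV))
    (hR : TscConn tscG (↑R : Set TV)) (hKn : K.Nonempty) : TscConn (gshX x Q R K).gr (↑(gshX x Q R K).A : Set (TV × Bool)) := by
  obtain ⟨k, hk⟩ := hKn
  have h1 : TscConn (plrGl tscG (↑K : Set TV)) (plrE1 '' (↑Q : Set TV)) :=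
    tsc_conn_map plrE1 (fun a b h => (plr_gl_adj1 _ a b).2 h) hQ
  have h2 : TscConn (plrGl tscG (↑K : Set TV)) (plrE2 (↑K : Set TV) '' (↑R : Set TV)) :=
    tsc_conn_map (plrE2 (↑K : Set TV)) (fun a b h => (plr_gl_adj2 _ a b).2 h) hR
  have h := tsc_conn_union h1 h2 (a := plrE1 k) (b := plrE2 (↑K : Set TV) k) ⟨k, Finset.mem_coe.2 (hg.kq hk), rfl⟩
    ⟨k, Finset.mem_coe.2 (hg.kr hk), rfl⟩ (Or.inl (plr_E2_mem (Finset.mem_coe.2 hk)).symm)
  rw [← gsh_X_coe x Q R K] at h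
  exact gsh_conn_congr (fun a ha b hb => (gsh_X_gr x hg (Finset.mem_coe.1 ha) (Finset.mem_coe.1 hb)).2) h

/-- **the glued system is a disc** -/
theorem gsh_X_disk {x : ℝ} (hx : 0 < x) (hx1 : x ≤ 1) {Q R K : Finset TV} (hg : GshGlue Q R K)
    (hQ : TriSCOn (ZMod 2) tscG (↑Q : Set TV)) (hR : TriSCOn (ZMod 2) tscG (↑R : Set TV)) (hK : TscConn tscG (↑K : Set TV))
    (cQ : TscConn tscG (↑Q : Set TV)) (cR : TscConn tscG (↑R : Set TV)) (hKn : K.Nonempty) : ClDisk (gshX x Q R K) :=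
  am_disk _ (gsh_X_ok hx hx1 Q R K) (gsh_X_card x Q R K) (gsh_X_sc x hg hQ hR hK) (gsh_X_conn x hg cQ cR hKn)

/-! ### the exchange of the two sheets -/

theorem gsh_r_coe (ρ : GshRefl) (Q : Finset TV) : (↑(Q.image ρ.f) : Set TV) = ρ.f '' (↑Q : Set TV) := Finset.coe_image

theorem gsh_r_sc (ρ : GshRefl) {Q : Finset TV} (h : TriSCOn (ZMod 2) tscG (↑Q : Set TV)) :
    TriSCOn (ZMod 2) tscG (↑(Q.image ρ.f) : Set TV) := by
  rw [gsh_r_coe]
  refine plr_sc_image ρ.f (fun a _ b _ e => gsh_r_inj ρ e) (fun a _ b _ => ⟨fun h => gsh_r_adj ρ h, fun h => ?_⟩) h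
  have := gsh_r_adj ρ h
  rwa [ρ.ff, ρ.ff] at this

theorem gsh_r_conn (ρ : GshRefl) {Q : Finset TV} (h : TscConn tscG (↑Q : Set TV)) : TscConn tscG (↑(Q.image ρ.f) : Set TV) := by
  rw [gsh_r_coe]
  exact tsc_conn_map ρ.f (fun a b h => gsh_r_adj ρ h) h

/-- the exchange of the two sheets on the cells -/
def gshPsi (ρ : GshRefl) (Q K : Finset TV) (p : TV × Bool) : TV × Bool :=
  if p.2 then (if cellV p.1 ∩ Q ⊆ K then (ρ.c p.1, true) else (ρ.c p.1, false)) else (ρ.c p.1, true)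

theorem gsh_psi_in (ρ : GshRefl) {Q K : Finset TV} {y : TV} (h : cellV y ∩ Q ⊆ K) : gshPsi ρ Q K (y, true) = (ρ.c y, true) := by
  unfold gshPsi; simp [h]

theorem gsh_psi_out (ρ : GshRefl) {Q K : Finset TV} {y : TV} (h : ¬ cellV y ∩ Q ⊆ K) : gshPsi ρ Q K (y, true) = (ρ.c y, false) := by
  unfold gshPsi; simp [h]

theorem gsh_psi_snd (ρ : GshRefl) (Q K : Finset TV) (y : TV) : gshPsi ρ Q K (y, false) = (ρ.c y, true) := by
  unfold gshPsi; simp

/-- reflection symmetric gluing data -/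
structure GshMir (ρ : GshRefl) (Q K : Finset TV) : Prop where
  kq : K ⊆ Q
  kf : ∀ z ∈ K, ρ.f z ∈ K

theorem GshMir.glue {ρ : GshRefl} {Q K : Finset TV} (h : GshMir ρ Q K) : GshGlue Q (Q.image ρ.f) K :=
  ⟨h.kq, fun z hz => (gsh_r_mem ρ Q z).2 (h.kq (h.kf z hz))⟩

/-- a cell inside `K` in both sheets is the same clipped cell in both sheets -/
theorem gsh_inter_eq {Q R K : Finset TV} (hg : GshGlue Q R K) {y : TV} (h1 : cellV y ∩ Q ⊆ K) (h2 : cellV y ∩ R ⊆ K) :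
    cellV y ∩ Q = cellV y ∩ R := by
  ext z
  rw [Finset.mem_inter, Finset.mem_inter]
  constructor
  · rintro ⟨a, b⟩; exact ⟨a, hg.kr (h1 (Finset.mem_inter.2 ⟨a, b⟩))⟩
  · rintro ⟨a, b⟩; exact ⟨a, hg.kq (h2 (Finset.mem_inter.2 ⟨a, b⟩))⟩

theorem gsh_card_f (ρ : GshRefl) (s : Finset TV) : (s.image ρ.f).card = s.card := Finset.card_image_of_injective _ (gsh_r_inj ρ)

/-- the exchange maps cells to cells, is an involution, transports the sites and the parameters -/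
theorem gsh_psi_spec (x : ℝ) (ρ : GshRefl) {Q K : Finset TV} (h : GshMir ρ Q K) :
    ∀ p ∈ (gshX x Q (Q.image ρ.f) K).C, gshPsi ρ Q K p ∈ (gshX x Q (Q.image ρ.f) K).C ∧ gshPsi ρ Q K (gshPsi ρ Q K p) = p ∧
      (gshX x Q (Q.image ρ.f) K).sv (gshPsi ρ Q K p) = ((gshX x Q (Q.image ρ.f) K).sv p).image (plrSw (↑K : Set TV) ρ.f) ∧
      (gshX x Q (Q.image ρ.f) K).q (gshPsi ρ Q K p) = (gshX x Q (Q.image ρ.f) K).q p := by
  have hg := h.glue
  have hKf : ∀ z ∈ (↑K : Set TV), ρ.f z ∈ (↑K : Set TV) := fun z hz => Finset.mem_coe.2 (h.kf z (Finset.mem_coe.1 hz))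
  refine gsh_X_cases x Q (Q.image ρ.f) K ?_ ?_
  · intro y hy
    obtain ⟨hc, hor⟩ := gsh_mem_C1.1 hy
    by_cases hin : cellV y ∩ Q ⊆ K
    · have hin' : cellV y ∩ Q.image ρ.f ⊆ K := hor.resolve_left (not_not.2 hin)
      have heq := gsh_inter_eq hg hin hin'
      have e1 : cellV (ρ.c y) ∩ Q ⊆ K := by rw [gsh_r_inter', gsh_r_sub ρ h.kf]; exact hin'
      have e2 : cellV (ρ.c y) ∩ Q.image ρ.f ⊆ K := by rw [gsh_r_inter, gsh_r_sub ρ h.kf]; exact hin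
      rw [gsh_psi_in ρ hin, gsh_psi_in ρ e1, ρ.cc]
      refine ⟨(gsh_X_mem_C1 x _ _ _ _).2 (gsh_mem_C1.2 ⟨?_, Or.inr e2⟩), rfl, ?_, ?_⟩
      · rw [gsh_r_inter', gsh_card_f, ← heq]; exact hc
      · rw [gsh_X_sv1, gsh_X_sv1, gsh_r_inter', ← heq, Finset.image_image, Finset.image_image]
        refine Finset.image_congr fun z hz => ?_
        show plrE1 (ρ.f z) = plrSw (↑K : Set TV) ρ.f (plrE1 z)
        rw [plr_sw_E1, plr_E2_mem (hKf z (Finset.mem_coe.2 (hin (Finset.mem_coe.1 hz))))]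
      · rw [gsh_X_q1, gsh_X_q1, gsh_r_inter', ← heq]
        unfold gshQ; rw [gsh_card_f]
    · have e1 : ¬ cellV (ρ.c y) ∩ Q.image ρ.f ⊆ K := by rw [gsh_r_inter, gsh_r_sub ρ h.kf]; exact hin
      rw [gsh_psi_out ρ hin, gsh_psi_snd, ρ.cc]
      refine ⟨(gsh_X_mem_C2 x _ _ _ _).2 (gsh_mem_C2.2 ⟨?_, e1⟩), rfl, ?_, ?_⟩
      · rw [gsh_r_inter, gsh_card_f]; exact hc
      · rw [gsh_X_sv2, gsh_X_sv1, gsh_r_inter, Finset.image_image, Finset.image_image]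
        refine Finset.image_congr fun z _ => ?_
        show plrE2 (↑K : Set TV) (ρ.f z) = plrSw (↑K : Set TV) ρ.f (plrE1 z)
        rw [plr_sw_E1]
      · rw [gsh_X_q2, gsh_X_q1, gsh_r_inter]
        unfold gshQ; rw [gsh_card_f]
  · intro y hy
    obtain ⟨hc, hout⟩ := gsh_mem_C2.1 hy
    have e1 : ¬ cellV (ρ.c y) ∩ Q ⊆ K := by rw [gsh_r_inter', gsh_r_sub ρ h.kf]; exact hout
    rw [gsh_psi_snd, gsh_psi_out ρ e1, ρ.cc]
    refine ⟨(gsh_X_mem_C1 x _ _ _ _).2 (gsh_mem_C1.2 ⟨?_, Or.inl e1⟩), rfl, ?_, ?_⟩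
    · rw [gsh_r_inter', gsh_card_f]; exact hc
    · rw [gsh_X_sv1, gsh_X_sv2, gsh_r_inter', Finset.image_image, Finset.image_image]
      refine Finset.image_congr fun z _ => ?_
      show plrE1 (ρ.f z) = plrSw (↑K : Set TV) ρ.f (plrE2 (↑K : Set TV) z)
      rw [plr_sw_E2 hKf]
    · rw [gsh_X_q1, gsh_X_q2, gsh_r_inter']
      unfold gshQ; rw [gsh_card_f]

/-- the exchange maps sites to sites and is an involution -/
theorem gsh_phi_spec (x : ℝ) (ρ : GshRefl) {Q K : Finset TV} (h : GshMir ρ Q K) :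
    ∀ p ∈ (gshX x Q (Q.image ρ.f) K).A, plrSw (↑K : Set TV) ρ.f p ∈ (gshX x Q (Q.image ρ.f) K).A ∧
      plrSw (↑K : Set TV) ρ.f (plrSw (↑K : Set TV) ρ.f p) = p := by
  have hg := h.glue
  have hKf : ∀ z ∈ (↑K : Set TV), ρ.f z ∈ (↑K : Set TV) := fun z hz => Finset.mem_coe.2 (h.kf z (Finset.mem_coe.1 hz))
  intro p hp
  rcases Finset.mem_union.1 hp with hp | hp
  · obtain ⟨z, hz, rfl⟩ := Finset.mem_image.1 hp
    refine ⟨?_, (plr_sw_sw ρ.ff hKf z).1⟩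
    rw [plr_sw_E1, gsh_X_E2 x hg, gsh_r_mem, ρ.ff]
    exact hz
  · obtain ⟨z, hz, rfl⟩ := Finset.mem_image.1 hp
    refine ⟨?_, (plr_sw_sw ρ.ff hKf z).2⟩
    rw [plr_sw_E2 hKf, gsh_X_E1 x hg]
    exact (gsh_r_mem ρ Q z).1 hz

/-- **the exchange of the two sheets is an automorphism of the glued system** -/
theorem gsh_X_iso (x : ℝ) (ρ : GshRefl) {Q K : Finset TV} (h : GshMir ρ Q K) :
    CuIso (gshX x Q (Q.image ρ.f) K) (gshX x Q (Q.image ρ.f) K) (plrSw (↑K : Set TV) ρ.f) (gshPsi ρ Q K) where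
  injV := (gsh_invol (fun p hp => (gsh_phi_spec x ρ h p hp).1) (fun p hp => (gsh_phi_spec x ρ h p hp).2)).1
  injY := (gsh_invol (fun p hp => (gsh_psi_spec x ρ h p hp).1) (fun p hp => (gsh_psi_spec x ρ h p hp).2.1)).1
  A := (gsh_invol (fun p hp => (gsh_phi_spec x ρ h p hp).1) (fun p hp => (gsh_phi_spec x ρ h p hp).2)).2
  C := (gsh_invol (fun p hp => (gsh_psi_spec x ρ h p hp).1) (fun p hp => (gsh_psi_spec x ρ h p hp).2.1)).2
  sv := fun p hp => (gsh_psi_spec x ρ h p hp).2.2.1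
  q := fun p hp => (gsh_psi_spec x ρ h p hp).2.2.2

/-- the glued system of `Q` and its mirror image is a disc -/
theorem gsh_X_disk' {x : ℝ} (hx : 0 < x) (hx1 : x ≤ 1) (ρ : GshRefl) {Q K : Finset TV} (h : GshMir ρ Q K)
    (hQ : TriSCOn (ZMod 2) tscG (↑Q : Set TV)) (cQ : TscConn tscG (↑Q : Set TV)) (hK : TscConn tscG (↑K : Set TV)) (hKn : K.Nonempty) :
    ClDisk (gshX x Q (Q.image ρ.f) K) :=
  gsh_X_disk hx hx1 h.glue hQ (gsh_r_sc ρ hQ) hK cQ (gsh_r_conn ρ cQ) hKn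

/-- the equation lemmas of the definitions of this file are generated HERE -/
theorem gsh_eqns_cite : True := by
  have := @gshT.eq_1
  have := @gshK.eq_1
  have := @GshJoin.eq_1
  have := @gshQ.eq_1
  have := @gshCells.eq_1
  have := @gshC.eq_1
  have := @gshC1.eq_1
  have := @gshC2.eq_1
  have := @gshX.eq_1
  have := @gshPsi.eq_1
  trivial

end Claimed.Agent.R291
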