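import Claimed.Agent.R291.Glue.Place
import Claimed.Agent.R291.Glue.Sheet

/-!
# Row 291 (S0539), Glue/Double : THE CONCRETE DOUBLE      (owner helper31; prefix `gl_`; head of A1: helper55)

Unit ANN, block A1.   TEX[annulus:straight-short] (the symmetric domain `D = D_0 ∪ ρ D_0`, 09-annulus l.430-450);   `origin/helper55:notes/R291/ann_A1_55_v2.md` Sec. 1.
The concrete model of the structures of `Glue/Place.lean` in the plane:

* `S = clAmb x Q` (`= gshC x Q`), `Cb = glCb Q` = the up-cells which meet `Q` and are not inside `Q`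
* `X = gshX x Q (ρ Q) K` on `TV × Bool` (Glue/Sheet), `e = plrE1`, `ec y = (y, true)`, `φ = plrSw K ρ.f`, `ψ = gshPsi ρ Q K`
* **`gl_double`**   `X` is a `GlDouble`, from LATTICE hypotheses only
* **`gl_strip`**    `clAmb x Q` with four sides is a `GlStrip`, from LATTICE hypotheses only
* `gl_gate'` (field `gate'` of `GlPlace`);   `glSwap k`, `glMirV μ`, `glMirU μ` : the three families of class preserving reflections as `GshRefl`
* dictionary for the producers of `GlPlace`: `gl_amb_gr` (`S.gr` = lattice on `Q`), `gl_amb_R`, `gl_amb_conn`, `gl_mir_mem` (`glMir K e φ L = K ∩ ρ L`), `gl_phi_e` (`φ (e v) = e (ρ v)` on `K`), `gl_join_lat`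
-/

set_option autoImplicit false
set_option linter.unusedSectionVars false
set_option linter.unusedVariables false
set_option linter.unreachableTactic false
set_option linter.unusedTactic false
set_option linter.unnecessarySeqFocus false

namespace Claimed.Agent.R291

open Relation Claims Claims.C0467

/-- the boundary cells of the closed system on `Q`: the up-cells which meet `Q` and are not inside `Q` -/
def glCb (Q : Finset TV) : Finset TV := latCells Q \ latCellsIn Q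

theorem gl_mem_cb {Q : Finset TV} {y : TV} : y ∈ glCb Q ↔ y ∈ latCells Q ∧ ¬ cellV y ⊆ Q := by
  unfold glCb; rw [Finset.mem_sdiff, lat_mem_cellsIn]

/-! ### dictionary -/

/-- the graph of the closed system is the lattice on `Q` -/
theorem gl_amb_gr (x : ℝ) (Q : Finset TV) {a b : TV} (ha : a ∈ Q) (hb : b ∈ Q) : (clAmb x Q).gr.Adj a b ↔ triAdj a b :=
  gsh_C_gr x Q ha hb

/-- an edge of the closed system is an edge of the lattice -/
theorem gl_amb_adj (x : ℝ) (Q : Finset TV) {a b : TV} (h : (clAmb x Q).gr.Adj a b) : triAdj a b ∧ a ∈ Q ∧ b ∈ Q := by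
  obtain ⟨hne, y, _, h1, h2⟩ := h
  have h1' : a ∈ cellV y ∩ Q := h1
  have h2' : b ∈ cellV y ∩ Q := h2
  exact ⟨(gsh_cell_adj (Finset.mem_inter.1 h1').1 (Finset.mem_inter.1 h2').1).resolve_left hne, (Finset.mem_inter.1 h1').2,
    (Finset.mem_inter.1 h2').2⟩

/-- paths of the closed system inside a subset of `Q` are lattice paths -/
theorem gl_amb_R (x : ℝ) (Q : Finset TV) {Z : Set TV} (hZ : Z ⊆ (↑Q : Set TV)) {a b : TV} : TscR (clAmb x Q).gr Z a b ↔ TscR tscG Z a b :=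
  ⟨gsh_R_congr fun u hu v hv h => (gl_amb_gr x Q (Finset.mem_coe.1 (hZ hu)) (Finset.mem_coe.1 (hZ hv))).1 h,
   gsh_R_congr fun u hu v hv h => (gl_amb_gr x Q (Finset.mem_coe.1 (hZ hu)) (Finset.mem_coe.1 (hZ hv))).2 h⟩

theorem gl_amb_conn (x : ℝ) (Q : Finset TV) {Z : Set TV} (hZ : Z ⊆ (↑Q : Set TV)) : TscConn (clAmb x Q).gr Z ↔ TscConn tscG Z :=
  ⟨fun h u hu v hv => (gl_amb_R x Q hZ).1 (h u hu v hv), fun h u hu v hv => (gl_amb_R x Q hZ).2 (h u hu v hv)⟩

/-- `GlJoin` in the closed system, in lattice language -/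
theorem gl_join_lat (x : ℝ) (Q : Finset TV) {Z A C : Set TV} (hZ : Z ⊆ (↑Q : Set TV)) (hA : A ⊆ (↑Q : Set TV)) (hC : C ⊆ (↑Q : Set TV)) :
    GlJoin (clAmb x Q).gr Z A C ↔ GlJoin tscG Z A C := by
  unfold GlJoin
  refine exists₂_congr fun u v => ?_
  constructor
  · rintro ⟨hu, hv, ⟨a, ha, h1⟩, ⟨c, hc, h2⟩, hp⟩
    exact ⟨hu, hv, ⟨a, ha, (gl_amb_adj x Q h1).1⟩, ⟨c, hc, (gl_amb_adj x Q h2).1⟩, (gl_amb_R x Q hZ).1 hp⟩
  · rintro ⟨hu, hv, ⟨a, ha, h1⟩, ⟨c, hc, h2⟩, hp⟩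
    exact ⟨hu, hv, ⟨a, ha, (gl_amb_gr x Q (Finset.mem_coe.1 (hZ hu)) (Finset.mem_coe.1 (hA ha))).2 h1⟩,
      ⟨c, hc, (gl_amb_gr x Q (Finset.mem_coe.1 (hZ hv)) (Finset.mem_coe.1 (hC hc))).2 h2⟩, (gl_amb_R x Q hZ).2 hp⟩

/-- on `K` the exchange of the sheets is the reflection -/
theorem gl_phi_e (ρ : GshRefl) {Q K : Finset TV} (hm : GshMir ρ Q K) {v : TV} (hv : v ∈ K) :
    plrSw (↑K : Set TV) ρ.f (plrE1 v) = plrE1 (ρ.f v) := by
  rw [plr_sw_E1, plr_E2_mem (Finset.mem_coe.2 (hm.kf v hv))]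

/-- the mirror image inside `K` of a subset of the strip is `K ∩ ρ L` -/
theorem gl_mir_mem (ρ : GshRefl) {Q K : Finset TV} (hm : GshMir ρ Q K) (L : Finset TV) (v : TV) :
    v ∈ glMir K plrE1 (plrSw (↑K : Set TV) ρ.f) L ↔ v ∈ K ∧ ρ.f v ∈ L := by
  unfold glMir
  rw [Finset.mem_filter]
  refine and_congr_right fun hv => ?_
  rw [gl_phi_e ρ hm hv, Finset.mem_image]
  constructor
  · rintro ⟨w, hw, e⟩; rwa [← plr_E1_inj e]
  · intro h; exact ⟨_, h, rfl⟩

/-! ### the strip -/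

/-- a site of `Q` in a cell which is not inside `Q` lies in the layer of `Q` -/
theorem gl_cb_bd {Q : Finset TV} {y u : TV} (hy : ¬ cellV y ⊆ Q) (hu : u ∈ cellV y) (huQ : u ∈ Q) : u ∈ latBd Q := by
  obtain ⟨w, hw, hwQ⟩ := Finset.not_subset.1 hy
  exact lat_mem_bd.2 ⟨huQ, w, (gsh_cell_adj hu hw).resolve_left (fun e => hwQ (e ▸ huQ)), hwQ⟩

theorem gl_Q_half {x : ℝ} (hx : 0 < x) (hx1 : x ≤ 1) (hh : 1 / 2 ≤ x ^ 2) (s : Finset TV) : 1 / 2 ≤ gshQ x s := by
  unfold gshQ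
  split_ifs
  · exact hh
  · nlinarith

/-- **the closed system on `Q` with four sides is a STRIP** -/
theorem gl_strip {x : ℝ} (hx : 0 < x) (hx1 : x ≤ 1) (hh : 1 / 2 ≤ x ^ 2) (Q La Lc Ld Lb : Finset TV)
    (hQ : TriSCOn (ZMod 2) tscG (↑Q : Set TV)) (cQ : TscConn tscG (↑Q : Set TV)) (la : La ⊆ Q) (lc : Lc ⊆ Q) (ld : Ld ⊆ Q) (lb : Lb ⊆ Q)
    (lay : latBd Q ⊆ La ∪ Lc ∪ Ld ∪ Lb) (ac : ∀ u ∈ La, ∀ v ∈ Lc, u ≠ v ∧ ¬ triAdj u v)
    (dconn : TscConn tscG (↑(Ld \ (La ∪ Lc)) : Set TV)) (bconn : TscConn tscG (↑(Lb \ (La ∪ Lc)) : Set TV)) :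
    GlStrip (clAmb x Q) (glCb Q) La Lc Ld Lb where
  disk := gsh_C_disk hx hx1 hQ cQ
  sc := gsh_C_sc x hQ
  conn := gsh_C_conn x cQ
  half := fun y _ => gl_Q_half hx hx1 hh _
  cb := Finset.sdiff_subset
  la := la
  lc := lc
  ld := ld
  lb := lb
  cbL := fun y hy u hu => by
    have hu' : u ∈ cellV y ∩ Q := hu
    exact lay (gl_cb_bd (gl_mem_cb.1 hy).2 (Finset.mem_inter.1 hu').1 (Finset.mem_inter.1 hu').2)
  ac := fun u hu v hv => ⟨(ac u hu v hv).1, fun h => (ac u hu v hv).2 (gl_amb_adj x Q h).1⟩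
  dconn := (gl_amb_conn x Q (Finset.coe_subset.2 (Finset.sdiff_subset.trans ld))).2 dconn
  bconn := (gl_amb_conn x Q (Finset.coe_subset.2 (Finset.sdiff_subset.trans lb))).2 bconn

/-! ### the double -/

/-- the second sheet, as the image of the first one -/
theorem gl_sheet2 (ρ : GshRefl) (Q K : Finset TV) :
    (Q.image plrE1).image (plrSw (↑K : Set TV) ρ.f) = (Q.image ρ.f).image (plrE2 (↑K : Set TV)) := by
  rw [Finset.image_image, Finset.image_image]
  exact Finset.image_congr fun z _ => plr_sw_E1 _ _ z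

/-- a point of the second sheet off `K` is not in the first sheet -/
theorem gl_E2_not_E1 {K : Finset TV} {w : TV} (hw : w ∉ K) (Q : Finset TV) : plrE2 (↑K : Set TV) w ∉ Q.image plrE1 := by
  intro h
  obtain ⟨z, _, e⟩ := Finset.mem_image.1 h
  exact hw (Finset.mem_coe.1 ((plr_E12 e).1 ▸ (plr_E12 e).2))

/-- **THE CONCRETE DOUBLE**: the closed systems on `Q` and on `ρ Q` glued along a reflection invariant connected union `K` of components of `Q ∩ ρ Q`, whose sites next to `ρ Q \ Q` lie on the two plus sides -/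
theorem gl_double {x : ℝ} (hx : 0 < x) (hx1 : x ≤ 1) (hh : 1 / 2 ≤ x ^ 2) (ρ : GshRefl) (Q K La Lc : Finset TV) (hm : GshMir ρ Q K)
    (hQ : TriSCOn (ZMod 2) tscG (↑Q : Set TV)) (cQ : TscConn tscG (↑Q : Set TV)) (cK : TscConn tscG (↑K : Set TV)) (hKn : K.Nonempty)
    (comp : ∀ z ∈ Q, ρ.f z ∈ Q → ∀ k ∈ K, triAdj k z → z ∈ K)
    (gate : ∀ u ∈ K, ∀ w, triAdj u w → ρ.f w ∈ Q → w ∉ Q → u ∈ La ∪ Lc) :
    GlDouble (clAmb x Q) (glCb Q) La Lc K (gshX x Q (Q.image ρ.f) K) plrE1 (fun y => (y, true)) (plrSw (↑K : Set TV) ρ.f)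
      (gshPsi ρ Q K) where
  disk := gsh_X_disk' hx hx1 ρ hm hQ cQ cK hKn
  half := gsh_X_cases x Q (Q.image ρ.f) K (fun _ _ => gl_Q_half hx hx1 hh _) (fun _ _ => gl_Q_half hx hx1 hh _)
  iso := gsh_X_iso x ρ hm
  invV := fun v hv => (gsh_phi_spec x ρ hm v hv).2
  invY := fun y hy => (gsh_psi_spec x ρ hm y hy).2.1
  kA := hm.kq
  eInj := fun _ _ _ _ e => plr_E1_inj e
  cover := by
    show Q.image plrE1 ∪ (Q.image ρ.f).image (plrE2 (↑K : Set TV)) = Q.image plrE1 ∪ (Q.image plrE1).image (plrSw (↑K : Set TV) ρ.f)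
    rw [gl_sheet2]
  meet := fun v _ => by
    show plrE1 v ∈ (Q.image plrE1).image (plrSw (↑K : Set TV) ρ.f) ↔ v ∈ K
    rw [gl_sheet2, Finset.mem_image]
    constructor
    · rintro ⟨w, _, e⟩; exact Finset.mem_coe.1 (plr_E12 e.symm).2
    · intro hv; exact ⟨v, hm.glue.kr hv, plr_E2_mem (Finset.mem_coe.2 hv)⟩
  sheet := gsh_X_cases x Q (Q.image ρ.f) K
    (fun y _ => Or.inl (Finset.image_subset_image Finset.inter_subset_right))
    (fun y _ => Or.inr (by
      show (cellV y ∩ Q.image ρ.f).image (plrE2 (↑K : Set TV)) ⊆ (Q.image plrE1).image (plrSw (↑K : Set TV) ρ.f)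
      rw [gl_sheet2]
      exact Finset.image_subset_image Finset.inter_subset_right))
  ecInj := fun _ _ _ _ e => congrArg Prod.fst e
  kept := fun y hy => by
    by_cases hc : y ∈ gshC1 Q (Q.image ρ.f) K
    · exact Or.inl ⟨(gsh_X_mem_C1 x _ _ _ y).2 hc, rfl, rfl⟩
    · right
      have hy' : y ∈ gshCells Q := hy
      have hn : ¬ (¬ cellV y ∩ Q ⊆ K ∨ cellV y ∩ Q.image ρ.f ⊆ K) := fun h => hc (gsh_mem_C1.2 ⟨gsh_mem_cells.1 hy', h⟩)
      push Not at hn
      obtain ⟨h1, h2⟩ := hn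
      obtain ⟨w, hw, hwK⟩ := Finset.not_subset.1 h2
      have hwc := (Finset.mem_inter.1 hw).1
      have hwQ : w ∉ Q := fun h => hwK (h1 (Finset.mem_inter.2 ⟨hwc, h⟩))
      refine ⟨gl_mem_cb.2 ⟨hy, fun h => hwQ (h hwc)⟩, fun u hu => ?_, fun h => hc ((gsh_X_mem_C1 x _ _ _ y).1 h)⟩
      have hu' : u ∈ cellV y ∩ Q := hu
      have huK := h1 hu'
      refine Finset.mem_inter.2 ⟨huK, gate u huK w ?_ ((gsh_r_mem ρ Q w).1 (Finset.mem_inter.1 hw).2) hwQ⟩
      exact (gsh_cell_adj (Finset.mem_inter.1 hu').1 hwc).resolve_left fun e => hwK (e ▸ huK)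
  back := gsh_X_cases x Q (Q.image ρ.f) K
    (fun y hy _ => ⟨y, (Finset.mem_filter.1 hy).1, rfl⟩)
    (fun y hy hsub => by
      obtain ⟨w, hw, hwK⟩ := Finset.not_subset.1 (gsh_mem_C2.1 hy).2
      exact absurd (hsub (Finset.mem_image_of_mem _ hw)) (gl_E2_not_E1 hwK Q))
  gate := gsh_X_cases x Q (Q.image ρ.f) K
    (fun y _ hn => absurd (Finset.image_subset_image Finset.inter_subset_right) hn)
    (fun y hy _ v hv hvy => by
      obtain ⟨z, hz, e⟩ := Finset.mem_image.1 (show plrE1 v ∈ (cellV y ∩ Q.image ρ.f).image (plrE2 (↑K : Set TV)) from hvy)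
      obtain ⟨e1, e2⟩ := plr_E12 e.symm
      subst e1
      have hvK : v ∈ K := Finset.mem_coe.1 e2
      obtain ⟨w, hw, hwK⟩ := Finset.not_subset.1 (gsh_mem_C2.1 hy).2
      have hadj : triAdj v w := (gsh_cell_adj (Finset.mem_inter.1 hz).1 (Finset.mem_inter.1 hw).1).resolve_left fun e => hwK (e ▸ hvK)
      have hwR := (gsh_r_mem ρ Q w).1 (Finset.mem_inter.1 hw).2
      exact Finset.mem_inter.2 ⟨hvK, gate v hvK w hadj hwR fun hwQ => hwK (comp w hwQ hwR v hvK hadj)⟩)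

/-- field `gate'` of `GlPlace` for the concrete double: a site of `K` in a cell of the first sheet which is not inside `K` lies on the mirror image of a side -/
theorem gl_gate' (x : ℝ) (ρ : GshRefl) (Q K La Lc : Finset TV) (hm : GshMir ρ Q K)
    (comp : ∀ z ∈ Q, ρ.f z ∈ Q → ∀ k ∈ K, triAdj k z → z ∈ K)
    (gate : ∀ u ∈ K, ∀ w, triAdj u w → ρ.f w ∈ Q → w ∉ Q → u ∈ La ∪ Lc) :
    ∀ y ∈ (clAmb x Q).C, ¬ (clAmb x Q).sv y ⊆ K → ∀ v ∈ K, v ∈ (clAmb x Q).sv y →
      v ∈ La ∪ Lc ∪ glMir K plrE1 (plrSw (↑K : Set TV) ρ.f) La ∪ glMir K plrE1 (plrSw (↑K : Set TV) ρ.f) Lc := by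
  intro y _ hn v hv hvy
  obtain ⟨w, hw, hwK⟩ := Finset.not_subset.1 hn
  have hw' : w ∈ cellV y ∩ Q := hw
  have hvy' : v ∈ cellV y ∩ Q := hvy
  have hadj : triAdj v w := (gsh_cell_adj (Finset.mem_inter.1 hvy').1 (Finset.mem_inter.1 hw').1).resolve_left fun e => hwK (e ▸ hv)
  have hwQ := (Finset.mem_inter.1 hw').2
  have h1 : ρ.f v ∈ La ∪ Lc := by
    refine gate (ρ.f v) (hm.kf v hv) (ρ.f w) (gsh_r_adj ρ hadj) (by rw [ρ.ff]; exact hwQ) fun h => hwK (comp w hwQ h v hv hadj)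
  rcases Finset.mem_union.1 h1 with h | h
  · exact Finset.mem_union_left _ (Finset.mem_union_right _ ((gl_mir_mem ρ hm La v).2 ⟨hv, h⟩))
  · exact Finset.mem_union_right _ ((gl_mir_mem ρ hm Lc v).2 ⟨hv, h⟩)

/-! ### the three families of class preserving reflections -/

/-- the reflection `(u, v) ↦ (v + k, u - k)` (axis at 30 degrees); it maps the up-cell `y` onto the up-cell of the image of `y` -/
def glSwap (k : ℤ) : GshRefl where
  f := fun p => (p.2 + k, p.1 - k)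
  c := fun p => (p.2 + k, p.1 - k)
  ff := fun p => by ext <;> simp <;> ring
  cc := fun p => by ext <;> simp <;> ring
  cell := fun y => by
    ext z
    simp only [cellV, Finset.image_insert, Finset.image_singleton, Finset.mem_insert, Finset.mem_singleton, Prod.ext_iff, Prod.fst_add,
      Prod.snd_add]
    omega

/-- the reflection `(u, v) ↦ (μ - u - v, v)` (vertical axis) -/
def glMirV (μ : ℤ) : GshRefl where
  f := fun p => (μ - p.1 - p.2, p.2)
  c := fun p => (μ - p.1 - p.2 - 1, p.2)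
  ff := fun p => by ext <;> simp <;> ring
  cc := fun p => by ext <;> simp <;> ring
  cell := fun y => by
    ext z
    simp only [cellV, Finset.image_insert, Finset.image_singleton, Finset.mem_insert, Finset.mem_singleton, Prod.ext_iff, Prod.fst_add,
      Prod.snd_add]
    omega

/-- the reflection `(u, v) ↦ (u, μ - u - v)` (axis at 150 degrees) -/
def glMirU (μ : ℤ) : GshRefl where
  f := fun p => (p.1, μ - p.1 - p.2)
  c := fun p => (p.1, μ - p.1 - p.2 - 1)
  ff := fun p => by ext <;> simp <;> ring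
  cc := fun p => by ext <;> simp <;> ring
  cell := fun y => by
    ext z
    simp only [cellV, Finset.image_insert, Finset.image_singleton, Finset.mem_insert, Finset.mem_singleton, Prod.ext_iff, Prod.fst_add,
      Prod.snd_add]
    omega

theorem gl_swap_f (k : ℤ) (p : TV) : (glSwap k).f p = (p.2 + k, p.1 - k) := rfl
theorem gl_mirV_f (μ : ℤ) (p : TV) : (glMirV μ).f p = (μ - p.1 - p.2, p.2) := rfl
theorem gl_mirU_f (μ : ℤ) (p : TV) : (glMirU μ).f p = (p.1, μ - p.1 - p.2) := rfl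

/-- the equation lemmas of the definitions of this file are generated HERE -/
theorem gl_double_eqns_cite : True := by
  have := @glCb.eq_1
  have := @glSwap.eq_1
  have := @glMirV.eq_1
  have := @glMirU.eq_1
  trivial

end Claimed.Agent.R291
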