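import Claimed.Agent.R291.Glue.Maj
import Claimed.Agent.R291.Glue.Mid
import Claimed.Agent.R291.Pl.CellPath
import Claimed.Agent.R291.Pl.Closed

/-!
# Row 291 (S0539), Glue/AdaptP : A PLACE OF THE LATTICE OF THE CELL INDICES IS A `GlPlaceC`      (owner helper31; prefix `gap_` / `gap`; head of A3-II: helper187, of A1: helper55)

Unit ANN, block A3-II (L), the PER-PLACE half of the adapter (agreement with helper1, 07:34Z; the order of the places / `GlBlk` = `Glue/AdaptO`, 204 + 217).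
INPUT (lattice language only): the closed strip `Q = sites(M)` with its four sides, a class preserving reflection `ρ : GshRefl`, ONE finite set `Kc` of cell indices (a place of 105: `HxrPlace`), namely
`cellV y ⊆ Q` on `Kc`, `Kc` connected, nonempty, `ρ.c`-invariant, the dichotomy of 105 on the INDEX lattice (`HxrPlace.dich` verbatim), and `far` (the site component misses the two ends).
OUTPUT: the structures of 55 on `S = clAmb x Q`: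
* `gapZ Kc`            the sites of the cells of `Kc`
* `gapI ρ Q`           `Q ∩ ρ Q`;      `gapK ρ Q Z` the union of the components of `Q ∩ ρ Q` which meet `Z`      (`K := gapK ρ Q (gapZ Kc)`)
* `gapK0 ρ La Lc Kc`   the free core: the sites of `Kc` off the two sides and their mirror images      (ruling of 187)
* **`gap_double`**, **`gap_place`**, **`gap_placeC`** : `GlDouble`, `GlPlace`, `GlPlaceC` with `X = gshX x Q (ρ Q) K`;      `gap_K_conn'`, `gap_K_ne` (hypotheses `hK2`, `hK2n` of `gl_three`)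
* `Cb` = ANY set of cells which contains the clipped cells `glCb Q` (269: `rsgCb` = the cells off `M`)
* `gapF M K` (a `Set` of indices as a `Finset`), `gap_placeC_set` (the same for the places of 105, which are `Set`s)
* kit of the component: `gap_mem_K`, `gap_K_sub`, `gap_Z_sub`, `gap_K_inv`, `gap_K_comp`, `gap_K_conn`, `gap_K_gate`, `gap_K_eq` (two seeds joined inside `Q ∩ ρ Q` give the same `K`), `gap_K_disj`
The site dichotomy is the majority lemma of 259 (`gl_maj_dich_amb`).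

PART 2 (prefix `gaq_`): THREE PLACES OF THE INDEX LATTICE ⟹ THE STRIP ESTIMATE.
Unit ANN, block A3-II (L).   ASSEMBLY of `gl_three` (55, 62) out of
* `gap_place`, `gap_placeC` (31, `Glue/AdaptP`): a place `Kc` of the lattice of the cell indices is a `GlPlaceC` on `clAmb x Q`, gluing set `K = gapK ρ Q (gapZ Kc)`, core `K0 = gapK0 ρ La Lc Kc`
* `pcl_three` (187, `Pl/Closed`): order + blocking of three pairwise disjoint CLOSED places on the SITE lattice, by barriers.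
WHAT IS LEFT TO THE PRODUCERS (all of it lattice geometry):
  `GlStrip (clAmb x Q) Cb La Lc Ld Lb` (182), `PclStrip y0 y1 xm xM Q La Lc (Ld \ (La ∪ Lc)) (Lb \ (La ∪ Lc))` (barriers: 206 / 182), the two ends in the extreme site rows,
  three index places (`HxrPlace`: connected, invariant, `dich`; cells inside `Q`), `rows` (the site component stays strictly between the extreme site rows), `hdis` (the three site components are pairwise disjoint: `gap_K_disj` + `pcl_c2_cells`).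
* `gaq_lay`        the layer of `Q` lies on the four sides (from `cbL`)
* `gaq_K0_int`, `gaq_K0_cl`   the neighbours of the core lie in `Q`, in `K`;      `gaq_K0_cell` (IN1 of helper1): every up-cell which contains a site of the core belongs to `Kc`
* `gaq_cross`      `K` contains a site of `La` and a site of `Lc`;      `gaq_pcl` : `K` is a `PclPlace`
* `gaq_blk`        `PclBlk` (lattice) ⟹ `GlBlk` (55)
* **`gaq_three`**  `∃ j, 1/64 Z(glH0) ≤ N(glH0; La and Lc are joined by open-plus cells of Kc j)`;      `gaq_three_set` the same for `Set`s inside `M` (signature announced by helper1 for `gat_three`)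
-/

set_option autoImplicit false
set_option linter.unusedSectionVars false
set_option linter.unusedVariables false
set_option linter.unusedSimpArgs false

namespace Claimed.Agent.R291

open Relation Claims Claims.C0467

/-! ### definitions -/

/-- the sites of a set of up-cells -/
def gapZ (Kc : Finset TV) : Finset TV := Kc.biUnion cellV

/-- `Q ∩ ρ Q` -/
def gapI (ρ : GshRefl) (Q : Finset TV) : Finset TV := Q.filter (fun z => ρ.f z ∈ Q)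

open Classical in
/-- the union of the components of `Q ∩ ρ Q` which meet `Z` -/
noncomputable def gapK (ρ : GshRefl) (Q Z : Finset TV) : Finset TV :=
  (gapI ρ Q).filter (fun z => ∃ k ∈ Z, TscR tscG (↑(gapI ρ Q) : Set TV) k z)

/-- the free core of a place: the sites of its cells off the two sides and their mirror images -/
def gapK0 (ρ : GshRefl) (La Lc Kc : Finset TV) : Finset TV :=
  (gapZ Kc).filter (fun v => v ∉ La ∧ v ∉ Lc ∧ ρ.f v ∉ La ∧ ρ.f v ∉ Lc)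

open Classical in
/-- a set of indices inside the finite set `M`, as a `Finset`      (the places of 105 are `Set`s) -/
noncomputable def gapF (M : Finset TV) (K : Set TV) : Finset TV := M.filter (fun y => y ∈ K)

/-- the equation lemmas of the definitions of this file are generated HERE -/
theorem gap_eqns_cite : True := by
  have := @gapF.eq_1
  have := @gapZ.eq_1
  have := @gapI.eq_1
  have := @gapK.eq_1
  have := @gapK0.eq_1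
  trivial

theorem gap_mem_F {M : Finset TV} {K : Set TV} {y : TV} : y ∈ gapF M K ↔ y ∈ M ∧ y ∈ K := by
  classical
  unfold gapF
  simp only [Finset.mem_filter]

theorem gap_F_coe {M : Finset TV} {K : Set TV} (h : K ⊆ (↑M : Set TV)) : (↑(gapF M K) : Set TV) = K := by
  ext y
  rw [Finset.mem_coe, gap_mem_F]
  exact ⟨fun h' => h'.2, fun h' => ⟨Finset.mem_coe.1 (h h'), h'⟩⟩

/-! ### the component -/

theorem gap_mem_Z {Kc : Finset TV} {v : TV} : v ∈ gapZ Kc ↔ ∃ y ∈ Kc, v ∈ cellV y := by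
  unfold gapZ; rw [Finset.mem_biUnion]

theorem gap_mem_I {ρ : GshRefl} {Q : Finset TV} {z : TV} : z ∈ gapI ρ Q ↔ z ∈ Q ∧ ρ.f z ∈ Q := by
  unfold gapI; rw [Finset.mem_filter]

theorem gap_I_inv {ρ : GshRefl} {Q : Finset TV} {z : TV} (h : z ∈ gapI ρ Q) : ρ.f z ∈ gapI ρ Q := by
  rw [gap_mem_I] at h ⊢
  rw [ρ.ff]
  exact ⟨h.2, h.1⟩

theorem gap_mem_K {ρ : GshRefl} {Q Z : Finset TV} {z : TV} :
    z ∈ gapK ρ Q Z ↔ z ∈ gapI ρ Q ∧ ∃ k ∈ Z, TscR tscG (↑(gapI ρ Q) : Set TV) k z := by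
  classical
  unfold gapK
  simp only [Finset.mem_filter]

theorem gap_K_subI (ρ : GshRefl) (Q Z : Finset TV) : gapK ρ Q Z ⊆ gapI ρ Q := fun _ h => (gap_mem_K.1 h).1

theorem gap_K_sub (ρ : GshRefl) (Q Z : Finset TV) : gapK ρ Q Z ⊆ Q := fun _ h => (gap_mem_I.1 (gap_mem_K.1 h).1).1

/-- the seed lies in `K` -/
theorem gap_Z_sub {ρ : GshRefl} {Q Z : Finset TV} (hZ : Z ⊆ gapI ρ Q) : Z ⊆ gapK ρ Q Z :=
  fun z hz => gap_mem_K.2 ⟨hZ hz, z, hz, ReflTransGen.refl⟩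

/-- the mirror image of a path of `Q ∩ ρ Q` -/
theorem gap_R_mir {ρ : GshRefl} {Q : Finset TV} {a b : TV} (h : TscR tscG (↑(gapI ρ Q) : Set TV) a b) :
    TscR tscG (↑(gapI ρ Q) : Set TV) (ρ.f a) (ρ.f b) := by
  refine tsc_R_mono ?_ (tsc_R_map (G' := tscG) ρ.f (fun a b h => gsh_r_adj ρ h) h)
  rintro _ ⟨z, hz, rfl⟩
  exact Finset.mem_coe.2 (gap_I_inv (Finset.mem_coe.1 hz))

/-- `K` is reflection invariant -/
theorem gap_K_inv {ρ : GshRefl} {Q Z : Finset TV} (hi : ∀ k ∈ Z, ρ.f k ∈ Z) : ∀ z ∈ gapK ρ Q Z, ρ.f z ∈ gapK ρ Q Z := by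
  intro z hz
  obtain ⟨h1, k, hk, hp⟩ := gap_mem_K.1 hz
  exact gap_mem_K.2 ⟨gap_I_inv h1, ρ.f k, hi k hk, gap_R_mir hp⟩

/-- `K` is a union of components of `Q ∩ ρ Q` -/
theorem gap_K_comp (ρ : GshRefl) (Q Z : Finset TV) : ∀ z ∈ Q, ρ.f z ∈ Q → ∀ k ∈ gapK ρ Q Z, triAdj k z → z ∈ gapK ρ Q Z := by
  intro z hz hz' k hk hadj
  obtain ⟨h1, k0, hk0, hp⟩ := gap_mem_K.1 hk
  have hzI : z ∈ gapI ρ Q := gap_mem_I.2 ⟨hz, hz'⟩
  exact gap_mem_K.2 ⟨hzI, k0, hk0, hp.tail ⟨hadj, Finset.mem_coe.2 h1, Finset.mem_coe.2 hzI⟩⟩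

/-- a path of `Q ∩ ρ Q` which starts in `K` is a path of `K` -/
theorem gap_K_path {ρ : GshRefl} {Q Z : Finset TV} {a b : TV} (ha : a ∈ gapK ρ Q Z) (h : TscR tscG (↑(gapI ρ Q) : Set TV) a b) :
    TscR tscG (↑(gapK ρ Q Z) : Set TV) a b ∧ b ∈ gapK ρ Q Z := by
  induction h with
  | refl => exact ⟨ReflTransGen.refl, ha⟩
  | @tail b c _ hbc ih =>
    have hc := gap_mem_I.1 (Finset.mem_coe.1 hbc.2.2)
    have hcK := gap_K_comp ρ Q Z c hc.1 hc.2 b ih.2 hbc.1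
    exact ⟨ih.1.tail ⟨hbc.1, Finset.mem_coe.2 ih.2, Finset.mem_coe.2 hcK⟩, hcK⟩

/-- a connected seed gives a connected `K` -/
theorem gap_K_conn {ρ : GshRefl} {Q Z : Finset TV} (hZ : Z ⊆ gapI ρ Q) (hc : TscConn tscG (↑Z : Set TV)) : TscConn tscG (↑(gapK ρ Q Z) : Set TV) := by
  have key : ∀ z ∈ gapK ρ Q Z, ∃ k ∈ Z, TscR tscG (↑(gapK ρ Q Z) : Set TV) k z := by
    intro z hz
    obtain ⟨_, k, hk, hp⟩ := gap_mem_K.1 hz
    exact ⟨k, hk, (gap_K_path (gap_Z_sub hZ hk) hp).1⟩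
  intro u hu v hv
  obtain ⟨k, hk, h1⟩ := key u (Finset.mem_coe.1 hu)
  obtain ⟨k', hk', h2⟩ := key v (Finset.mem_coe.1 hv)
  have h3 : TscR tscG (↑(gapK ρ Q Z) : Set TV) k k' :=
    tsc_R_mono (Finset.coe_subset.2 (gap_Z_sub hZ)) (hc k (Finset.mem_coe.2 hk) k' (Finset.mem_coe.2 hk'))
  exact tsc_R_trans (tsc_R_symm h1) (tsc_R_trans h3 h2)

/-- the gluing data of `Glue/Sheet` -/
theorem gap_K_mir {ρ : GshRefl} {Q Z : Finset TV} (hi : ∀ k ∈ Z, ρ.f k ∈ Z) : GshMir ρ Q (gapK ρ Q Z) := ⟨gap_K_sub ρ Q Z, gap_K_inv hi⟩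

/-- hypothesis `gate` of `gl_double`: from the layer of `Q` and `far` -/
theorem gap_K_gate {ρ : GshRefl} {Q Z La Lc Ld Lb : Finset TV} (lay : latBd Q ⊆ La ∪ Lc ∪ Ld ∪ Lb)
    (far : ∀ z ∈ gapK ρ Q Z, z ∉ Ld ∧ z ∉ Lb) : ∀ u ∈ gapK ρ Q Z, ∀ w, triAdj u w → ρ.f w ∈ Q → w ∉ Q → u ∈ La ∪ Lc := by
  intro u hu w hadj _ hw
  have h := lay (lat_mem_bd.2 ⟨gap_K_sub ρ Q Z hu, w, hadj, hw⟩)
  rcases Finset.mem_union.1 h with h | h
  · rcases Finset.mem_union.1 h with h | h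
    · exact h
    · exact absurd h (far u hu).1
  · exact absurd h (far u hu).2

/-- `K` depends on the components of the seed only -/
theorem gap_K_mono {ρ : GshRefl} {Q Z Z' : Finset TV} (h : ∀ k ∈ Z, k ∈ gapK ρ Q Z') : gapK ρ Q Z ⊆ gapK ρ Q Z' := by
  intro z hz
  obtain ⟨_, k, hk, hp⟩ := gap_mem_K.1 hz
  exact (gap_K_path (h k hk) hp).2

theorem gap_K_eq {ρ : GshRefl} {Q Z Z' : Finset TV} (h : ∀ k ∈ Z, k ∈ gapK ρ Q Z') (h' : ∀ k ∈ Z', k ∈ gapK ρ Q Z) : gapK ρ Q Z = gapK ρ Q Z' :=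
  Finset.Subset.antisymm (gap_K_mono h) (gap_K_mono h')

/-- two seeds which are not joined inside `Q ∩ ρ Q` give disjoint, non adjacent components -/
theorem gap_K_disj {ρ : GshRefl} {Q Z Z' : Finset TV} (h : ∀ k ∈ Z, ∀ k' ∈ Z', ¬ TscR tscG (↑(gapI ρ Q) : Set TV) k k') :
    ∀ u ∈ gapK ρ Q Z, ∀ v ∈ gapK ρ Q Z', u ≠ v ∧ ¬ triAdj u v := by
  intro u hu v hv
  obtain ⟨hu1, k, hk, hp⟩ := gap_mem_K.1 hu
  obtain ⟨hv1, k', hk', hp'⟩ := gap_mem_K.1 hv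
  constructor
  · rintro rfl
    exact h k hk k' hk' (tsc_R_trans hp (tsc_R_symm hp'))
  · intro hadj
    exact h k hk k' hk' (tsc_R_trans (hp.tail ⟨hadj, Finset.mem_coe.2 hu1, Finset.mem_coe.2 hv1⟩) (tsc_R_symm hp'))

/-! ### the sites of a reflection invariant set of cells -/

theorem gap_c_inj (ρ : GshRefl) : Function.Injective ρ.c := fun a b e => by rw [← ρ.cc a, ← ρ.cc b, e]

/-- the reflection of the indices preserves the adjacency -/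
theorem gap_c_adj (ρ : GshRefl) {y y' : TV} (h : triAdj y y') : triAdj (ρ.c y) (ρ.c y') := by
  obtain ⟨s, h1, h2⟩ := pcp_share_site h
  have a1 : ρ.f s ∈ cellV (ρ.c y) := by rw [ρ.cell]; exact Finset.mem_image_of_mem _ h1
  have a2 : ρ.f s ∈ cellV (ρ.c y') := by rw [ρ.cell]; exact Finset.mem_image_of_mem _ h2
  rcases (pcp_share _ _).1 ⟨_, a1, a2⟩ with e | e
  · exact absurd (gap_c_inj ρ e) (lat_adj_ne h)
  · exact e

theorem gap_Z_inv {ρ : GshRefl} {Kc : Finset TV} (hi : ∀ y ∈ Kc, ρ.c y ∈ Kc) : ∀ v ∈ gapZ Kc, ρ.f v ∈ gapZ Kc := by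
  intro v hv
  obtain ⟨y, hy, hvy⟩ := gap_mem_Z.1 hv
  exact gap_mem_Z.2 ⟨ρ.c y, hi y hy, by rw [ρ.cell]; exact Finset.mem_image_of_mem _ hvy⟩

theorem gap_Z_subI {ρ : GshRefl} {Q Kc : Finset TV} (hQ : ∀ y ∈ Kc, cellV y ⊆ Q) (hi : ∀ y ∈ Kc, ρ.c y ∈ Kc) : gapZ Kc ⊆ gapI ρ Q := by
  have h1 : gapZ Kc ⊆ Q := fun v hv => by
    obtain ⟨y, hy, hvy⟩ := gap_mem_Z.1 hv
    exact hQ y hy hvy
  exact fun v hv => gap_mem_I.2 ⟨h1 hv, h1 (gap_Z_inv hi v hv)⟩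

/-- the sites of a connected set of cells are connected -/
theorem gap_Z_conn {Kc : Finset TV} (hc : TscConn tscG (↑Kc : Set TV)) : TscConn tscG (↑(gapZ Kc) : Set TV) := by
  have cell : ∀ y ∈ Kc, ∀ u ∈ cellV y, ∀ v ∈ cellV y, TscR tscG (↑(gapZ Kc) : Set TV) u v := by
    intro y hy u hu v hv
    by_cases e : u = v
    · rw [e]; exact ReflTransGen.refl
    · exact tsc_R_step (pcp_cell_adj hu hv e) (Finset.mem_coe.2 (gap_mem_Z.2 ⟨y, hy, hu⟩)) (Finset.mem_coe.2 (gap_mem_Z.2 ⟨y, hy, hv⟩))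
  have path : ∀ y y', y ∈ Kc → TscR tscG (↑Kc : Set TV) y y' → ∀ u ∈ cellV y, ∀ v ∈ cellV y', TscR tscG (↑(gapZ Kc) : Set TV) u v := by
    intro y y' hy h
    induction h with
    | refl => exact fun u hu v hv => cell y hy u hu v hv
    | @tail b c _ hbc ih =>
      intro u hu v hv
      obtain ⟨s, h1, h2⟩ := pcp_share_site hbc.1
      exact tsc_R_trans (ih u hu s h1) (cell c (Finset.mem_coe.1 hbc.2.2) s h2 v hv)
  intro u hu v hv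
  obtain ⟨y, hy, huy⟩ := gap_mem_Z.1 (Finset.mem_coe.1 hu)
  obtain ⟨y', hy', hvy⟩ := gap_mem_Z.1 (Finset.mem_coe.1 hv)
  exact path y y' hy (hc y (Finset.mem_coe.2 hy) y' (Finset.mem_coe.2 hy')) u huy v hvy

theorem gap_mem_K0 {ρ : GshRefl} {La Lc Kc : Finset TV} {v : TV} :
    v ∈ gapK0 ρ La Lc Kc ↔ v ∈ gapZ Kc ∧ v ∉ La ∧ v ∉ Lc ∧ ρ.f v ∉ La ∧ ρ.f v ∉ Lc := by
  unfold gapK0; rw [Finset.mem_filter]

theorem gap_K0_inv {ρ : GshRefl} {La Lc Kc : Finset TV} (hi : ∀ y ∈ Kc, ρ.c y ∈ Kc) : ∀ v ∈ gapK0 ρ La Lc Kc, ρ.f v ∈ gapK0 ρ La Lc Kc := by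
  intro v hv
  obtain ⟨h0, h1, h2, h3, h4⟩ := gap_mem_K0.1 hv
  exact gap_mem_K0.2 ⟨gap_Z_inv hi v h0, h3, h4, by rwa [ρ.ff], by rwa [ρ.ff]⟩

/-! ### the boundary cells may be any set which contains the clipped cells -/

section mono

variable {V Y V' Y' : Type} [DecidableEq V] [DecidableEq Y] [DecidableEq V'] [DecidableEq Y']

/-- a double stays a double when cells are added to `Cb` -/
theorem gap_double_mono {S : ClSys V Y} {Cb Cb' : Finset Y} {La Lc K : Finset V} {X : ClSys V' Y'} {e : V → V'} {ec : Y → Y'} {φ : V' → V'} {ψ : Y' → Y'}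
    (h : GlDouble S Cb La Lc K X e ec φ ψ) (hC : Cb ⊆ Cb') : GlDouble S Cb' La Lc K X e ec φ ψ :=
  { h with kept := fun y hy => (h.kept y hy).imp id fun h' => ⟨hC h'.1, h'.2⟩ }

end mono

/-! ### cell paths: index language ⟹ `GlJoinC` -/

/-- the sites of a cell inside `Q` -/
theorem gap_sv (x : ℝ) {Q : Finset TV} {y : TV} (h : cellV y ⊆ Q) : (clAmb x Q).sv y = cellV y := Finset.inter_eq_left.2 h

/-- a path of indices inside a set of cells inside `Q` is a path of the graph of the cells -/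
theorem gap_R_cg (x : ℝ) {Q : Finset TV} {Z : Set TV} (hZ : ∀ y ∈ Z, cellV y ⊆ Q) {y y' : TV} (h : TscR tscG Z y y') :
    TscR (glCg (clAmb x Q)) Z y y' := by
  induction h with
  | refl => exact ReflTransGen.refl
  | @tail b c _ hbc ih =>
    obtain ⟨s, h1, h2⟩ := pcp_share_site hbc.1
    refine ih.tail ⟨⟨lat_adj_ne hbc.1, s, ?_, ?_⟩, hbc.2.1, hbc.2.2⟩
    · rw [gap_sv x (hZ b hbc.2.1)]; exact h1
    · rw [gap_sv x (hZ c hbc.2.2)]; exact h2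

/-- **index language ⟹ `GlJoinC`** -/
theorem gap_joinC (x : ℝ) {Q A C : Finset TV} {Z AAc CCc : Set TV} (hZ : ∀ y ∈ Z, cellV y ⊆ Q)
    (hA : ∀ y ∈ Z, ∀ a ∈ AAc, ∀ s ∈ cellV y, s ∈ cellV a → s ∈ A) (hC : ∀ y ∈ Z, ∀ a ∈ CCc, ∀ s ∈ cellV y, s ∈ cellV a → s ∈ C)
    (h : GlJoin tscG Z AAc CCc) : GlJoinC (clAmb x Q) Z A C := by
  obtain ⟨u, v, hu, hv, ⟨a, ha, hua⟩, ⟨c, hc, hvc⟩, hp⟩ := h
  obtain ⟨s, s1, s2⟩ := pcp_share_site hua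
  obtain ⟨t, t1, t2⟩ := pcp_share_site hvc
  refine ⟨u, v, hu, hv, ⟨s, hA u hu a ha s s1 s2, ?_⟩, ⟨t, hC v hv c hc t t1 t2, ?_⟩, gap_R_cg x hZ hp⟩
  · rw [gap_sv x (hZ u hu)]; exact s1
  · rw [gap_sv x (hZ v hv)]; exact t1

/-- the mirror image of a path of indices -/
theorem gap_join_mir (ρ : GshRefl) {Z AAc CCc : Set TV} (h : GlJoin tscG Z AAc CCc) :
    GlJoin tscG {y | ρ.c y ∈ Z} {y | ρ.c y ∈ AAc} {y | ρ.c y ∈ CCc} := by
  obtain ⟨u, v, hu, hv, ⟨a, ha, hua⟩, ⟨c, hc, hvc⟩, hp⟩ := h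
  have hm : ∀ {w : TV} {T : Set TV}, w ∈ T → ρ.c w ∈ {y | ρ.c y ∈ T} := fun {w T} hw => by
    show ρ.c (ρ.c w) ∈ T
    rwa [ρ.cc]
  refine ⟨ρ.c u, ρ.c v, hm hu, hm hv, ⟨ρ.c a, hm ha, gap_c_adj ρ hua⟩, ⟨ρ.c c, hm hc, gap_c_adj ρ hvc⟩, ?_⟩
  refine tsc_R_mono ?_ (tsc_R_map (G' := tscG) ρ.c (fun a b h => gap_c_adj ρ h) hp)
  rintro _ ⟨z, hz, rfl⟩
  exact hm hz

/-! ### the place -/

section place

variable {x : ℝ} (hx : 0 < x) (hx1 : x ≤ 1) (hh : 1 / 2 ≤ x ^ 2) (ρ : GshRefl) (Q La Lc Ld Lb Kc Cb : Finset TV)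
  (hQ : TriSCOn (ZMod 2) tscG (↑Q : Set TV)) (cQ : TscConn tscG (↑Q : Set TV)) (lay : latBd Q ⊆ La ∪ Lc ∪ Ld ∪ Lb) (hCb : glCb Q ⊆ Cb)
  (kq : ∀ y ∈ Kc, cellV y ⊆ Q) (kn : Kc.Nonempty) (kc : TscConn tscG (↑Kc : Set TV)) (ki : ∀ y ∈ Kc, ρ.c y ∈ Kc)
  (far : ∀ z ∈ gapK ρ Q (gapZ Kc), z ∉ Ld ∧ z ∉ Lb)

include kq kn ki in
/-- hypothesis `hK2n` of `gl_three` -/
theorem gap_K_ne : (gapK ρ Q (gapZ Kc)).Nonempty := by
  obtain ⟨y, hy⟩ := kn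
  exact ⟨y, gap_Z_sub (gap_Z_subI kq ki) (gap_mem_Z.2 ⟨y, hy, by simp [cellV]⟩)⟩

include kq kc ki in
theorem gap_K_conn0 : TscConn tscG (↑(gapK ρ Q (gapZ Kc)) : Set TV) := gap_K_conn (gap_Z_subI kq ki) (gap_Z_conn kc)

include kq kc ki in
/-- hypothesis `hK2` of `gl_three` -/
theorem gap_K_conn' (x : ℝ) : TscConn (clAmb x Q).gr (↑(gapK ρ Q (gapZ Kc)) : Set TV) :=
  (gl_amb_conn x Q (Finset.coe_subset.2 (gap_K_sub ρ Q _))).2 (gap_K_conn0 ρ Q Kc kq kc ki)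

include hx hx1 hh hQ cQ lay hCb kq kn kc ki far in
/-- **the double of a place** -/
theorem gap_double : GlDouble (clAmb x Q) Cb La Lc (gapK ρ Q (gapZ Kc)) (gshX x Q (Q.image ρ.f) (gapK ρ Q (gapZ Kc))) plrE1 (fun y => (y, true))
    (plrSw (↑(gapK ρ Q (gapZ Kc)) : Set TV) ρ.f) (gshPsi ρ Q (gapK ρ Q (gapZ Kc))) :=
  gap_double_mono (gl_double hx hx1 hh ρ Q _ La Lc (gap_K_mir (gap_Z_inv ki)) hQ cQ (gap_K_conn0 ρ Q Kc kq kc ki) (gap_K_ne ρ Q Kc kq kn ki)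
    (gap_K_comp ρ Q _) (gap_K_gate lay far)) hCb

variable (ac : ∀ u ∈ La, ∀ v ∈ Lc, u ≠ v ∧ ¬ triAdj u v) (AAc CCc : Set TV)
  (hA : ∀ a ∈ AAc, ∀ s ∈ cellV a, s ∈ Q → s ∈ La) (hC : ∀ a ∈ CCc, ∀ s ∈ cellV a, s ∈ Q → s ∈ Lc)
  (dichC : ∀ P : Set TV, GlJoin tscG (↑Kc ∩ P) AAc CCc ∨ GlJoin tscG (↑Kc ∩ {v | ρ.c v ∉ P}) AAc CCc)

include kq ki in
/-- the sites of the cells of the place lie in `K` -/
theorem gap_cell_K {y : TV} (hy : y ∈ Kc) : cellV y ⊆ gapK ρ Q (gapZ Kc) :=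
  fun v hv => gap_Z_sub (gap_Z_subI kq ki) (gap_mem_Z.2 ⟨y, hy, hv⟩)

include kq ki hA hC dichC in
/-- **field `dichC`**: the dichotomy of 105 on the lattice of the indices, in the language of 55 -/
theorem gap_dichC (x : ℝ) (P : Set TV) : GlJoinC (clAmb x Q) (↑Kc ∩ P) La Lc ∨
    GlJoinC (clAmb x Q) (↑Kc \ P) (glMir (gapK ρ Q (gapZ Kc)) plrE1 (plrSw (↑(gapK ρ Q (gapZ Kc)) : Set TV) ρ.f) La)
      (glMir (gapK ρ Q (gapZ Kc)) plrE1 (plrSw (↑(gapK ρ Q (gapZ Kc)) : Set TV) ρ.f) Lc) := by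
  have hm : GshMir ρ Q (gapK ρ Q (gapZ Kc)) := gap_K_mir (gap_Z_inv ki)
  rcases dichC P with h | h
  · left
    exact gap_joinC x (fun y hy => kq y (Finset.mem_coe.1 hy.1)) (fun y hy a ha s hs hsa => hA a ha s hsa (kq y (Finset.mem_coe.1 hy.1) hs))
      (fun y hy a ha s hs hsa => hC a ha s hsa (kq y (Finset.mem_coe.1 hy.1) hs)) h
  · right
    have h' := gap_join_mir ρ h
    have hsub : {y | ρ.c y ∈ (↑Kc ∩ {v | ρ.c v ∉ P} : Set TV)} ⊆ (↑Kc \ P : Set TV) := by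
      rintro y ⟨h1, h2⟩
      have h2' : ρ.c (ρ.c y) ∉ P := h2
      rw [ρ.cc] at h2'
      have h3 := ki _ (Finset.mem_coe.1 h1)
      rw [ρ.cc] at h3
      exact ⟨Finset.mem_coe.2 h3, h2'⟩
    have key : ∀ (T : Set TV) (L : Finset TV), (∀ a ∈ T, ∀ s ∈ cellV a, s ∈ Q → s ∈ L) → ∀ y ∈ (↑Kc \ P : Set TV), ∀ a ∈ {y | ρ.c y ∈ T},
        ∀ s ∈ cellV y, s ∈ cellV a → s ∈ glMir (gapK ρ Q (gapZ Kc)) plrE1 (plrSw (↑(gapK ρ Q (gapZ Kc)) : Set TV) ρ.f) L := by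
      intro T L hT y hy a ha s hs hsa
      have hsK := gap_cell_K ρ Q Kc kq ki (Finset.mem_coe.1 hy.1) hs
      refine (gl_mir_mem ρ hm L s).2 ⟨hsK, hT _ ha _ ?_ (hm.kq (hm.kf s hsK))⟩
      rw [ρ.cell]; exact Finset.mem_image_of_mem _ hsa
    exact gap_joinC x (fun y hy => kq y (Finset.mem_coe.1 hy.1)) (key AAc La hA) (key CCc Lc hC) (gl_join_mono hsub h')

include hx hx1 hh hQ cQ lay hCb kq kn kc ki far ac hA hC dichC in
/-- **A PLACE OF THE INDEX LATTICE IS A `GlPlace`** -/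
theorem gap_place : GlPlace (clAmb x Q) Cb La Lc Ld Lb (gapK ρ Q (gapZ Kc)) (gapK0 ρ La Lc Kc) (gshX x Q (Q.image ρ.f) (gapK ρ Q (gapZ Kc))) plrE1
    (fun y => (y, true)) (plrSw (↑(gapK ρ Q (gapZ Kc)) : Set TV) ρ.f) (gshPsi ρ Q (gapK ρ Q (gapZ Kc))) := by
  have hm : GshMir ρ Q (gapK ρ Q (gapZ Kc)) := gap_K_mir (gap_Z_inv ki)
  have hk0 : gapK0 ρ La Lc Kc ⊆ gapK ρ Q (gapZ Kc) := fun v hv => gap_Z_sub (gap_Z_subI kq ki) (gap_mem_K0.1 hv).1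
  refine { gap_double hx hx1 hh ρ Q La Lc Ld Lb Kc Cb hQ cQ lay hCb kq kn kc ki far with
    far := far
    k0 := hk0
    free := fun v hv => ?_
    symm := fun v hv => ⟨ρ.f v, gap_K0_inv ki v hv, gl_phi_e ρ hm (hk0 hv)⟩
    gate' := gl_gate' x ρ Q _ La Lc hm (gap_K_comp ρ Q _) (gap_K_gate lay far)
    dich := ?_ }
  · obtain ⟨_, h1, h2, h3, h4⟩ := gap_mem_K0.1 hv
    exact ⟨h1, h2, fun h => h3 ((gl_mir_mem ρ hm La v).1 h).2, fun h => h4 ((gl_mir_mem ρ hm Lc v).1 h).2⟩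
  · refine gl_maj_dich_amb x Q La Lc _ _ _ Kc kq ?_ ac ?_ ?_ (gap_dichC ρ Q La Lc Kc kq ki AAc CCc hA hC dichC x)
    · intro y hy v hv
      have hvK := gap_cell_K ρ Q Kc kq ki hy hv
      by_cases h1 : v ∈ La
      · exact Finset.mem_union_left _ (Finset.mem_union_left _ (Finset.mem_union_left _ (Finset.mem_union_right _ h1)))
      by_cases h2 : v ∈ Lc
      · exact Finset.mem_union_left _ (Finset.mem_union_left _ (Finset.mem_union_right _ h2))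
      by_cases h3 : ρ.f v ∈ La
      · exact Finset.mem_union_left _ (Finset.mem_union_right _ ((gl_mir_mem ρ hm La v).2 ⟨hvK, h3⟩))
      by_cases h4 : ρ.f v ∈ Lc
      · exact Finset.mem_union_right _ ((gl_mir_mem ρ hm Lc v).2 ⟨hvK, h4⟩)
      exact Finset.mem_union_left _ (Finset.mem_union_left _ (Finset.mem_union_left _ (Finset.mem_union_left _
        (gap_mem_K0.2 ⟨gap_mem_Z.2 ⟨y, hy, hv⟩, h1, h2, h3, h4⟩))))
    · intro u hu v hv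
      have hu' := ((gl_mir_mem ρ hm La u).1 hu).2
      have hv' := ((gl_mir_mem ρ hm Lc v).1 hv).2
      exact ⟨fun e => (ac _ hu' _ hv').1 (by rw [e]), fun h => (ac _ hu' _ hv').2 (gsh_r_adj ρ h)⟩
    · intro v hv
      obtain ⟨_, _, h2, _, h4⟩ := gap_mem_K0.1 hv
      exact ⟨h2, fun h => h4 ((gl_mir_mem ρ hm Lc v).1 h).2⟩

include hx hx1 hh hQ cQ lay hCb kq kn kc ki far ac hA hC dichC in
/-- **A PLACE OF THE INDEX LATTICE IS A `GlPlaceC`** -/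
theorem gap_placeC : GlPlaceC (clAmb x Q) Cb La Lc Ld Lb (gapK ρ Q (gapZ Kc)) (gapK0 ρ La Lc Kc) Kc (gshX x Q (Q.image ρ.f) (gapK ρ Q (gapZ Kc))) plrE1
    (fun y => (y, true)) (plrSw (↑(gapK ρ Q (gapZ Kc)) : Set TV) ρ.f) (gshPsi ρ Q (gapK ρ Q (gapZ Kc))) := by
  refine { gap_place hx hx1 hh ρ Q La Lc Ld Lb Kc Cb hQ cQ lay hCb kq kn kc ki far ac AAc CCc hA hC dichC with
    kc := fun y hy => ?_
    symmC := fun y hy => ⟨ρ.c y, ki y hy, gsh_psi_in ρ (Finset.inter_subset_left.trans (gap_cell_K ρ Q Kc kq ki hy))⟩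
    dichC := gap_dichC ρ Q La Lc Kc kq ki AAc CCc hA hC dichC x }
  have hK := gap_cell_K ρ Q Kc kq ki hy
  have h1 : y ∈ cellV y := by simp [cellV]
  refine ⟨lat_mem_cells.2 ⟨y, h1, kq y hy h1⟩, Finset.inter_subset_left.trans hK, (gsh_X_mem_C1 x _ _ _ y).2 (gsh_mem_C1.2 ⟨?_, Or.inr ?_⟩)⟩
  · exact Finset.card_pos.2 ⟨y, Finset.mem_inter.2 ⟨h1, kq y hy h1⟩⟩
  · exact Finset.inter_subset_left.trans hK

end place

/-- **the same for a place given as a `Set`** (`HxrPlace y0 y1 AAc CCc ρ.c K` of 105: `kc := hK.conn`, `ki := hK.inv`, `dichC := hK.dich`, `kn` from `hK.cross`; `M` = the free cells) -/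
theorem gap_placeC_set {x : ℝ} (hx : 0 < x) (hx1 : x ≤ 1) (hh : 1 / 2 ≤ x ^ 2) (ρ : GshRefl) (Q La Lc Ld Lb M Cb : Finset TV) (K : Set TV)
    (hQ : TriSCOn (ZMod 2) tscG (↑Q : Set TV)) (cQ : TscConn tscG (↑Q : Set TV)) (lay : latBd Q ⊆ La ∪ Lc ∪ Ld ∪ Lb) (hCb : glCb Q ⊆ Cb)
    (hM : ∀ y ∈ M, cellV y ⊆ Q) (hKM : K ⊆ (↑M : Set TV)) (kn : K.Nonempty) (kc : TscConn tscG K) (ki : ∀ y ∈ K, ρ.c y ∈ K)
    (far : ∀ z ∈ gapK ρ Q (gapZ (gapF M K)), z ∉ Ld ∧ z ∉ Lb)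
    (ac : ∀ u ∈ La, ∀ v ∈ Lc, u ≠ v ∧ ¬ triAdj u v) (AAc CCc : Set TV)
    (hA : ∀ a ∈ AAc, ∀ s ∈ cellV a, s ∈ Q → s ∈ La) (hC : ∀ a ∈ CCc, ∀ s ∈ cellV a, s ∈ Q → s ∈ Lc)
    (dichC : ∀ P : Set TV, GlJoin tscG (K ∩ P) AAc CCc ∨ GlJoin tscG (K ∩ {v | ρ.c v ∉ P}) AAc CCc) :
    GlPlaceC (clAmb x Q) Cb La Lc Ld Lb (gapK ρ Q (gapZ (gapF M K))) (gapK0 ρ La Lc (gapF M K)) (gapF M K)
      (gshX x Q (Q.image ρ.f) (gapK ρ Q (gapZ (gapF M K)))) plrE1 (fun y => (y, true)) (plrSw (↑(gapK ρ Q (gapZ (gapF M K))) : Set TV) ρ.f)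
      (gshPsi ρ Q (gapK ρ Q (gapZ (gapF M K)))) := by
  have e := gap_F_coe hKM
  refine gap_placeC hx hx1 hh ρ Q La Lc Ld Lb (gapF M K) Cb hQ cQ lay hCb (fun y hy => hM y (gap_mem_F.1 hy).1) ?_ (by rw [e]; exact kc) ?_ far ac
    AAc CCc hA hC (by rw [e]; exact dichC)
  · obtain ⟨y, hy⟩ := kn
    exact ⟨y, gap_mem_F.2 ⟨Finset.mem_coe.1 (hKM hy), hy⟩⟩
  · intro y hy
    have h1 := ki y (gap_mem_F.1 hy).2
    exact gap_mem_F.2 ⟨Finset.mem_coe.1 (hKM h1), h1⟩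

/-! ## PART 2: three places ⟹ the strip estimate -/

/-! ### the strip -/

/-- the layer of `Q` lies on the four sides -/
theorem gaq_lay {x : ℝ} {Q La Lc Ld Lb Cb : Finset TV} (hS : GlStrip (clAmb x Q) Cb La Lc Ld Lb) (hCb : glCb Q ⊆ Cb) : latBd Q ⊆ La ∪ Lc ∪ Ld ∪ Lb := by
  intro u hu
  obtain ⟨huQ, w, hadj, hw⟩ := lat_mem_bd.1 hu
  obtain ⟨y, h1, h2⟩ := pcp_adj_cell hadj
  have hy : y ∈ glCb Q := gl_mem_cb.2 ⟨lat_mem_cells.2 ⟨u, h1, huQ⟩, fun h => hw (h h2)⟩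
  exact hS.cbL y (hCb hy) (Finset.mem_inter.2 ⟨h1, huQ⟩)

/-- the two plus sides in lattice language -/
theorem gaq_ac {x : ℝ} {Q La Lc Ld Lb Cb : Finset TV} (hS : GlStrip (clAmb x Q) Cb La Lc Ld Lb) : ∀ u ∈ La, ∀ v ∈ Lc, u ≠ v ∧ ¬ triAdj u v :=
  fun u hu v hv => ⟨(hS.ac u hu v hv).1, fun h => (hS.ac u hu v hv).2 ((gl_amb_gr x Q (hS.la hu) (hS.lc hv)).2 h)⟩

/-! ### one place -/

section place

variable (ρ : GshRefl) (Q La Lc Ld Lb Kc : Finset TV) (lay : latBd Q ⊆ La ∪ Lc ∪ Ld ∪ Lb)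
  (kq : ∀ y ∈ Kc, cellV y ⊆ Q) (ki : ∀ y ∈ Kc, ρ.c y ∈ Kc) (far : ∀ z ∈ gapK ρ Q (gapZ Kc), z ∉ Ld ∧ z ∉ Lb)

include lay kq ki far in
/-- the neighbours of the core lie in `Q` -/
theorem gaq_K0_int : ∀ v ∈ gapK0 ρ La Lc Kc, ∀ w, triAdj v w → w ∈ Q := by
  intro v hv w hadj
  by_contra hw
  obtain ⟨h0, h1, h2, _, _⟩ := gap_mem_K0.1 hv
  have hvK : v ∈ gapK ρ Q (gapZ Kc) := gap_Z_sub (gap_Z_subI kq ki) h0
  have h := lay (lat_mem_bd.2 ⟨gap_K_sub ρ Q _ hvK, w, hadj, hw⟩)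
  rcases Finset.mem_union.1 h with h | h
  · rcases Finset.mem_union.1 h with h | h
    · rcases Finset.mem_union.1 h with h | h
      · exact h1 h
      · exact h2 h
    · exact (far v hvK).1 h
  · exact (far v hvK).2 h

include lay kq ki far in
/-- the neighbours of the core lie in `K` -/
theorem gaq_K0_cl : ∀ v ∈ gapK0 ρ La Lc Kc, ∀ w, triAdj v w → w ∈ gapK ρ Q (gapZ Kc) := by
  intro v hv w hadj
  have hvK : v ∈ gapK ρ Q (gapZ Kc) := gap_Z_sub (gap_Z_subI kq ki) (gap_mem_K0.1 hv).1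
  exact gap_K_comp ρ Q _ w (gaq_K0_int ρ Q La Lc Ld Lb Kc lay kq ki far v hv w hadj)
    (gaq_K0_int ρ Q La Lc Ld Lb Kc lay kq ki far _ (gap_K0_inv ki v hv) _ (gsh_r_adj ρ hadj)) v hvK hadj

variable (AAc CCc : Set TV) (hA : ∀ a ∈ AAc, ∀ s ∈ cellV a, s ∈ Q → s ∈ La) (hC : ∀ a ∈ CCc, ∀ s ∈ cellV a, s ∈ Q → s ∈ Lc)

include kq ki hA hC in
/-- (IN1 of helper1) every up-cell which contains a site of the core belongs to `Kc`      (`max` = field `max` of `HxrPlace`) -/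
theorem gaq_K0_cell (max : ∀ k ∈ Kc, ∀ v, triAdj k v → v ∈ Kc ∨ v ∈ AAc ∨ v ∈ CCc ∨ ρ.c v ∈ AAc ∨ ρ.c v ∈ CCc) :
    ∀ v ∈ gapK0 ρ La Lc Kc, ∀ y, v ∈ cellV y → y ∈ Kc := by
  intro v hv y hvy
  obtain ⟨h0, h1, h2, h3, h4⟩ := gap_mem_K0.1 hv
  obtain ⟨y0, hy0, hvy0⟩ := gap_mem_Z.1 h0
  have hvI := gap_mem_I.1 (gap_Z_subI kq ki h0)
  have hm : ρ.f v ∈ cellV (ρ.c y) := by rw [ρ.cell]; exact Finset.mem_image_of_mem _ hvy
  rcases (pcp_share y0 y).1 ⟨v, hvy0, hvy⟩ with e | e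
  · exact e ▸ hy0
  · rcases max y0 hy0 y e with h | h | h | h | h
    · exact h
    · exact absurd (hA y h v hvy hvI.1) h1
    · exact absurd (hC y h v hvy hvI.1) h2
    · exact absurd (hA _ h _ hm hvI.2) h3
    · exact absurd (hC _ h _ hm hvI.2) h4

variable (dichC : ∀ P : Set TV, GlJoin tscG (↑Kc ∩ P) AAc CCc ∨ GlJoin tscG (↑Kc ∩ {v | ρ.c v ∉ P}) AAc CCc)

include dichC in
/-- the place crosses -/
theorem gaq_join : GlJoin tscG (↑Kc : Set TV) AAc CCc := by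
  rcases dichC Set.univ with h | h
  · rwa [Set.inter_univ] at h
  · obtain ⟨u, _, hu, _⟩ := h
    exact absurd (Set.mem_univ _) hu.2

include dichC in
theorem gaq_ne : Kc.Nonempty := by
  obtain ⟨u, _, hu, _⟩ := gaq_join ρ Kc AAc CCc dichC
  exact ⟨u, Finset.mem_coe.1 hu⟩

include kq ki hA hC dichC in
/-- `K` contains a site of `La` and a site of `Lc` -/
theorem gaq_cross : ∃ a ∈ La, ∃ c ∈ Lc, a ∈ gapK ρ Q (gapZ Kc) ∧ c ∈ gapK ρ Q (gapZ Kc) := by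
  obtain ⟨u, v, hu, hv, ⟨a, ha, hua⟩, ⟨c, hc, hvc⟩, _⟩ := gaq_join ρ Kc AAc CCc dichC
  obtain ⟨s, s1, s2⟩ := pcp_share_site hua
  obtain ⟨t, t1, t2⟩ := pcp_share_site hvc
  have hu' := Finset.mem_coe.1 hu
  have hv' := Finset.mem_coe.1 hv
  exact ⟨s, hA a ha s s2 (kq u hu' s1), t, hC c hc t t2 (kq v hv' t1), gap_cell_K ρ Q Kc kq ki hu' s1, gap_cell_K ρ Q Kc kq ki hv' t1⟩

include kq ki hA hC dichC in
/-- **`K` is a closed place of 187** -/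
theorem gaq_pcl (kc : TscConn tscG (↑Kc : Set TV)) {y0 y1 : ℤ} (rows : ∀ z ∈ gapK ρ Q (gapZ Kc), y0 < z.2 ∧ z.2 < y1) :
    PclPlace y0 y1 (↑Q : Set TV) ↑La ↑Lc ↑(gapK ρ Q (gapZ Kc)) where
  sub := Finset.coe_subset.2 (gap_K_sub ρ Q _)
  conn := gap_K_conn0 ρ Q Kc kq kc ki
  rows := fun k hk => rows k (Finset.mem_coe.1 hk)
  cross := by
    obtain ⟨a, ha, c, hc, h1, h2⟩ := gaq_cross ρ Q La Lc Kc kq ki AAc CCc hA hC dichC
    exact ⟨a, Finset.mem_coe.2 ha, c, Finset.mem_coe.2 hc, Finset.mem_coe.2 h1, Finset.mem_coe.2 h2⟩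

end place

/-! ### blocking -/

/-- **`PclBlk` (lattice language, 187) ⟹ `GlBlk` (55)** -/
theorem gaq_blk (x : ℝ) {Q La Lc L K0 K2 : Finset TV} (la : La ⊆ Q) (lc : Lc ⊆ Q) (hk0 : K0 ⊆ Q)
    (h : PclBlk (↑Q : Set TV) ↑La ↑Lc ↑K0 ↑(L \ (La ∪ Lc)) ↑K2) : GlBlk (clAmb x Q) La Lc K0 L K2 := by
  intro P hLa hLc hj u hu z _ hzK hp
  have hj' : GlJoin tscG (↑K0 ∩ P) ↑La ↑Lc :=
    (gl_join_lat x Q (Set.inter_subset_left.trans (Finset.coe_subset.2 hk0)) (Finset.coe_subset.2 la) (Finset.coe_subset.2 lc)).1 hj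
  have hp' : TscR tscG (↑Q \ P) u z := (gl_amb_R x Q Set.sdiff_subset).1 hp
  obtain ⟨h1, h2⟩ := h P hLa hLc hj' u (Finset.mem_coe.2 hu) z hp'
  rcases hzK with h3 | ⟨k, hk, hadj⟩
  · exact h1 (Finset.mem_coe.2 h3)
  · exact h2 k (Finset.mem_coe.2 hk) (gl_amb_adj x Q hadj).1

/-! ### three places -/

/-- **THREE PLACES OF THE INDEX LATTICE ⟹ THE STRIP ESTIMATE** -/
theorem gaq_three {x : ℝ} (hx : 0 < x) (hx1 : x ≤ 1) (hh : 1 / 2 ≤ x ^ 2) (Q La Lc Ld Lb Cb : Finset TV)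
    (hS : GlStrip (clAmb x Q) Cb La Lc Ld Lb) (hCb : glCb Q ⊆ Cb) {y0 y1 xm xM : ℤ}
    (hP : PclStrip y0 y1 xm xM (↑Q : Set TV) ↑La ↑Lc ↑(Ld \ (La ∪ Lc)) ↑(Lb \ (La ∪ Lc)))
    (ld0 : ∀ d ∈ Ld, d.2 = y0) (lb1 : ∀ b ∈ Lb, b.2 = y1)
    (AAc CCc : Set TV) (hA : ∀ a ∈ AAc, ∀ s ∈ cellV a, s ∈ Q → s ∈ La) (hC : ∀ a ∈ CCc, ∀ s ∈ cellV a, s ∈ Q → s ∈ Lc)
    (ρ : Fin 3 → GshRefl) (Kc : Fin 3 → Finset TV) (kq : ∀ i, ∀ y ∈ Kc i, cellV y ⊆ Q) (kc : ∀ i, TscConn tscG (↑(Kc i) : Set TV))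
    (ki : ∀ i, ∀ y ∈ Kc i, (ρ i).c y ∈ Kc i)
    (dichC : ∀ i, ∀ P : Set TV, GlJoin tscG (↑(Kc i) ∩ P) AAc CCc ∨ GlJoin tscG (↑(Kc i) ∩ {v | (ρ i).c v ∉ P}) AAc CCc)
    (rows : ∀ i, ∀ z ∈ gapK (ρ i) Q (gapZ (Kc i)), y0 < z.2 ∧ z.2 < y1)
    (hdis : ∀ i j, i ≠ j → ∀ z ∈ gapK (ρ i) Q (gapZ (Kc i)), z ∉ gapK (ρ j) Q (gapZ (Kc j))) :
    ∃ j, 1 / 64 * (clAmb x Q).Z ((glH0 (clAmb x Q) Cb La Lc Ld Lb).Holds (clAmb x Q)) ≤
      (clAmb x Q).N ((glH0 (clAmb x Q) Cb La Lc Ld Lb).Holds (clAmb x Q))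
        (glInd (fun ω => GlJoinC (clAmb x Q) (↑(Kc j) ∩ glOn (clAmb x Q) 1 ω) La Lc)) := by
  have hQ : TriSCOn (ZMod 2) tscG (↑Q : Set TV) := (pcp_amb_sc_iff x Q).1 hS.sc
  have cQ : TscConn tscG (↑Q : Set TV) := hP.conn
  have lay := gaq_lay hS hCb
  have ac := gaq_ac hS
  have far : ∀ i, ∀ z ∈ gapK (ρ i) Q (gapZ (Kc i)), z ∉ Ld ∧ z ∉ Lb := by
    intro i z hz
    obtain ⟨r1, r2⟩ := rows i z hz
    exact ⟨fun h => by have := ld0 z h; omega, fun h => by have := lb1 z h; omega⟩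
  have kn : ∀ i, (Kc i).Nonempty := fun i => gaq_ne (ρ i) (Kc i) AAc CCc (dichC i)
  have hk0 : ∀ i, gapK0 (ρ i) La Lc (Kc i) ⊆ gapK (ρ i) Q (gapZ (Kc i)) :=
    fun i v hv => gap_Z_sub (gap_Z_subI (kq i) (ki i)) (gap_mem_K0.1 hv).1
  obtain ⟨i, j, k, _, _, _, b1, b3⟩ := pcl_three hP (fun i => (↑(gapK (ρ i) Q (gapZ (Kc i))) : Set TV)) (fun i => (↑(gapK0 (ρ i) La Lc (Kc i)) : Set TV))
    (fun i => gaq_pcl (ρ i) Q La Lc (Kc i) (kq i) (ki i) AAc CCc hA hC (dichC i) (kc i) (rows i))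
    (fun i j hij z hz hz' => hdis i j hij z (Finset.mem_coe.1 hz) (Finset.mem_coe.1 hz'))
    (fun i => Finset.coe_subset.2 (hk0 i))
    (fun i v hv w _ hadj => Finset.mem_coe.2 (gaq_K0_cl (ρ i) Q La Lc Ld Lb (Kc i) lay (kq i) (ki i) (far i) v (Finset.mem_coe.1 hv) w hadj))
  have pl : ∀ i, GlPlaceC (clAmb x Q) Cb La Lc Ld Lb (gapK (ρ i) Q (gapZ (Kc i))) (gapK0 (ρ i) La Lc (Kc i)) (Kc i)
      (gshX x Q (Q.image (ρ i).f) (gapK (ρ i) Q (gapZ (Kc i)))) plrE1 (fun y => (y, true)) (plrSw (↑(gapK (ρ i) Q (gapZ (Kc i))) : Set TV) (ρ i).f)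
      (gshPsi (ρ i) Q (gapK (ρ i) Q (gapZ (Kc i)))) :=
    fun i => gap_placeC hx hx1 hh (ρ i) Q La Lc Ld Lb (Kc i) Cb hQ cQ lay hCb (kq i) (kn i) (kc i) (ki i) (far i) ac AAc CCc hA hC (dichC i)
  refine ⟨j, gl_three (clAmb x Q) Cb La Lc Ld Lb hS _ _ _ _ _ _ _ (pl i).toGlPlace _ _ _ _ _ _ _ (pl k).toGlPlace _ _ _ _ _ _ _ _ (pl j)
    (gap_K_conn' (ρ j) Q (Kc j) (kq j) (kc j) (ki j) x) (gap_K_ne (ρ j) Q (Kc j) (kq j) (kn j) (ki j)) ?_ ?_⟩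
  · exact gaq_blk x hS.la hS.lc ((hk0 i).trans (gap_K_sub _ _ _)) b1
  · exact gaq_blk x hS.la hS.lc ((hk0 k).trans (gap_K_sub _ _ _)) b3

/-- **the same for places given as `Set`s inside the finite set `M` of the free cells** (`HxrPlace` of 105: `kc i := (hK i).conn`, `ki i := (hK i).inv`, `dichC i := (hK i).dich`) -/
theorem gaq_three_set {x : ℝ} (hx : 0 < x) (hx1 : x ≤ 1) (hh : 1 / 2 ≤ x ^ 2) (Q La Lc Ld Lb M Cb : Finset TV)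
    (hS : GlStrip (clAmb x Q) Cb La Lc Ld Lb) (hCb : glCb Q ⊆ Cb) (hM : ∀ y ∈ M, cellV y ⊆ Q) {y0 y1 xm xM : ℤ}
    (hP : PclStrip y0 y1 xm xM (↑Q : Set TV) ↑La ↑Lc ↑(Ld \ (La ∪ Lc)) ↑(Lb \ (La ∪ Lc)))
    (ld0 : ∀ d ∈ Ld, d.2 = y0) (lb1 : ∀ b ∈ Lb, b.2 = y1)
    (AAc CCc : Set TV) (hA : ∀ a ∈ AAc, ∀ s ∈ cellV a, s ∈ Q → s ∈ La) (hC : ∀ a ∈ CCc, ∀ s ∈ cellV a, s ∈ Q → s ∈ Lc)
    (ρ : Fin 3 → GshRefl) (K : Fin 3 → Set TV) (hKM : ∀ i, K i ⊆ (↑M : Set TV)) (kc : ∀ i, TscConn tscG (K i))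
    (ki : ∀ i, ∀ y ∈ K i, (ρ i).c y ∈ K i)
    (dichC : ∀ i, ∀ P : Set TV, GlJoin tscG (K i ∩ P) AAc CCc ∨ GlJoin tscG (K i ∩ {v | (ρ i).c v ∉ P}) AAc CCc)
    (rows : ∀ i, ∀ z ∈ gapK (ρ i) Q (gapZ (gapF M (K i))), y0 < z.2 ∧ z.2 < y1)
    (hdis : ∀ i j, i ≠ j → ∀ z ∈ gapK (ρ i) Q (gapZ (gapF M (K i))), z ∉ gapK (ρ j) Q (gapZ (gapF M (K j)))) :
    ∃ Kc : Finset TV, Kc ⊆ M ∧ 1 / 64 * (clAmb x Q).Z ((glH0 (clAmb x Q) Cb La Lc Ld Lb).Holds (clAmb x Q)) ≤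
      (clAmb x Q).N ((glH0 (clAmb x Q) Cb La Lc Ld Lb).Holds (clAmb x Q))
        (glInd (fun ω => GlJoinC (clAmb x Q) (↑Kc ∩ glOn (clAmb x Q) 1 ω) La Lc)) := by
  have e := fun i => gap_F_coe (hKM i)
  obtain ⟨j, hj⟩ := gaq_three hx hx1 hh Q La Lc Ld Lb Cb hS hCb hP ld0 lb1 AAc CCc hA hC ρ (fun i => gapF M (K i))
    (fun i y hy => hM y (gap_mem_F.1 hy).1) (fun i => by rw [e i]; exact kc i)
    (fun i y hy => by
      have h1 := ki i y (gap_mem_F.1 hy).2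
      exact gap_mem_F.2 ⟨Finset.mem_coe.1 (hKM i h1), h1⟩)
    (fun i => by rw [e i]; exact dichC i) rows hdis
  exact ⟨gapF M (K j), fun y hy => (gap_mem_F.1 hy).1, hj⟩

end Claimed.Agent.R291
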