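import Claimed.Agent.R291.Glue.Enter
import Claimed.Agent.R291.Defs.Seed
import Claimed.Agent.R291.Ann.RswCyl

/-!
# Row 291 (S0539), unit ANN, block A1, Glue/EnterB : THE ENTRANCE, GEOMETRIC DICTIONARY      (owner helper63; prefix `enb_`, structure `EnbWin`)

Companion of `Glue/Enter` (164): what `entClip T Q qb`, `T.cin Q`, `entCb T Q`, `entLay T Q (T.cin Q)` ARE for the two ambients in use.
* **PLANE** `T = clAmb x V`:   **(A)** `enb_clip_amb : Q ⊆ V → entClip (clAmb x V) Q x = clAmb x Q` (plain equality);   if every up-cell which meets `Q` lies in `V` (`enb_pl_of_cl : latCl Q ⊆ V → …`):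
  `enb_pl_cin : cin = latCellsIn Q`,  `enb_pl_cb : entCb = latCells Q \ latCellsIn Q`,  `enb_pl_lay : entLay = latBd Q`   (`enb_bd_iff`: boundary site = site of an up-cell which is not inside).
* **CYLINDER** `T = sdSys x L T 0 H`:  `EnbWin L H w T φ ψ Q0` = `φ` (sites), `ψ` (indices) planar symmetry mapping `cellV y` to the cell of class `T` of index `ψ y`, and `φ '' Q0` lies in the window
  `w < i`, `i + 1 < w + L`, `0 < j < H`.   With `f = sdRed L ∘ φ`, `k = sdRed L ∘ ψ`: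
  **`enb_win_gen : CuIso (clAmb x Q0) (entClip (sdSys x L T 0 H) (Q0.image f) x) f k`**,   `enb_cyl_cin : cin = (latCellsIn Q0).image k`,  `enb_cyl_cb : entCb = (latCells Q0 \ latCellsIn Q0).image k`,
  `enb_cyl_lay : entLay = (latBd Q0).image f`;   kit: `enb_injV`, `enb_injY`, `enb_injOn`, `enb_mem_cell`, `enb_sub_iff`, `enb_lift`, `enb_meet_iff`, `enb_idx_mem`, `enb_site_mem`.
* instances: `enb_W_true` (identity), `enb_W_tr a` (translation), `enb_W_false c` (point reflection `u ↦ c - u`, `y ↦ c - (1,1) - y`, class `false`);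
  **(B)** `enb_win_true`, `enb_win_tr`, **(B')** `enb_win_false`.
* **AMBIENT DISC** `rscAmb x L T a b` (255: cylinder + cone), `Q` above the row `a`: `enb_rsc_clip : entClip (rscAmb ..) Q qb = entClip (sdSys ..) Q qb`, `enb_rsc_cin`, `enb_rsc_cb`, `enb_rsc_lay` (same retained cells, boundary cells, layer),
  `enb_rsc_win` (the window CuIso in the ambient disc).
-/

set_option autoImplicit false
set_option linter.unusedSectionVars false
set_option linter.unusedVariables false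

namespace Claimed.Agent.R291

open Relation

/-! ### 0. cells and the reduction -/

theorem enb_card_iff (y : TV) (Q : Finset TV) : (cellV y ∩ Q).card = 3 ↔ cellV y ⊆ Q := by
  have h3 : (cellV y).card = 3 := by
    unfold cellV
    rw [Finset.card_insert_of_notMem, Finset.card_insert_of_notMem, Finset.card_singleton]
    · simp [Prod.ext_iff]
    · simp [Prod.ext_iff]
  constructor
  · intro h
    have : cellV y ∩ Q = cellV y := Finset.eq_of_subset_of_card_le Finset.inter_subset_left (by rw [h, h3])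
    exact Finset.inter_eq_left.1 this
  · intro h
    rw [Finset.inter_eq_left.2 h, h3]

/-- the reduction is injective on a window of width `L` -/
theorem enb_red_inj {L : ℕ} {w : ℤ} {u v : TV} (hu1 : w ≤ u.1) (hu2 : u.1 < w + L) (hv1 : w ≤ v.1) (hv2 : v.1 < w + L)
    (h : sdRed L u = sdRed L v) : u = v := by
  unfold sdRed at h
  have h1 : u.1 % (L : ℤ) = v.1 % (L : ℤ) := (Prod.ext_iff.1 h).1
  have h2 : u.2 = v.2 := (Prod.ext_iff.1 h).2
  have e : ∀ t : ℤ, w ≤ t → t < w + L → (t % (L : ℤ) - w) % (L : ℤ) = t - w := fun t h1 h2 => by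
    rw [Int.emod_sub_emod, Int.emod_eq_of_lt (by omega) (by omega)]
  have e1 := e u.1 hu1 hu2
  have e2 := e v.1 hv1 hv2
  rw [h1] at e1
  exact Prod.ext (by omega) h2

/-- the triangle of class `T` and index `y` -/
theorem enb_tri_rng {T : Bool} {y v : TV} (h : v ∈ (if T then cellV y else cellD y)) :
    (v.1 = y.1 ∨ v.1 = y.1 + 1) ∧ (v.2 = y.2 ∨ v.2 = y.2 + 1) := by
  cases T
  · simp only [Bool.false_eq_true, if_false, cellD, Finset.mem_insert, Finset.mem_singleton] at h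
    rcases h with rfl | rfl | rfl <;> simp
  · simp only [if_true, cellV, Finset.mem_insert, Finset.mem_singleton] at h
    rcases h with rfl | rfl | rfl <;> simp

theorem enb_tri_add {T : Bool} {y v : TV} (a : TV) (h : v ∈ (if T then cellV y else cellD y)) :
    v + a ∈ (if T then cellV (y + a) else cellD (y + a)) := by
  cases T
  · simp only [Bool.false_eq_true, if_false, cellD, Finset.mem_insert, Finset.mem_singleton] at h ⊢
    rcases h with rfl | rfl | rfl
    · left; abel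
    · right; left; abel
    · right; right; abel
  · simp only [if_true, cellV, Finset.mem_insert, Finset.mem_singleton] at h ⊢
    rcases h with rfl | rfl | rfl
    · left; rfl
    · right; left; abel
    · right; right; abel

theorem enb_red_shift (L : ℕ) (z : TV) (k : ℤ) (hk : (L : ℤ) ∣ k) : sdRed L (z + (k, 0)) = sdRed L z := by
  unfold sdRed
  obtain ⟨m, rfl⟩ := hk
  ext
  · simp
  · simp

theorem enb_red_self {L : ℕ} {u : TV} (h0 : 0 ≤ u.1) (h1 : u.1 < L) : sdRed L u = u := by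
  unfold sdRed
  rw [Int.emod_eq_of_lt h0 h1]

theorem enb_cell_red (L : ℕ) (T : Bool) (y : TV) : sdCell L T (sdRed L y) = sdCell L T y := by
  have e : ∀ d : TV, sdRed L (sdRed L y + d) = sdRed L (y + d) := fun d => by
    unfold sdRed
    ext
    · simp
    · simp
  unfold sdCell
  cases T
  · simp only [Bool.false_eq_true, if_false, cellD, Finset.image_insert, Finset.image_singleton, e]
  · have e0 : sdRed L (sdRed L y) = sdRed L y := by simpa using e 0
    simp only [if_true, cellV, Finset.image_insert, Finset.image_singleton, e, e0]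

/-! ### 1. (A) the planar clip -/

/-- **(A)** the closed system cut out of a planar ambient is the planar closed system -/
theorem enb_clip_amb (x : ℝ) {Q V : Finset TV} (hQ : Q ⊆ V) : entClip (clAmb x V) Q x = clAmb x Q := by
  have hsv : ∀ y : TV, cellV y ∩ V ∩ Q = cellV y ∩ Q := fun y => by
    rw [Finset.inter_assoc, Finset.inter_eq_right.2 hQ]
  unfold entClip clAmb clPl
  simp only [hsv]
  congr 1
  · ext y
    rw [Finset.mem_filter, lat_mem_cells, lat_mem_cells]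
    constructor
    · rintro ⟨-, u, hu⟩
      exact ⟨u, (Finset.mem_inter.1 hu).1, (Finset.mem_inter.1 hu).2⟩
    · rintro ⟨u, hu, hu'⟩
      exact ⟨⟨u, hu, hQ hu'⟩, u, Finset.mem_inter.2 ⟨hu, hu'⟩⟩
  · funext y
    by_cases h : cellV y ⊆ Q
    · have hV : cellV y ∩ V = cellV y := Finset.inter_eq_left.2 (h.trans hQ)
      rw [hV, if_pos h, if_pos ((enb_card_iff y V).2 (h.trans hQ) ▸ (by rw [hV])), if_pos ((enb_card_iff y Q).2 h)]
    · rw [if_neg (fun h3 => h ((enb_card_iff y Q).1 h3))]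
      by_cases h1 : cellV y ∩ V ⊆ Q
      · rw [if_pos h1, if_neg]
        intro h3
        have := (enb_card_iff y V).1 h3
        rw [Finset.inter_eq_left.2 this] at h1
        exact h h1
      · rw [if_neg h1]

/-! ### 2. the planar dictionary -/

theorem enb_pl_cin (x : ℝ) {Q V : Finset TV} (hV : ∀ y ∈ latCells Q, cellV y ⊆ V) : (clAmb x V).cin Q = latCellsIn Q := by
  ext y
  rw [ent_mem_cin, lat_mem_cellsIn]
  show (y ∈ latCells V ∧ cellV y ∩ V ⊆ Q) ↔ _
  constructor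
  · rintro ⟨h1, h2⟩
    obtain ⟨u, hu, huV⟩ := lat_mem_cells.1 h1
    have hy : y ∈ latCells Q := lat_mem_cells.2 ⟨u, hu, h2 (Finset.mem_inter.2 ⟨hu, huV⟩)⟩
    rwa [Finset.inter_eq_left.2 (hV y hy)] at h2
  · intro h
    have hy : y ∈ latCells Q := lat_mem_cells.2 ⟨y, by simp [cellV], h (by simp [cellV])⟩
    exact ⟨lat_mem_cells.2 ⟨y, by simp [cellV], hV y hy (by simp [cellV])⟩, Finset.inter_subset_left.trans h⟩

theorem enb_pl_cb (x : ℝ) {Q V : Finset TV} (hV : ∀ y ∈ latCells Q, cellV y ⊆ V) : entCb (clAmb x V) Q = latCells Q \ latCellsIn Q := by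
  ext y
  unfold entCb
  rw [Finset.mem_filter, Finset.mem_sdiff, lat_mem_cellsIn]
  show (y ∈ latCells V ∧ (cellV y ∩ V ∩ Q).Nonempty ∧ ¬ cellV y ∩ V ⊆ Q) ↔ _
  constructor
  · rintro ⟨-, ⟨u, hu⟩, h2⟩
    have hy : y ∈ latCells Q := lat_mem_cells.2 ⟨u, (Finset.mem_inter.1 (Finset.mem_inter.1 hu).1).1, (Finset.mem_inter.1 hu).2⟩
    rw [Finset.inter_eq_left.2 (hV y hy)] at h2
    exact ⟨hy, h2⟩
  · rintro ⟨hy, h2⟩
    obtain ⟨u, hu, huQ⟩ := lat_mem_cells.1 hy
    rw [Finset.inter_eq_left.2 (hV y hy)]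
    exact ⟨lat_mem_cells.2 ⟨u, hu, hV y hy hu⟩, ⟨u, Finset.mem_inter.2 ⟨hu, huQ⟩⟩, h2⟩

/-- a site of `Q` lies in an up-cell which is not inside `Q` iff it is a boundary site -/
theorem enb_bd_iff {Q : Finset TV} {u : TV} : u ∈ latBd Q ↔ u ∈ Q ∧ ∃ y, u ∈ cellV y ∧ ¬ cellV y ⊆ Q := by
  rw [lat_mem_bd]
  refine and_congr_right fun hu => ?_
  constructor
  · rintro ⟨v, huv, hv⟩
    obtain ⟨y, h1, h2⟩ := dam_adj_cell huv
    exact ⟨y, h1, fun h => hv (h h2)⟩
  · rintro ⟨y, h1, h2⟩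
    obtain ⟨v, hv, hvQ⟩ := Finset.not_subset.1 h2
    exact ⟨v, dam_cell_adj h1 hv (fun e => hvQ (e ▸ hu)), hvQ⟩

theorem enb_pl_lay (x : ℝ) {Q V : Finset TV} (hV : ∀ y ∈ latCells Q, cellV y ⊆ V) : entLay (clAmb x V) Q ((clAmb x V).cin Q) = latBd Q := by
  ext u
  rw [ent_mem_lay, enb_bd_iff, enb_pl_cin x hV]
  refine and_congr_right fun hu => ?_
  constructor
  · rintro ⟨y, hy, huy⟩
    have huy' : u ∈ cellV y ∩ V := huy
    exact ⟨y, (Finset.mem_inter.1 huy').1, fun h => (Finset.mem_sdiff.1 hy).2 (lat_mem_cellsIn.2 h)⟩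
  · rintro ⟨y, h1, h2⟩
    have hy : y ∈ latCells Q := lat_mem_cells.2 ⟨u, h1, hu⟩
    refine ⟨y, Finset.mem_sdiff.2 ⟨lat_mem_cells.2 ⟨u, h1, hV y hy h1⟩, fun h => h2 (lat_mem_cellsIn.1 h)⟩, ?_⟩
    exact Finset.mem_inter.2 ⟨h1, hV y hy h1⟩

/-- the hypothesis of the dictionary, from the closed neighbourhood -/
theorem enb_pl_of_cl {Q V : Finset TV} (hV : latCl Q ⊆ V) : ∀ y ∈ latCells Q, cellV y ⊆ V := by
  intro y hy v hv
  obtain ⟨u, hu, huQ⟩ := lat_mem_cells.1 hy
  apply hV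
  by_cases e : u = v
  · exact lat_mem_cl.2 (Or.inl (e ▸ huQ))
  · exact lat_mem_cl.2 (Or.inr ⟨u, huQ, dam_cell_adj hu hv e⟩)

/-! ### 3. (B) the cylinder window -/

/-- **a window of the cylinder**: `φ` (sites), `ψ` (indices) a planar symmetry which maps the up-cells to the cells of class `T`; the image of `Q0` lies in a window which does not wrap and
does not touch the two boundary rows -/
structure EnbWin (L H : ℕ) (w : ℤ) (T : Bool) (φ ψ : TV → TV) (Q0 : Finset TV) : Prop where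
  injφ : Function.Injective φ
  bijψ : Function.Bijective ψ
  cell : ∀ y, (cellV y).image φ = if T then cellV (ψ y) else cellD (ψ y)
  win : ∀ u ∈ Q0, w < (φ u).1 ∧ (φ u).1 + 1 < w + L ∧ 0 < (φ u).2 ∧ (φ u).2 < H

section window

variable {L H : ℕ} {w : ℤ} {T : Bool} {φ ψ : TV → TV} {Q0 : Finset TV}

/-- the index of a cell which meets `Q0` -/
theorem enb_idx (g : EnbWin L H w T φ ψ Q0) {y : TV} (hy : y ∈ latCells Q0) :
    w ≤ (ψ y).1 ∧ (ψ y).1 + 1 < w + L ∧ 0 ≤ (ψ y).2 ∧ (ψ y).2 < H := by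
  obtain ⟨u, hu, huQ⟩ := lat_mem_cells.1 hy
  have h1 : φ u ∈ (if T then cellV (ψ y) else cellD (ψ y)) := by
    rw [← g.cell]; exact Finset.mem_image_of_mem _ hu
  have h2 := enb_tri_rng h1
  have h3 := g.win u huQ
  omega

/-- its sites -/
theorem enb_site (g : EnbWin L H w T φ ψ Q0) {y : TV} (hy : y ∈ latCells Q0) {v : TV} (hv : v ∈ cellV y) :
    w ≤ (φ v).1 ∧ (φ v).1 < w + L := by
  have h1 : φ v ∈ (if T then cellV (ψ y) else cellD (ψ y)) := by
    rw [← g.cell]; exact Finset.mem_image_of_mem _ hv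
  have h2 := enb_tri_rng h1
  have h3 := enb_idx g hy
  omega

theorem enb_cell (g : EnbWin L H w T φ ψ Q0) (y : TV) : sdCell L T (sdRed L (ψ y)) = (cellV y).image (fun u => sdRed L (φ u)) := by
  rw [enb_cell_red]
  unfold sdCell
  rw [← g.cell, Finset.image_image]
  rfl

theorem enb_injOn (g : EnbWin L H w T φ ψ Q0) {y : TV} (hy : y ∈ latCells Q0) :
    Set.InjOn (fun u => sdRed L (φ u)) (↑(cellV y) ∪ ↑Q0 : Set TV) := by
  intro a ha b hb hab
  have ga : w ≤ (φ a).1 ∧ (φ a).1 < w + L := by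
    rcases ha with ha | ha
    · exact enb_site g hy ha
    · have := g.win a ha; omega
  have gb : w ≤ (φ b).1 ∧ (φ b).1 < w + L := by
    rcases hb with hb | hb
    · exact enb_site g hy hb
    · have := g.win b hb; omega
  exact g.injφ (enb_red_inj ga.1 ga.2 gb.1 gb.2 hab)

theorem enb_injV (g : EnbWin L H w T φ ψ Q0) : Set.InjOn (fun u => sdRed L (φ u)) (↑Q0 : Set TV) := by
  intro a ha b hb hab
  have h1 := g.win a ha
  have h2 := g.win b hb
  exact g.injφ (enb_red_inj (w := w) (by omega) (by omega) (by omega) (by omega) hab)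

theorem enb_injY (g : EnbWin L H w T φ ψ Q0) : Set.InjOn (fun y => sdRed L (ψ y)) (↑(latCells Q0) : Set TV) := by
  intro a ha b hb hab
  have h1 := enb_idx g ha
  have h2 := enb_idx g hb
  exact g.bijψ.1 (enb_red_inj (w := w) (by omega) (by omega) (by omega) (by omega) hab)

theorem enb_mem_cell (g : EnbWin L H w T φ ψ Q0) {y : TV} (hy : y ∈ latCells Q0) {u : TV} (hu : u ∈ Q0) :
    sdRed L (φ u) ∈ sdCell L T (sdRed L (ψ y)) ↔ u ∈ cellV y := by
  rw [enb_cell g]
  constructor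
  · intro h
    obtain ⟨v, hv, e⟩ := Finset.mem_image.1 h
    exact (enb_injOn g hy (Or.inl hv) (Or.inr hu) e) ▸ hv
  · exact fun h => Finset.mem_image_of_mem _ h

theorem enb_sub_iff (g : EnbWin L H w T φ ψ Q0) {y : TV} (hy : y ∈ latCells Q0) :
    sdCell L T (sdRed L (ψ y)) ⊆ Q0.image (fun u => sdRed L (φ u)) ↔ cellV y ⊆ Q0 := by
  rw [enb_cell g]
  constructor
  · intro h v hv
    obtain ⟨u, hu, e⟩ := Finset.mem_image.1 (h (Finset.mem_image_of_mem _ hv))
    exact (enb_injOn g hy (Or.inr hu) (Or.inl hv) e) ▸ hu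
  · exact fun h => Finset.image_subset_image h

theorem enb_idx_mem (g : EnbWin L H w T φ ψ Q0) {y : TV} (hy : y ∈ latCells Q0) : sdRed L (ψ y) ∈ sdCells L 0 H := by
  have h1 := enb_idx g hy
  have hL : (0 : ℤ) < L := by omega
  unfold sdRed sdCells
  simp only [Finset.mem_product, Finset.mem_Ico]
  exact ⟨⟨Int.emod_nonneg _ hL.ne', Int.emod_lt_of_pos _ hL⟩, h1.2.2.1, h1.2.2.2⟩

theorem enb_site_mem (g : EnbWin L H w T φ ψ Q0) : Q0.image (fun u => sdRed L (φ u)) ⊆ sdSites L 0 H := by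
  intro p hp
  obtain ⟨u, hu, rfl⟩ := Finset.mem_image.1 hp
  have h1 := g.win u hu
  have hL : (0 : ℤ) < L := by omega
  unfold sdRed sdSites
  simp only [Finset.mem_product, Finset.mem_Ico, Finset.mem_Icc]
  exact ⟨⟨Int.emod_nonneg _ hL.ne', Int.emod_lt_of_pos _ hL⟩, h1.2.2.1.le, h1.2.2.2.le⟩

/-- a cell of the cylinder which contains the image of a site `u` of `Q0` is the image of a planar cell which contains `u` -/
theorem enb_lift (g : EnbWin L H w T φ ψ Q0) {z : TV} (hz : z ∈ sdCells L 0 H) {u : TV} (hu : u ∈ Q0) (hp : sdRed L (φ u) ∈ sdCell L T z) :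
    ∃ y ∈ latCells Q0, u ∈ cellV y ∧ sdRed L (ψ y) = z := by
  unfold sdCell at hp
  obtain ⟨t, ht, e⟩ := Finset.mem_image.1 hp
  have e1 : t.1 % (L : ℤ) = (φ u).1 % (L : ℤ) := (Prod.ext_iff.1 e).1
  have e2 : t.2 = (φ u).2 := (Prod.ext_iff.1 e).2
  have hk : (L : ℤ) ∣ (φ u).1 - t.1 := Int.ModEq.dvd e1
  obtain ⟨y, hy⟩ := g.bijψ.2 (z + ((φ u).1 - t.1, 0))
  have h1 : φ u ∈ (if T then cellV (ψ y) else cellD (ψ y)) := by
    rw [hy]
    have := enb_tri_add ((φ u).1 - t.1, 0) ht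
    have e3 : t + ((φ u).1 - t.1, 0) = φ u := by
      ext
      · simp
      · simp [e2]
    rwa [e3] at this
  rw [← g.cell] at h1
  obtain ⟨u', hu', e4⟩ := Finset.mem_image.1 h1
  have e5 := g.injφ e4
  subst e5
  refine ⟨y, lat_mem_cells.2 ⟨u', hu', hu⟩, hu', ?_⟩
  rw [hy, enb_red_shift L z _ hk]
  unfold sdCells at hz
  simp only [Finset.mem_product, Finset.mem_Ico] at hz
  exact enb_red_self hz.1.1 hz.1.2

/-- **the window, general form** -/
theorem enb_win_gen (x : ℝ) (g : EnbWin L H w T φ ψ Q0) :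
    CuIso (clAmb x Q0) (entClip (sdSys x L T 0 H) (Q0.image (fun u => sdRed L (φ u))) x) (fun u => sdRed L (φ u)) (fun y => sdRed L (ψ y)) := by
  refine ⟨enb_injV g, enb_injY g, rfl, ?_, ?_, ?_⟩
  · ext z
    show z ∈ (latCells Q0).image (fun y => sdRed L (ψ y)) ↔
      z ∈ (sdCells L 0 H).filter (fun y => (sdCell L T y ∩ Q0.image (fun u => sdRed L (φ u))).Nonempty)
    rw [Finset.mem_image, Finset.mem_filter]
    constructor
    · rintro ⟨y, hy, rfl⟩
      refine ⟨enb_idx_mem g hy, ?_⟩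
      obtain ⟨u, hu, huQ⟩ := lat_mem_cells.1 hy
      exact ⟨sdRed L (φ u), Finset.mem_inter.2 ⟨(enb_mem_cell g hy huQ).2 hu, Finset.mem_image_of_mem _ huQ⟩⟩
    · rintro ⟨hz, p, hp⟩
      obtain ⟨hp1, hp2⟩ := Finset.mem_inter.1 hp
      obtain ⟨u, hu, rfl⟩ := Finset.mem_image.1 hp2
      obtain ⟨y, hy, -, e⟩ := enb_lift g hz hu hp1
      exact ⟨y, hy, e⟩
  · intro y hy
    show sdCell L T (sdRed L (ψ y)) ∩ Q0.image (fun u => sdRed L (φ u)) = (cellV y ∩ Q0).image (fun u => sdRed L (φ u))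
    rw [enb_cell g, Finset.image_inter_of_injOn _ _ (by exact_mod_cast enb_injOn g hy)]
  · intro y hy
    show (if sdCell L T (sdRed L (ψ y)) ⊆ Q0.image (fun u => sdRed L (φ u)) then x ^ 2 else x) = if (cellV y ∩ Q0).card = 3 then x ^ 2 else x
    by_cases h : cellV y ⊆ Q0
    · rw [if_pos ((enb_sub_iff g hy).2 h), if_pos ((enb_card_iff y Q0).2 h)]
    · rw [if_neg (fun h' => h ((enb_sub_iff g hy).1 h')), if_neg (fun h' => h ((enb_card_iff y Q0).1 h'))]

/-! ### 4. the dictionary of the window -/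

/-- the cells of the cylinder which meet the window -/
theorem enb_meet_iff (g : EnbWin L H w T φ ψ Q0) {z : TV} :
    (z ∈ sdCells L 0 H ∧ (sdCell L T z ∩ Q0.image (fun u => sdRed L (φ u))).Nonempty) ↔ ∃ y ∈ latCells Q0, sdRed L (ψ y) = z := by
  have := (enb_win_gen 0 g).C
  have h2 : z ∈ (latCells Q0).image (fun y => sdRed L (ψ y)) ↔
      z ∈ (sdCells L 0 H).filter (fun y => (sdCell L T y ∩ Q0.image (fun u => sdRed L (φ u))).Nonempty) := by
    rw [show (latCells Q0).image (fun y => sdRed L (ψ y)) = _ from this]; rfl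
  rw [Finset.mem_image, Finset.mem_filter] at h2
  exact h2.symm

theorem enb_cell_ne (L : ℕ) (T : Bool) (z : TV) : (sdCell L T z).Nonempty := by
  unfold sdCell
  cases T
  · exact ⟨sdRed L (z + (1, 0)), Finset.mem_image_of_mem _ (by simp [cellD])⟩
  · exact ⟨sdRed L z, Finset.mem_image_of_mem _ (by simp [cellV])⟩

/-- retained cells -/
theorem enb_cyl_cin (x : ℝ) (g : EnbWin L H w T φ ψ Q0) :
    (sdSys x L T 0 H).cin (Q0.image (fun u => sdRed L (φ u))) = (latCellsIn Q0).image (fun y => sdRed L (ψ y)) := by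
  ext z
  rw [ent_mem_cin, Finset.mem_image]
  show (z ∈ sdCells L 0 H ∧ sdCell L T z ⊆ _) ↔ _
  constructor
  · rintro ⟨h1, h2⟩
    obtain ⟨y, hy, rfl⟩ := (enb_meet_iff g).1 ⟨h1, by rw [Finset.inter_eq_left.2 h2]; exact enb_cell_ne L T z⟩
    exact ⟨y, lat_mem_cellsIn.2 ((enb_sub_iff g hy).1 h2), rfl⟩
  · rintro ⟨y, hy, rfl⟩
    have h1 := lat_mem_cellsIn.1 hy
    have hy' : y ∈ latCells Q0 := lat_mem_cells.2 ⟨y, by simp [cellV], h1 (by simp [cellV])⟩
    exact ⟨enb_idx_mem g hy', (enb_sub_iff g hy').2 h1⟩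

/-- boundary cells -/
theorem enb_cyl_cb (x : ℝ) (g : EnbWin L H w T φ ψ Q0) :
    entCb (sdSys x L T 0 H) (Q0.image (fun u => sdRed L (φ u))) = (latCells Q0 \ latCellsIn Q0).image (fun y => sdRed L (ψ y)) := by
  ext z
  unfold entCb
  rw [Finset.mem_filter, Finset.mem_image]
  show (z ∈ sdCells L 0 H ∧ (sdCell L T z ∩ _).Nonempty ∧ ¬ sdCell L T z ⊆ _) ↔ _
  constructor
  · rintro ⟨h1, h2, h3⟩
    obtain ⟨y, hy, rfl⟩ := (enb_meet_iff g).1 ⟨h1, h2⟩
    exact ⟨y, Finset.mem_sdiff.2 ⟨hy, fun h => h3 ((enb_sub_iff g hy).2 (lat_mem_cellsIn.1 h))⟩, rfl⟩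
  · rintro ⟨y, hy, rfl⟩
    obtain ⟨hy1, hy2⟩ := Finset.mem_sdiff.1 hy
    obtain ⟨a1, a2⟩ := (enb_meet_iff g).2 ⟨y, hy1, rfl⟩
    exact ⟨a1, a2, fun h => hy2 (lat_mem_cellsIn.2 ((enb_sub_iff g hy1).1 h))⟩

/-- the layer -/
theorem enb_cyl_lay (x : ℝ) (g : EnbWin L H w T φ ψ Q0) :
    entLay (sdSys x L T 0 H) (Q0.image (fun u => sdRed L (φ u))) ((sdSys x L T 0 H).cin (Q0.image (fun u => sdRed L (φ u))))
      = (latBd Q0).image (fun u => sdRed L (φ u)) := by
  ext p
  rw [ent_mem_lay]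
  constructor
  · rintro ⟨hp, z, hz, hpz⟩
    obtain ⟨u, hu, rfl⟩ := Finset.mem_image.1 hp
    refine Finset.mem_image.2 ?_
    obtain ⟨hz1, hz2⟩ := Finset.mem_sdiff.1 hz
    obtain ⟨y, hy, huy, rfl⟩ := enb_lift g hz1 hu hpz
    refine ⟨u, enb_bd_iff.2 ⟨hu, y, huy, fun h => hz2 ?_⟩, rfl⟩
    exact ent_mem_cin.2 ⟨hz1, (enb_sub_iff g hy).2 h⟩
  · intro hp
    obtain ⟨u, hu, rfl⟩ := Finset.mem_image.1 hp
    obtain ⟨huQ, y, huy, hy2⟩ := enb_bd_iff.1 hu
    have hy : y ∈ latCells Q0 := lat_mem_cells.2 ⟨u, huy, huQ⟩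
    refine ⟨Finset.mem_image_of_mem _ huQ, sdRed L (ψ y), Finset.mem_sdiff.2 ⟨enb_idx_mem g hy, fun h => hy2 ?_⟩, (enb_mem_cell g hy huQ).2 huy⟩
    exact (enb_sub_iff g hy).1 (ent_mem_cin.1 h).2

end window

/-! ### 5. the three instances -/

theorem enb_W_true {L H : ℕ} {w : ℤ} {Q0 : Finset TV} (hQ : ∀ u ∈ Q0, w < u.1 ∧ u.1 + 1 < w + L ∧ 0 < u.2 ∧ u.2 < H) :
    EnbWin L H w true id id Q0 :=
  ⟨Function.injective_id, Function.bijective_id, fun y => by simp, hQ⟩

theorem enb_W_tr {L H : ℕ} {w : ℤ} (a : TV) {Q0 : Finset TV}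
    (hQ : ∀ u ∈ Q0, w < (u + a).1 ∧ (u + a).1 + 1 < w + L ∧ 0 < (u + a).2 ∧ (u + a).2 < H) :
    EnbWin L H w true (fun u => u + a) (fun u => u + a) Q0 :=
  ⟨add_left_injective a, AddGroup.addRight_bijective a, fun y => by
      simp only [if_true, cellV, Finset.image_insert, Finset.image_singleton]
      congr 2 <;> abel_nf, hQ⟩

theorem enb_W_false {L H : ℕ} {w : ℤ} (c : TV) {Q0 : Finset TV}
    (hQ : ∀ u ∈ Q0, w < (c - u).1 ∧ (c - u).1 + 1 < w + L ∧ 0 < (c - u).2 ∧ (c - u).2 < H) :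
    EnbWin L H w false (fun u => c - u) (fun y => c - (1, 1) - y) Q0 :=
  ⟨sub_right_injective, ⟨sub_right_injective, fun z => ⟨c - (1, 1) - z, sub_sub_cancel _ _⟩⟩, fun y => by
      ext v
      simp only [Bool.false_eq_true, if_false, cellV, cellD, Finset.image_insert, Finset.image_singleton, Finset.mem_insert,
        Finset.mem_singleton, Prod.ext_iff, Prod.fst_sub, Prod.snd_sub, Prod.fst_add, Prod.snd_add]
      constructor
      · rintro (h | h | h)
        · right; right; constructor <;> omega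
        · right; left; constructor <;> omega
        · left; constructor <;> omega
      · rintro (h | h | h)
        · right; right; constructor <;> omega
        · right; left; constructor <;> omega
        · left; constructor <;> omega, hQ⟩

/-- **(B)** class `true`: a planar window of the cylinder -/
theorem enb_win_true (x : ℝ) {L H : ℕ} {w : ℤ} (Q0 : Finset TV) (hQ : ∀ u ∈ Q0, w < u.1 ∧ u.1 + 1 < w + L ∧ 0 < u.2 ∧ u.2 < H) :
    CuIso (clAmb x Q0) (entClip (sdSys x L true 0 H) (Q0.image (sdRed L)) x) (sdRed L) (sdRed L) :=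
  enb_win_gen x (enb_W_true hQ)

/-- class `true`, translated -/
theorem enb_win_tr (x : ℝ) {L H : ℕ} {w : ℤ} (a : TV) (Q0 : Finset TV)
    (hQ : ∀ u ∈ Q0, w < (u + a).1 ∧ (u + a).1 + 1 < w + L ∧ 0 < (u + a).2 ∧ (u + a).2 < H) :
    CuIso (clAmb x Q0) (entClip (sdSys x L true 0 H) (Q0.image (fun u => sdRed L (u + a))) x) (fun u => sdRed L (u + a)) (fun y => sdRed L (y + a)) :=
  enb_win_gen x (enb_W_tr a hQ)

/-- **(B')** class `false`: the point reflection `u ↦ c - u` maps `cellV y` to `cellD (c - (1,1) - y)` -/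
theorem enb_win_false (x : ℝ) {L H : ℕ} {w : ℤ} (c : TV) (Q0 : Finset TV)
    (hQ : ∀ u ∈ Q0, w < (c - u).1 ∧ (c - u).1 + 1 < w + L ∧ 0 < (c - u).2 ∧ (c - u).2 < H) :
    CuIso (clAmb x Q0) (entClip (sdSys x L false 0 H) (Q0.image (fun u => sdRed L (c - u))) x) (fun u => sdRed L (c - u))
      (fun y => sdRed L (c - (1, 1) - y)) :=
  enb_win_gen x (enb_W_false c hQ)

/-! ### 6. the ambient disc `rscAmb` (cylinder + cone): same clip, same dictionary -/

section cone

variable {L : ℕ} {T : Bool} {a b : ℤ} {Q : Finset TV}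

theorem enb_cell_rows {y v : TV} (h : v ∈ sdCell L T y) : v.2 = y.2 ∨ v.2 = y.2 + 1 := by
  unfold sdCell at h
  obtain ⟨t, ht, rfl⟩ := Finset.mem_image.1 h
  exact (enb_tri_rng ht).2

theorem enb_rsc_inter (x : ℝ) (hQ : ∀ v ∈ Q, a < v.2) (y : TV) : (rscAmb x L T a b).sv y ∩ Q = sdCell L T y ∩ Q := by
  by_cases h : y.2 = a - 1
  · rw [rsc_amb_sv0 x L T a b h]
    have e1 : ({(0, a - 1), (y.1, a), (rscNx L y.1, a)} : Finset TV) ∩ Q = ∅ := by
      refine Finset.eq_empty_of_forall_notMem fun v hv => ?_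
      obtain ⟨h1, h2⟩ := Finset.mem_inter.1 hv
      have h3 := hQ v h2
      simp only [Finset.mem_insert, Finset.mem_singleton] at h1
      rcases h1 with rfl | rfl | rfl <;> simp only at h3 <;> omega
    have e2 : sdCell L T y ∩ Q = ∅ := by
      refine Finset.eq_empty_of_forall_notMem fun v hv => ?_
      obtain ⟨h1, h2⟩ := Finset.mem_inter.1 hv
      have h3 := hQ v h2
      have h4 := enb_cell_rows h1
      omega
    rw [e1, e2]
  · rw [rsc_amb_sv1 x L T a b h]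

theorem enb_rsc_sub (x : ℝ) (hQ : ∀ v ∈ Q, a < v.2) (y : TV) : (rscAmb x L T a b).sv y ⊆ Q ↔ sdCell L T y ⊆ Q := by
  by_cases h : y.2 = a - 1
  · constructor
    · intro h1
      rw [rsc_amb_sv0 x L T a b h] at h1
      have := hQ _ (h1 (Finset.mem_insert_self _ _))
      simp only at this
      omega
    · intro h1
      obtain ⟨v, hv⟩ := enb_cell_ne L T y
      have h3 := hQ v (h1 hv)
      have h4 := enb_cell_rows hv
      omega
  · rw [rsc_amb_sv1 x L T a b h]

theorem enb_rsc_mem (x : ℝ) (hQ : ∀ v ∈ Q, a < v.2) (y : TV) (hy : (sdCell L T y ∩ Q).Nonempty) : y ∈ (rscAmb x L T a b).C ↔ y ∈ sdCells L a b := by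
  obtain ⟨v, hv⟩ := hy
  obtain ⟨h1, h2⟩ := Finset.mem_inter.1 hv
  have h3 := hQ v h2
  have h4 := enb_cell_rows h1
  rw [rsc_amb_mem_C, rsc_mem_cells]
  constructor
  · rintro ⟨g1, g2⟩; exact ⟨g1, by omega, g2.2⟩
  · rintro ⟨g1, g2⟩; exact ⟨g1, by omega, g2.2⟩

/-- the closed system cut out of the ambient disc = the one cut out of the cylinder -/
theorem enb_rsc_clip (x : ℝ) (hQ : ∀ v ∈ Q, a < v.2) (qb : ℝ) : entClip (rscAmb x L T a b) Q qb = entClip (sdSys x L T a b) Q qb := by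
  unfold entClip
  have e1 : (fun y => (rscAmb x L T a b).sv y ∩ Q) = fun y => (sdSys x L T a b).sv y ∩ Q := funext fun y => enb_rsc_inter x hQ y
  have e2 : (fun y => if (rscAmb x L T a b).sv y ⊆ Q then (rscAmb x L T a b).q y else qb) =
      fun y => if (sdSys x L T a b).sv y ⊆ Q then (sdSys x L T a b).q y else qb := funext fun y => by
    by_cases h : sdCell L T y ⊆ Q
    · rw [if_pos ((enb_rsc_sub x hQ y).2 h), if_pos (show (sdSys x L T a b).sv y ⊆ Q from h)]; rfl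
    · rw [if_neg (fun h' => h ((enb_rsc_sub x hQ y).1 h')), if_neg (show ¬ (sdSys x L T a b).sv y ⊆ Q from h)]
  have e3 : (rscAmb x L T a b).C.filter (fun y => ((rscAmb x L T a b).sv y ∩ Q).Nonempty) =
      (sdSys x L T a b).C.filter (fun y => ((sdSys x L T a b).sv y ∩ Q).Nonempty) := by
    ext y
    rw [Finset.mem_filter, Finset.mem_filter, enb_rsc_inter x hQ y]
    exact and_congr_left fun h => enb_rsc_mem x hQ y h
  rw [e1, e2, e3]

theorem enb_rsc_cin (x : ℝ) (hQ : ∀ v ∈ Q, a < v.2) : (rscAmb x L T a b).cin Q = (sdSys x L T a b).cin Q := by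
  ext y
  rw [ent_mem_cin, ent_mem_cin, enb_rsc_sub x hQ y]
  refine and_congr_left fun h => enb_rsc_mem x hQ y ?_
  rw [Finset.inter_eq_left.2 h]
  exact enb_cell_ne L T y

theorem enb_rsc_cb (x : ℝ) (hQ : ∀ v ∈ Q, a < v.2) : entCb (rscAmb x L T a b) Q = entCb (sdSys x L T a b) Q := by
  ext y
  unfold entCb
  rw [Finset.mem_filter, Finset.mem_filter, enb_rsc_sub x hQ y, enb_rsc_inter x hQ y]
  exact and_congr_left fun h => enb_rsc_mem x hQ y h.1

theorem enb_rsc_lay (x : ℝ) (hQ : ∀ v ∈ Q, a < v.2) :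
    entLay (rscAmb x L T a b) Q ((rscAmb x L T a b).cin Q) = entLay (sdSys x L T a b) Q ((sdSys x L T a b).cin Q) := by
  ext v
  rw [ent_mem_lay, ent_mem_lay, enb_rsc_cin x hQ]
  refine and_congr_right fun hv => ?_
  have key : ∀ y, v ∈ (rscAmb x L T a b).sv y ↔ v ∈ sdCell L T y := fun y => by
    have := enb_rsc_inter (L := L) (T := T) (b := b) x hQ y
    constructor
    · intro h
      exact (Finset.mem_inter.1 (this ▸ Finset.mem_inter.2 ⟨h, hv⟩)).1
    · intro h
      exact (Finset.mem_inter.1 (this.symm ▸ Finset.mem_inter.2 ⟨h, hv⟩)).1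
  constructor
  · rintro ⟨y, hy, hvy⟩
    have h1 := (key y).1 hvy
    obtain ⟨g1, g2⟩ := Finset.mem_sdiff.1 hy
    exact ⟨y, Finset.mem_sdiff.2 ⟨(enb_rsc_mem x hQ y ⟨v, Finset.mem_inter.2 ⟨h1, hv⟩⟩).1 g1, g2⟩, h1⟩
  · rintro ⟨y, hy, hvy⟩
    obtain ⟨g1, g2⟩ := Finset.mem_sdiff.1 hy
    exact ⟨y, Finset.mem_sdiff.2 ⟨(enb_rsc_mem x hQ y ⟨v, Finset.mem_inter.2 ⟨hvy, hv⟩⟩).2 g1, g2⟩, (key y).2 hvy⟩

end cone

/-- the window in the ambient disc -/
theorem enb_rsc_win (x : ℝ) {L H : ℕ} {w : ℤ} {T : Bool} {φ ψ : TV → TV} {Q0 : Finset TV} (g : EnbWin L H w T φ ψ Q0) :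
    CuIso (clAmb x Q0) (entClip (rscAmb x L T 0 H) (Q0.image (fun u => sdRed L (φ u))) x) (fun u => sdRed L (φ u)) (fun y => sdRed L (ψ y)) := by
  rw [enb_rsc_clip x (fun v hv => ?_) x]
  · exact enb_win_gen x g
  · obtain ⟨u, hu, rfl⟩ := Finset.mem_image.1 hv
    exact (g.win u hu).2.2.1

end Claimed.Agent.R291
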