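import Claimed.Agent.R291.Glue.Enter

/-!
# Row 291 (S0539), unit ANN, blocks A1 / A3-II, Glue/EnterM : THE ENTRANCE FOR A RECORD `lenObs` AND A SET `M` OF CELLS NEVER LOOKED AT      (owner helper255; prefix `enm_`, `enm`, `Enm`)

Companion of `Glue/Enter` (164).   `EntRec` of 164 retains ALL the cells inside `Q` (`YR = T.cin Q`).   For the record of the two explorations of A3-II (269, 36) the strip is `Q = sites(M)`, `M` = the free cells between the two
extremal crossings, and a SPIKE cell of a crossing may have its three sites in `Q`: it is an OBSERVED cell inside `Q`.   So the retained cells must be `YR = M`; the other cells which meet `Q` are boundary cells of the closed system.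

* `enmQ T M` = sites of the cells of `M`;   closed system `entClip T (enmQ T M) qb` (164);   `enmCb T M` = its cells outside `M`;
* `A`, `C` = the two layers (open-plus cells of the record);   `enmPl T K A C` = kept plus pins = `K.Bp` + sites of the layers,   kept cells `A ∪ C`,   `enmSd T M A` = side = sites of `Q` on the layer `A`;
* `EnmRec T K Qc ω₀ M A C Ld Lb` : bookkeeping facts + the ONLY geometric field `lay` (a site of `Q` in a cell outside `M` lies on one of the four sides, and conversely);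
* **`enm_geo`** : `EnmRec → EntGeo T (entClip ..) (lenObs T K Qc ω₀) Q M Cb La Lc Ld Lb Pl Rib`;      `enm_P2_sub` : ports of the closed system ⊆ ports of the ambient;
* **`enm_join`** : `c Z_Q(glH0) ≤ N_Q(glH0)[join]`, at most `k + 1` ports  ⟹  `c Z_T(record) ≤ 4^k N_T(record)[join]`      (order = hypothesis `EntOrd`; on the cylinder `rsc_order` / `lor_order`).
* `enm_ord_disk`, **`enm_join_disk`** : the same on a disk ambient (`dis_order`; e.g. `rscAmb` with `rsc_amb_disk`);   `enm_mem_P1` : what a port is;   **`enm_join_iso`** : from a reference strip `S₀` isomorphic to the closed system.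
-/

set_option autoImplicit false
set_option linter.unusedSectionVars false
set_option linter.unusedVariables false

namespace Claimed.Agent.R291

open Relation

section abstract

variable {V Y : Type} [DecidableEq V] [DecidableEq Y]

/-- the sites of the cells of `M` -/
def enmQ (T : ClSys V Y) (M : Finset Y) : Finset V := M.biUnion T.sv

/-- the boundary cells of the closed system on `enmQ T M`: the cells outside `M` which meet it -/
def enmCb (T : ClSys V Y) (M : Finset Y) : Finset Y := (T.C.filter (fun y => (T.sv y ∩ enmQ T M).Nonempty)) \ M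

/-- the kept plus pins -/
def enmPl (T : ClSys V Y) (K : ClCon V Y) (A C : Finset Y) : Finset V := K.Bp ∪ (A ∪ C).biUnion T.sv

/-- the side of the strip on the layer `A` -/
def enmSd (T : ClSys V Y) (M A : Finset Y) : Finset V := enmQ T M ∩ A.biUnion T.sv

/-- **what the entrance needs to know about a record `lenObs T K Qc ω₀` and a set `M` of cells never looked at** -/
structure EnmRec (T : ClSys V Y) (K : ClCon V Y) (Qc : Finset Y) (ω₀ : ClCfg V Y) (M A C : Finset Y) (Ld Lb : Finset V) : Prop where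
  okT : ClOk T
  legal : ClLegal T K
  feas : 0 < T.Z ((lenObs T K Qc ω₀).Holds T)
  MC : M ⊆ T.C
  QC : Qc ⊆ T.C
  /-- never looked at -/
  MQ : ∀ y ∈ M, y ∉ Qc
  /-- the basic history does not see the strip -/
  kc : ∀ y ∈ M, y ∉ K.Op ∧ y ∉ K.Om ∧ y ∉ K.Cl
  keq : ∀ e ∈ K.Eq, e.1 ∉ enmQ T M ∧ e.2 ∉ enmQ T M
  kbp : ∀ v ∈ K.Bp, v ∉ enmQ T M
  kbm : ∀ v ∈ K.Bm, v ∉ enmQ T M
  /-- the two layers -/
  AQ : A ⊆ Qc
  CQ : C ⊆ Qc
  Ap : ∀ y ∈ A, clTau T ω₀ y = 1
  Cp : ∀ y ∈ C, clTau T ω₀ y = 1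
  /-- THE GEOMETRIC FIELD: the sites of the strip which lie in a cell outside `M` are the four sides -/
  lay : entLay T (enmQ T M) M = enmSd T M A ∪ enmSd T M C ∪ Ld ∪ Lb

theorem enm_eqns_cite : True := by
  have := @enmQ.eq_1
  have := @enmCb.eq_1
  have := @enmPl.eq_1
  have := @enmSd.eq_1
  trivial

variable {T : ClSys V Y} {K : ClCon V Y} {Qc : Finset Y} {ω₀ : ClCfg V Y} {M A C : Finset Y} {Ld Lb : Finset V}

theorem enm_mem_Q {v : V} : v ∈ enmQ T M ↔ ∃ y ∈ M, v ∈ T.sv y := by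
  unfold enmQ; exact Finset.mem_biUnion

theorem enm_cell_sub {y : Y} (hy : y ∈ M) : T.sv y ⊆ enmQ T M := fun v hv => enm_mem_Q.2 ⟨y, hy, hv⟩

theorem enm_mem_Sd {v : V} : v ∈ enmSd T M A ↔ v ∈ enmQ T M ∧ ∃ y ∈ A, v ∈ T.sv y := by
  unfold enmSd; rw [Finset.mem_inter, Finset.mem_biUnion]

theorem enm_mem_Cb {y : Y} : y ∈ enmCb T M ↔ y ∈ T.C ∧ (T.sv y ∩ enmQ T M).Nonempty ∧ y ∉ M := by
  unfold enmCb; rw [Finset.mem_sdiff, Finset.mem_filter, and_assoc]

/-- the sites of an open-plus cell are plus -/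
theorem enm_plus_sub {y : Y} (h : clTau T ω₀ y = 1) : T.sv y ⊆ ω₀.B := ((amo_tau_pos T ω₀ y).1 h).2

/-- **the entrance data of the record** -/
theorem enm_geo (r : EnmRec T K Qc ω₀ M A C Ld Lb) {qb : ℝ} (h0 : 0 < qb) (h1 : qb ≤ 1) :
    EntGeo T (entClip T (enmQ T M) qb) (lenObs T K Qc ω₀) (enmQ T M) M (enmCb T M) (enmSd T M A) (enmSd T M C) Ld Lb (enmPl T K A C) (A ∪ C) where
  okT := r.okT
  okS := ent_clip_ok r.okT _ h0 h1
  legal := len_obs_legal T K r.legal Qc ω₀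
  feas := r.feas
  QA := fun v hv => by
    obtain ⟨y, hy, hvy⟩ := enm_mem_Q.1 hv
    exact r.okT.sub y (r.MC hy) hvy
  SA := rfl
  YT := r.MC
  YS := fun y hy => by
    refine Finset.mem_filter.2 ⟨r.MC hy, ?_⟩
    rw [Finset.inter_eq_left.2 (enm_cell_sub hy)]
    exact r.okT.ne y (r.MC hy)
  cb := fun y hy hyM => by
    obtain ⟨a1, a2⟩ := Finset.mem_filter.1 hy
    exact enm_mem_Cb.2 ⟨a1, a2, hyM⟩
  cbC := fun y hy => by
    obtain ⟨a1, a2, _⟩ := enm_mem_Cb.1 hy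
    exact Finset.mem_filter.2 ⟨a1, a2⟩
  cbY := fun y hy => (enm_mem_Cb.1 hy).2.2
  cellR := fun y hy => enm_cell_sub hy
  sv := fun y hy => Finset.inter_eq_left.2 (enm_cell_sub hy)
  q := fun y hy => if_pos (enm_cell_sub hy)
  pl := fun v hv => by
    rcases Finset.mem_union.1 hv with h | h
    · exact Finset.mem_union_left _ h
    · obtain ⟨y, hy, hvy⟩ := Finset.mem_biUnion.1 h
      have hyQ : y ∈ Qc := by
        rcases Finset.mem_union.1 hy with h | h
        · exact r.AQ h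
        · exact r.CQ h
      have hτ : clTau T ω₀ y = 1 := by
        rcases Finset.mem_union.1 hy with h | h
        · exact r.Ap y h
        · exact r.Cp y h
      exact Finset.mem_union_right _ (Finset.mem_filter.2 ⟨Finset.mem_biUnion.2 ⟨y, hyQ, hvy⟩, enm_plus_sub hτ hvy⟩)
  rib := fun y hy => by
    rcases Finset.mem_union.1 hy with h | h
    · exact Finset.mem_union_right _ (Finset.mem_filter.2 ⟨r.AQ h, r.Ap y h⟩)
    · exact Finset.mem_union_right _ (Finset.mem_filter.2 ⟨r.CQ h, r.Cp y h⟩)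
  ribS := fun y hy v hv => Finset.mem_union_right _ (Finset.mem_biUnion.2 ⟨y, hy, hv⟩)
  bm := fun v hv hvQ => by
    rcases Finset.mem_union.1 hv with h | h
    · exact absurd hvQ (r.kbm v h)
    · obtain ⟨y, hy, hvy⟩ := Finset.mem_biUnion.1 (Finset.mem_filter.1 h).1
      exact ent_mem_lay.2 ⟨hvQ, y, Finset.mem_sdiff.2 ⟨r.QC hy, fun hM => r.MQ y hM hy⟩, hvy⟩
  obs := fun y hy => by
    obtain ⟨k1, k2, k3⟩ := r.kc y hy
    have hq := r.MQ y hy
    refine ⟨fun h => ?_, fun h => ?_, fun h => ?_⟩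
    · rcases Finset.mem_union.1 h with h | h
      · exact k1 h
      · exact hq (Finset.mem_filter.1 h).1
    · rcases Finset.mem_union.1 h with h | h
      · exact k2 h
      · exact hq (Finset.mem_filter.1 h).1
    · rcases Finset.mem_union.1 h with h | h
      · exact k3 h
      · exact hq (Finset.mem_filter.1 h).1
  eq := r.keq
  plQ := by
    ext v
    simp only [enmPl, Finset.mem_inter, Finset.mem_union, enm_mem_Sd, Finset.mem_biUnion]
    constructor
    · rintro ⟨h | ⟨y, hy | hy, hvy⟩, hQ⟩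
      · exact absurd hQ (r.kbp v h)
      · exact Or.inl ⟨hQ, y, hy, hvy⟩
      · exact Or.inr ⟨hQ, y, hy, hvy⟩
    · rintro (⟨hQ, y, hy, hvy⟩ | ⟨hQ, y, hy, hvy⟩)
      · exact ⟨Or.inr ⟨y, Or.inl hy, hvy⟩, hQ⟩
      · exact ⟨Or.inr ⟨y, Or.inr hy, hvy⟩, hQ⟩
  lay := r.lay
  cbL := fun y hy v hv => by
    obtain ⟨a1, _, a3⟩ := enm_mem_Cb.1 hy
    obtain ⟨b1, b2⟩ := Finset.mem_inter.1 (show v ∈ T.sv y ∩ enmQ T M from hv)
    rw [← r.lay]
    exact ent_mem_lay.2 ⟨b2, y, Finset.mem_sdiff.2 ⟨a1, a3⟩, b1⟩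

/-- the ports of the closed system are ports of the ambient: ONE bound on the number of ports suffices -/
theorem enm_P2_sub (r : EnmRec T K Qc ω₀ M A C Ld Lb) {qb : ℝ} (h0 : 0 < qb) (h1 : qb ≤ 1) :
    entP2 (entClip T (enmQ T M) qb) (enmCb T M) (enmSd T M A) (enmSd T M C) Ld Lb ⊆ entP1 T (lenObs T K Qc ω₀) (enmQ T M) M (enmPl T K A C) (A ∪ C) := by
  have g := enm_geo r h0 h1
  intro v hv
  unfold entP2 at hv
  obtain ⟨y, hy, hvy⟩ := Finset.mem_biUnion.1 hv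
  obtain ⟨hb, a1, a2⟩ := Finset.mem_filter.1 hy
  obtain ⟨b1, _, b3⟩ := enm_mem_Cb.1 hb
  obtain ⟨c1, c2⟩ := Finset.mem_inter.1 (show v ∈ T.sv y ∩ enmQ T M from hvy)
  have hL := g.cbL y hb
  have hex : ∃ u ∈ T.sv y ∩ enmQ T M, u ∈ enmSd T M A ∪ enmSd T M C := by
    by_contra hc
    push Not at hc
    refine a2 fun u hu => ?_
    have h2 := hL hu
    have h3 := hc u hu
    unfold glEnd
    simp only [Finset.mem_union, Finset.mem_sdiff] at h2 h3 ⊢
    tauto
  obtain ⟨u, hu, huL⟩ := hex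
  have huP : u ∈ enmPl T K A C := by
    rw [← g.plQ] at huL
    exact (Finset.mem_inter.1 huL).1
  refine (ent_mem_P1 g).2 ⟨c2, y, b1, b3, fun hR => a1 fun w hw => ?_, c1, u, (Finset.mem_inter.1 hu).1, huP⟩
  obtain ⟨d1, d2⟩ := Finset.mem_inter.1 (show w ∈ T.sv y ∩ enmQ T M from hw)
  rw [← g.plQ]
  exact Finset.mem_inter.2 ⟨g.ribS y hR d1, d2⟩

/-- **THE ENTRANCE FOR THE RECORD**: a bound under the closed strip law gives a bound in the ambient given the record; `k + 1` = bound on the number of ports -/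
theorem enm_join (r : EnmRec T K Qc ω₀ M A C Ld Lb) {qb : ℝ} (h0 : 0 < qb) (h1 : qb ≤ 1)
    (hord : EntOrd T (entSea T (lenObs T K Qc ω₀) (enmQ T M) M (enmPl T K A C) (A ∪ C)) (lenObs T K Qc ω₀))
    {k : ℕ} (hk : (entP1 T (lenObs T K Qc ω₀) (enmQ T M) M (enmPl T K A C) (A ∪ C)).card ≤ k + 1)
    {Kc : Finset Y} (hKc : Kc ⊆ M) {c : ℝ}
    (hc : c * (entClip T (enmQ T M) qb).Z ((glH0 (entClip T (enmQ T M) qb) (enmCb T M) (enmSd T M A) (enmSd T M C) Ld Lb).Holds (entClip T (enmQ T M) qb)) ≤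
      (entClip T (enmQ T M) qb).N ((glH0 (entClip T (enmQ T M) qb) (enmCb T M) (enmSd T M A) (enmSd T M C) Ld Lb).Holds (entClip T (enmQ T M) qb))
        (glInd (fun ω => GlJoinC (entClip T (enmQ T M) qb) (↑Kc ∩ glOn (entClip T (enmQ T M) qb) 1 ω) (enmSd T M A) (enmSd T M C)))) :
    c * T.Z ((lenObs T K Qc ω₀).Holds T) ≤ 4 ^ k * T.N ((lenObs T K Qc ω₀).Holds T) (glInd (fun ω => GlJoinC T (↑Kc ∩ glOn T 1 ω) (enmSd T M A) (enmSd T M C))) := by
  have g := enm_geo r h0 h1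
  have h := ent_join g hord hKc hc
  refine h.trans (mul_le_mul_of_nonneg_right ?_ (len_N_nonneg T r.okT _ _ fun ω _ => gl_ind_nonneg _ ω))
  have h2 := Finset.card_le_card (enm_P2_sub r h0 h1)
  have e : (4 : ℝ) ^ k = 2 ^ (k + k) := by rw [pow_add, ← mul_pow]; norm_num
  rw [e]
  exact pow_le_pow_right₀ (by norm_num) (by omega)

/-- the order hypothesis on a disk ambient (`dis_order`) -/
theorem enm_ord_disk (r : EnmRec T K Qc ω₀ M A C Ld Lb) (hT : ClDisk T) :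
    EntOrd T (entSea T (lenObs T K Qc ω₀) (enmQ T M) M (enmPl T K A C) (A ∪ C)) (lenObs T K Qc ω₀) := by
  have g := enm_geo r (qb := 1) one_pos le_rfl
  exact fun F hF => dis_order T hT _ _ (ent_sea_legal g) g.legal (ent_sea_le g) F hF

/-- **the entrance for the record, disk ambient** (e.g. `rscAmb`, `rsc_amb_disk`) -/
theorem enm_join_disk (r : EnmRec T K Qc ω₀ M A C Ld Lb) (hT : ClDisk T) {qb : ℝ} (h0 : 0 < qb) (h1 : qb ≤ 1)
    {k : ℕ} (hk : (entP1 T (lenObs T K Qc ω₀) (enmQ T M) M (enmPl T K A C) (A ∪ C)).card ≤ k + 1)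
    {Kc : Finset Y} (hKc : Kc ⊆ M) {c : ℝ}
    (hc : c * (entClip T (enmQ T M) qb).Z ((glH0 (entClip T (enmQ T M) qb) (enmCb T M) (enmSd T M A) (enmSd T M C) Ld Lb).Holds (entClip T (enmQ T M) qb)) ≤
      (entClip T (enmQ T M) qb).N ((glH0 (entClip T (enmQ T M) qb) (enmCb T M) (enmSd T M A) (enmSd T M C) Ld Lb).Holds (entClip T (enmQ T M) qb))
        (glInd (fun ω => GlJoinC (entClip T (enmQ T M) qb) (↑Kc ∩ glOn (entClip T (enmQ T M) qb) 1 ω) (enmSd T M A) (enmSd T M C)))) :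
    c * T.Z ((lenObs T K Qc ω₀).Holds T) ≤ 4 ^ k * T.N ((lenObs T K Qc ω₀).Holds T) (glInd (fun ω => GlJoinC T (↑Kc ∩ glOn T 1 ω) (enmSd T M A) (enmSd T M C))) :=
  enm_join r h0 h1 (enm_ord_disk r hT) hk hKc hc

/-- a port is a site of the strip, in a cell outside `M` and off the two layers, which touches a kept plus pin -/
theorem enm_mem_P1 (r : EnmRec T K Qc ω₀ M A C Ld Lb) {v : V} :
    v ∈ entP1 T (lenObs T K Qc ω₀) (enmQ T M) M (enmPl T K A C) (A ∪ C) ↔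
      v ∈ enmQ T M ∧ ∃ y ∈ T.C, y ∉ M ∧ y ∉ A ∪ C ∧ v ∈ T.sv y ∧ ∃ u ∈ T.sv y, u ∈ enmPl T K A C :=
  ent_mem_P1 (enm_geo r (qb := 1) one_pos le_rfl)

section iso

variable {V₀ Y₀ : Type} [DecidableEq V₀] [DecidableEq Y₀] {S₀ : ClSys V₀ Y₀} {φ : V₀ → V} {ψ : Y₀ → Y}
  {Cb₀ : Finset Y₀} {La₀ Lc₀ Ld₀ Lb₀ : Finset V₀}

/-- **THE ENTRANCE FOR THE RECORD, FROM A REFERENCE STRIP** `S₀` (e.g. a planar `clAmb x Q₀`) isomorphic to the closed system on `enmQ T M`: the dictionary is five equalities -/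
theorem enm_join_iso {qb : ℝ} (h0 : 0 < qb) (h1 : qb ≤ 1) (i : CuIso S₀ (entClip T (enmQ T M) qb) φ ψ) (ok₀ : ClOk S₀) (hCb : Cb₀ ⊆ S₀.C)
    (hLa : La₀ ⊆ S₀.A) (hLc : Lc₀ ⊆ S₀.A) (hLd : Ld₀ ⊆ S₀.A) (hLb : Lb₀ ⊆ S₀.A)
    (r : EnmRec T K Qc ω₀ M A C (Ld₀.image φ) (Lb₀.image φ))
    (eCb : enmCb T M = Cb₀.image ψ) (eA : enmSd T M A = La₀.image φ) (eC : enmSd T M C = Lc₀.image φ)
    (hord : EntOrd T (entSea T (lenObs T K Qc ω₀) (enmQ T M) M (enmPl T K A C) (A ∪ C)) (lenObs T K Qc ω₀))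
    {k : ℕ} (hk : (entP1 T (lenObs T K Qc ω₀) (enmQ T M) M (enmPl T K A C) (A ∪ C)).card ≤ k + 1)
    {Kc₀ : Finset Y₀} (hKc : Kc₀.image ψ ⊆ M) {c : ℝ}
    (hc : c * S₀.Z ((glH0 S₀ Cb₀ La₀ Lc₀ Ld₀ Lb₀).Holds S₀) ≤
      S₀.N ((glH0 S₀ Cb₀ La₀ Lc₀ Ld₀ Lb₀).Holds S₀) (glInd (fun ω => GlJoinC S₀ (↑Kc₀ ∩ glOn S₀ 1 ω) La₀ Lc₀))) :
    c * T.Z ((lenObs T K Qc ω₀).Holds T) ≤
      4 ^ k * T.N ((lenObs T K Qc ω₀).Holds T) (glInd (fun ω => GlJoinC T (↑(Kc₀.image ψ) ∩ glOn T 1 ω) (enmSd T M A) (enmSd T M C))) := by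
  have g := enm_geo r h0 h1
  have h2 := Finset.card_le_card (enm_P2_sub r h0 h1)
  rw [eCb, eA, eC] at g h2
  have h := ent_join_iso i ok₀ hCb hLa hLc hLd hLb g hord hKc hc
  rw [eA, eC]
  refine h.trans (mul_le_mul_of_nonneg_right ?_ (len_N_nonneg T r.okT _ _ fun ω _ => gl_ind_nonneg _ ω))
  have e : (4 : ℝ) ^ k = 2 ^ (k + k) := by rw [pow_add, ← mul_pow]; norm_num
  rw [e]
  exact pow_le_pow_right₀ (by norm_num) (by omega)

end iso

end abstract

end Claimed.Agent.R291
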