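import Claimed.Agent.R291.Ann.RswPl
import Claimed.Agent.R291.Glue.Enter

/-!
# Row 291 (S0539), unit ANN, block A3 PART II (L), Glue/FlipI : CLASS `false` BY REFLECTION: INDEX SIDE, FINSET DICTIONARY, LAW SIDE, RECORD SIDE      (owner helper246; post of 187 08:06Z, ruling (R3) of 24 07:48Z; prefix `rgf_`, defs `rgf…`)

TEX[annulus:RSW]      The strip estimate `RsgEst x D` is proved for the class `true` (up cells).   A strip of DOWN cells is the mirror image of a strip of UP cells.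

MAPS.   index map `rgfI (u, v) = (u + v, -v)`: an involution of the index lattice, `triAdj` and `hxsX` are preserved, the rows are flipped;
site map `rgfS (u, v) = (u + v, 1 - v)` (a GLIDE reflection: `rgfS (rgfS (u, v)) = (u + 1, v)`; inverse `rgfT (u, v) = (u + v - 1, 1 - v)`):   `cellD (rgfI y) = (cellV y).image rgfS`  (`rgf_cs`).
(The plain reflection `(u + v, -v)` of the SITES shifts the index `X` by one: not used; with the glide NO parameter `m, σ, e, w, xm, xM` moves.)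
DATA.   `rgfD D = ⟨true, -D.y1, -D.y0, D.xm, D.xM, rgfI ⁻¹ a, rgfI ⁻¹ c⟩`.

INDEX SIDE:   `rgf_AA`, `rgf_CC`, `rgf_Q` (solid sides, strip), `rgf_cr`, **`rgf_pair`** (`HxrPair`: feet ↔ heads), `rgf_T1`, `rgf_T2`.
DICTIONARY (for `D.T = false`, under `HxrPair`):   `rgf_M`, `rgf_Qs`, `rgf_La`, `rgf_Lc`, `rgf_Ld`, `rgf_Lb` (THE ENDS SWAP), `rgf_cells`, `rgf_Cb`, **`rgf_iso : CuIso (rsgS x (rgfD D)) (rsgS x D) rgfS rgfI`**.
LAW SIDE:   **`rgf_est : RsgEst x (rgfD D) → RsgEst x D`** (`ent_iso_N`, `ent_iso_event` of 164; `glH0` does not see the order of the ends: `rgf_H0_comm`).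
RECORD SIDE (§5):   the explorations of the reflected plus set are the reflected explorations: `rgf_rplA`, `rgf_rplC`, `rgf_G0`, `rgf_rplD : rgfD (rplD false c d ..P) = rplD true (-d) (-c) .. (rgfI ⁻¹ P)`.
CONTRACTS:   **`rgf_tip`, `rgf_tube`**: the statements of `rsg_est_tip`, `rsg_est_tube` (record level, as typed 08:15Z) for BOTH classes from the class `true`.
-/

set_option autoImplicit false
set_option linter.unusedSectionVars false
set_option linter.unusedVariables false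
set_option linter.unusedSimpArgs false

namespace Claimed.Agent.R291

open Relation Claims Claims.C0467

/-! ## §1 the maps -/

/-- the reflection of the index lattice -/
def rgfI (z : TV) : TV := (z.1 + z.2, -z.2)

/-- the glide reflection of the sites: up cell of index `y` ↦ down cell of index `rgfI y` -/
def rgfS (v : TV) : TV := (v.1 + v.2, 1 - v.2)

/-- its inverse -/
def rgfT (v : TV) : TV := (v.1 + v.2 - 1, 1 - v.2)

/-- the reflected strip data (class `true`) -/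
def rgfD (D : RsgDat) : RsgDat := ⟨true, -D.y1, -D.y0, D.xm, D.xM, {z | rgfI z ∈ D.a}, {z | rgfI z ∈ D.c}⟩

theorem rgf_eqns_cite : True := by
  have := @rgfI.eq_1
  have := @rgfS.eq_1
  have := @rgfT.eq_1
  have := @rgfD.eq_1
  trivial

theorem rgf_I_I (z : TV) : rgfI (rgfI z) = z := by
  unfold rgfI
  ext <;> simp

theorem rgf_S_T (v : TV) : rgfS (rgfT v) = v := by
  unfold rgfS rgfT
  ext <;> simp

theorem rgf_T_S (v : TV) : rgfT (rgfS v) = v := by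
  unfold rgfS rgfT
  ext <;> simp

theorem rgf_I_inj : Function.Injective rgfI := fun a b h => by
  rw [← rgf_I_I a, h, rgf_I_I]

theorem rgf_S_inj : Function.Injective rgfS := fun a b h => by
  rw [← rgf_T_S a, h, rgf_T_S]

theorem rgf_I_X (z : TV) : hxsX (rgfI z) = hxsX z := by
  unfold hxsX rgfI
  simp only
  ring

theorem rgf_I_row (z : TV) : (rgfI z).2 = -z.2 := rfl

theorem rgf_I_adj (u v : TV) (h : triAdj u v) : triAdj (rgfI u) (rgfI v) := by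
  rw [tsc_adj_iff] at *
  unfold rgfI
  simp only
  omega

theorem rgf_I_adj_iff (u v : TV) : triAdj (rgfI u) (rgfI v) ↔ triAdj u v :=
  ⟨fun h => by have := rgf_I_adj _ _ h; rwa [rgf_I_I, rgf_I_I] at this, rgf_I_adj u v⟩

theorem rgf_S_adj (u v : TV) (h : triAdj u v) : triAdj (rgfS u) (rgfS v) := by
  rw [tsc_adj_iff] at *
  unfold rgfS
  simp only
  omega

/-- the image is the preimage -/
theorem rgf_I_image (s : Set TV) : rgfI '' s = {z | rgfI z ∈ s} := by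
  ext z
  constructor
  · rintro ⟨w, hw, rfl⟩
    show rgfI (rgfI w) ∈ s
    rwa [rgf_I_I]
  · intro hz
    exact ⟨rgfI z, hz, rgf_I_I z⟩

/-- paths are transported -/
theorem rgf_I_R {s : Set TV} {u v : TV} (h : TscR tscG s u v) : TscR tscG {z | rgfI z ∈ s} (rgfI u) (rgfI v) := by
  rw [← rgf_I_image]
  exact tsc_R_map (G' := tscG) rgfI rgf_I_adj h

theorem rgf_I_R_iff {s : Set TV} {u v : TV} : TscR tscG {z | rgfI z ∈ s} u v ↔ TscR tscG s (rgfI u) (rgfI v) := by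
  constructor
  · intro h
    have := rgf_I_R h
    have e : {z | rgfI z ∈ {z | rgfI z ∈ s}} = s := by
      ext z
      show rgfI (rgfI z) ∈ s ↔ z ∈ s
      rw [rgf_I_I]
    rwa [e] at this
  · intro h
    have := rgf_I_R h
    rwa [rgf_I_I, rgf_I_I] at this

theorem rgf_I_conn {s : Set TV} (h : TscConn tscG s) : TscConn tscG {z | rgfI z ∈ s} :=
  fun u hu v hv => rgf_I_R_iff.2 (h _ hu _ hv)

/-! ## §2 the index side -/

theorem rgf_band (y0 y1 : ℤ) : plsBand (-y1) (-y0) = {z | rgfI z ∈ plsBand y0 y1} := by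
  ext z
  show (-y1 ≤ z.2 ∧ z.2 ≤ -y0) ↔ (y0 ≤ -z.2 ∧ -z.2 ≤ y1)
  omega

theorem rgf_farR (y0 y1 x : ℤ) : hxrFarR (-y1) (-y0) x = {z | rgfI z ∈ hxrFarR y0 y1 x} := by
  ext z
  show (z ∈ plsBand (-y1) (-y0) ∧ x < hxsX z) ↔ (rgfI z ∈ plsBand y0 y1 ∧ x < hxsX (rgfI z))
  rw [rgf_band, rgf_I_X]
  rfl

theorem rgf_farL (y0 y1 x : ℤ) : hxrFarL (-y1) (-y0) x = {z | rgfI z ∈ hxrFarL y0 y1 x} := by
  ext z
  show (z ∈ plsBand (-y1) (-y0) ∧ hxsX z < x) ↔ (rgfI z ∈ plsBand y0 y1 ∧ hxsX (rgfI z) < x)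
  rw [rgf_band, rgf_I_X]
  rfl

/-- solid sides are transported -/
theorem rgf_sol (Bd a T : Set TV) : hxrSol tscG {z | rgfI z ∈ Bd} {z | rgfI z ∈ a} {z | rgfI z ∈ T} = {z | rgfI z ∈ hxrSol tscG Bd a T} := by
  have e : ({z | rgfI z ∈ Bd} \ {z | rgfI z ∈ a} : Set TV) = {z | rgfI z ∈ Bd \ a} := rfl
  ext z
  constructor
  · rintro ⟨h1, h2⟩
    refine ⟨h1, fun t ht h => h2 (rgfI t) (by show rgfI (rgfI t) ∈ T; rwa [rgf_I_I]) ?_⟩
    rw [e, rgf_I_R_iff, rgf_I_I]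
    exact h
  · rintro ⟨h1, h2⟩
    refine ⟨h1, fun t ht h => h2 (rgfI t) ht ?_⟩
    rw [e, rgf_I_R_iff] at h
    exact h

theorem rgf_AA (y0 y1 xM : ℤ) (a : Set TV) : hxrAA (-y1) (-y0) xM {z | rgfI z ∈ a} = {z | rgfI z ∈ hxrAA y0 y1 xM a} := by
  unfold hxrAA
  rw [rgf_band, rgf_farR, rgf_sol]

theorem rgf_CC (y0 y1 xm : ℤ) (c : Set TV) : hxrCC (-y1) (-y0) xm {z | rgfI z ∈ c} = {z | rgfI z ∈ hxrCC y0 y1 xm c} := by
  unfold hxrCC
  rw [rgf_band, rgf_farL, rgf_sol]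

theorem rgf_Q (y0 y1 xm xM : ℤ) (a c : Set TV) :
    hxrQ (-y1) (-y0) xm xM {z | rgfI z ∈ a} {z | rgfI z ∈ c} = {z | rgfI z ∈ hxrQ y0 y1 xm xM a c} := by
  unfold hxrQ
  rw [rgf_band, rgf_AA, rgf_CC]
  rfl

/-- one crossing: foot ↔ head -/
theorem rgf_cr {y0 y1 xm xM : ℤ} {a : Set TV} {p q : TV} (H : HxrCr y0 y1 xm xM a p q) :
    HxrCr (-y1) (-y0) xm xM {z | rgfI z ∈ a} (rgfI q) (rgfI p) where
  sub := by
    rw [rgf_band]
    exact fun z hz => H.sub hz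
  conn := rgf_I_conn H.conn
  box := fun z hz => by
    have := H.box _ hz
    rwa [rgf_I_X] at this
  pa := by show rgfI (rgfI q) ∈ a; rw [rgf_I_I]; exact H.qa
  qa := by show rgfI (rgfI p) ∈ a; rw [rgf_I_I]; exact H.pa
  p0 := by rw [rgf_I_row, H.q1]
  q1 := by rw [rgf_I_row, H.p0]

/-- **two crossings**: feet ↔ heads -/
theorem rgf_pair {y0 y1 xm xM : ℤ} {a c : Set TV} {pa qa pc qc : TV} (H : HxrPair y0 y1 xm xM a c pa qa pc qc) :
    HxrPair (-y1) (-y0) xm xM {z | rgfI z ∈ a} {z | rgfI z ∈ c} (rgfI qa) (rgfI pa) (rgfI qc) (rgfI pc) where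
  A := rgf_cr H.A
  C := rgf_cr H.C
  feet := by
    have h1 := H.A.q1
    have h2 := H.C.q1
    have h3 := H.heads
    show qa.1 + qa.2 < qc.1 + qc.2
    omega
  heads := by
    have h1 := H.A.p0
    have h2 := H.C.p0
    have h3 := H.feet
    show pa.1 + pa.2 < pc.1 + pc.2
    omega
  sep := fun u hu v hv => by
    obtain ⟨h1, h2⟩ := H.sep _ hu _ hv
    exact ⟨fun h => h1 (by rw [h]), fun h => h2 (rgf_I_adj _ _ h)⟩

theorem rgf_T1 {a c : Set TV} : RsgT1 {z | rgfI z ∈ a} {z | rgfI z ∈ c} ↔ RsgT1 a c := by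
  constructor
  · rintro ⟨u, hu, v, hv, h⟩
    refine ⟨_, hu, _, hv, ?_⟩
    rcases h with h | h
    · exact Or.inl (by rw [h])
    · exact Or.inr (rgf_I_adj _ _ h)
  · rintro ⟨u, hu, v, hv, h⟩
    refine ⟨rgfI u, by show rgfI (rgfI u) ∈ a; rwa [rgf_I_I], rgfI v, by show rgfI (rgfI v) ∈ c; rwa [rgf_I_I], ?_⟩
    rcases h with h | h
    · exact Or.inl (by rw [h])
    · exact Or.inr (rgf_I_adj _ _ h)

theorem rgf_T2 {y0 y1 : ℤ} {a c : Set TV} : RsgT2 (-y1) (-y0) {z | rgfI z ∈ a} {z | rgfI z ∈ c} ↔ RsgT2 y0 y1 a c := by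
  constructor
  · rintro ⟨y, hy, ⟨u, hu, h1⟩, ⟨v, hv, h2⟩⟩
    rw [rgf_band] at hy
    exact ⟨_, hy, ⟨_, hu, rgf_I_adj _ _ h1⟩, ⟨_, hv, rgf_I_adj _ _ h2⟩⟩
  · rintro ⟨y, hy, ⟨u, hu, h1⟩, ⟨v, hv, h2⟩⟩
    refine ⟨rgfI y, ?_, ⟨rgfI u, ?_, rgf_I_adj _ _ h1⟩, ⟨rgfI v, ?_, rgf_I_adj _ _ h2⟩⟩
    · rw [rgf_band]
      show rgfI (rgfI y) ∈ plsBand y0 y1
      rwa [rgf_I_I]
    · show rgfI (rgfI u) ∈ a
      rwa [rgf_I_I]
    · show rgfI (rgfI v) ∈ c
      rwa [rgf_I_I]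

/-! ## §3 the dictionary of the finite sets -/

/-- **the down cell of index `rgfI y` is the image of the up cell of index `y`** -/
theorem rgf_cs (y : TV) : rsgCs false (rgfI y) = (rsgCs true y).image rgfS := by
  ext v
  rw [Finset.mem_image]
  constructor
  · intro h
    refine ⟨rgfT v, ?_, rgf_S_T v⟩
    rw [rsg_mem_cs] at h ⊢
    rcases h with ⟨h, -⟩ | ⟨-, h⟩
    · exact Bool.noConfusion h
    · left
      refine ⟨rfl, ?_⟩
      unfold rgfI at h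
      unfold rgfT
      simp only at h ⊢
      omega
  · rintro ⟨w, hw, rfl⟩
    rw [rsg_mem_cs] at hw ⊢
    rcases hw with ⟨-, h⟩ | ⟨h, -⟩
    · right
      refine ⟨rfl, ?_⟩
      unfold rgfI rgfS
      simp only
      omega
    · exact Bool.noConfusion h

theorem rgf_mem_cs {y w : TV} : rgfS w ∈ rsgCs false (rgfI y) ↔ w ∈ rsgCs true y := by
  rw [rgf_cs, Finset.mem_image]
  constructor
  · rintro ⟨w', hw', h⟩
    rwa [← rgf_S_inj h]
  · intro h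
    exact ⟨w, h, rfl⟩

/-- the free cells are the cells of the strip (under `HxrPair` the box is no constraint) -/
theorem rgf_mem_M {D : RsgDat} {pa qa pc qc : TV} (H : HxrPair D.y0 D.y1 D.xm D.xM D.a D.c pa qa pc qc) {z : TV} :
    z ∈ rsgM D ↔ z ∈ hxrQ D.y0 D.y1 D.xm D.xM D.a D.c := by
  classical
  unfold rsgM
  rw [Finset.mem_filter]
  refine ⟨fun h => h.2, fun h => ⟨rsg_box_mem ?_, h⟩⟩
  obtain ⟨h1, h2⟩ := hxr_Q_box H z h
  exact ⟨h1, h2, h.1.1, h.1.2⟩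

section dict

variable {D : RsgDat} {pa qa pc qc : TV}

/-- `HxrPair` for the reflected data -/
theorem rgf_pairD (H : HxrPair D.y0 D.y1 D.xm D.xM D.a D.c pa qa pc qc) :
    HxrPair (rgfD D).y0 (rgfD D).y1 (rgfD D).xm (rgfD D).xM (rgfD D).a (rgfD D).c (rgfI qa) (rgfI pa) (rgfI qc) (rgfI pc) := rgf_pair H

theorem rgf_T2D : RsgT2 (rgfD D).y0 (rgfD D).y1 (rgfD D).a (rgfD D).c ↔ RsgT2 D.y0 D.y1 D.a D.c := rgf_T2

theorem rgf_mem_MD (H : HxrPair D.y0 D.y1 D.xm D.xM D.a D.c pa qa pc qc) {z : TV} : z ∈ rsgM (rgfD D) ↔ rgfI z ∈ rsgM D := by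
  rw [rgf_mem_M (rgf_pairD H), rgf_mem_M H]
  show z ∈ hxrQ (-D.y1) (-D.y0) D.xm D.xM {z | rgfI z ∈ D.a} {z | rgfI z ∈ D.c} ↔ _
  rw [rgf_Q]
  rfl

/-- the free cells -/
theorem rgf_M (H : HxrPair D.y0 D.y1 D.xm D.xM D.a D.c pa qa pc qc) : rsgM D = (rsgM (rgfD D)).image rgfI := by
  ext z
  rw [Finset.mem_image]
  constructor
  · intro h
    exact ⟨rgfI z, (rgf_mem_MD H).2 (by rwa [rgf_I_I]), rgf_I_I z⟩
  · rintro ⟨w, hw, rfl⟩
    exact (rgf_mem_MD H).1 hw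

/-- THE STRIP -/
theorem rgf_Qs (H : HxrPair D.y0 D.y1 D.xm D.xM D.a D.c pa qa pc qc) (hT : D.T = false) : rsgQ D = (rsgQ (rgfD D)).image rgfS := by
  unfold rsgQ
  rw [rgf_M H, hT, Finset.image_biUnion, Finset.biUnion_image]
  exact Finset.biUnion_congr rfl fun y _ => rgf_cs y

theorem rgf_mem_Qs (H : HxrPair D.y0 D.y1 D.xm D.xM D.a D.c pa qa pc qc) (hT : D.T = false) {w : TV} : rgfS w ∈ rsgQ D ↔ w ∈ rsgQ (rgfD D) := by
  rw [rgf_Qs H hT, Finset.mem_image]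
  constructor
  · rintro ⟨w', hw', h⟩
    rwa [← rgf_S_inj h]
  · intro h
    exact ⟨w, h, rfl⟩

/-- the sides -/
theorem rgf_side (H : HxrPair D.y0 D.y1 D.xm D.xM D.a D.c pa qa pc qc) (hT : D.T = false) (Z : Set TV) :
    rsgSide false (rsgQ D) Z = (rsgSide true (rsgQ (rgfD D)) {z | rgfI z ∈ Z}).image rgfS := by
  classical
  ext v
  unfold rsgSide
  rw [Finset.mem_image, Finset.mem_filter]
  constructor
  · rintro ⟨h1, z, hz, h2⟩
    refine ⟨rgfT v, Finset.mem_filter.2 ⟨?_, rgfI z, ?_, ?_⟩, rgf_S_T v⟩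
    · rw [← rgf_mem_Qs H hT, rgf_S_T]
      exact h1
    · show rgfI (rgfI z) ∈ Z
      rwa [rgf_I_I]
    · rw [← rgf_mem_cs, rgf_S_T, rgf_I_I]
      exact h2
  · rintro ⟨w, hw, rfl⟩
    obtain ⟨h1, z, hz, h2⟩ := Finset.mem_filter.1 hw
    exact ⟨(rgf_mem_Qs H hT).2 h1, rgfI z, hz, rgf_mem_cs.2 h2⟩

theorem rgf_La (H : HxrPair D.y0 D.y1 D.xm D.xM D.a D.c pa qa pc qc) (hT : D.T = false) : rsgLa D = (rsgLa (rgfD D)).image rgfS := by
  unfold rsgLa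
  rw [hT]
  exact rgf_side H hT D.a

theorem rgf_Lc (H : HxrPair D.y0 D.y1 D.xm D.xM D.a D.c pa qa pc qc) (hT : D.T = false) : rsgLc D = (rsgLc (rgfD D)).image rgfS := by
  unfold rsgLc
  rw [hT]
  exact rgf_side H hT D.c

/-- THE ENDS SWAP: the bottom end is the image of the top end -/
theorem rgf_Ld (H : HxrPair D.y0 D.y1 D.xm D.xM D.a D.c pa qa pc qc) (hT : D.T = false) : rsgLd D = (rsgLb (rgfD D)).image rgfS := by
  ext v
  unfold rsgLd rsgLb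
  rw [Finset.mem_image, Finset.mem_filter]
  constructor
  · rintro ⟨h1, h2⟩
    refine ⟨rgfT v, Finset.mem_filter.2 ⟨?_, ?_⟩, rgf_S_T v⟩
    · rw [← rgf_mem_Qs H hT, rgf_S_T]
      exact h1
    · show 1 - v.2 = -D.y0 + 1
      omega
  · rintro ⟨w, hw, rfl⟩
    obtain ⟨h1, h2⟩ := Finset.mem_filter.1 hw
    refine ⟨(rgf_mem_Qs H hT).2 h1, ?_⟩
    have h3 : w.2 = -D.y0 + 1 := h2
    show 1 - w.2 = D.y0
    omega

/-- the top end is the image of the bottom end -/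
theorem rgf_Lb (H : HxrPair D.y0 D.y1 D.xm D.xM D.a D.c pa qa pc qc) (hT : D.T = false) : rsgLb D = (rsgLd (rgfD D)).image rgfS := by
  ext v
  unfold rsgLd rsgLb
  rw [Finset.mem_image, Finset.mem_filter]
  constructor
  · rintro ⟨h1, h2⟩
    refine ⟨rgfT v, Finset.mem_filter.2 ⟨?_, ?_⟩, rgf_S_T v⟩
    · rw [← rgf_mem_Qs H hT, rgf_S_T]
      exact h1
    · show 1 - v.2 = -D.y1
      omega
  · rintro ⟨w, hw, rfl⟩
    obtain ⟨h1, h2⟩ := Finset.mem_filter.1 hw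
    refine ⟨(rgf_mem_Qs H hT).2 h1, ?_⟩
    have h3 : w.2 = -D.y1 := h2
    show 1 - w.2 = D.y1 + 1
    omega

end dict

/-- a cell of the closed system = a cell which meets `Q` -/
theorem rgf_mem_cells {T : Bool} {Q : Finset TV} {y : TV} : y ∈ rsgCells T Q ↔ ∃ v ∈ Q, v ∈ rsgCs T y := by
  unfold rsgCells
  cases T
  · simp only [Bool.false_eq_true, if_false, Finset.mem_union, Finset.mem_image]
    constructor
    · rintro ((⟨u, hu, rfl⟩ | ⟨u, hu, rfl⟩) | ⟨u, hu, rfl⟩) <;> refine ⟨u, hu, ?_⟩ <;> rw [rsg_mem_cs] <;> right <;> refine ⟨rfl, ?_⟩ <;>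
        simp only [Prod.fst_sub, Prod.snd_sub] <;> omega
    · rintro ⟨v, hv, h⟩
      rw [rsg_mem_cs] at h
      rcases h with ⟨h, -⟩ | ⟨-, h | h | h⟩
      · exact Bool.noConfusion h
      · exact Or.inl (Or.inl ⟨v, hv, by ext <;> simp only [Prod.fst_sub, Prod.snd_sub] <;> omega⟩)
      · exact Or.inl (Or.inr ⟨v, hv, by ext <;> simp only [Prod.fst_sub, Prod.snd_sub] <;> omega⟩)
      · exact Or.inr ⟨v, hv, by ext <;> simp only [Prod.fst_sub, Prod.snd_sub] <;> omega⟩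
  · simp only [if_true, latCells, Finset.mem_union, Finset.mem_image]
    constructor
    · rintro ((hu | ⟨u, hu, rfl⟩) | ⟨u, hu, rfl⟩)
      · exact ⟨y, hu, by rw [rsg_mem_cs]; left; exact ⟨rfl, Or.inl ⟨rfl, rfl⟩⟩⟩
      · refine ⟨u, hu, ?_⟩
        rw [rsg_mem_cs]; left; refine ⟨rfl, ?_⟩
        simp only [Prod.fst_sub, Prod.snd_sub]; omega
      · refine ⟨u, hu, ?_⟩
        rw [rsg_mem_cs]; left; refine ⟨rfl, ?_⟩
        simp only [Prod.fst_sub, Prod.snd_sub]; omega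
    · rintro ⟨v, hv, h⟩
      rw [rsg_mem_cs] at h
      rcases h with ⟨-, h | h | h⟩ | ⟨h, -⟩
      · have : v = y := by ext <;> omega
        exact Or.inl (Or.inl (this ▸ hv))
      · exact Or.inl (Or.inr ⟨v, hv, by ext <;> simp only [Prod.fst_sub, Prod.snd_sub] <;> omega⟩)
      · exact Or.inr ⟨v, hv, by ext <;> simp only [Prod.fst_sub, Prod.snd_sub] <;> omega⟩
      · exact Bool.noConfusion h

/-- the cells of the closed systems -/
theorem rgf_cells (Q : Finset TV) : rsgCells false (Q.image rgfS) = (rsgCells true Q).image rgfI := by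
  ext y
  rw [Finset.mem_image, rgf_mem_cells]
  constructor
  · rintro ⟨v, hv, h⟩
    obtain ⟨w, hw, rfl⟩ := Finset.mem_image.1 hv
    refine ⟨rgfI y, rgf_mem_cells.2 ⟨w, hw, ?_⟩, rgf_I_I y⟩
    rw [← rgf_mem_cs, rgf_I_I]
    exact h
  · rintro ⟨z, hz, rfl⟩
    obtain ⟨w, hw, h⟩ := rgf_mem_cells.1 hz
    exact ⟨rgfS w, Finset.mem_image_of_mem _ hw, rgf_mem_cs.2 h⟩

section dict2

variable {D : RsgDat} {pa qa pc qc : TV}

theorem rgf_Cb (H : HxrPair D.y0 D.y1 D.xm D.xM D.a D.c pa qa pc qc) (hT : D.T = false) : rsgCb D = (rsgCb (rgfD D)).image rgfI := by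
  unfold rsgCb
  rw [hT, rgf_Qs H hT, rgf_cells, rgf_M H, Finset.image_sdiff _ _ rgf_I_inj]
  rfl

/-- **THE ISOMORPHISM** of the closed strip systems -/
theorem rgf_iso (x : ℝ) (H : HxrPair D.y0 D.y1 D.xm D.xM D.a D.c pa qa pc qc) (hT : D.T = false) :
    CuIso (rsgS x (rgfD D)) (rsgS x D) rgfS rgfI := by
  have hsv : ∀ y, rsgCs false (rgfI y) ∩ rsgQ D = (rsgCs true y ∩ rsgQ (rgfD D)).image rgfS := by
    intro y
    rw [rgf_cs, rgf_Qs H hT, Finset.image_inter _ _ rgf_S_inj]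
  refine ⟨rgf_S_inj.injOn, rgf_I_inj.injOn, ?_, ?_, ?_, ?_⟩
  · show (rsgQ (rgfD D)).image rgfS = rsgQ D
    exact (rgf_Qs H hT).symm
  · show (rsgCells true (rsgQ (rgfD D))).image rgfI = rsgCells D.T (rsgQ D)
    rw [hT, rgf_Qs H hT, rgf_cells]
  · intro y _
    show rsgCs D.T (rgfI y) ∩ rsgQ D = (rsgCs true y ∩ rsgQ (rgfD D)).image rgfS
    rw [hT]
    exact hsv y
  · intro y _
    show (if (rsgCs D.T (rgfI y) ∩ rsgQ D).card = 3 then x ^ 2 else x) = if (rsgCs true y ∩ rsgQ (rgfD D)).card = 3 then x ^ 2 else x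
    rw [hT, hsv y, Finset.card_image_of_injective _ rgf_S_inj]

/-! ## §4 the law side -/

/-- the history of the strip law does not see the order of the two ends -/
theorem rgf_H0_comm {V Y : Type} [DecidableEq V] [DecidableEq Y] (S : ClSys V Y) (Cb : Finset Y) (La Lc Ld Lb : Finset V) :
    glH0 S Cb La Lc Lb Ld = glH0 S Cb La Lc Ld Lb := by
  unfold glH0 glEnd
  rw [Finset.union_comm Lb Ld]

/-- **THE LAW SIDE: the strip estimate of the reflected data (class `true`) gives the strip estimate of `D` (class `false`)** -/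
theorem rgf_est {x : ℝ} (hx0 : 0 < x) (hx1 : x ≤ 1) (H : HxrPair D.y0 D.y1 D.xm D.xM D.a D.c pa qa pc qc) (hT : D.T = false)
    (h : RsgEst x (rgfD D)) : RsgEst x D := by
  classical
  obtain ⟨Kc₀, hK, hc⟩ := h
  have i := rgf_iso x H hT
  have ok₀ : ClOk (rsgS x (rgfD D)) := dam_pl_ok hx0 hx1 (rsgQ (rgfD D))
  have hCb : rsgCb (rgfD D) ⊆ (rsgS x (rgfD D)).C := Finset.sdiff_subset
  have hLa : rsgLa (rgfD D) ⊆ (rsgS x (rgfD D)).A := Finset.filter_subset _ _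
  have hLc : rsgLc (rgfD D) ⊆ (rsgS x (rgfD D)).A := Finset.filter_subset _ _
  have hLd : rsgLd (rgfD D) ⊆ (rsgS x (rgfD D)).A := Finset.filter_subset _ _
  have hLb : rsgLb (rgfD D) ⊆ (rsgS x (rgfD D)).A := Finset.filter_subset _ _
  refine ⟨Kc₀.image rgfI, ?_, ?_⟩
  · rw [rgf_M H]
    exact Finset.image_subset_image hK
  · unfold rsgH0 at hc ⊢
    rw [rgf_Cb H hT, rgf_La H hT, rgf_Lc H hT, rgf_Ld H hT, rgf_Lb H hT, dis_Z_eq,
      ent_iso_N i ok₀.sub hCb hLa hLc hLb hLd, ent_iso_N i ok₀.sub hCb hLa hLc hLb hLd, rgf_H0_comm, ← dis_Z_eq]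
    refine hc.trans ?_
    unfold ClSys.N
    refine Finset.sum_le_sum fun ω hω => ?_
    split_ifs
    · refine mul_le_mul_of_nonneg_left ?_ (dis_wt_nonneg _ ok₀ ω)
      by_cases hj : GlJoinC (rsgS x (rgfD D)) (↑Kc₀ ∩ glOn (rsgS x (rgfD D)) 1 ω) (rsgLa (rgfD D)) (rsgLc (rgfD D))
      · rw [gl_ind_pos hj]
        exact (gl_ind_pos (L := fun ω => GlJoinC (rsgS x D) (↑(Kc₀.image rgfI) ∩ glOn (rsgS x D) 1 ω) ((rsgLa (rgfD D)).image rgfS)
          ((rsgLc (rgfD D)).image rgfS)) (ent_iso_event i ok₀.sub Kc₀ hω hj)).ge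
      · rw [gl_ind_neg hj]
        exact gl_ind_nonneg _ _
    · exact le_rfl

end dict2

/-! ## §5 the record side: the explorations of the reflected plus set -/

theorem rgf_I_rswX (z : TV) : rswX (rgfI z) = rswX z := rgf_I_X z

theorem rgf_rect (A B c d : ℤ) : rswRect A B (-d) (-c) = {z | rgfI z ∈ rswRect A B c d} := by
  ext z
  show (A ≤ rswX z ∧ rswX z ≤ B ∧ -d ≤ z.2 ∧ z.2 ≤ -c) ↔ (A ≤ rswX (rgfI z) ∧ rswX (rgfI z) ≤ B ∧ c ≤ -z.2 ∧ -z.2 ≤ d)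
  rw [rgf_I_rswX]
  omega

theorem rgf_SgL (A c d i w : ℤ) : rsrSgL A (-d) (-c) i w = {z | rgfI z ∈ rsrSgL A c d i w} := by
  ext z
  show (rswX z ≤ A + 1 ∨ ((z.2 = -d ∨ z.2 = -c) ∧ rswX z ≤ i - w + 1)) ↔
    (rswX (rgfI z) ≤ A + 1 ∨ ((-z.2 = c ∨ -z.2 = d) ∧ rswX (rgfI z) ≤ i - w + 1))
  rw [rgf_I_rswX]
  omega

theorem rgf_SgR (B c d i w : ℤ) : rsrSgR B (-d) (-c) i w = {z | rgfI z ∈ rsrSgR B c d i w} := by
  ext z
  show (B - 1 ≤ rswX z ∨ ((z.2 = -d ∨ z.2 = -c) ∧ i + w - 1 ≤ rswX z)) ↔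
    (B - 1 ≤ rswX (rgfI z) ∨ ((-z.2 = c ∨ -z.2 = d) ∧ i + w - 1 ≤ rswX (rgfI z)))
  rw [rgf_I_rswX]
  omega

/-- clusters are transported -/
theorem rgf_pleI (N σ : Set TV) : pleI tscG {z | rgfI z ∈ N} {z | rgfI z ∈ σ} = {z | rgfI z ∈ pleI tscG N σ} := by
  ext z
  constructor
  · rintro ⟨t, h1, h2, h3⟩
    exact ⟨rgfI t, h1, h2, rgf_I_R_iff.1 h3⟩
  · rintro ⟨t, h1, h2, h3⟩
    refine ⟨rgfI t, by show rgfI (rgfI t) ∈ N; rwa [rgf_I_I], by show rgfI (rgfI t) ∈ σ; rwa [rgf_I_I], ?_⟩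
    rw [rgf_I_R_iff, rgf_I_I]
    exact h3

/-- layers are transported -/
theorem rgf_pleGam (R σ σ' I : Set TV) :
    pleGam tscG {z | rgfI z ∈ R} {z | rgfI z ∈ σ} {z | rgfI z ∈ σ'} {z | rgfI z ∈ I} = {z | rgfI z ∈ pleGam tscG R σ σ' I} := by
  have e : ({z | rgfI z ∈ R} \ {z | rgfI z ∈ I} : Set TV) = {z | rgfI z ∈ R \ I} := rfl
  ext z
  unfold pleGam
  rw [e, rgf_pleI]
  constructor
  · rintro ⟨h1, h2⟩
    refine ⟨h1, ?_⟩
    rcases h2 with h2 | ⟨i, hi, h2⟩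
    · exact Or.inl h2
    · exact Or.inr ⟨rgfI i, hi, rgf_I_adj _ _ h2⟩
  · rintro ⟨h1, h2⟩
    refine ⟨h1, ?_⟩
    rcases h2 with h2 | ⟨i, hi, h2⟩
    · exact Or.inl h2
    · refine Or.inr ⟨rgfI i, by show rgfI (rgfI i) ∈ I; rwa [rgf_I_I], ?_⟩
      have := rgf_I_adj _ _ h2
      rwa [rgf_I_I] at this

section record

variable (c d w σ m e : ℤ) (P : Set TV)

theorem rgf_rplI : rplI (-d) (-c) w σ m e {z | rgfI z ∈ P} = {z | rgfI z ∈ rplI c d w σ m e P} := by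
  unfold rplI
  rw [rgf_rect, rgf_SgL, ← rgf_pleI]
  rfl

theorem rgf_rplJ : rplJ (-d) (-c) w σ m e {z | rgfI z ∈ P} = {z | rgfI z ∈ rplJ c d w σ m e P} := by
  unfold rplJ
  rw [rgf_rect, rgf_SgR, ← rgf_pleI]
  rfl

theorem rgf_rplA : rplA (-d) (-c) w σ m e {z | rgfI z ∈ P} = {z | rgfI z ∈ rplA c d w σ m e P} := by
  unfold rplA rsrGa
  rw [rgf_rplI, rgf_rect, rgf_SgL, rgf_SgR, rgf_pleGam]

theorem rgf_rplC : rplC (-d) (-c) w σ m e {z | rgfI z ∈ P} = {z | rgfI z ∈ rplC c d w σ m e P} := by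
  unfold rplC rsrGc
  rw [rgf_rplJ, rgf_rect, rgf_SgL, rgf_SgR, rgf_pleGam]

theorem rgf_G0 (h : RplG0 c d w σ m e P) : RplG0 (-d) (-c) w σ m e {z | rgfI z ∈ P} := by
  unfold RplG0 RsrG0 at *
  rw [rgf_rplI, rgf_rplJ, rgf_rect, rgf_SgL, rgf_SgR]
  exact ⟨fun z hz => h.1 (rgfI z) hz, fun z hz => h.2 (rgfI z) hz⟩

/-- **the reflected strip data of a record are the strip data of the reflected record** -/
theorem rgf_rplD : rgfD (rplD false c d w σ m e P) = rplD true (-d) (-c) w σ m e {z | rgfI z ∈ P} := by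
  unfold rgfD rplD
  rw [rgf_rplA, rgf_rplC]

end record

/-! ## §6 the two contracts: both classes from the class `true` -/

/-- **(L-TIP), both classes from the class `true`** (statement of `rsg_est_tip`, `Ann/RswGlue`) -/
theorem rgf_tip (x : ℝ) (hx1 : 1 / Real.sqrt 2 ≤ x) (hx2 : x ≤ 1)
    (htrue : ∀ {c d w σ m e e2 : ℤ} {P : Set TV}, c < d → 1 ≤ w → 2 * w < σ → w + 4 ≤ e → e2 ≤ e → e + 3 * σ + w + 8 ≤ 2 * e2 → RplG0 c d w σ m e P →
      ¬ RsgT1 (rplA c d w σ m e P) (rplC c d w σ m e P) → ¬ RsgT2 c d (rplA c d w σ m e P) (rplC c d w σ m e P) →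
      (∃ z ∈ rplA c d w σ m e P, m + e2 < rswX z) → (∃ z ∈ rplC c d w σ m e P, rswX z < m + σ - e2) → RsgEst x (rplD true c d w σ m e P))
    (T : Bool) {c d w σ m e e2 : ℤ} {P : Set TV} (hcd : c < d) (hw : 1 ≤ w) (hσ : 2 * w < σ)
    (he : w + 4 ≤ e) (h21 : e2 ≤ e) (h22 : e + 3 * σ + w + 8 ≤ 2 * e2) (h0 : RplG0 c d w σ m e P)
    (h1 : ¬ RsgT1 (rplA c d w σ m e P) (rplC c d w σ m e P)) (h2 : ¬ RsgT2 c d (rplA c d w σ m e P) (rplC c d w σ m e P))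
    (hta : ∃ z ∈ rplA c d w σ m e P, m + e2 < rswX z) (htc : ∃ z ∈ rplC c d w σ m e P, rswX z < m + σ - e2) : RsgEst x (rplD T c d w σ m e P) := by
  have hx0 : 0 < x := lt_of_lt_of_le (by positivity) hx1
  cases T
  · obtain ⟨pa, qa, pc, qc, H, -⟩ := rpl_pair hcd hw hσ he h0 h1
    refine rgf_est (D := rplD false c d w σ m e P) hx0 hx2 H rfl ?_
    rw [rgf_rplD]
    refine htrue (e2 := e2) (by omega) hw hσ he h21 h22 (rgf_G0 c d w σ m e P h0) ?_ ?_ ?_ ?_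
    · rw [rgf_rplA, rgf_rplC, rgf_T1]
      exact h1
    · rw [rgf_rplA, rgf_rplC, rgf_T2]
      exact h2
    · obtain ⟨z, hz, hX⟩ := hta
      rw [rgf_rplA]
      exact ⟨rgfI z, by show rgfI (rgfI z) ∈ rplA c d w σ m e P; rwa [rgf_I_I], by rwa [rgf_I_rswX]⟩
    · obtain ⟨z, hz, hX⟩ := htc
      rw [rgf_rplC]
      exact ⟨rgfI z, by show rgfI (rgfI z) ∈ rplC c d w σ m e P; rwa [rgf_I_I], by rwa [rgf_I_rswX]⟩
  · exact htrue hcd hw hσ he h21 h22 h0 h1 h2 hta htc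

/-- **(L-TUBE), both classes from the class `true`** (statement of `rsg_est_tube`, `Ann/RswGlue`) -/
theorem rgf_tube (x : ℝ) (hx1 : 1 / Real.sqrt 2 ≤ x) (hx2 : x ≤ 1)
    (htrue : ∀ {c d w σ m e : ℤ} {P : Set TV}, c < d → 1 ≤ w → 2 * w < σ → w + 4 ≤ e → 12 * (σ + 2 * e) + 64 ≤ d - c → RplG0 c d w σ m e P →
      ¬ RsgT1 (rplA c d w σ m e P) (rplC c d w σ m e P) → ¬ RsgT2 c d (rplA c d w σ m e P) (rplC c d w σ m e P) → RsgEst x (rplD true c d w σ m e P))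
    (T : Bool) {c d w σ m e : ℤ} {P : Set TV} (hcd : c < d) (hw : 1 ≤ w) (hσ : 2 * w < σ)
    (he : w + 4 ≤ e) (hnar : 12 * (σ + 2 * e) + 64 ≤ d - c) (h0 : RplG0 c d w σ m e P)
    (h1 : ¬ RsgT1 (rplA c d w σ m e P) (rplC c d w σ m e P)) (h2 : ¬ RsgT2 c d (rplA c d w σ m e P) (rplC c d w σ m e P)) : RsgEst x (rplD T c d w σ m e P) := by
  have hx0 : 0 < x := lt_of_lt_of_le (by positivity) hx1
  cases T
  · obtain ⟨pa, qa, pc, qc, H, -⟩ := rpl_pair hcd hw hσ he h0 h1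
    refine rgf_est (D := rplD false c d w σ m e P) hx0 hx2 H rfl ?_
    rw [rgf_rplD]
    refine htrue (by omega) hw hσ he (by omega) (rgf_G0 c d w σ m e P h0) ?_ ?_
    · rw [rgf_rplA, rgf_rplC, rgf_T1]
      exact h1
    · rw [rgf_rplA, rgf_rplC, rgf_T2]
      exact h2
  · exact htrue hcd hw hσ he hnar h0 h1 h2

end Claimed.Agent.R291
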