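import Claimed.Agent.R291.Glue.Double

/-!
# Row 291 (S0539), Glue/Maj : THE MAJORITY LEMMA: THE SITE DICHOTOMY OF A PLACE FOLLOWS FROM ITS CELL DICHOTOMY      (owner helper259; prefix `gmj_`, `Gmj`; head of A3: helper187, of A1: helper55)

Ruling of 187 (07:15Z), item (2), idea of 105: ALL Hex / tip geometry lives on the lattice of the CELL INDICES; the field `dich` (sites) of `GlPlace` follows from the field `dichC` (cells) of `GlPlaceC`.
Colour `La ∪ Lc` plus, the other mirror sites minus, `P` on the free core `K0`;  `P^c` := the MAJORITY-plus cells (at least 2 of the 3 sites are plus).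
* two cells which share a site and have the same majority colour have CONNECTED majority sites (`gmj_path`): if the common site has the other colour, the four other sites form a path (`LINK`: `gmj_link_V`, `gmj_link_D`);
* last visit / first visit (`gmj_extract`): a path inside `A ∪ C ∪ Z` from `A` to `C` (`A ∥ C`) contains a path inside `Z` from a neighbour of `A` to a neighbour of `C`.
ABSTRACT on `ClSys` (any clipped system, both classes): **`gl_maj_dich`**.      Concrete: `gl_maj_dich_amb` (`S = clAmb x Q`).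
CONVERSE DIRECTION (principle (3) of the ruling: "a site path is a cell path"): `gmj_site_cell`: the cells of the edges of a site path inside `Z` form a path of cells which have at least two sites in `Z`.
-/

set_option autoImplicit false
set_option linter.unusedSectionVars false
set_option linter.unusedVariables false
set_option linter.unusedSimpArgs false

namespace Claimed.Agent.R291

open Relation Claims Claims.C0467

section abstract

variable {V Y : Type} [DecidableEq V] [DecidableEq Y]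

/-! ### cells and sites -/

/-- two sites of one cell are equal or adjacent -/
theorem gmj_cell_adj (S : ClSys V Y) {y : Y} (hy : y ∈ S.C) {u v : V} (hu : u ∈ S.sv y) (hv : v ∈ S.sv y) : u = v ∨ S.gr.Adj u v := by
  by_cases h : u = v
  · exact Or.inl h
  · exact Or.inr ⟨h, y, hy, hu, hv⟩

/-- two sites of one cell which lie in `U` are joined inside `U` -/
theorem gmj_step (S : ClSys V Y) {U : Set V} {y : Y} (hy : y ∈ S.C) {u v : V} (hu : u ∈ S.sv y) (hv : v ∈ S.sv y) (huU : u ∈ U) (hvU : v ∈ U) :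
    TscR S.gr U u v := by
  rcases gmj_cell_adj S hy hu hv with rfl | h
  · exact ReflTransGen.refl
  · exact tsc_R_step h huU hvU

open Classical in
/-- the cell has at least two sites in `M` -/
def GmjMaj (S : ClSys V Y) (M : Set V) (y : Y) : Prop := 2 ≤ ((S.sv y).filter (fun v => v ∈ M)).card

theorem gmj_eqns_cite : True := by
  have := @GmjMaj.eq_1
  trivial

/-- a majority cell with three sites: if one site is not in `M`, the two others are -/
theorem gmj_others (S : ClSys V Y) {M : Set V} {y : Y} (h3 : (S.sv y).card = 3) (hm : GmjMaj S M y) {s : V} (hs : s ∈ S.sv y) (hsM : s ∉ M)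
    {u : V} (hu : u ∈ S.sv y) (hus : u ≠ s) : u ∈ M := by
  classical
  unfold GmjMaj at hm
  have hsub : (S.sv y).filter (fun v => v ∈ M) ⊆ (S.sv y).erase s := by
    intro v hv
    obtain ⟨hv1, hv2⟩ := Finset.mem_filter.1 hv
    exact Finset.mem_erase.2 ⟨fun e => hsM (e ▸ hv2), hv1⟩
  have hcard : ((S.sv y).erase s).card = 2 := by rw [Finset.card_erase_of_mem hs, h3]
  have heq := Finset.eq_of_subset_of_card_le hsub (by rw [hcard]; exact hm)
  have h1 : u ∈ (S.sv y).filter (fun v => v ∈ M) := by rw [heq]; exact Finset.mem_erase.2 ⟨hus, hu⟩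
  exact (Finset.mem_filter.1 h1).2

/-- a majority cell has a site in `M` -/
theorem gmj_some (S : ClSys V Y) {M : Set V} {y : Y} (hm : GmjMaj S M y) : ∃ v ∈ S.sv y, v ∈ M := by
  classical
  unfold GmjMaj at hm
  obtain ⟨v, hv⟩ := Finset.card_pos.1 (lt_of_lt_of_le (by norm_num : 0 < 2) hm)
  exact ⟨v, (Finset.mem_filter.1 hv).1, (Finset.mem_filter.1 hv).2⟩

/-- a cell with three sites has a majority colour -/
theorem gmj_compl (S : ClSys V Y) {M : Set V} {y : Y} (h3 : (S.sv y).card = 3) (hm : ¬ GmjMaj S M y) : GmjMaj S Mᶜ y := by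
  classical
  unfold GmjMaj at hm ⊢
  have h1 := Finset.card_filter_add_card_filter_not (s := S.sv y) (fun v => v ∈ M)
  refine le_trans (by omega) (Finset.card_le_card (s := (S.sv y).filter (fun v => ¬ v ∈ M)) ?_)
  intro v hv
  obtain ⟨hv1, hv2⟩ := Finset.mem_filter.1 hv
  simp only [Finset.mem_filter]
  exact ⟨hv1, hv2⟩

/-- two sites of a cell in `M` give the majority -/
theorem gmj_of_two (S : ClSys V Y) {M : Set V} {y : Y} {u v : V} (hu : u ∈ S.sv y) (hv : v ∈ S.sv y) (huv : u ≠ v) (huM : u ∈ M) (hvM : v ∈ M) :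
    GmjMaj S M y := by
  classical
  unfold GmjMaj
  have hsub : ({u, v} : Finset V) ⊆ (S.sv y).filter (fun v => v ∈ M) := by
    intro w hw
    rcases Finset.mem_insert.1 hw with rfl | hw
    · exact Finset.mem_filter.2 ⟨hu, huM⟩
    · rw [Finset.mem_singleton] at hw; subst hw; exact Finset.mem_filter.2 ⟨hv, hvM⟩
  have := Finset.card_le_card hsub
  rwa [Finset.card_pair huv] at this

/-! ### a path of majority cells carries a path of majority sites -/

/-- **LINK**: around a common site the other sites of the two cells are joined -/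
def GmjLink (S : ClSys V Y) (Z : Set Y) : Prop :=
  ∀ y ∈ Z, ∀ y' ∈ Z, y ≠ y' → ∀ s, s ∈ S.sv y → s ∈ S.sv y' → ∃ u ∈ S.sv y, ∃ u' ∈ S.sv y', u ≠ s ∧ u' ≠ s ∧ (u = u' ∨ S.gr.Adj u u')

theorem gmj_eqns_cite2 : True := by
  have := @GmjLink.eq_1
  trivial

theorem gmj_link_mono (S : ClSys V Y) {Z Z' : Set Y} (h : Z ⊆ Z') (hl : GmjLink S Z') : GmjLink S Z :=
  fun y hy y' hy' => hl y (h hy) y' (h hy')

/-- a path of cells of majority colour `M`: the sites of colour `M` of its cells are joined inside `U ⊇ M ∩ sites` -/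
theorem gmj_path (S : ClSys V Y) {M U : Set V} {Z : Set Y} (hC : ∀ y ∈ Z, y ∈ S.C) (h3 : ∀ y ∈ Z, (S.sv y).card = 3) (hm : ∀ y ∈ Z, GmjMaj S M y)
    (hMU : ∀ y ∈ Z, ∀ v ∈ S.sv y, v ∈ M → v ∈ U) (hlink : GmjLink S Z)
    {y y' : Y} (hy : y ∈ Z) (h : TscR (glCg S) Z y y') {t : V} (ht : t ∈ S.sv y) (htU : t ∈ U) :
    ∀ v ∈ S.sv y', v ∈ M → TscR S.gr U t v := by
  induction h with
  | refl => intro v hv hvM; exact gmj_step S (hC y hy) ht hv htU (hMU y hy v hv hvM)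
  | @tail b c hab hbc ih =>
    intro v hv hvM
    obtain ⟨⟨hne, s, hsb, hsc⟩, hbZ, hcZ⟩ := hbc
    by_cases hsM : s ∈ M
    · exact tsc_R_trans (ih s hsb hsM) (gmj_step S (hC c hcZ) hsc hv (hMU c hcZ s hsc hsM) (hMU c hcZ v hv hvM))
    · obtain ⟨u, hu, u', hu', hus, hus', huu⟩ := hlink b hbZ c hcZ hne s hsb hsc
      have huM := gmj_others S (h3 b hbZ) (hm b hbZ) hsb hsM hu hus
      have hu'M := gmj_others S (h3 c hcZ) (hm c hcZ) hsc hsM hu' hus'
      have h1 := ih u hu huM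
      have h2 : TscR S.gr U u u' := by
        rcases huu with rfl | hadj
        · exact ReflTransGen.refl
        · exact tsc_R_step hadj (hMU b hbZ u hu huM) (hMU c hcZ u' hu' hu'M)
      exact tsc_R_trans h1 (tsc_R_trans h2 (gmj_step S (hC c hcZ) hu' hv (hMU c hcZ u' hu' hu'M) (hMU c hcZ v hv hvM)))

/-! ### last visit, first visit -/

/-- a path inside `A ∪ C ∪ Z` from `A` to `C` contains a path inside `Z` from a neighbour of `A` to a neighbour of `C` -/
theorem gmj_extract {G : SimpleGraph V} {A C Z : Set V} (hAC : ∀ u ∈ A, ∀ v ∈ C, u ≠ v ∧ ¬ G.Adj u v) (hZC : ∀ v ∈ Z, v ∉ C)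
    {a c : V} (ha : a ∈ A) (hc : c ∈ C) (h : TscR G (A ∪ C ∪ Z) a c) : GlJoin G Z A C := by
  have key : ∀ v, TscR G (A ∪ C ∪ Z) a v →
      (v ∈ A ∨ (v ∈ Z ∧ ∃ u ∈ Z, (∃ a' ∈ A, G.Adj u a') ∧ TscR G Z u v) ∨ GlJoin G Z A C) := by
    intro v hv
    induction hv with
    | refl => exact Or.inl ha
    | @tail b d hab hbd ih =>
      rcases ih with hbA | ⟨hbZ, u, hu, hua, hub⟩ | hJ
      · rcases hbd.2.2 with (hdA | hdC) | hdZ
        · exact Or.inl hdA
        · exact ((hAC b hbA d hdC).2 hbd.1).elim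
        · exact Or.inr (Or.inl ⟨hdZ, d, hdZ, ⟨b, hbA, hbd.1.symm⟩, ReflTransGen.refl⟩)
      · rcases hbd.2.2 with (hdA | hdC) | hdZ
        · exact Or.inl hdA
        · exact Or.inr (Or.inr ⟨u, b, hu, hbZ, hua, ⟨d, hdC, hbd.1⟩, hub⟩)
        · exact Or.inr (Or.inl ⟨hdZ, u, hu, hua, hub.tail ⟨hbd.1, hbZ, hdZ⟩⟩)
      · exact Or.inr (Or.inr hJ)
  rcases key c h with h1 | ⟨h1, -⟩ | h1
  · exact ((hAC c h1 c hc).1 rfl).elim
  · exact (hZC c h1 hc).elim
  · exact h1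

/-! ### the majority lemma -/

/-- **THE MAJORITY LEMMA**: the cell dichotomy of a place implies its site dichotomy.      (`A'`, `C'` = the mirror images `glMir K e φ La`, `glMir K e φ Lc`;  `K0` = the sites of the cells of `Kc` off the four sides.) -/
theorem gl_maj_dich (S : ClSys V Y) (La Lc A' C' K0 : Finset V) (Kc : Finset Y)
    (hC : ∀ y ∈ Kc, y ∈ S.C) (h3 : ∀ y ∈ Kc, (S.sv y).card = 3) (hcov : ∀ y ∈ Kc, S.sv y ⊆ K0 ∪ La ∪ Lc ∪ A' ∪ C')
    (hlink : GmjLink S ↑Kc)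
    (hac : ∀ u ∈ La, ∀ v ∈ Lc, u ≠ v ∧ ¬ S.gr.Adj u v) (hac' : ∀ u ∈ A', ∀ v ∈ C', u ≠ v ∧ ¬ S.gr.Adj u v)
    (hfree : ∀ v ∈ K0, v ∉ Lc ∧ v ∉ C')
    (dichC : ∀ P : Set Y, GlJoinC S (↑Kc ∩ P) La Lc ∨ GlJoinC S (↑Kc \ P) A' C') (P : Set V) :
    GlJoin S.gr (↑K0 ∩ P) ↑La ↑Lc ∨ GlJoin S.gr (↑K0 \ P) ↑A' ↑C' := by
  classical
  obtain ⟨M, hM⟩ : ∃ M : Set V, M = ↑La ∪ ↑Lc ∪ (↑K0 ∩ P) := ⟨_, rfl⟩
  rcases dichC {y | GmjMaj S M y} with h | h
  · left
    obtain ⟨y, y', hy, hy', ⟨a, ha, hay⟩, ⟨c, hc, hcy⟩, hp⟩ := h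
    have haM : a ∈ M := by rw [hM]; exact Or.inl (Or.inl ha)
    have hcM : c ∈ M := by rw [hM]; exact Or.inl (Or.inr hc)
    have h1 := gmj_path S (M := M) (U := M) (Z := ↑Kc ∩ {y | GmjMaj S M y}) (fun y hy => hC y hy.1) (fun y hy => h3 y hy.1) (fun y hy => hy.2)
      (fun _ _ _ _ h => h) (gmj_link_mono S Set.inter_subset_left hlink) hy hp hay haM c hcy hcM
    rw [hM] at h1
    exact gmj_extract (fun u hu v hv => hac u hu v hv) (fun v hv => (hfree v hv.1).1) ha hc h1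
  · right
    obtain ⟨y, y', hy, hy', ⟨a, ha, hay⟩, ⟨c, hc, hcy⟩, hp⟩ := h
    have hMU : ∀ z ∈ (↑Kc \ {y | GmjMaj S M y} : Set Y), ∀ v ∈ S.sv z, v ∈ Mᶜ → v ∈ (↑A' ∪ ↑C' ∪ (↑K0 \ P) : Set V) := by
      intro z hz v hv hvM
      have hv' := hcov z hz.1 hv
      simp only [Finset.mem_union] at hv'
      rw [hM] at hvM
      rcases hv' with (((h0 | h0) | h0) | h0) | h0
      · exact Or.inr ⟨h0, fun hP => hvM (Or.inr ⟨h0, hP⟩)⟩
      · exact (hvM (Or.inl (Or.inl h0))).elim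
      · exact (hvM (Or.inl (Or.inr h0))).elim
      · exact Or.inl (Or.inl h0)
      · exact Or.inl (Or.inr h0)
    have hmaj : ∀ z ∈ (↑Kc \ {y | GmjMaj S M y} : Set Y), GmjMaj S Mᶜ z := fun z hz => gmj_compl S (h3 z hz.1) hz.2
    obtain ⟨v, hv, hvM⟩ := gmj_some S (hmaj y' hy')
    have h1 := gmj_path S (M := Mᶜ) (U := (↑A' ∪ ↑C' ∪ (↑K0 \ P) : Set V)) (Z := ↑Kc \ {y | GmjMaj S M y}) (fun y hy => hC y hy.1) (fun y hy => h3 y hy.1) hmaj
      hMU (gmj_link_mono S Set.sdiff_subset hlink) hy hp hay (Or.inl (Or.inl ha)) v hv hvM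
    have h2 := tsc_R_trans h1 (gmj_step S (hC y' hy'.1) hv hcy (hMU y' hy' v hv hvM) (Or.inl (Or.inr hc)))
    exact gmj_extract (fun u hu v hv => hac' u hu v hv) (fun v hv => (hfree v hv.1).2) ha hc h2

end abstract

/-! ### the converse: a site path is a cell path -/

section converse

variable {V Y : Type} [DecidableEq V] [DecidableEq Y]

/-- **a site path is a cell path** (principle (3) of the ruling of 187): the cells of the edges of a path of sites inside `Z` form a path of cells which have at least two sites in `Z`.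
`W` = any set of cells which contains, for every edge of `S.gr` inside `Z`, ALL the cells of this edge. -/
theorem gmj_site_cell (S : ClSys V Y) {Z : Set V} {W : Set Y} (hW : ∀ y ∈ S.C, ∀ u ∈ S.sv y, ∀ v ∈ S.sv y, u ≠ v → u ∈ Z → v ∈ Z → y ∈ W)
    {u v : V} (h : TscR S.gr Z u v) (huv : u ≠ v) :
    ∃ y y', y ∈ W ∧ y' ∈ W ∧ GmjMaj S Z y ∧ GmjMaj S Z y' ∧ u ∈ S.sv y ∧ v ∈ S.sv y' ∧ TscR (glCg S) (W ∩ {y | GmjMaj S Z y}) y y' := by
  induction h with
  | refl => exact (huv rfl).elim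
  | @tail b c hab hbc ih =>
    obtain ⟨⟨hne, y', hy', hby', hcy'⟩, hbZ, hcZ⟩ := hbc
    have hy'W : y' ∈ W := hW y' hy' b hby' c hcy' hne hbZ hcZ
    have hy'M : GmjMaj S Z y' := gmj_of_two S hby' hcy' hne hbZ hcZ
    by_cases hub : u = b
    · subst hub
      exact ⟨y', y', hy'W, hy'W, hy'M, hy'M, hby', hcy', ReflTransGen.refl⟩
    · obtain ⟨y, y₁, hyW, hy₁W, hyM, hy₁M, huy, hby₁, hp⟩ := ih hub
      by_cases he : y₁ = y'
      · subst he
        exact ⟨y, y₁, hyW, hy₁W, hyM, hy₁M, huy, hcy', hp⟩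
      · exact ⟨y, y', hyW, hy'W, hyM, hy'M, huy, hcy', hp.tail ⟨⟨he, b, hby₁, hby'⟩, ⟨hy₁W, hy₁M⟩, ⟨hy'W, hy'M⟩⟩⟩

end converse

/-! ### the lattice: LINK for the two classes of cells -/

/-- LINK for the up-cells: around a common site the four other sites of two up-cells form a path -/
theorem gmj_link_V {y y' s : TV} (hne : y ≠ y') (hs : s ∈ cellV y) (hs' : s ∈ cellV y') :
    ∃ u ∈ cellV y, ∃ u' ∈ cellV y', u ≠ s ∧ u' ≠ s ∧ triAdj u u' := by
  obtain ⟨a, b⟩ := y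
  obtain ⟨a', b'⟩ := y'
  obtain ⟨p, q⟩ := s
  simp only [cellV, Finset.mem_insert, Finset.mem_singleton, Prod.mk_add_mk, Prod.mk.injEq] at hs hs'
  have hne' : ¬ (a = a' ∧ b = b') := fun h => hne (by rw [h.1, h.2])
  have key : (a' = a - 1 ∧ b' = b) ∨ (a' = a + 1 ∧ b' = b) ∨ (a' = a ∧ b' = b - 1) ∨ (a' = a ∧ b' = b + 1) ∨ (a' = a + 1 ∧ b' = b - 1) ∨ (a' = a - 1 ∧ b' = b + 1) := by
    omega
  rcases key with h | h | h | h | h | h
  · refine ⟨(a, b) + (0, 1), by simp [cellV], (a', b') + (0, 1), by simp [cellV], ?_, ?_, ?_⟩ <;>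
      simp only [tsc_adj_iff, ne_eq, Prod.mk_add_mk, Prod.mk.injEq] <;> omega
  · refine ⟨(a, b) + (0, 1), by simp [cellV], (a', b') + (0, 1), by simp [cellV], ?_, ?_, ?_⟩ <;>
      simp only [tsc_adj_iff, ne_eq, Prod.mk_add_mk, Prod.mk.injEq] <;> omega
  · refine ⟨(a, b) + (1, 0), by simp [cellV], (a', b') + (1, 0), by simp [cellV], ?_, ?_, ?_⟩ <;>
      simp only [tsc_adj_iff, ne_eq, Prod.mk_add_mk, Prod.mk.injEq] <;> omega
  · refine ⟨(a, b) + (1, 0), by simp [cellV], (a', b') + (1, 0), by simp [cellV], ?_, ?_, ?_⟩ <;>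
      simp only [tsc_adj_iff, ne_eq, Prod.mk_add_mk, Prod.mk.injEq] <;> omega
  · refine ⟨(a, b), by simp [cellV], (a', b'), by simp [cellV], ?_, ?_, ?_⟩ <;>
      simp only [tsc_adj_iff, ne_eq, Prod.mk_add_mk, Prod.mk.injEq] <;> omega
  · refine ⟨(a, b), by simp [cellV], (a', b'), by simp [cellV], ?_, ?_, ?_⟩ <;>
      simp only [tsc_adj_iff, ne_eq, Prod.mk_add_mk, Prod.mk.injEq] <;> omega

/-- LINK for the down-cells -/
theorem gmj_link_D {y y' s : TV} (hne : y ≠ y') (hs : s ∈ cellD y) (hs' : s ∈ cellD y') :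
    ∃ u ∈ cellD y, ∃ u' ∈ cellD y', u ≠ s ∧ u' ≠ s ∧ triAdj u u' := by
  obtain ⟨a, b⟩ := y
  obtain ⟨a', b'⟩ := y'
  obtain ⟨p, q⟩ := s
  simp only [cellD, Finset.mem_insert, Finset.mem_singleton, Prod.mk_add_mk, Prod.mk.injEq] at hs hs'
  have hne' : ¬ (a = a' ∧ b = b') := fun h => hne (by rw [h.1, h.2])
  have key : (a' = a - 1 ∧ b' = b) ∨ (a' = a + 1 ∧ b' = b) ∨ (a' = a ∧ b' = b - 1) ∨ (a' = a ∧ b' = b + 1) ∨ (a' = a + 1 ∧ b' = b - 1) ∨ (a' = a - 1 ∧ b' = b + 1) := by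
    omega
  rcases key with h | h | h | h | h | h
  · refine ⟨(a, b) + (1, 0), by simp [cellD], (a', b') + (1, 0), by simp [cellD], ?_, ?_, ?_⟩ <;>
      simp only [tsc_adj_iff, ne_eq, Prod.mk_add_mk, Prod.mk.injEq] <;> omega
  · refine ⟨(a, b) + (1, 0), by simp [cellD], (a', b') + (1, 0), by simp [cellD], ?_, ?_, ?_⟩ <;>
      simp only [tsc_adj_iff, ne_eq, Prod.mk_add_mk, Prod.mk.injEq] <;> omega
  · refine ⟨(a, b) + (0, 1), by simp [cellD], (a', b') + (0, 1), by simp [cellD], ?_, ?_, ?_⟩ <;>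
      simp only [tsc_adj_iff, ne_eq, Prod.mk_add_mk, Prod.mk.injEq] <;> omega
  · refine ⟨(a, b) + (0, 1), by simp [cellD], (a', b') + (0, 1), by simp [cellD], ?_, ?_, ?_⟩ <;>
      simp only [tsc_adj_iff, ne_eq, Prod.mk_add_mk, Prod.mk.injEq] <;> omega
  · refine ⟨(a, b) + (1, 1), by simp [cellD], (a', b') + (1, 1), by simp [cellD], ?_, ?_, ?_⟩ <;>
      simp only [tsc_adj_iff, ne_eq, Prod.mk_add_mk, Prod.mk.injEq] <;> omega
  · refine ⟨(a, b) + (1, 1), by simp [cellD], (a', b') + (1, 1), by simp [cellD], ?_, ?_, ?_⟩ <;>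
      simp only [tsc_adj_iff, ne_eq, Prod.mk_add_mk, Prod.mk.injEq] <;> omega

theorem gmj_card_V (y : TV) : (cellV y).card = 3 := by
  obtain ⟨a, b⟩ := y
  unfold cellV
  rw [Finset.card_insert_of_notMem, Finset.card_insert_of_notMem, Finset.card_singleton] <;>
    simp [Prod.ext_iff]

theorem gmj_card_D (y : TV) : (cellD y).card = 3 := by
  obtain ⟨a, b⟩ := y
  unfold cellD
  rw [Finset.card_insert_of_notMem, Finset.card_insert_of_notMem, Finset.card_singleton] <;>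
    simp [Prod.ext_iff]

/-! ### the closed planar system `clAmb x Q` -/

/-- the sites of a cell inside `Q` -/
theorem gmj_amb_sv (x : ℝ) (Q : Finset TV) {y : TV} (hy : cellV y ⊆ Q) : (clAmb x Q).sv y = cellV y :=
  Finset.inter_eq_left.2 hy

/-- LINK in the closed system, for the cells inside `Q` -/
theorem gmj_amb_link (x : ℝ) (Q : Finset TV) {Z : Set TV} (hZ : ∀ y ∈ Z, cellV y ⊆ Q) : GmjLink (clAmb x Q) Z := by
  intro y hy y' hy' hne s hs hs'
  rw [gmj_amb_sv x Q (hZ y hy)] at hs ⊢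
  rw [gmj_amb_sv x Q (hZ y' hy')] at hs' ⊢
  obtain ⟨u, hu, u', hu', h1, h2, h3⟩ := gmj_link_V hne hs hs'
  exact ⟨u, hu, u', hu', h1, h2, Or.inr ((gl_amb_gr x Q (hZ y hy hu) (hZ y' hy' hu')).2 h3)⟩

/-- **the majority lemma in the closed planar system**: lattice hypotheses only -/
theorem gl_maj_dich_amb (x : ℝ) (Q La Lc A' C' K0 Kc : Finset TV) (hKc : ∀ y ∈ Kc, cellV y ⊆ Q)
    (hcov : ∀ y ∈ Kc, cellV y ⊆ K0 ∪ La ∪ Lc ∪ A' ∪ C')
    (hac : ∀ u ∈ La, ∀ v ∈ Lc, u ≠ v ∧ ¬ triAdj u v) (hac' : ∀ u ∈ A', ∀ v ∈ C', u ≠ v ∧ ¬ triAdj u v)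
    (hfree : ∀ v ∈ K0, v ∉ Lc ∧ v ∉ C')
    (dichC : ∀ P : Set TV, GlJoinC (clAmb x Q) (↑Kc ∩ P) La Lc ∨ GlJoinC (clAmb x Q) (↑Kc \ P) A' C') (P : Set TV) :
    GlJoin (clAmb x Q).gr (↑K0 ∩ P) ↑La ↑Lc ∨ GlJoin (clAmb x Q).gr (↑K0 \ P) ↑A' ↑C' := by
  refine gl_maj_dich (clAmb x Q) La Lc A' C' K0 Kc ?_ ?_ ?_ (gmj_amb_link x Q fun y hy => hKc y hy) ?_ ?_ hfree dichC P
  · intro y hy
    have h1 : y ∈ cellV y := by simp [cellV]
    exact lat_mem_cells.2 ⟨y, h1, hKc y hy h1⟩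
  · intro y hy
    rw [gmj_amb_sv x Q (hKc y hy)]; exact gmj_card_V y
  · intro y hy
    rw [gmj_amb_sv x Q (hKc y hy)]; exact hcov y hy
  · exact fun u hu v hv => ⟨(hac u hu v hv).1, fun h => (hac u hu v hv).2 (gl_amb_adj x Q h).1⟩
  · exact fun u hu v hv => ⟨(hac' u hu v hv).1, fun h => (hac' u hu v hv).2 (gl_amb_adj x Q h).1⟩

/-! ### sites and indices on the lattice: a site path is an INDEX path      (principle (3) of the ruling of 187; closed separation of the places, 105 07:30Z) -/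

/-- every lattice edge lies in an up-cell -/
theorem gmj_edge_V {u v : TV} (h : triAdj u v) : ∃ y, u ∈ cellV y ∧ v ∈ cellV y := by
  obtain ⟨a, b⟩ := u
  obtain ⟨a', b'⟩ := v
  rw [tsc_adj_iff] at h
  dsimp only at h
  rcases h with h | h | h | h | h | h
  · exact ⟨(a, b), by simp [cellV], by simp [cellV, h.1, h.2]⟩
  · exact ⟨(a, b), by simp [cellV], by simp [cellV, h.1, h.2]⟩
  · exact ⟨(a - 1, b), by simp [cellV], by simp [cellV, h.1, h.2]⟩
  · exact ⟨(a - 1, b), by simp [cellV], by simp [cellV, h.1, h.2]⟩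
  · exact ⟨(a, b - 1), by simp [cellV], by simp [cellV, h.1, h.2]⟩
  · exact ⟨(a, b - 1), by simp [cellV], by simp [cellV, h.1, h.2]⟩

/-- every lattice edge lies in a down-cell -/
theorem gmj_edge_D {u v : TV} (h : triAdj u v) : ∃ y, u ∈ cellD y ∧ v ∈ cellD y := by
  obtain ⟨a, b⟩ := u
  obtain ⟨a', b'⟩ := v
  rw [tsc_adj_iff] at h
  dsimp only at h
  rcases h with h | h | h | h | h | h
  · exact ⟨(a, b - 1), by simp [cellD], by simp [cellD, h.1, h.2]⟩
  · exact ⟨(a - 1, b), by simp [cellD], by simp [cellD, h.1, h.2]⟩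
  · exact ⟨(a - 1, b), by simp [cellD], by simp [cellD, h.1, h.2]⟩
  · exact ⟨(a - 1, b - 1), by simp [cellD], by simp [cellD, h.1, h.2]⟩
  · exact ⟨(a - 1, b - 1), by simp [cellD], by simp [cellD, h.1, h.2]⟩
  · exact ⟨(a, b - 1), by simp [cellD], by simp [cellD, h.1, h.2]⟩

/-- two up-cells which share a site have equal or adjacent indices -/
theorem gmj_share_V {y y' s : TV} (hs : s ∈ cellV y) (hs' : s ∈ cellV y') : y = y' ∨ triAdj y y' := by
  obtain ⟨a, b⟩ := y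
  obtain ⟨a', b'⟩ := y'
  obtain ⟨p, q⟩ := s
  simp only [cellV, Finset.mem_insert, Finset.mem_singleton, Prod.mk_add_mk, Prod.mk.injEq] at hs hs'
  rw [tsc_adj_iff, Prod.mk.injEq]
  dsimp only
  omega

/-- two down-cells which share a site have equal or adjacent indices -/
theorem gmj_share_D {y y' s : TV} (hs : s ∈ cellD y) (hs' : s ∈ cellD y') : y = y' ∨ triAdj y y' := by
  obtain ⟨a, b⟩ := y
  obtain ⟨a', b'⟩ := y'
  obtain ⟨p, q⟩ := s
  simp only [cellD, Finset.mem_insert, Finset.mem_singleton, Prod.mk_add_mk, Prod.mk.injEq] at hs hs'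
  rw [tsc_adj_iff, Prod.mk.injEq]
  dsimp only
  omega

/-- a family of cells on the lattice: every edge lies in a cell, cells which share a site have equal or adjacent indices -/
structure GmjCls (cs : TV → Finset TV) : Prop where
  edge : ∀ u v, triAdj u v → ∃ y, u ∈ cs y ∧ v ∈ cs y
  share : ∀ y y' s, s ∈ cs y → s ∈ cs y' → y = y' ∨ triAdj y y'

theorem gmj_cls_V : GmjCls cellV := ⟨fun _ _ h => gmj_edge_V h, fun _ _ _ h h' => gmj_share_V h h'⟩

theorem gmj_cls_D : GmjCls cellD := ⟨fun _ _ h => gmj_edge_D h, fun _ _ _ h h' => gmj_share_D h h'⟩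

/-- two cells of `W` which share a site are joined inside `W` -/
theorem gmj_share_R {cs : TV → Finset TV} (hc : GmjCls cs) {W : Set TV} {y y' s : TV} (hy : y ∈ W) (hy' : y' ∈ W) (hs : s ∈ cs y) (hs' : s ∈ cs y') :
    TscR tscG W y y' := by
  rcases hc.share y y' s hs hs' with rfl | h
  · exact ReflTransGen.refl
  · exact tsc_R_step h hy hy'

/-- **a site path is an index path**: `W` = any set of indices which contains every cell with an edge inside `Z` -/
theorem gmj_site_index {cs : TV → Finset TV} (hc : GmjCls cs) {Z W : Set TV} (hW : ∀ y, ∀ u ∈ cs y, ∀ v ∈ cs y, u ≠ v → u ∈ Z → v ∈ Z → y ∈ W)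
    {u v : TV} (h : TscR tscG Z u v) (huv : u ≠ v) : ∃ y y', y ∈ W ∧ y' ∈ W ∧ u ∈ cs y ∧ v ∈ cs y' ∧ TscR tscG W y y' := by
  induction h with
  | refl => exact (huv rfl).elim
  | @tail b c hab hbc ih =>
    obtain ⟨hadj, hbZ, hcZ⟩ := hbc
    obtain ⟨y', hby', hcy'⟩ := hc.edge b c hadj
    have hne : b ≠ c := fun e => tscG.loopless.irrefl c (e ▸ hadj)
    have hy'W : y' ∈ W := hW y' b hby' c hcy' hne hbZ hcZ
    by_cases hub : u = b
    · subst hub
      exact ⟨y', y', hy'W, hy'W, hby', hcy', ReflTransGen.refl⟩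
    · obtain ⟨y, y₁, hyW, hy₁W, huy, hby₁, hp⟩ := ih hub
      exact ⟨y, y', hyW, hy'W, huy, hcy', tsc_R_trans hp (gmj_share_R hc hy₁W hy'W hby₁ hby')⟩

/-- **closed separation**: two sets of cells which are not joined inside `W` have sites which are not joined inside `Z`.
USE: `Z = Q ∩ ρ Q` (sites, layers included), `W` = (closed free region) `∩ ρ` (closed free region) on the indices, `K₁`, `K₂` = two index places of one axis (105: `hxd_c2`):
the SITE components of `Q ∩ ρ Q` through `sites K₁` and through `sites K₂` are different, hence disjoint and not adjacent. -/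
theorem gmj_comp_sep {cs : TV → Finset TV} (hc : GmjCls cs) {Z W : Set TV} (hW : ∀ y, ∀ u ∈ cs y, ∀ v ∈ cs y, u ≠ v → u ∈ Z → v ∈ Z → y ∈ W)
    {K₁ K₂ : Set TV} (h₁ : K₁ ⊆ W) (h₂ : K₂ ⊆ W) (hno : ∀ k₁ ∈ K₁, ∀ k₂ ∈ K₂, ¬ TscR tscG W k₁ k₂)
    {k₁ k₂ u v : TV} (hk₁ : k₁ ∈ K₁) (hk₂ : k₂ ∈ K₂) (hu : u ∈ cs k₁) (hv : v ∈ cs k₂) : ¬ TscR tscG Z u v := by
  intro h
  by_cases huv : u = v
  · subst huv
    exact hno k₁ hk₁ k₂ hk₂ (gmj_share_R hc (h₁ hk₁) (h₂ hk₂) hu hv)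
  · obtain ⟨y, y', hyW, hy'W, huy, hvy', hp⟩ := gmj_site_index hc hW h huv
    exact hno k₁ hk₁ k₂ hk₂ (tsc_R_trans (gmj_share_R hc (h₁ hk₁) hyW hu huy) (tsc_R_trans hp (gmj_share_R hc hy'W (h₂ hk₂) hvy' hv)))

/-- the components of `Z` through the sites of `K₁` and of `K₂` are disjoint and not adjacent -/
theorem gmj_comp_far {cs : TV → Finset TV} (hc : GmjCls cs) {Z W : Set TV} (hW : ∀ y, ∀ u ∈ cs y, ∀ v ∈ cs y, u ≠ v → u ∈ Z → v ∈ Z → y ∈ W)
    {K₁ K₂ : Set TV} (h₁ : K₁ ⊆ W) (h₂ : K₂ ⊆ W) (hno : ∀ k₁ ∈ K₁, ∀ k₂ ∈ K₂, ¬ TscR tscG W k₁ k₂)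
    {k₁ k₂ u v : TV} (hk₁ : k₁ ∈ K₁) (hk₂ : k₂ ∈ K₂) (hu : u ∈ cs k₁) (hv : v ∈ cs k₂) :
    ∀ p ∈ tscComp tscG Z u, ∀ q ∈ tscComp tscG Z v, p ≠ q ∧ ¬ triAdj p q := by
  intro p hp q hq
  have hsep := gmj_comp_sep hc hW h₁ h₂ hno hk₁ hk₂ hu hv
  constructor
  · rintro rfl
    exact hsep (tsc_R_trans hp.2 (tsc_R_symm hq.2))
  · intro hadj
    exact hsep (tsc_R_trans hp.2 (tsc_R_trans (tsc_R_step hadj hp.1 hq.1) (tsc_R_symm hq.2)))

end Claimed.Agent.R291
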