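/-
# Row 291 (S0539), unit ANN, block A1, Glue/MidS : LEMMA B, STEP 2, THE SIDE OF THE STRIP      (owner helper116; prefix `gms_` / `gms`)

TEX[annulus:gluing], TEX[annulus:ports];   design: `origin/helper55:notes/R291/ann_A1_55_v2.md` Sec. 5, Step 2, items (i) and (ii).

`C` = the minus cluster of the two ends of the strip, `D0 = gmsD S C k` = the component of `S.A \ C` which contains the place `K ∋ k`, `Po = gmsPo S C k` = the sites of `D0` next to `C` (plus pins of `glHC`).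
 (i)  ties along `Po` LOWER the law                    (`am_order_eq`: a tie between two plus pins of a common cell)                                         `gms_ties`
 (ii) the exterior of `D0` is FREED                     (ports by classes, `Glue/Ports2`): every exterior cell meets `D0` in `Po`; `S.A \ D0` has at most two components which touch `D0` (one per end: `dconn`, `bconn`);
      the ports of one component are connected (`tsc_timar_in`), hence tied: 2 classes for each of the two histories, price `2 * 2`                             `gms_ports`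
EXIT **`gms_side`** : `N(H⁺; F) Z(H_C) ≤ 4 Z(H⁺) N(H_C; F)`, `H⁺ = gmsHp S Cb La Lc Po` = (plus on `La ∪ Lc ∪ Po`, ties `glTie S Po`, boundary cells on `La ∪ Lc` open-plus, NOTHING else), `F ≥ 0` increasing, local to `(D0, cells inside D0)`;
`gms_Hp_feas`, `gms_loc_join` (the event of `gl_mid` is local), **`gms_mid`** : `gl_mid` from the estimate `1/4 Z(H⁺) ≤ N(H⁺; E)` on the strip.
-/
import Claimed.Agent.R291.Glue.Place
import Claimed.Agent.R291.Glue.Ports2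

set_option autoImplicit false
set_option linter.unusedSectionVars false
set_option linter.unusedVariables false
set_option linter.unusedSimpArgs false

namespace Claimed.Agent.R291

open Finset Relation

section MidS

variable {V Y : Type} [DecidableEq V] [DecidableEq Y]

/-! ## 1. The component of the place and its ports -/

open Classical in
/-- the component of `k` off `C` -/
noncomputable def gmsD (S : ClSys V Y) (C : Finset V) (k : V) : Finset V := S.A.filter fun v => v ∈ tscComp S.gr (↑S.A \ ↑C : Set V) k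

open Classical in
/-- the ports: the sites of the component next to `C` -/
noncomputable def gmsPo (S : ClSys V Y) (C : Finset V) (k : V) : Finset V := (gmsD S C k).filter fun v => ∃ c ∈ C, S.gr.Adj c v

/-- the history `H⁺` of the strip: plus on the two sides and on the ports, second spin tied along the ports, the boundary cells on the two sides open-plus -/
def gmsHp (S : ClSys V Y) (Cb : Finset Y) (La Lc Po : Finset V) : ClCon V Y :=
  ⟨La ∪ Lc ∪ Po, ∅, glTie S Po, Cb.filter (fun y => S.sv y ⊆ La ∪ Lc), ∅, ∅, ∅, ∅⟩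

/-- the history of the cluster, with the ties along the ports -/
noncomputable def gmsH1 (S : ClSys V Y) (Cb : Finset Y) (La Lc Ld Lb C Po : Finset V) : ClCon V Y :=
  { glHC S Cb La Lc Ld Lb C with Eq := glTie S Po }

theorem gms_defs_eqns_cite : True := by
  have := @gmsD.eq_1
  have := @gmsPo.eq_1
  have := @gmsHp.eq_1
  have := @gmsH1.eq_1
  trivial

variable {S : ClSys V Y} {Cb : Finset Y} {La Lc Ld Lb C K : Finset V} {k : V}

theorem gms_mem_D {v : V} : v ∈ gmsD S C k ↔ v ∈ tscComp S.gr (↑S.A \ ↑C : Set V) k := by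
  classical
  unfold gmsD
  rw [mem_filter]
  exact ⟨fun h => h.2, fun h => ⟨mem_coe.1 h.1.1, h⟩⟩

theorem gms_D_sub : gmsD S C k ⊆ S.A := by
  classical
  exact filter_subset _ _

theorem gms_D_notC {v : V} (h : v ∈ gmsD S C k) : v ∉ C := fun hc => (gms_mem_D.1 h).1.2 (mem_coe.2 hc)

theorem gms_D_adj {u v : V} (hv : v ∈ gmsD S C k) (hu : u ∈ S.A) (huC : u ∉ C) (h : S.gr.Adj v u) : u ∈ gmsD S C k :=
  gms_mem_D.2 (tsc_comp_adj (gms_mem_D.1 hv) ⟨mem_coe.2 hu, fun h' => huC (mem_coe.1 h')⟩ h)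

theorem gms_mem_Po {v : V} : v ∈ gmsPo S C k ↔ v ∈ gmsD S C k ∧ ∃ c ∈ C, S.gr.Adj c v := by
  classical
  unfold gmsPo
  exact mem_filter

theorem gms_Po_sub : gmsPo S C k ⊆ gmsD S C k := fun _ h => (gms_mem_Po.1 h).1

theorem gms_K_sub (hK : TscConn S.gr (↑K : Set V)) (kK : k ∈ K) (kA : K ⊆ S.A) (hKC : ∀ z ∈ K, z ∉ C) : K ⊆ gmsD S C k := by
  intro v hv
  have hsub : (↑K : Set V) ⊆ ↑S.A \ ↑C := fun z hz => ⟨mem_coe.2 (kA (mem_coe.1 hz)), fun h => hKC z (mem_coe.1 hz) (mem_coe.1 h)⟩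
  exact gms_mem_D.2 ⟨hsub (mem_coe.2 hv), tsc_R_mono hsub (hK k (mem_coe.2 kK) v (mem_coe.2 hv))⟩

/-- a neighbour of the component which is not in the component lies in `C` -/
theorem gms_nbr {u v : V} (hv : v ∈ gmsD S C k) (hu : u ∈ S.A) (huD : u ∉ gmsD S C k) (h : S.gr.Adj v u) : u ∈ C := by
  by_contra huC
  exact huD (gms_D_adj hv hu huC h)

/-- an exterior cell meets the component in the ports -/
theorem gms_cell_port (hS : ClOk S) {y : Y} (hy : y ∈ S.C) (hyD : ¬ S.sv y ⊆ gmsD S C k) : S.sv y ∩ gmsD S C k ⊆ gmsPo S C k := by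
  intro v hv
  obtain ⟨h1, h2⟩ := mem_inter.1 hv
  obtain ⟨u, hu, huD⟩ := not_subset.1 hyD
  have hne : v ≠ u := fun h => huD (h ▸ h2)
  have hadj : S.gr.Adj v u := ⟨hne, y, hy, h1, hu⟩
  exact gms_mem_Po.2 ⟨h2, u, gms_nbr h2 (hS.sub y hy hu) huD hadj, hadj.symm⟩

theorem gms_mem_tie {Po : Finset V} {e : V × V} : e ∈ glTie S Po ↔ (e.1 ∈ Po ∧ e.2 ∈ Po) ∧ ∃ y ∈ S.C, e.1 ∈ S.sv y ∧ e.2 ∈ S.sv y := by
  unfold glTie
  rw [mem_filter, mem_product]

/-- the retained part with ports -/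
theorem gms_split (hS : ClOk S) (H : ClCon V Y) (hEq : H.Eq = glTie S (gmsPo S C k)) (hBp : gmsPo S C k ⊆ H.Bp) (wp : H.Wp = ∅) (wm : H.Wm = ∅) :
    PrcSplit S H (gmsD S C k) (S.cin (gmsD S C k)) (glTie S (gmsPo S C k)) (gmsPo S C k) where
  RA := gms_D_sub
  YC := filter_subset _ _
  sub := hS.sub
  q0 := fun y hy => (hS.q0 y hy).le
  q1 := hS.q1
  cellR := fun y hy => (mem_filter.1 hy).2
  pinX := fun y hy hyR => (gms_cell_port hS hy fun h => hyR (mem_filter.2 ⟨hy, h⟩)).trans (hBp.trans subset_union_left)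
  portC := fun y hy hyR => Or.inr (gms_cell_port hS hy fun h => hyR (mem_filter.2 ⟨hy, h⟩))
  eqR := by rw [hEq]
  eqR_in := fun e he => ⟨gms_Po_sub (gms_mem_tie.1 he).1.1, gms_Po_sub (gms_mem_tie.1 he).1.2⟩
  portE := fun e he hne => absurd (hEq ▸ he) hne
  eqA := fun e he => by
    rw [hEq] at he
    exact ⟨gms_D_sub (gms_Po_sub (gms_mem_tie.1 he).1.1), gms_D_sub (gms_Po_sub (gms_mem_tie.1 he).1.2)⟩
  wp := wp
  wm := wm

/-! ## 2. Two classes of ports -/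

/-- the ports seen from one exterior component are tied -/
theorem gms_chain_comp (hsc : S.SC) (x : V) {u v : V}
    (hu : u ∈ gmsD S C k) (hux : ∃ d ∈ tscComp S.gr (↑S.A \ tscComp S.gr (↑S.A \ ↑C : Set V) k) x, S.gr.Adj d u)
    (hv : v ∈ gmsD S C k) (hvx : ∃ d ∈ tscComp S.gr (↑S.A \ tscComp S.gr (↑S.A \ ↑C : Set V) k) x, S.gr.Adj d v) :
    ReflTransGen (Prc2Step (glTie S (gmsPo S C k))) u v := by
  have hconn := tsc_timar_in hsc (C := tscComp S.gr (↑S.A \ ↑C : Set V) k) (fun a h => h.1.1) (tsc_comp_conn k) x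
  have hport : ∀ c, c ∈ {c | c ∈ tscComp S.gr (↑S.A \ ↑C : Set V) k ∧
      ∃ d ∈ tscComp S.gr (↑S.A \ tscComp S.gr (↑S.A \ ↑C : Set V) k) x, S.gr.Adj d c} → c ∈ gmsPo S C k := by
    rintro c ⟨hc, d, hd, hdc⟩
    have hcD : c ∈ gmsD S C k := gms_mem_D.2 hc
    exact gms_mem_Po.2 ⟨hcD, d, gms_nbr hcD (mem_coe.1 hd.1.1) (fun h => hd.1.2 (gms_mem_D.1 h)) hdc.symm, hdc⟩
  have hR := hconn u ⟨gms_mem_D.1 hu, hux⟩ v ⟨gms_mem_D.1 hv, hvx⟩
  refine ReflTransGen.mono (r := TscStep S.gr _) ?_ _ _ hR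
  rintro a b ⟨hab, ha, hb⟩
  obtain ⟨_, y, hy, h1, h2⟩ := hab
  exact Or.inl (gms_mem_tie.2 ⟨⟨hport a ha, hport b hb⟩, y, hy, h1, h2⟩)

/-- the exterior component does not depend on the point of a connected exterior set -/
theorem gms_comp_eq {G : SimpleGraph V} {s L : Set V} (hL : TscConn G L) (hLs : L ⊆ s) {x x' : V} (hx : x ∈ L) (hx' : x' ∈ L) {d : V}
    (hd : d ∈ tscComp G s x') : d ∈ tscComp G s x :=
  ⟨hd.1, tsc_R_trans (tsc_R_mono hLs (hL x hx x' hx')) hd.2⟩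

/-- the hypotheses on the cluster -/
structure GmsClu (S : ClSys V Y) (La Lc Ld Lb C : Finset V) : Prop where
  sub : C ⊆ S.A
  ends : glEnd La Lc Ld Lb ⊆ C
  join : ∀ c ∈ C, ∃ u ∈ glEnd La Lc Ld Lb, TscR S.gr (↑C : Set V) u c
  dis : Disjoint (La ∪ Lc) C

/-- a site of `C` lies in the exterior component of a point of one of the two ends -/
theorem gms_clu_comp (hC : GmsClu S La Lc Ld Lb C) {c : V} (hc : c ∈ C) :
    ∃ x ∈ glEnd La Lc Ld Lb, c ∈ tscComp S.gr (↑S.A \ tscComp S.gr (↑S.A \ ↑C : Set V) k) x := by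
  obtain ⟨u, hu, huc⟩ := hC.join c hc
  have hsub : (↑C : Set V) ⊆ ↑S.A \ tscComp S.gr (↑S.A \ ↑C : Set V) k :=
    fun z hz => ⟨mem_coe.2 (hC.sub (mem_coe.1 hz)), fun h => h.1.2 hz⟩
  exact ⟨u, hu, hsub (mem_coe.2 hc), tsc_R_mono hsub huc⟩

open Classical in
/-- the class of a port: does it see the end `Ld`? -/
noncomputable def gmsKap (S : ClSys V Y) (La Lc Ld C : Finset V) (k : V) (v : V) : Bool :=
  decide (∃ x ∈ Ld \ (La ∪ Lc), ∃ d ∈ tscComp S.gr (↑S.A \ tscComp S.gr (↑S.A \ ↑C : Set V) k) x, S.gr.Adj d v)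

theorem gms_kap_eqns_cite : True := by
  have := @gmsKap.eq_1
  trivial

/-- **two classes** -/
theorem gms_classes (hS : GlStrip S Cb La Lc Ld Lb) (hC : GmsClu S La Lc Ld Lb C) :
    ∀ u ∈ gmsPo S C k, ∀ v ∈ gmsPo S C k, gmsKap S La Lc Ld C k u = gmsKap S La Lc Ld C k v →
      ReflTransGen (Prc2Step (glTie S (gmsPo S C k))) u v := by
  classical
  have hsub : (↑C : Set V) ⊆ ↑S.A \ tscComp S.gr (↑S.A \ ↑C : Set V) k :=
    fun z hz => ⟨mem_coe.2 (hC.sub (mem_coe.1 hz)), fun h => h.1.2 hz⟩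
  have hd : (↑(Ld \ (La ∪ Lc)) : Set V) ⊆ ↑S.A \ tscComp S.gr (↑S.A \ ↑C : Set V) k := by
    intro z hz
    refine hsub (mem_coe.2 (hC.ends ?_))
    obtain ⟨h1, h2⟩ := mem_sdiff.1 (mem_coe.1 hz)
    exact mem_sdiff.2 ⟨mem_union_left _ h1, h2⟩
  have hb : (↑(Lb \ (La ∪ Lc)) : Set V) ⊆ ↑S.A \ tscComp S.gr (↑S.A \ ↑C : Set V) k := by
    intro z hz
    refine hsub (mem_coe.2 (hC.ends ?_))
    obtain ⟨h1, h2⟩ := mem_sdiff.1 (mem_coe.1 hz)
    exact mem_sdiff.2 ⟨mem_union_right _ h1, h2⟩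
  -- a port which does not see `Ld` sees `Lb`
  have alt : ∀ u ∈ gmsPo S C k, gmsKap S La Lc Ld C k u = false →
      ∃ x ∈ Lb \ (La ∪ Lc), ∃ d ∈ tscComp S.gr (↑S.A \ tscComp S.gr (↑S.A \ ↑C : Set V) k) x, S.gr.Adj d u := by
    intro u hu hk
    obtain ⟨_, c, hc, hcu⟩ := gms_mem_Po.1 hu
    obtain ⟨x, hx, hcx⟩ := gms_clu_comp (k := k) hC hc
    obtain ⟨h1, h2⟩ := mem_sdiff.1 hx
    rcases mem_union.1 h1 with h3 | h3
    · exfalso
      have : gmsKap S La Lc Ld C k u = true := decide_eq_true ⟨x, mem_sdiff.2 ⟨h3, h2⟩, c, hcx, hcu⟩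
      rw [this] at hk
      exact Bool.noConfusion hk
    · exact ⟨x, mem_sdiff.2 ⟨h3, h2⟩, c, hcx, hcu⟩
  intro u hu v hv huv
  by_cases hk : gmsKap S La Lc Ld C k u = true
  · have hk' : gmsKap S La Lc Ld C k v = true := huv ▸ hk
    obtain ⟨x, hx, d, hd1, hd2⟩ := of_decide_eq_true hk
    obtain ⟨x', hx', d', hd1', hd2'⟩ := of_decide_eq_true hk'
    exact gms_chain_comp hS.sc x (gms_Po_sub hu) ⟨d, hd1, hd2⟩ (gms_Po_sub hv)
      ⟨d', gms_comp_eq hS.dconn hd (mem_coe.2 hx) (mem_coe.2 hx') hd1', hd2'⟩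
  · have hk0 : gmsKap S La Lc Ld C k u = false := by simpa using hk
    have hk0' : gmsKap S La Lc Ld C k v = false := huv ▸ hk0
    obtain ⟨x, hx, d, hd1, hd2⟩ := alt u hu hk0
    obtain ⟨x', hx', d', hd1', hd2'⟩ := alt v hv hk0'
    exact gms_chain_comp hS.sc x (gms_Po_sub hu) ⟨d, hd1, hd2⟩ (gms_Po_sub hv)
      ⟨d', gms_comp_eq hS.bconn hb (mem_coe.2 hx) (mem_coe.2 hx') hd1', hd2'⟩

/-! ## 3. The two steps -/

theorem gms_mem_bdy {v : V} : v ∈ glBdy S C ↔ v ∈ S.A ∧ v ∉ C ∧ ∃ c ∈ C, S.gr.Adj c v := by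
  classical
  unfold glBdy
  exact mem_filter

theorem gms_Po_bdy : gmsPo S C k ⊆ glBdy S C := fun v hv =>
  gms_mem_bdy.2 ⟨gms_D_sub (gms_Po_sub hv), gms_D_notC (gms_Po_sub hv), (gms_mem_Po.1 hv).2⟩

theorem gms_H1_legal (hC : GmsClu S La Lc Ld Lb C) (Po : Finset V) : ClLegal S (gmsH1 S Cb La Lc Ld Lb C Po) where
  wp := rfl
  wm := rfl
  full := by
    intro y _ hy
    have hy' : y ∈ Cb.filter (fun y => S.sv y ⊆ La ∪ Lc) ∪ Cb.filter (fun y => S.sv y ⊆ glEnd La Lc Ld Lb) ∪ ∅ := hy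
    show S.sv y ⊆ (La ∪ Lc ∪ glBdy S C) ∪ C
    rw [union_empty] at hy'
    rcases mem_union.1 hy' with h | h
    · exact (mem_filter.1 h).2.trans (subset_union_left.trans subset_union_left)
    · exact ((mem_filter.1 h).2.trans hC.ends).trans subset_union_right
  eq := fun e he => (gms_mem_tie.1 he).2

theorem gms_H1_feas (hS : GlStrip S Cb La Lc Ld Lb) (hC : GmsClu S La Lc Ld Lb C) (Po : Finset V) : ClFeas S (gmsH1 S Cb La Lc Ld Lb C Po) where
  bpA := by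
    show La ∪ Lc ∪ glBdy S C ⊆ S.A
    exact union_subset (union_subset hS.la hS.lc) fun v hv => (gms_mem_bdy.1 hv).1
  dis := by
    show Disjoint (La ∪ Lc ∪ glBdy S C) C
    rw [disjoint_union_left]
    exact ⟨hC.dis, disjoint_left.2 fun v hv => (gms_mem_bdy.1 hv).2.1⟩
  opC := (filter_subset _ _).trans hS.cb
  omC := (filter_subset _ _).trans hS.cb
  op := fun y hy => (mem_filter.1 hy).2.trans subset_union_left
  om := fun y hy => (mem_filter.1 hy).2.trans hC.ends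
  cl := fun y hy => absurd hy (notMem_empty _)
  d1 := by
    refine disjoint_left.2 fun y h1 h2 => ?_
    obtain ⟨a1, a2⟩ := mem_filter.1 h1
    obtain ⟨_, b2⟩ := mem_filter.1 h2
    obtain ⟨v, hv⟩ := hS.disk.toClOk.ne y (hS.cb a1)
    exact (mem_sdiff.1 (b2 hv)).2 (a2 hv)
  d2 := disjoint_empty_right _
  d3 := disjoint_empty_right _

/-- **(i)** the ties along the ports lower the law -/
theorem gms_ties (hS : GlStrip S Cb La Lc Ld Lb) (hC : GmsClu S La Lc Ld Lb C) (F : ClCfg V Y → ℝ) (hF : ClMono S F) :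
    S.N ((gmsH1 S Cb La Lc Ld Lb C (gmsPo S C k)).Holds S) F * S.Z ((glHC S Cb La Lc Ld Lb C).Holds S)
      ≤ S.Z ((gmsH1 S Cb La Lc Ld Lb C (gmsPo S C k)).Holds S) * S.N ((glHC S Cb La Lc Ld Lb C).Holds S) F := by
  have l1 := gms_H1_legal (S := S) (Cb := Cb) hC (gmsPo S C k)
  refine am_order_eq S hS.disk (gmsH1 S Cb La Lc Ld Lb C (gmsPo S C k)) (glHC S Cb La Lc Ld Lb C) ⟨rfl, rfl, l1.full⟩ ⟨rfl, rfl, l1.full⟩ ?_ F hF
  refine ⟨Subset.refl _, Subset.refl _, Subset.refl _, Subset.refl _, fun y hy => absurd hy (notMem_empty _),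
    fun y hy => absurd hy (notMem_empty _), ?_, fun e he => absurd he (notMem_empty _)⟩
  intro e he
  right
  obtain ⟨⟨h1, h2⟩, y, hy, a1, a2⟩ := gms_mem_tie.1 he
  have hb : ∀ v ∈ gmsPo S C k, v ∈ (↑(gmsH1 S Cb La Lc Ld Lb C (gmsPo S C k)).Bp : Set V) := fun v hv =>
    mem_coe.2 (mem_union_right _ (gms_Po_bdy hv))
  by_cases hne : e.1 = e.2
  · rw [hne]; exact ReflTransGen.refl
  · exact tsc_R_step ⟨hne, y, hy, a1, a2⟩ (hb _ h1) (hb _ h2)

/-- **(ii)** the exterior of the component is freed -/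
theorem gms_ports (hS : GlStrip S Cb La Lc Ld Lb) (hC : GmsClu S La Lc Ld Lb C) {F : ClCfg V Y → ℝ}
    (hF : PrcLoc (gmsD S C k) (S.cin (gmsD S C k)) F) (h0 : ∀ ω, 0 ≤ F ω) :
    S.N ((gmsHp S Cb La Lc (gmsPo S C k)).Holds S) F * S.Z ((gmsH1 S Cb La Lc Ld Lb C (gmsPo S C k)).Holds S)
      ≤ 4 * (S.Z ((gmsHp S Cb La Lc (gmsPo S C k)).Holds S) * S.N ((gmsH1 S Cb La Lc Ld Lb C (gmsPo S C k)).Holds S) F) := by
  have ok := hS.disk.toClOk
  have s1 : PrcSplit S (gmsHp S Cb La Lc (gmsPo S C k)) (gmsD S C k) (S.cin (gmsD S C k)) (glTie S (gmsPo S C k)) (gmsPo S C k) :=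
    gms_split ok _ rfl subset_union_right rfl rfl
  have s2 : PrcSplit S (gmsH1 S Cb La Lc Ld Lb C (gmsPo S C k)) (gmsD S C k) (S.cin (gmsD S C k)) (glTie S (gmsPo S C k)) (gmsPo S C k) :=
    gms_split ok _ rfl (gms_Po_bdy.trans subset_union_right) rfl rfl
  have hcard : ((gmsPo S C k).image (gmsKap S La Lc Ld C k)).card ≤ 2 := (card_le_univ _).trans (by simp)
  have key := prc2_two_k s1 s2 gms_Po_sub gms_Po_sub (gmsKap S La Lc Ld C k) (gmsKap S La Lc Ld C k) (gms_classes hS hC) (gms_classes hS hC)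
    2 2 hcard hcard ?_ ?_ rfl ?_ rfl hF h0
  · norm_num at key
    exact key
  · show (La ∪ Lc ∪ gmsPo S C k) ∩ gmsD S C k = (La ∪ Lc ∪ glBdy S C) ∩ gmsD S C k
    ext v
    simp only [mem_inter, mem_union]
    constructor
    · rintro ⟨h | h, hD⟩
      · exact ⟨Or.inl h, hD⟩
      · exact ⟨Or.inr (gms_Po_bdy h), hD⟩
    · rintro ⟨h | h, hD⟩
      · exact ⟨Or.inl h, hD⟩
      · exact ⟨Or.inr (gms_mem_Po.2 ⟨hD, (gms_mem_bdy.1 h).2.2⟩), hD⟩
  · show ∅ ∩ gmsD S C k = C ∩ gmsD S C k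
    rw [empty_inter]
    symm
    exact disjoint_iff_inter_eq_empty.1 (disjoint_right.2 fun v hv => gms_D_notC hv)
  · show ∅ ∩ S.cin (gmsD S C k) = Cb.filter (fun y => S.sv y ⊆ glEnd La Lc Ld Lb) ∩ S.cin (gmsD S C k)
    rw [empty_inter]
    symm
    refine disjoint_iff_inter_eq_empty.1 (disjoint_left.2 fun y h1 h2 => ?_)
    obtain ⟨a1, a2⟩ := mem_filter.1 h1
    obtain ⟨_, b2⟩ := mem_filter.1 h2
    obtain ⟨v, hv⟩ := ok.ne y (hS.cb a1)
    exact gms_D_notC (b2 hv) (hC.ends (a2 hv))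

/-- the free history is feasible -/
theorem gms_Hp_feas (hS : GlStrip S Cb La Lc Ld Lb) (Po : Finset V) (hPo : Po ⊆ S.A) : 0 < S.Z ((gmsHp S Cb La Lc Po).Holds S) := by
  refine dis_feas S hS.disk.toClOk _ ⟨rfl, rfl, ?_, fun e he => (gms_mem_tie.1 he).2⟩ ⟨union_subset (union_subset hS.la hS.lc) hPo, disjoint_empty_right _,
    (filter_subset _ _).trans hS.cb, empty_subset _, fun y hy => (mem_filter.1 hy).2.trans subset_union_left, fun y hy => absurd hy (notMem_empty _),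
    fun y hy => absurd hy (notMem_empty _), disjoint_empty_right _, disjoint_empty_right _, disjoint_empty_right _⟩
  intro y _ hy
  have hy' : y ∈ Cb.filter (fun y => S.sv y ⊆ La ∪ Lc) ∪ ∅ ∪ ∅ := hy
  rw [union_empty, union_empty] at hy'
  exact (mem_filter.1 hy').2.trans (subset_union_left.trans subset_union_left)

/-- **(i) + (ii)** -/
theorem gms_side_C (hS : GlStrip S Cb La Lc Ld Lb) (hC : GmsClu S La Lc Ld Lb C) {F : ClCfg V Y → ℝ}
    (hF : PrcLoc (gmsD S C k) (S.cin (gmsD S C k)) F) (h0 : ∀ ω, 0 ≤ F ω) (hm : ClMono S F) :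
    S.N ((gmsHp S Cb La Lc (gmsPo S C k)).Holds S) F * S.Z ((glHC S Cb La Lc Ld Lb C).Holds S)
      ≤ 4 * (S.Z ((gmsHp S Cb La Lc (gmsPo S C k)).Holds S) * S.N ((glHC S Cb La Lc Ld Lb C).Holds S) F) := by
  have ok := hS.disk.toClOk
  have z1 : 0 < S.Z ((gmsH1 S Cb La Lc Ld Lb C (gmsPo S C k)).Holds S) :=
    dis_feas S ok _ (gms_H1_legal hC _) (gms_H1_feas hS hC _)
  have a := gms_ports (k := k) hS hC hF h0
  have b := gms_ties (k := k) hS hC F hm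
  have zC := dis_Z_nonneg S ok ((glHC S Cb La Lc Ld Lb C).Holds S)
  have zp := dis_Z_nonneg S ok ((gmsHp S Cb La Lc (gmsPo S C k)).Holds S)
  refine le_of_mul_le_mul_right ?_ z1
  calc S.N ((gmsHp S Cb La Lc (gmsPo S C k)).Holds S) F * S.Z ((glHC S Cb La Lc Ld Lb C).Holds S)
        * S.Z ((gmsH1 S Cb La Lc Ld Lb C (gmsPo S C k)).Holds S)
      = (S.N ((gmsHp S Cb La Lc (gmsPo S C k)).Holds S) F * S.Z ((gmsH1 S Cb La Lc Ld Lb C (gmsPo S C k)).Holds S))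
        * S.Z ((glHC S Cb La Lc Ld Lb C).Holds S) := by ring
    _ ≤ (4 * (S.Z ((gmsHp S Cb La Lc (gmsPo S C k)).Holds S) * S.N ((gmsH1 S Cb La Lc Ld Lb C (gmsPo S C k)).Holds S) F))
        * S.Z ((glHC S Cb La Lc Ld Lb C).Holds S) := mul_le_mul_of_nonneg_right a zC
    _ = 4 * S.Z ((gmsHp S Cb La Lc (gmsPo S C k)).Holds S)
        * (S.N ((gmsH1 S Cb La Lc Ld Lb C (gmsPo S C k)).Holds S) F * S.Z ((glHC S Cb La Lc Ld Lb C).Holds S)) := by ring
    _ ≤ 4 * S.Z ((gmsHp S Cb La Lc (gmsPo S C k)).Holds S)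
        * (S.Z ((gmsH1 S Cb La Lc Ld Lb C (gmsPo S C k)).Holds S) * S.N ((glHC S Cb La Lc Ld Lb C).Holds S) F) :=
        mul_le_mul_of_nonneg_left b (mul_nonneg (by norm_num) zp)
    _ = _ := by ring

/-! ## 4. The minus cluster of the two ends; the event of `gl_mid` -/

theorem gms_end_sub (hS : GlStrip S Cb La Lc Ld Lb) : glEnd La Lc Ld Lb ⊆ S.A := by
  intro v hv
  rcases mem_union.1 (mem_sdiff.1 hv).1 with h | h
  · exact hS.ld h
  · exact hS.lb h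

/-- the minus cluster of the two ends satisfies the hypotheses -/
theorem gms_clu (hS : GlStrip S Cb La Lc Ld Lb) (ω₀ : ClCfg V Y) (hω₀ : (glH0 S Cb La Lc Ld Lb).Holds S ω₀) :
    GmsClu S La Lc Ld Lb (glClu S (glEnd La Lc Ld Lb) ω₀) := by
  have hEA := gms_end_sub hS
  have hp : La ∪ Lc ⊆ ω₀.B := hω₀.1
  have hm : ∀ v ∈ glEnd La Lc Ld Lb, v ∉ ω₀.B := hω₀.2.1
  have hE : ∀ u ∈ glEnd La Lc Ld Lb, u ∈ (↑S.A \ ↑ω₀.B : Set V) := fun u hu => ⟨mem_coe.2 (hEA hu), fun h => hm u hu (mem_coe.1 h)⟩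
  refine ⟨fun v hv => ((gl_mem_clu S _ ω₀ v).1 hv).1, fun v hv => (gl_mem_clu S _ ω₀ v).2 ⟨hEA hv, v, hv, ReflTransGen.refl⟩, ?_, ?_⟩
  · intro c hc
    obtain ⟨-, u, hu, huc⟩ := (gl_mem_clu S _ ω₀ c).1 hc
    refine ⟨u, hu, ?_⟩
    clear hc
    induction huc with
    | refl => exact ReflTransGen.refl
    | @tail b c hab hbc ih =>
      refine ih.tail ⟨hbc.1, mem_coe.2 ((gl_mem_clu S _ ω₀ b).2 ⟨mem_coe.1 hbc.2.1.1, u, hu, hab⟩),
        mem_coe.2 ((gl_mem_clu S _ ω₀ c).2 ⟨mem_coe.1 hbc.2.2.1, u, hu, hab.tail hbc⟩)⟩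
  · refine disjoint_left.2 fun v hv hc => ?_
    obtain ⟨_, u, hu, huc⟩ := (gl_mem_clu S _ ω₀ v).1 hc
    exact (tsc_R_mem huc (hE u hu)).2 (mem_coe.2 (hp hv))

theorem gms_tau_le_one (S : ClSys V Y) (ω : ClCfg V Y) (y : Y) : clTau S ω y ≤ 1 := by
  unfold clTau; split_ifs <;> norm_num

/-- the event of `gl_mid` is increasing -/
theorem gms_join_monoP (S : ClSys V Y) (Kc : Finset Y) (La Lc : Finset V) : ClMonoP S fun ω => GlJoinC S (↑Kc ∩ glOn S 1 ω) La Lc := by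
  intro ω ω' _ ht h
  refine gsw_join_mono S La Lc ?_ h
  rintro y ⟨h1, h2, h3⟩
  exact ⟨h1, h2, le_antisymm (gms_tau_le_one S ω' y) (h3 ▸ ht y h2)⟩

/-- the event of `gl_mid` is local -/
theorem gms_loc_join {D : Finset V} (Kc : Finset Y) (hKc : ∀ y ∈ Kc, y ∈ S.C ∧ S.sv y ⊆ D) (La Lc : Finset V) :
    PrcLoc D (S.cin D) (glInd fun ω => GlJoinC S (↑Kc ∩ glOn S 1 ω) La Lc) := by
  intro ω ω' h1 h2
  have e : (↑Kc ∩ glOn S 1 ω : Set Y) = ↑Kc ∩ glOn S 1 ω' := by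
    ext y
    simp only [Set.mem_inter_iff, mem_coe]
    refine and_congr_right fun hy => ?_
    have := prc_tau_loc (S := S) (R := D) (YR := S.cin D) (fun y hy => (mem_filter.1 hy).2) h1 h2
      (mem_filter.2 ⟨(hKc y hy).1, (hKc y hy).2⟩ : y ∈ S.cin D)
    unfold glOn
    simp only [Set.mem_ofPred_eq, this]
  have e' : GlJoinC S (↑Kc ∩ glOn S 1 ω) La Lc ↔ GlJoinC S (↑Kc ∩ glOn S 1 ω') La Lc := by rw [e]
  by_cases h : GlJoinC S (↑Kc ∩ glOn S 1 ω) La Lc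
  · rw [gl_ind_pos (L := fun ω => GlJoinC S (↑Kc ∩ glOn S 1 ω) La Lc) h, gl_ind_pos (L := fun ω => GlJoinC S (↑Kc ∩ glOn S 1 ω) La Lc) (e'.1 h)]
  · rw [gl_ind_neg (L := fun ω => GlJoinC S (↑Kc ∩ glOn S 1 ω) La Lc) h,
      gl_ind_neg (L := fun ω => GlJoinC S (↑Kc ∩ glOn S 1 ω) La Lc) fun h' => h (e'.2 h')]

/-- **EXIT: the side of the strip**, for the minus cluster of the two ends -/
theorem gms_side (hS : GlStrip S Cb La Lc Ld Lb) (kA : K ⊆ S.A) (hK : TscConn S.gr (↑K : Set V)) (hKn : K.Nonempty)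
    (ω₀ : ClCfg V Y) (hω₀ : (glH0 S Cb La Lc Ld Lb).Holds S ω₀)
    (hgood : ∀ z ∈ glClu S (glEnd La Lc Ld Lb) ω₀, z ∉ K ∧ ∀ k ∈ K, ¬ S.gr.Adj z k) :
    ∃ D0 Po : Finset V, K ⊆ D0 ∧ D0 ⊆ S.A ∧ Po ⊆ D0 ∧ Disjoint Po K ∧ Po ⊆ glBdy S (glClu S (glEnd La Lc Ld Lb) ω₀) ∧
      ∀ F : ClCfg V Y → ℝ, PrcLoc D0 (S.cin D0) F → (∀ ω, 0 ≤ F ω) → ClMono S F →
        S.N ((gmsHp S Cb La Lc Po).Holds S) F * S.Z ((glHC S Cb La Lc Ld Lb (glClu S (glEnd La Lc Ld Lb) ω₀)).Holds S)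
          ≤ 4 * (S.Z ((gmsHp S Cb La Lc Po).Holds S) * S.N ((glHC S Cb La Lc Ld Lb (glClu S (glEnd La Lc Ld Lb) ω₀)).Holds S) F) := by
  obtain ⟨k, kK⟩ := hKn
  have hC := gms_clu hS ω₀ hω₀
  refine ⟨gmsD S (glClu S (glEnd La Lc Ld Lb) ω₀) k, gmsPo S (glClu S (glEnd La Lc Ld Lb) ω₀) k,
    gms_K_sub hK kK kA fun z hz hc => (hgood z hc).1 hz, gms_D_sub, gms_Po_sub, ?_, gms_Po_bdy, fun F hF h0 hm => gms_side_C hS hC hF h0 hm⟩
  refine disjoint_left.2 fun v hv hvK => ?_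
  obtain ⟨_, c, hc, hcv⟩ := gms_mem_Po.1 hv
  exact (hgood c hc).2 v hvK hcv

/-- **`gl_mid` from the estimate under the free history of the strip** -/
theorem gms_mid (hS : GlStrip S Cb La Lc Ld Lb) (kA : K ⊆ S.A) (hK : TscConn S.gr (↑K : Set V)) (hKn : K.Nonempty)
    (Kc : Finset Y) (hKc : ∀ y ∈ Kc, y ∈ S.C ∧ S.sv y ⊆ K) (ω₀ : ClCfg V Y) (hω₀ : (glH0 S Cb La Lc Ld Lb).Holds S ω₀)
    (hgood : ∀ z ∈ glClu S (glEnd La Lc Ld Lb) ω₀, z ∉ K ∧ ∀ k ∈ K, ¬ S.gr.Adj z k)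
    (hX : ∀ Po : Finset V, Po ⊆ S.A → Disjoint Po K → 1 / 4 * S.Z ((gmsHp S Cb La Lc Po).Holds S)
      ≤ S.N ((gmsHp S Cb La Lc Po).Holds S) (glInd fun ω => GlJoinC S (↑Kc ∩ glOn S 1 ω) La Lc)) :
    1 / 16 * S.Z ((glHC S Cb La Lc Ld Lb (glClu S (glEnd La Lc Ld Lb) ω₀)).Holds S) ≤
      S.N ((glHC S Cb La Lc Ld Lb (glClu S (glEnd La Lc Ld Lb) ω₀)).Holds S) (glInd fun ω => GlJoinC S (↑Kc ∩ glOn S 1 ω) La Lc) := by
  obtain ⟨D0, Po, hKD, hDA, hPD, hPK, _, key⟩ := gms_side hS kA hK hKn ω₀ hω₀ hgood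
  have h1 := key _ (gms_loc_join Kc (fun y hy => ⟨(hKc y hy).1, (hKc y hy).2.trans hKD⟩) La Lc) (gl_ind_nonneg _)
    (gl_ind_mono S (gms_join_monoP S Kc La Lc))
  have h2 := hX Po (hPD.trans hDA) hPK
  have zp := gms_Hp_feas hS Po (hPD.trans hDA)
  have zC := dis_Z_nonneg S hS.disk.toClOk ((glHC S Cb La Lc Ld Lb (glClu S (glEnd La Lc Ld Lb) ω₀)).Holds S)
  refine le_of_mul_le_mul_left ?_ (mul_pos (by norm_num : (0 : ℝ) < 4) zp)
  calc 4 * S.Z ((gmsHp S Cb La Lc Po).Holds S) * (1 / 16 * S.Z ((glHC S Cb La Lc Ld Lb (glClu S (glEnd La Lc Ld Lb) ω₀)).Holds S))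
      = (1 / 4 * S.Z ((gmsHp S Cb La Lc Po).Holds S)) * S.Z ((glHC S Cb La Lc Ld Lb (glClu S (glEnd La Lc Ld Lb) ω₀)).Holds S) := by ring
    _ ≤ S.N ((gmsHp S Cb La Lc Po).Holds S) (glInd fun ω => GlJoinC S (↑Kc ∩ glOn S 1 ω) La Lc)
        * S.Z ((glHC S Cb La Lc Ld Lb (glClu S (glEnd La Lc Ld Lb) ω₀)).Holds S) := mul_le_mul_of_nonneg_right h2 zC
    _ ≤ _ := h1
    _ = _ := by ring

end MidS

end Claimed.Agent.R291
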