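import Claimed.Agent.R291.Ann.Model

/-!
# Row 291 (S0539), ANN block A1, Glue/Swap : THE COLOUR SWAP LEMMA IN AN AMBIENT SYSTEM, ON `ClSys`      (owner helper210; prefix `gsw_` / `Gsw`)

TEX[annulus:straight-short] (display annulus:symmetric-short);  Lemma B, step 2 of the note G1 of helper187;  X1' of `origin/helper55:notes/R291/ann_A1_55.md`.

`S` any cell system with all parameters `≥ 1/2`.   `X ⊆ S.A` the retained region, `L ⊆ X` its layer: the cells which are not inside `X` touch `X` only in `L`.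
`(φ, ψ)` a LOCAL involution of the cells inside `X` (`GswSym`); nothing is asked outside `X`.
`K` a history (`GswHist`): `L` is pinned plus and tied by the equalities of `K`; no other pin, no observed cell, no equality inside `X`; the part of `K` outside `X` is ARBITRARY.

* `gswPhi S φ ψ X ω` : exchange of the two colours followed by the reflection INSIDE `X`, identity outside.   When `B = W = +` on `L` it preserves the two-colour weight (`gsw_wt2`) and the history (`gsw_holds`).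
* **`gsw_main`** : if on the support (`L ⊆ B`, `L ⊆ W`) one of `Ev ω.fst`, `Ev (gswPhi S φ ψ X ω).fst` holds then `S.Z K ≤ 2 * S.N K 1_Ev`;   `gsw_main_P` its normalised form.
* **`gsw_path`** : path form.   `G` a graph on the cells; `DB`, `DW` = cells with a DETERMINISTIC colour (boundary cells along `L`; remark of helper36); Hex enters as a hypothesis.

No topology, no monotonicity, no factorisation of the exterior.
-/

set_option autoImplicit false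
set_option linter.unusedSectionVars false
set_option linter.unusedVariables false
set_option linter.unusedSimpArgs false

namespace Claimed.Agent.R291

open Relation

section abstract

variable {V Y : Type} [DecidableEq V] [DecidableEq Y]

/-- local symmetry of the part `X` of the system, with layer `L` -/
structure GswSym (S : ClSys V Y) (φ : V → V) (ψ : Y → Y) (X L : Finset V) : Prop where
  XA : X ⊆ S.A
  LX : L ⊆ X
  lay : ∀ y ∈ S.C, ¬ S.sv y ⊆ X → ∀ v ∈ S.sv y, v ∈ X → v ∈ L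
  φX : ∀ v ∈ X, φ v ∈ X
  φL : ∀ v ∈ L, φ v ∈ L
  φφ : ∀ v ∈ X, φ (φ v) = v
  ψC : ∀ y ∈ S.cin X, ψ y ∈ S.cin X
  ψψ : ∀ y ∈ S.cin X, ψ (ψ y) = y
  sv : ∀ y ∈ S.cin X, S.sv (ψ y) = (S.sv y).image φ
  q : ∀ y ∈ S.cin X, S.q (ψ y) = S.q y

/-- the history: plus and tied on `L`, empty in the rest of `X`, arbitrary outside -/
structure GswHist (S : ClSys V Y) (K : ClCon V Y) (X L : Finset V) : Prop where
  bpL : L ⊆ K.Bp
  bpX : ∀ v ∈ X, v ∈ K.Bp → v ∈ L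
  bmX : ∀ v ∈ X, v ∉ K.Bm
  op : ∀ y ∈ S.cin X, y ∉ K.Op
  om : ∀ y ∈ S.cin X, y ∉ K.Om
  cl : ∀ y ∈ S.cin X, y ∉ K.Cl
  eqA : ∀ e ∈ K.Eq, e.1 ∈ S.A ∧ e.2 ∈ S.A
  eqX : ∀ e ∈ K.Eq, (e.1 ∈ X → e.1 ∈ L) ∧ (e.2 ∈ X → e.2 ∈ L)
  tie : ∀ u ∈ L, ∀ v ∈ L, ReflTransGen (fun a b => (a, b) ∈ K.Eq ∨ (b, a) ∈ K.Eq) u v
  wp : K.Wp = ∅
  wm : K.Wm = ∅

/-- exchange of the colours and reflection inside `X`, identity outside -/
def gswPhi (S : ClSys V Y) (φ : V → V) (ψ : Y → Y) (X : Finset V) (ω : ClCfg2 V Y) : ClCfg2 V Y where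
  B := S.A.filter (fun v => (v ∈ X ∧ φ v ∈ ω.W) ∨ (v ∉ X ∧ v ∈ ω.B))
  W := S.A.filter (fun v => (v ∈ X ∧ φ v ∈ ω.B) ∨ (v ∉ X ∧ v ∈ ω.W))
  OB := S.C.filter (fun y => (y ∈ S.cin X ∧ ψ y ∈ ω.OW) ∨ (y ∉ S.cin X ∧ y ∈ ω.OB))
  OW := S.C.filter (fun y => (y ∈ S.cin X ∧ ψ y ∈ ω.OB) ∨ (y ∉ S.cin X ∧ y ∈ ω.OW))

variable {S : ClSys V Y} {φ : V → V} {ψ : Y → Y} {X L : Finset V}

theorem gsw_mem_B (ω : ClCfg2 V Y) (v : V) :
    v ∈ (gswPhi S φ ψ X ω).B ↔ v ∈ S.A ∧ ((v ∈ X ∧ φ v ∈ ω.W) ∨ (v ∉ X ∧ v ∈ ω.B)) := Finset.mem_filter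

theorem gsw_mem_W (ω : ClCfg2 V Y) (v : V) :
    v ∈ (gswPhi S φ ψ X ω).W ↔ v ∈ S.A ∧ ((v ∈ X ∧ φ v ∈ ω.B) ∨ (v ∉ X ∧ v ∈ ω.W)) := Finset.mem_filter

theorem gsw_mem_OB (ω : ClCfg2 V Y) (y : Y) :
    y ∈ (gswPhi S φ ψ X ω).OB ↔ y ∈ S.C ∧ ((y ∈ S.cin X ∧ ψ y ∈ ω.OW) ∨ (y ∉ S.cin X ∧ y ∈ ω.OB)) := Finset.mem_filter

theorem gsw_mem_OW (ω : ClCfg2 V Y) (y : Y) :
    y ∈ (gswPhi S φ ψ X ω).OW ↔ y ∈ S.C ∧ ((y ∈ S.cin X ∧ ψ y ∈ ω.OB) ∨ (y ∉ S.cin X ∧ y ∈ ω.OW)) := Finset.mem_filter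

theorem gsw_phi_mem (ω : ClCfg2 V Y) : gswPhi S φ ψ X ω ∈ S.cfgs2 := by
  rw [am_mem_cfgs2]
  exact ⟨Finset.filter_subset _ _, Finset.filter_subset _ _, Finset.filter_subset _ _, Finset.filter_subset _ _⟩

/-- inside `X` -/
theorem gsw_B_in (h : GswSym S φ ψ X L) (ω : ClCfg2 V Y) {v : V} (hv : v ∈ X) :
    v ∈ (gswPhi S φ ψ X ω).B ↔ φ v ∈ ω.W := by
  rw [gsw_mem_B]
  constructor
  · rintro ⟨-, ⟨-, h1⟩ | ⟨h1, -⟩⟩
    · exact h1
    · exact absurd hv h1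
  · exact fun h1 => ⟨h.XA hv, Or.inl ⟨hv, h1⟩⟩

theorem gsw_W_in (h : GswSym S φ ψ X L) (ω : ClCfg2 V Y) {v : V} (hv : v ∈ X) :
    v ∈ (gswPhi S φ ψ X ω).W ↔ φ v ∈ ω.B := by
  rw [gsw_mem_W]
  constructor
  · rintro ⟨-, ⟨-, h1⟩ | ⟨h1, -⟩⟩
    · exact h1
    · exact absurd hv h1
  · exact fun h1 => ⟨h.XA hv, Or.inl ⟨hv, h1⟩⟩

theorem gsw_OB_in (ω : ClCfg2 V Y) {y : Y} (hy : y ∈ S.cin X) :
    y ∈ (gswPhi S φ ψ X ω).OB ↔ ψ y ∈ ω.OW := by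
  rw [gsw_mem_OB]
  constructor
  · rintro ⟨-, ⟨-, h1⟩ | ⟨h1, -⟩⟩
    · exact h1
    · exact absurd hy h1
  · exact fun h1 => ⟨(Finset.mem_filter.1 hy).1, Or.inl ⟨hy, h1⟩⟩

theorem gsw_OW_in (ω : ClCfg2 V Y) {y : Y} (hy : y ∈ S.cin X) :
    y ∈ (gswPhi S φ ψ X ω).OW ↔ ψ y ∈ ω.OB := by
  rw [gsw_mem_OW]
  constructor
  · rintro ⟨-, ⟨-, h1⟩ | ⟨h1, -⟩⟩
    · exact h1
    · exact absurd hy h1
  · exact fun h1 => ⟨(Finset.mem_filter.1 hy).1, Or.inl ⟨hy, h1⟩⟩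

/-- outside `X` -/
theorem gsw_B_out {ω : ClCfg2 V Y} (hω : ω ∈ S.cfgs2) {v : V} (hv : v ∉ X) :
    v ∈ (gswPhi S φ ψ X ω).B ↔ v ∈ ω.B := by
  rw [gsw_mem_B]
  constructor
  · rintro ⟨-, ⟨h1, -⟩ | ⟨-, h1⟩⟩
    · exact absurd h1 hv
    · exact h1
  · exact fun h1 => ⟨((am_mem_cfgs2 S ω).1 hω).1 h1, Or.inr ⟨hv, h1⟩⟩

theorem gsw_W_out {ω : ClCfg2 V Y} (hω : ω ∈ S.cfgs2) {v : V} (hv : v ∉ X) :
    v ∈ (gswPhi S φ ψ X ω).W ↔ v ∈ ω.W := by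
  rw [gsw_mem_W]
  constructor
  · rintro ⟨-, ⟨h1, -⟩ | ⟨-, h1⟩⟩
    · exact absurd h1 hv
    · exact h1
  · exact fun h1 => ⟨((am_mem_cfgs2 S ω).1 hω).2.1 h1, Or.inr ⟨hv, h1⟩⟩

theorem gsw_OB_out {ω : ClCfg2 V Y} (hω : ω ∈ S.cfgs2) {y : Y} (hy : y ∉ S.cin X) :
    y ∈ (gswPhi S φ ψ X ω).OB ↔ y ∈ ω.OB := by
  rw [gsw_mem_OB]
  constructor
  · rintro ⟨-, ⟨h1, -⟩ | ⟨-, h1⟩⟩
    · exact absurd h1 hy
    · exact h1
  · exact fun h1 => ⟨((am_mem_cfgs2 S ω).1 hω).2.2.1 h1, Or.inr ⟨hy, h1⟩⟩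

theorem gsw_OW_out {ω : ClCfg2 V Y} (hω : ω ∈ S.cfgs2) {y : Y} (hy : y ∉ S.cin X) :
    y ∈ (gswPhi S φ ψ X ω).OW ↔ y ∈ ω.OW := by
  rw [gsw_mem_OW]
  constructor
  · rintro ⟨-, ⟨h1, -⟩ | ⟨-, h1⟩⟩
    · exact absurd h1 hy
    · exact h1
  · exact fun h1 => ⟨((am_mem_cfgs2 S ω).1 hω).2.2.2 h1, Or.inr ⟨hy, h1⟩⟩

/-- the map is an involution of the configurations -/
theorem gsw_phi_phi (h : GswSym S φ ψ X L) {ω : ClCfg2 V Y} (hω : ω ∈ S.cfgs2) :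
    gswPhi S φ ψ X (gswPhi S φ ψ X ω) = ω := by
  have hm := gsw_phi_mem (S := S) (φ := φ) (ψ := ψ) (X := X) ω
  ext a
  · by_cases ha : a ∈ X
    · rw [gsw_B_in h _ ha, gsw_W_in h _ (h.φX a ha), h.φφ a ha]
    · rw [gsw_B_out hm ha, gsw_B_out hω ha]
  · by_cases ha : a ∈ X
    · rw [gsw_W_in h _ ha, gsw_B_in h _ (h.φX a ha), h.φφ a ha]
    · rw [gsw_W_out hm ha, gsw_W_out hω ha]
  · by_cases ha : a ∈ S.cin X
    · rw [gsw_OB_in _ ha, gsw_OW_in _ (h.ψC a ha), h.ψψ a ha]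
    · rw [gsw_OB_out hm ha, gsw_OB_out hω ha]
  · by_cases ha : a ∈ S.cin X
    · rw [gsw_OW_in _ ha, gsw_OB_in _ (h.ψC a ha), h.ψψ a ha]
    · rw [gsw_OW_out hm ha, gsw_OW_out hω ha]

/-- on the layer and outside `X` nothing changes, if both spins are plus on the layer -/
theorem gsw_B_same (h : GswSym S φ ψ X L) {ω : ClCfg2 V Y} (hω : ω ∈ S.cfgs2) (hB : L ⊆ ω.B) (hW : L ⊆ ω.W) {v : V}
    (hv : v ∈ X → v ∈ L) : v ∈ (gswPhi S φ ψ X ω).B ↔ v ∈ ω.B := by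
  by_cases hx : v ∈ X
  · rw [gsw_B_in h _ hx]
    exact ⟨fun _ => hB (hv hx), fun _ => hW (h.φL v (hv hx))⟩
  · exact gsw_B_out hω hx

theorem gsw_W_same (h : GswSym S φ ψ X L) {ω : ClCfg2 V Y} (hω : ω ∈ S.cfgs2) (hB : L ⊆ ω.B) (hW : L ⊆ ω.W) {v : V}
    (hv : v ∈ X → v ∈ L) : v ∈ (gswPhi S φ ψ X ω).W ↔ v ∈ ω.W := by
  by_cases hx : v ∈ X
  · rw [gsw_W_in h _ hx]
    exact ⟨fun _ => hW (hv hx), fun _ => hB (h.φL v (hv hx))⟩
  · exact gsw_W_out hω hx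

theorem gsw_const_congr {P P' s : Finset V} (h : ∀ v ∈ s, (v ∈ P ↔ v ∈ P')) : ClConst P s ↔ ClConst P' s := by
  unfold ClConst
  constructor
  · rintro (h1 | h1)
    · exact Or.inl fun v hv => (h v hv).1 (h1 hv)
    · exact Or.inr fun v hv hv' => h1 v hv ((h v hv).2 hv')
  · rintro (h1 | h1)
    · exact Or.inl fun v hv => (h v hv).2 (h1 hv)
    · exact Or.inr fun v hv hv' => h1 v hv ((h v hv).1 hv')

theorem gsw_const_image {P P' s : Finset V} (f : V → V) (h : ∀ v ∈ s, (v ∈ P ↔ f v ∈ P')) :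
    ClConst P s ↔ ClConst P' (s.image f) := by
  unfold ClConst
  constructor
  · rintro (h1 | h1)
    · left
      intro w hw
      obtain ⟨v, hv, rfl⟩ := Finset.mem_image.1 hw
      exact (h v hv).1 (h1 hv)
    · right
      intro w hw
      obtain ⟨v, hv, rfl⟩ := Finset.mem_image.1 hw
      exact fun hv' => h1 v hv ((h v hv).2 hv')
  · rintro (h1 | h1)
    · exact Or.inl fun v hv => (h v hv).2 (h1 (Finset.mem_image_of_mem f hv))
    · exact Or.inr fun v hv hv' => h1 _ (Finset.mem_image_of_mem f hv) ((h v hv).1 hv')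

theorem gsw_cellW2_congr (q : ℝ) {bc wc ob ow bc' wc' ob' ow' : Prop} [Decidable bc] [Decidable wc] [Decidable ob] [Decidable ow]
    [Decidable bc'] [Decidable wc'] [Decidable ob'] [Decidable ow'] (h1 : bc ↔ bc') (h2 : wc ↔ wc') (h3 : ob ↔ ob') (h4 : ow ↔ ow') :
    clCellW2 q bc wc ob ow = clCellW2 q bc' wc' ob' ow' := by
  unfold clCellW2
  simp only [h1, h2, h3, h4]

/-- **the two-colour weight is preserved** -/
theorem gsw_wt2 (hS : ClOk S) (h : GswSym S φ ψ X L) {ω : ClCfg2 V Y} (hω : ω ∈ S.cfgs2) (hB : L ⊆ ω.B) (hW : L ⊆ ω.W) :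
    S.wt2 (gswPhi S φ ψ X ω) = S.wt2 ω := by
  unfold ClSys.wt2
  have hsub : S.cin X ⊆ S.C := Finset.filter_subset _ _
  rw [← Finset.prod_sdiff hsub, ← Finset.prod_sdiff hsub]
  congr 1
  · refine Finset.prod_congr rfl fun y hy => ?_
    obtain ⟨hyC, hyX⟩ := Finset.mem_sdiff.1 hy
    have hnot : ¬ S.sv y ⊆ X := fun hh => hyX (Finset.mem_filter.2 ⟨hyC, hh⟩)
    exact gsw_cellW2_congr _
      (gsw_const_congr fun v hv => gsw_B_same h hω hB hW (h.lay y hyC hnot v hv))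
      (gsw_const_congr fun v hv => gsw_W_same h hω hB hW (h.lay y hyC hnot v hv))
      (gsw_OB_out hω hyX) (gsw_OW_out hω hyX)
  · refine Finset.prod_nbij' ψ ψ h.ψC h.ψC h.ψψ h.ψψ fun y hy => ?_
    have hyX : S.sv y ⊆ X := (Finset.mem_filter.1 hy).2
    rw [h.q y hy, h.sv y hy]
    exact (gsw_cellW2_congr _
      (gsw_const_image φ fun v hv => gsw_B_in h ω (hyX hv))
      (gsw_const_image φ fun v hv => gsw_W_in h ω (hyX hv))
      (gsw_OB_in ω hy) (gsw_OW_in ω hy)).trans (am_cellW2_swap _ _ _ _ _)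

/-- the statuses of the cells which are not inside `X` do not change -/
theorem gsw_tau_out (hS : ClOk S) (h : GswSym S φ ψ X L) {ω : ClCfg2 V Y} (hω : ω ∈ S.cfgs2) (hB : L ⊆ ω.B) (hW : L ⊆ ω.W) {y : Y}
    (hy : y ∉ S.cin X) : clTau S (gswPhi S φ ψ X ω).fst y = clTau S ω.fst y := by
  have h1 : y ∈ (gswPhi S φ ψ X ω).OB ↔ y ∈ ω.OB := gsw_OB_out hω hy
  by_cases hyC : y ∈ S.C
  · have hnot : ¬ S.sv y ⊆ X := fun hh => hy (Finset.mem_filter.2 ⟨hyC, hh⟩)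
    have h2 : S.sv y ⊆ (gswPhi S φ ψ X ω).B ↔ S.sv y ⊆ ω.B :=
      ⟨fun H v hv => (gsw_B_same h hω hB hW (h.lay y hyC hnot v hv)).1 (H hv),
        fun H v hv => (gsw_B_same h hω hB hW (h.lay y hyC hnot v hv)).2 (H hv)⟩
    unfold clTau
    exact if_congr h1 (if_congr h2 rfl rfl) rfl
  · have h3 : y ∉ ω.OB := fun hh => hyC (((am_mem_cfgs2 S ω).1 hω).2.2.1 hh)
    have h4 : y ∉ (gswPhi S φ ψ X ω).OB := fun hh => h3 (h1.1 hh)
    unfold clTau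
    exact (if_neg h4).trans (if_neg h3).symm

/-- **the history is preserved** -/
theorem gsw_holds (hS : ClOk S) (h : GswSym S φ ψ X L) {K : ClCon V Y} (hK : GswHist S K X L) {ω : ClCfg2 V Y} (hω : ω ∈ S.cfgs2)
    (H : K.Holds S ω.fst) (hW : L ⊆ ω.W) : K.Holds S (gswPhi S φ ψ X ω).fst ∧ L ⊆ (gswPhi S φ ψ X ω).W := by
  obtain ⟨a1, a2, a3, a4, a5, a6, -, -⟩ := H
  have hB : L ⊆ ω.B := hK.bpL.trans a1
  refine ⟨⟨?_, ?_, ?_, ?_, ?_, ?_, ?_, ?_⟩, ?_⟩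
  · intro v hv
    exact (gsw_B_same h hω hB hW (fun hx => hK.bpX v hx hv)).2 (a1 hv)
  · intro v hv hv'
    have hx : v ∉ X := fun hx => hK.bmX v hx hv
    exact a2 v hv ((gsw_B_out (φ := φ) (ψ := ψ) hω hx).1 hv')
  · intro e he
    have e1 := gsw_W_same h hω hB hW (hK.eqX e he).1
    have e2 := gsw_W_same h hω hB hW (hK.eqX e he).2
    exact e1.trans ((a3 e he).trans e2.symm)
  · intro y hy
    rw [gsw_tau_out hS h hω hB hW (fun hh => hK.op y hh hy)]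
    exact a4 y hy
  · intro y hy
    rw [gsw_tau_out hS h hω hB hW (fun hh => hK.om y hh hy)]
    exact a5 y hy
  · intro y hy hy'
    exact a6 y hy ((gsw_OB_out (φ := φ) (ψ := ψ) hω (fun hh => hK.cl y hh hy)).1 hy')
  · rw [hK.wp]; exact Finset.empty_subset _
  · rw [hK.wm]; intro v hv; exact absurd hv (Finset.notMem_empty v)
  · intro v hv
    exact (gsw_W_in h ω (h.LX hv)).2 (hB (h.φL v hv))

/-- **invariance of the two-colour law** under the map -/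
theorem gsw_N2 (hS : ClOk S) (h : GswSym S φ ψ X L) {K : ClCon V Y} (hK : GswHist S K X L) (G : ClCfg2 V Y → ℝ) :
    S.N2 (fun ω => K.Holds S ω.fst ∧ L ⊆ ω.W) (fun ω => G (gswPhi S φ ψ X ω))
      = S.N2 (fun ω => K.Holds S ω.fst ∧ L ⊆ ω.W) G := by
  classical
  unfold ClSys.N2
  refine Finset.sum_nbij' (gswPhi S φ ψ X) (gswPhi S φ ψ X) (fun ω _ => gsw_phi_mem ω) (fun ω _ => gsw_phi_mem ω)
    (fun ω hω => gsw_phi_phi h hω) (fun ω hω => gsw_phi_phi h hω) fun ω hω => ?_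
  by_cases hc : K.Holds S ω.fst ∧ L ⊆ ω.W
  · rw [if_pos hc, if_pos (gsw_holds hS h hK hω hc.1 hc.2), gsw_wt2 hS h hω (hK.bpL.trans hc.1.1) hc.2]
  · rw [if_neg hc, if_neg]
    intro hc'
    have := gsw_holds hS h hK (gsw_phi_mem ω) hc'.1 hc'.2
    rw [gsw_phi_phi h hω] at this
    exact hc this

/-! ### the label of the layer -/

theorem gsw_N_congr (S : ClSys V Y) {K K' : ClCfg V Y → Prop} {F F' : ClCfg V Y → ℝ} (hK : ∀ ω ∈ S.cfgs, (K ω ↔ K' ω))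
    (hF : ∀ ω ∈ S.cfgs, K ω → F ω = F' ω) : S.N K F = S.N K' F' := by
  classical
  unfold ClSys.N
  refine Finset.sum_congr rfl fun ω hω => ?_
  by_cases h : K ω
  · rw [if_pos h, if_pos ((hK ω hω).1 h), hF ω hω h]
  · rw [if_neg h, if_neg (fun h' => h ((hK ω hω).2 h'))]

/-- the second spin is constant on the layer -/
theorem gsw_tie {K : ClCon V Y} (hK : GswHist S K X L) {ω : ClCfg V Y} (H : K.Holds S ω) {u v : V} (hu : u ∈ L) (hv : v ∈ L) :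
    u ∈ ω.W ↔ v ∈ ω.W := by
  have h3 := H.2.2.1
  have key : ∀ a b, ReflTransGen (fun a b => (a, b) ∈ K.Eq ∨ (b, a) ∈ K.Eq) a b → (a ∈ ω.W ↔ b ∈ ω.W) := by
    intro a b hab
    induction hab with
    | refl => exact Iff.rfl
    | tail _ hs ih =>
      rcases hs with hs | hs
      · exact ih.trans (h3 _ hs)
      · exact ih.trans (h3 _ hs).symm
  exact key u v (hK.tie u hu v hv)

/-- the history does not see the global flip of the second spin -/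
theorem gsw_holds_flipW {K : ClCon V Y} (hK : GswHist S K X L) {ω : ClCfg V Y} (H : K.Holds S ω) : K.Holds S (ω.flipW S.A) := by
  obtain ⟨a1, a2, a3, a4, a5, a6, -, -⟩ := H
  refine ⟨a1, a2, ?_, a4, a5, a6, ?_, ?_⟩
  · intro e he
    have := a3 e he
    obtain ⟨e1, e2⟩ := hK.eqA e he
    simp only [ClCfg.flipW, Finset.mem_sdiff, e1, e2, true_and, this]
  · rw [hK.wp]; exact Finset.empty_subset _
  · rw [hK.wm]; intro v hv; exact absurd hv (Finset.notMem_empty v)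

theorem gsw_flipW_flipW {ω : ClCfg V Y} (hω : ω ∈ S.cfgs) : (ω.flipW S.A).flipW S.A = ω := by
  have hW := ((cl_mem_cfgs S ω).1 hω).2.1
  ext a
  · rfl
  · simp only [ClCfg.flipW, Finset.mem_sdiff, not_and, not_not]
    exact ⟨fun h => h.2 h.1, fun h => ⟨hW h, fun _ => h⟩⟩
  · rfl

/-- **the label**: "plus on the layer" is half (or all) of the law, for observables which do not see the second spin -/
theorem gsw_label (hS : ClOk S) (hLA : L ⊆ S.A) {K : ClCon V Y} (hK : GswHist S K X L) (F : ClCfg V Y → ℝ)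
    (hF : ∀ ω ω' : ClCfg V Y, ω.B = ω'.B → ω.O = ω'.O → F ω = F ω') :
    S.N (K.Holds S) F = (if L.Nonempty then 2 else 1) * S.N (fun ω => K.Holds S ω ∧ L ⊆ ω.W) F := by
  classical
  by_cases hL : L.Nonempty
  · rw [if_pos hL, two_mul]
    obtain ⟨v0, hv0⟩ := hL
    have e1 : S.N (fun ω => K.Holds S ω ∧ L ⊆ ω.W) F = S.N (fun ω => K.Holds S ω ∧ ¬ L ⊆ ω.W) F := by
      rw [am_flipW_N S hS.sub (fun ω => K.Holds S ω ∧ ¬ L ⊆ ω.W) F]
      refine gsw_N_congr S (fun ω hω => ?_) (fun ω _ _ => hF _ _ rfl rfl)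
      constructor
      · rintro ⟨H, hW⟩
        refine ⟨gsw_holds_flipW hK H, fun hh => ?_⟩
        have := hh hv0
        simp only [ClCfg.flipW, Finset.mem_sdiff] at this
        exact this.2 (hW hv0)
      · rintro ⟨H, hW⟩
        have H' := gsw_holds_flipW hK H
        rw [gsw_flipW_flipW hω] at H'
        refine ⟨H', fun v hv => ?_⟩
        by_contra hv'
        apply hW
        intro u hu
        have : u ∉ ω.W := fun hu' => hv' ((gsw_tie hK H' hu hv).1 hu')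
        simp only [ClCfg.flipW, Finset.mem_sdiff]
        exact ⟨hLA hu, this⟩
    nth_rewrite 2 [e1]
    unfold ClSys.N
    rw [← Finset.sum_add_distrib]
    refine Finset.sum_congr rfl fun ω _ => ?_
    by_cases H : K.Holds S ω <;> by_cases hW : L ⊆ ω.W <;> simp [H, hW]
  · rw [if_neg hL, one_mul]
    rw [Finset.not_nonempty_iff_eq_empty] at hL
    subst hL
    exact gsw_N_congr S (fun ω _ => ⟨fun H => ⟨H, Finset.empty_subset _⟩, fun H => H.1⟩) (fun _ _ _ => rfl)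

/-! ### the main lemma -/

open Classical in
/-- **THE COLOUR SWAP LEMMA IN AN AMBIENT SYSTEM** (cross multiplied) -/
theorem gsw_main (hS : ClOk S) (hq : ∀ y ∈ S.C, 1 / 2 ≤ S.q y) (h : GswSym S φ ψ X L) {K : ClCon V Y} (hK : GswHist S K X L)
    (Ev : ClCfg V Y → Prop) (hEv : ∀ ω ω' : ClCfg V Y, ω.B = ω'.B → ω.O = ω'.O → (Ev ω ↔ Ev ω'))
    (hd : ∀ ω ∈ S.cfgs2, S.wt2 ω ≠ 0 → K.Holds S ω.fst → L ⊆ ω.B → L ⊆ ω.W → Ev ω.fst ∨ Ev (gswPhi S φ ψ X ω).fst) :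
    S.Z (K.Holds S) ≤ 2 * S.N (K.Holds S) (fun ω => if Ev ω then 1 else 0) := by
  set F : ClCfg V Y → ℝ := fun ω => if Ev ω then 1 else 0 with hFd
  have hF0 : ∀ ω, 0 ≤ F ω := fun ω => by simp only [hFd]; split_ifs <;> norm_num
  have hFW : ∀ ω ω' : ClCfg V Y, ω.B = ω'.B → ω.O = ω'.O → F ω = F ω' := fun ω ω' h1 h2 => by
    simp only [hFd, hEv ω ω' h1 h2]
  have hLA : L ⊆ S.A := h.LX.trans h.XA
  rw [dis_Z_eq, gsw_label hS hLA hK (fun _ => 1) (fun _ _ _ _ => rfl), gsw_label hS hLA hK F hFW]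
  have hc : (0 : ℝ) < (if L.Nonempty then 2 else 1) := by split_ifs <;> norm_num
  have key : S.N (fun ω => K.Holds S ω ∧ L ⊆ ω.W) (fun _ => 1) ≤ 2 * S.N (fun ω => K.Holds S ω ∧ L ⊆ ω.W) F := by
    rw [← am_N2_fst S (fun ω => K.Holds S ω ∧ L ⊆ ω.W) (fun _ => 1), ← am_N2_fst S (fun ω => K.Holds S ω ∧ L ⊆ ω.W) F, two_mul]
    have e3 : S.N2 (fun ω => K.Holds S ω.fst ∧ L ⊆ ω.fst.W) (fun ω => F (gswPhi S φ ψ X ω).fst)
        = S.N2 (fun ω => K.Holds S ω.fst ∧ L ⊆ ω.fst.W) (fun ω => F ω.fst) := gsw_N2 hS h hK (fun ω => F ω.fst)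
    nth_rewrite 2 [← e3]
    unfold ClSys.N2
    rw [← Finset.sum_add_distrib]
    refine Finset.sum_le_sum fun ω hω => ?_
    by_cases hcond : K.Holds S ω.fst ∧ L ⊆ ω.fst.W
    · rw [if_pos hcond, if_pos hcond, if_pos hcond, ← mul_add]
      have hw := am_wt2_nonneg S hq hS.q1 ω
      by_cases h0 : S.wt2 ω = 0
      · rw [h0]; simp
      · refine mul_le_mul_of_nonneg_left ?_ hw
        rcases hd ω hω h0 hcond.1 (hK.bpL.trans hcond.1.1) hcond.2 with h4 | h4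
        · have : F ω.fst = 1 := by simp only [hFd]; rw [if_pos h4]
          have := hF0 (gswPhi S φ ψ X ω).fst
          linarith
        · have : F (gswPhi S φ ψ X ω).fst = 1 := by simp only [hFd]; rw [if_pos h4]
          have := hF0 ω.fst
          linarith
    · rw [if_neg hcond, if_neg hcond, if_neg hcond]; simp
  nlinarith

open Classical in
/-- the colour swap lemma, normalised -/
theorem gsw_main_P (hS : ClOk S) (hq : ∀ y ∈ S.C, 1 / 2 ≤ S.q y) (h : GswSym S φ ψ X L) {K : ClCon V Y} (hK : GswHist S K X L)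
    (hZ : 0 < S.Z (K.Holds S)) (Ev : ClCfg V Y → Prop) (hEv : ∀ ω ω' : ClCfg V Y, ω.B = ω'.B → ω.O = ω'.O → (Ev ω ↔ Ev ω'))
    (hd : ∀ ω ∈ S.cfgs2, S.wt2 ω ≠ 0 → K.Holds S ω.fst → L ⊆ ω.B → L ⊆ ω.W → Ev ω.fst ∨ Ev (gswPhi S φ ψ X ω).fst) :
    1 / 2 ≤ S.P (K.Holds S) Ev := by
  have h1 := gsw_main hS hq h hK Ev hEv hd
  unfold ClSys.P
  rw [dis_E_eq, le_div_iff₀ hZ]
  linarith

/-! ### step 2 of Lemma B: order + swap -/

open Classical in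
/-- **LEMMA B, STEP 2** (abstract): `K` = the symmetric tied history (`h_nu`), `Ka` = the actual history, above `K` in the order with ties.
Only the order theorem and the swap lemma are used. -/
theorem gsw_step2 (hD : ClDisk S) (hq : ∀ y ∈ S.C, 1 / 2 ≤ S.q y) (h : GswSym S φ ψ X L) {K Ka : ClCon V Y} (hK : GswHist S K X L)
    (l₁ : AmLegal S K) (l₂ : AmLegal S Ka) (hle : AmLe S K Ka) (hZ : 0 < S.Z (K.Holds S)) (hZa : 0 < S.Z (Ka.Holds S))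
    (Ev : ClCfg V Y → Prop) (hmono : ClMonoP S Ev)
    (hd : ∀ ω ∈ S.cfgs2, S.wt2 ω ≠ 0 → K.Holds S ω.fst → L ⊆ ω.B → L ⊆ ω.W → Ev ω.fst ∨ Ev (gswPhi S φ ψ X ω).fst) :
    1 / 2 ≤ S.P (Ka.Holds S) Ev := by
  have hEv : ∀ ω ω' : ClCfg V Y, ω.B = ω'.B → ω.O = ω'.O → (Ev ω ↔ Ev ω') := by
    intro ω ω' h1 h2
    have ht : ∀ y, clTau S ω y = clTau S ω' y := fun y => by unfold clTau; rw [h1, h2]
    exact ⟨hmono ω ω' (h1 ▸ subset_rfl) (fun y _ => (ht y).le), hmono ω' ω (h1 ▸ subset_rfl) (fun y _ => (ht y).ge)⟩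
  have h1 := gsw_main hD.toClOk hq h hK Ev hEv hd
  have hF : ClMono S (fun ω => if Ev ω then (1 : ℝ) else 0) := by
    intro ω ω' a b
    show (if Ev ω then (1 : ℝ) else 0) ≤ (if Ev ω' then (1 : ℝ) else 0)
    by_cases e : Ev ω
    · rw [if_pos e, if_pos (hmono ω ω' a b e)]
    · rw [if_neg e]; split_ifs <;> norm_num
  have h2 := am_order_eq S hD K Ka l₁ l₂ hle _ hF
  unfold ClSys.P
  rw [dis_E_eq, le_div_iff₀ hZa]
  have h3 : S.Z (K.Holds S) * S.Z (Ka.Holds S)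
      ≤ S.Z (K.Holds S) * (2 * S.N (Ka.Holds S) (fun ω => if Ev ω then 1 else 0)) := by nlinarith
  have h4 := le_of_mul_le_mul_left h3 hZ
  linarith

/-! ### the path form -/

/-- the cells which count as plus: the deterministic cells of `D` and the open-plus cells inside `X` -/
def gswPlus (S : ClSys V Y) (X : Finset V) (D : Set Y) (ω : ClCfg V Y) : Set Y :=
  {z | z ∈ D ∨ (z ∈ S.cin X ∧ clTau S ω z = 1)}

/-- a path of plus cells joins `I` to `III` -/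
def GswPath (S : ClSys V Y) (X : Finset V) (G : SimpleGraph Y) (D I III : Set Y) (ω : ClCfg V Y) : Prop :=
  ∃ y ∈ I, ∃ y' ∈ III, y ∈ gswPlus S X D ω ∧ TscR G (gswPlus S X D ω) y y'

theorem gsw_plus_mono (X : Finset V) (D : Set Y) {ω ω' : ClCfg V Y} (ht : ∀ y ∈ S.C, clTau S ω y ≤ clTau S ω' y) :
    gswPlus S X D ω ⊆ gswPlus S X D ω' := by
  rintro z (hz | ⟨hz, h1⟩)
  · exact Or.inl hz
  · refine Or.inr ⟨hz, ?_⟩
    have h2 := ht z (Finset.mem_filter.1 hz).1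
    rcases dis_tau_cases S ω' z with h3 | h3 | h3 <;> omega

/-- the path event is increasing -/
theorem gsw_path_mono (X : Finset V) (G : SimpleGraph Y) (D I III : Set Y) : ClMonoP S (GswPath S X G D I III) := by
  rintro ω ω' - ht ⟨y, hy, y', hy', h1, h2⟩
  exact ⟨y, hy, y', hy', gsw_plus_mono X D ht h1, tsc_R_mono (gsw_plus_mono X D ht) h2⟩

theorem gsw_tau_one (η : ClCfg V Y) (z : Y) : clTau S η z = 1 ↔ (z ∈ η.O ∧ S.sv z ⊆ η.B) := by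
  unfold clTau
  split_ifs with h1 h2
  · simp [h1, h2]
  · simp [h1, h2]
  · simp [h1]

/-- **propagation of the sign** along a path of cells which are deterministic or open -/
theorem gsw_prop (h : GswSym S φ ψ X L) (G : SimpleGraph Y) (hGs : ∀ z z', G.Adj z z' → ∃ v ∈ X, v ∈ S.sv z ∧ v ∈ S.sv z')
    (D : Set Y) (hDx : ∀ z ∈ D, z ∈ S.C ∧ z ∉ S.cin X) (η : ClCfg V Y) (hL : L ⊆ η.B)
    (hc : ∀ z ∈ S.cin X, z ∈ η.O → ClConst η.B (S.sv z)) {y y' : Y} (hy0 : y ∈ D ∨ ∃ v ∈ L, v ∈ S.sv y)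
    (hyP : y ∈ {z | z ∈ D ∨ (z ∈ S.cin X ∧ z ∈ η.O)}) (hpath : TscR G {z | z ∈ D ∨ (z ∈ S.cin X ∧ z ∈ η.O)} y y') :
    y ∈ gswPlus S X D η ∧ TscR G (gswPlus S X D η) y y' := by
  -- an open cell inside `X` with a plus site is open-plus
  have hopen : ∀ z ∈ S.cin X, z ∈ η.O → ∀ v ∈ S.sv z, v ∈ η.B → clTau S η z = 1 := by
    intro z hz hzO v hv hvB
    rw [gsw_tau_one]
    refine ⟨hzO, ?_⟩
    rcases hc z hz hzO with h1 | h1
    · exact h1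
    · exact absurd hvB (h1 v hv)
  -- the sites in `X` of a plus cell are plus
  have hsite : ∀ z ∈ gswPlus S X D η, ∀ v ∈ S.sv z, v ∈ X → v ∈ η.B := by
    rintro z (hz | ⟨hz, h1⟩) v hv hvX
    · obtain ⟨hzC, hzX⟩ := hDx z hz
      exact hL (h.lay z hzC (fun hh => hzX (Finset.mem_filter.2 ⟨hzC, hh⟩)) v hv hvX)
    · exact ((gsw_tau_one η z).1 h1).2 hv
  have hstart : y ∈ gswPlus S X D η := by
    rcases hyP with hy | ⟨hy, hyO⟩
    · exact Or.inl hy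
    · rcases hy0 with hy0 | ⟨v, hvL, hv⟩
      · exact Or.inl hy0
      · exact Or.inr ⟨hy, hopen y hy hyO v hv (hL hvL)⟩
  have key : TscR G (gswPlus S X D η) y y' ∧ y' ∈ gswPlus S X D η := by
    induction hpath with
    | refl => exact ⟨ReflTransGen.refl, hstart⟩
    | @tail b c _ hs ih =>
      obtain ⟨hadj, -, hcP⟩ := hs
      obtain ⟨v, hvX, hv1, hv2⟩ := hGs _ _ hadj
      have hvB := hsite _ ih.2 v hv1 hvX
      have hnew : c ∈ gswPlus S X D η := by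
        rcases hcP with hcP | ⟨hcP, hcO⟩
        · exact Or.inl hcP
        · exact Or.inr ⟨hcP, hopen _ hcP hcO v hv2 hvB⟩
      exact ⟨ih.1.tail ⟨hadj, ih.2, hnew⟩, hnew⟩
  exact ⟨hstart, key.1⟩

/-- the dichotomy of the path event from Hex on the graph of the cells.   `DB`, `DW` = cells with a deterministic colour (they are not inside `X`, so they touch `X` in `L` only);
`Γ = DB ∪ DW ∪ cin X`;   `ψ` maps `DW` into `DB`, `II` into `I`, `IV` into `III`, and preserves `G`. -/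
theorem gsw_path_dich (hS : ClOk S) (h : GswSym S φ ψ X L) (G : SimpleGraph Y)
    (hGs : ∀ z z', G.Adj z z' → ∃ v ∈ X, v ∈ S.sv z ∧ v ∈ S.sv z') (hGψ : ∀ z z', G.Adj z z' → G.Adj (ψ z) (ψ z'))
    (DB DW : Set Y) (hDB : ∀ z ∈ DB, z ∈ S.C ∧ z ∉ S.cin X) (hDW : ∀ z ∈ DW, z ∈ S.C ∧ z ∉ S.cin X) (hψD : ∀ z ∈ DW, ψ z ∈ DB)
    (I II III IV : Set Y) (hI : ∀ y ∈ I, y ∈ DB ∨ ∃ v ∈ L, v ∈ S.sv y) (hII' : ∀ y ∈ II, y ∈ DW ∨ ∃ v ∈ L, v ∈ S.sv y)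
    (hII : ∀ y ∈ II, ψ y ∈ I) (hIV : ∀ y ∈ IV, ψ y ∈ III)
    (hHex : ∀ P : Set Y, (∃ y ∈ I, ∃ y' ∈ III, y ∈ P ∧ TscR G P y y') ∨
      (∃ y ∈ II, ∃ y' ∈ IV, y ∈ (DB ∪ DW ∪ ↑(S.cin X)) \ P ∧ TscR G ((DB ∪ DW ∪ ↑(S.cin X)) \ P) y y'))
    (ω : ClCfg2 V Y) (hω : ω ∈ S.cfgs2) (hw : S.wt2 ω ≠ 0) (hB : L ⊆ ω.B) (hW : L ⊆ ω.W) :
    GswPath S X G DB I III ω.fst ∨ GswPath S X G DB I III (gswPhi S φ ψ X ω).fst := by
  have hcov := fun z (hz : z ∈ S.cin X) => am_wt2_cover S ω hw z (Finset.mem_filter.1 hz).1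
  rcases hHex {z | z ∈ DB ∨ (z ∈ S.cin X ∧ z ∈ ω.OB)} with ⟨y, hy, y', hy', h1, h2⟩ | ⟨y, hy, y', hy', h1, h2⟩
  · left
    have := gsw_prop h G hGs DB hDB ω.fst hB (fun z hz hzO => (hcov z hz).2.1 hzO) (hI y hy) h1 h2
    exact ⟨y, hy, y', hy', this.1, this.2⟩
  · right
    have hsub : ((DB ∪ DW ∪ ↑(S.cin X)) \ {z | z ∈ DB ∨ (z ∈ S.cin X ∧ z ∈ ω.OB)} : Set Y)
        ⊆ {z | z ∈ DW ∨ (z ∈ S.cin X ∧ z ∈ ω.snd.O)} := by
      rintro z ⟨hz, hzP⟩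
      rcases hz with (hz | hz) | hz
      · exact absurd (Or.inl hz) hzP
      · exact Or.inl hz
      · have hz' : z ∈ S.cin X := hz
        refine Or.inr ⟨hz', ?_⟩
        rcases (hcov z hz').1 with h3 | h3
        · exact absurd (Or.inr ⟨hz', h3⟩) hzP
        · exact h3
    have := gsw_prop h G hGs DW hDW ω.snd hW (fun z hz hzO => (hcov z hz).2.2.1 hzO) (hII' y hy) (hsub h1)
      (tsc_R_mono hsub h2)
    have hmap : ∀ z ∈ gswPlus S X DW ω.snd, ψ z ∈ gswPlus S X DB (gswPhi S φ ψ X ω).fst := by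
      rintro z (hz | ⟨hz, h3⟩)
      · exact Or.inl (hψD z hz)
      · refine Or.inr ⟨h.ψC z hz, ?_⟩
        obtain ⟨h4, h5⟩ := (gsw_tau_one ω.snd z).1 h3
        rw [gsw_tau_one]
        refine ⟨(gsw_OB_in (φ := φ) ω (h.ψC z hz)).2 (by rw [h.ψψ z hz]; exact h4), ?_⟩
        rw [h.sv z hz]
        intro u hu
        obtain ⟨v, hv, rfl⟩ := Finset.mem_image.1 hu
        have hvX : v ∈ X := (Finset.mem_filter.1 hz).2 hv
        exact (gsw_B_in h ω (h.φX v hvX)).2 (by rw [h.φφ v hvX]; exact h5 hv)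
    refine ⟨ψ y, hII y hy, ψ y', hIV y' hy', hmap y this.1, ?_⟩
    refine tsc_R_mono ?_ (tsc_R_map (G' := G) ψ hGψ this.2)
    rintro _ ⟨z, hz, rfl⟩
    exact hmap z hz

open Classical in
/-- **THE COLOUR SWAP LEMMA, PATH FORM, with the order step**: under the actual history `Ka ≥ K` a path of plus cells joins `I` to `III` with probability at least `1/2`. -/
theorem gsw_path (hD : ClDisk S) (hq : ∀ y ∈ S.C, 1 / 2 ≤ S.q y) (h : GswSym S φ ψ X L) {K Ka : ClCon V Y} (hK : GswHist S K X L)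
    (l₁ : AmLegal S K) (l₂ : AmLegal S Ka) (hle : AmLe S K Ka) (hZ : 0 < S.Z (K.Holds S)) (hZa : 0 < S.Z (Ka.Holds S))
    (G : SimpleGraph Y) (hGs : ∀ z z', G.Adj z z' → ∃ v ∈ X, v ∈ S.sv z ∧ v ∈ S.sv z') (hGψ : ∀ z z', G.Adj z z' → G.Adj (ψ z) (ψ z'))
    (DB DW : Set Y) (hDB : ∀ z ∈ DB, z ∈ S.C ∧ z ∉ S.cin X) (hDW : ∀ z ∈ DW, z ∈ S.C ∧ z ∉ S.cin X) (hψD : ∀ z ∈ DW, ψ z ∈ DB)
    (I II III IV : Set Y) (hI : ∀ y ∈ I, y ∈ DB ∨ ∃ v ∈ L, v ∈ S.sv y) (hII' : ∀ y ∈ II, y ∈ DW ∨ ∃ v ∈ L, v ∈ S.sv y)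
    (hII : ∀ y ∈ II, ψ y ∈ I) (hIV : ∀ y ∈ IV, ψ y ∈ III)
    (hHex : ∀ P : Set Y, (∃ y ∈ I, ∃ y' ∈ III, y ∈ P ∧ TscR G P y y') ∨
      (∃ y ∈ II, ∃ y' ∈ IV, y ∈ (DB ∪ DW ∪ ↑(S.cin X)) \ P ∧ TscR G ((DB ∪ DW ∪ ↑(S.cin X)) \ P) y y')) :
    1 / 2 ≤ S.P (Ka.Holds S) (GswPath S X G DB I III) :=
  gsw_step2 hD hq h hK l₁ l₂ hle hZ hZa _ (gsw_path_mono X G DB I III) fun ω hω hw _ hB hW =>
    gsw_path_dich hD.toClOk h G hGs hGψ DB DW hDB hDW hψD I II III IV hI hII' hII hIV hHex ω hω hw hB hW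

end abstract

/-- the equation lemmas of the definitions of this file are generated HERE -/
theorem gsw_eqns_cite : True := by
  have := @gswPhi.eq_1
  have := @gswPlus.eq_1
  have := @GswPath.eq_1
  trivial

end Claimed.Agent.R291
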