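/-
# Row 291 (S0539), ANN block A1, Glue/Sym : THE SYMMETRY LEMMAS X1 and X1'      (owner helper210; prefix `gl_` / `Gl`)

Design: `origin/helper55:notes/R291/ann_A1_55.md` Sec. 1 (X1 `gl_sym`, X1' `gl_sym_swap`).   Carrier: `CellSys`, `CsHist` of helper160.
TEX[annulus:straight-short] (display annulus:symmetric-short), Lemmas A and B of the note G1 of helper187.

* `GlAut C` : automorphism of a cell system (bijections of the sites, edges, cells; ends of an edge up to exchange; `cell`, `q` preserved).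
* `r.T ω`  = reflection followed by the flip of the first spin and of the statuses;      `r.R ω` = reflection only.
* `r.mapH h` = history transported and flipped (`ω ⊨ h ↔ r.T ω ⊨ r.mapH h`);              `r.mapR h` = history transported.
* `gl_wt_T`, `gl_sum_T`, `gl_Zh_T`, `gl_Ex_T` (and `_R`) : pure reindexing.
* `gl_full_T`, `gl_split_T` : `Full` and `Split` are inherited by the transported history.
* **`gl_sym`** (X1): `(r.mapH h).LeG C h`, `E` increasing, `E ω ∨ E (r.T ω)` on the support  ⟹  `1/2 ≤ C.Ex h 1_E`.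
* two-status cell table `C.cw2` (one uniform per cell, in discrete form), `C.jw2`; marginals `gl_jw2_fst`, `gl_jw2_snd`; never both closed.
* **`gl_sym_swap`** (X1'): `B = +` on `L`, `W` constant on `L`, `r L = L`, `1/2 ≤ q`; `E (B, τᴮ) ∨ E (r.R (W, τᵂ))` on the support  ⟹  `1/2 ≤ C.Ex h 1_E`.
* path corollaries `gl_sym_path`, `gl_sym_swap_path` (Hex enters as a hypothesis on a graph).
-/
import Claimed.Agent.R291.Cell.Order
import Claimed.Agent.R291.Tool.TriSC

set_option autoImplicit false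
set_option linter.unusedSectionVars false
set_option linter.unusedVariables false
set_option linter.unusedSimpArgs false

namespace Claimed.Agent.R291

open Finset

/-- automorphism of a cell system. -/
structure GlAut {V ι Y : Type*} (C : CellSys V ι Y) where
  /-- action on the sites -/
  rV : V ≃ V
  /-- action on the edges -/
  rE : ι ≃ ι
  /-- action on the cells -/
  rY : Y ≃ Y
  ends : ∀ e, (C.s (rE e) = rV (C.s e) ∧ C.t (rE e) = rV (C.t e)) ∨
    (C.s (rE e) = rV (C.t e) ∧ C.t (rE e) = rV (C.s e))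
  cell : ∀ e, C.cell (rE e) = rY (C.cell e)
  q : ∀ y, C.q (rY y) = C.q y

section defs
variable {V ι Y : Type*} {C : CellSys V ι Y}

namespace GlAut
variable (r : GlAut C)

/-- reflection of a state. -/
def R (ω : CsOm V Y) : CsOm V Y := (fun v => ω.1 (r.rV v), fun y => ω.2 (r.rY y))

/-- reflection followed by the flip of the first spin (and of the statuses). -/
def T (ω : CsOm V Y) : CsOm V Y := (fun v => !(ω.1 (r.rV v)), fun y => -(ω.2 (r.rY y)))

/-- the history transported by the reflection. -/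
def mapR (h : CsHist V ι Y) : CsHist V ι Y where
  pB := fun v => h.pB (r.rV v)
  pT := fun y => h.pT (r.rY y)
  E0 := h.E0.map r.rE.symm.toEmbedding

/-- the history transported by the reflection and flipped. -/
def mapH (h : CsHist V ι Y) : CsHist V ι Y where
  pB := fun v => (h.pB (r.rV v)).map not
  pT := fun y => (h.pT (r.rY y)).map (fun θ => -θ)
  E0 := h.E0.map r.rE.symm.toEmbedding

/-- `R` as a bijection. -/
def Re : CsOm V Y ≃ CsOm V Y where
  toFun := r.R
  invFun := fun ω => (fun v => ω.1 (r.rV.symm v), fun y => ω.2 (r.rY.symm y))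
  left_inv := fun ω => by simp [R]
  right_inv := fun ω => by simp [R]

/-- `T` as a bijection. -/
def Te : CsOm V Y ≃ CsOm V Y where
  toFun := r.T
  invFun := fun ω => (fun v => !(ω.1 (r.rV.symm v)), fun y => -(ω.2 (r.rY.symm y)))
  left_inv := fun ω => by simp [T]
  right_inv := fun ω => by simp [T]

end GlAut

variable (r : GlAut C)

theorem gl_mem_E0_R (h : CsHist V ι Y) (e : ι) : e ∈ (r.mapR h).E0 ↔ r.rE e ∈ h.E0 := by
  simp [GlAut.mapR, Finset.mem_map_equiv]

theorem gl_mem_E0_H (h : CsHist V ι Y) (e : ι) : e ∈ (r.mapH h).E0 ↔ r.rE e ∈ h.E0 := by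
  simp [GlAut.mapH, Finset.mem_map_equiv]

/-- the cell of the preimage of an edge. -/
theorem gl_cell_symm (e : ι) : C.cell (r.rE.symm e) = r.rY.symm (C.cell e) := by
  have h := r.cell (r.rE.symm e)
  rw [Equiv.apply_symm_apply] at h
  rw [h, Equiv.symm_apply_apply]

theorem gl_cst (σ : V → Bool) (y : Y) : C.Cst (fun v => σ (r.rV v)) y = C.Cst σ (r.rY y) := by
  refine propext ⟨fun h e he => ?_, fun h e he => ?_⟩
  · have h1 : C.cell (r.rE.symm e) = y := by rw [gl_cell_symm, he, Equiv.symm_apply_apply]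
    have h2 := h _ h1
    have h3 := r.ends (r.rE.symm e)
    rw [Equiv.apply_symm_apply] at h3
    rcases h3 with ⟨a, b⟩ | ⟨a, b⟩
    · rw [a, b]; exact h2
    · rw [a, b]; exact h2.symm
  · have h2 := h (r.rE e) (by rw [r.cell, he])
    rcases r.ends e with ⟨a, b⟩ | ⟨a, b⟩
    · rw [a, b] at h2; exact h2
    · rw [a, b] at h2; exact h2.symm

theorem gl_hom (σ : V → Bool) (y : Y) (β : Bool) :
    C.Hom (fun v => σ (r.rV v)) y β = C.Hom σ (r.rY y) β := by
  refine propext ⟨fun h e he => ?_, fun h e he => ?_⟩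
  · have h1 : C.cell (r.rE.symm e) = y := by rw [gl_cell_symm, he, Equiv.symm_apply_apply]
    have h2 := h _ h1
    have h3 := r.ends (r.rE.symm e)
    rw [Equiv.apply_symm_apply] at h3
    rcases h3 with ⟨a, b⟩ | ⟨a, b⟩
    · rw [a, b]; exact h2
    · rw [a, b]; exact h2.symm
  · have h2 := h (r.rE e) (by rw [r.cell, he])
    rcases r.ends e with ⟨a, b⟩ | ⟨a, b⟩
    · rw [a, b] at h2; exact h2
    · rw [a, b] at h2; exact h2.symm

theorem gl_cst_not (C : CellSys V ι Y) (σ : V → Bool) (y : Y) : C.Cst (fun v => !(σ v)) y = C.Cst σ y := by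
  refine propext ⟨fun h e he => ?_, fun h e he => ?_⟩
  · have := h e he
    simpa using this
  · have := h e he
    simp [this]

theorem gl_hom_not (C : CellSys V ι Y) (σ : V → Bool) (y : Y) (β : Bool) :
    C.Hom (fun v => !(σ v)) y β = C.Hom σ y (!β) := by
  refine propext ⟨fun h e he => ?_, fun h e he => ?_⟩
  · obtain ⟨a, b⟩ := h e he
    constructor
    · rw [← a]; simp
    · rw [← b]; simp
  · obtain ⟨a, b⟩ := h e he
    constructor
    · show (!(σ (C.s e))) = β
      rw [a]; simp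
    · show (!(σ (C.t e))) = β
      rw [b]; simp

end defs

section
variable {V ι Y : Type*} [Fintype V] [DecidableEq V] [Fintype ι] [DecidableEq ι] [Fintype Y]
  [DecidableEq Y]
variable {C : CellSys V ι Y} (r : GlAut C)

/-! ## reindexing of the weights -/

theorem gl_kf_R (B : V → Bool) (y : Y) (θ : SignType) :
    C.kf (fun v => B (r.rV v)) y θ = C.kf B (r.rY y) θ := by
  unfold CellSys.kf
  rw [gl_hom, gl_hom, gl_cst, r.q]

theorem gl_kf_not (B : V → Bool) (y : Y) (θ : SignType) :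
    C.kf (fun v => !(B v)) y (-θ) = C.kf B y θ := by
  rcases cs_sign_cases θ with rfl | rfl | rfl
  · rw [neg_zero, cs_kf_zero, cs_kf_zero, gl_cst_not]
  · rw [neg_neg, cs_kf_pos, cs_kf_neg, gl_hom_not]; rfl
  · rw [cs_kf_pos, cs_kf_neg, gl_hom_not]; rfl

theorem gl_cw_R (B W : V → Bool) (y : Y) (θ : SignType) :
    C.cw (fun v => B (r.rV v)) (fun v => W (r.rV v)) y θ = C.cw B W (r.rY y) θ := by
  unfold CellSys.cw
  rw [gl_kf_R, gl_cst]

theorem gl_cw_not (B W : V → Bool) (y : Y) (θ : SignType) :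
    C.cw (fun v => !(B v)) W y (-θ) = C.cw B W y θ := by
  unfold CellSys.cw
  rw [gl_kf_not]
  rcases cs_sign_cases θ with rfl | rfl | rfl <;> rfl

theorem gl_jw_R (B W : V → Bool) (τ : Y → SignType) :
    C.jw (fun v => B (r.rV v)) (fun v => W (r.rV v)) (fun y => τ (r.rY y)) = C.jw B W τ := by
  unfold CellSys.jw
  simp only [gl_cw_R]
  exact Equiv.prod_comp r.rY (fun y => C.cw B W y (τ y))

theorem gl_jw_not (B W : V → Bool) (τ : Y → SignType) :
    C.jw (fun v => !(B v)) W (fun y => -(τ y)) = C.jw B W τ := by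
  unfold CellSys.jw
  simp only [gl_cw_not]

theorem gl_okB_R (h : CsHist V ι Y) (B : V → Bool) : (r.mapR h).OkB (fun v => B (r.rV v)) = h.OkB B := by
  refine propext ⟨fun H v β hv => ?_, fun H v β hv => H _ β hv⟩
  have := H (r.rV.symm v) β (by simpa [GlAut.mapR] using hv)
  simpa using this

theorem gl_okT_R (h : CsHist V ι Y) (τ : Y → SignType) :
    (r.mapR h).OkT (fun y => τ (r.rY y)) = h.OkT τ := by
  refine propext ⟨fun H v β hv => ?_, fun H v β hv => H _ β hv⟩
  have := H (r.rY.symm v) β (by simpa [GlAut.mapR] using hv)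
  simpa using this

theorem gl_okW_R (h : CsHist V ι Y) (W : V → Bool) :
    (r.mapR h).OkW C (fun v => W (r.rV v)) = h.OkW C W := by
  refine propext ⟨fun H e he => ?_, fun H e he => ?_⟩
  · have h1 := H (r.rE.symm e) ((gl_mem_E0_R r h _).2 (by simpa using he))
    have h3 := r.ends (r.rE.symm e)
    rw [Equiv.apply_symm_apply] at h3
    rcases h3 with ⟨a, b⟩ | ⟨a, b⟩
    · rw [a, b]; exact h1
    · rw [a, b]; exact h1.symm
  · have h1 := H (r.rE e) ((gl_mem_E0_R r h _).1 he)
    rcases r.ends e with ⟨a, b⟩ | ⟨a, b⟩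
    · rw [a, b] at h1; exact h1
    · rw [a, b] at h1; exact h1.symm

theorem gl_okB_H (h : CsHist V ι Y) (B : V → Bool) :
    (r.mapH h).OkB (fun v => !(B (r.rV v))) = h.OkB B := by
  refine propext ⟨fun H v β hv => ?_, fun H v β hv => ?_⟩
  · have := H (r.rV.symm v) (!β) (by simp [GlAut.mapH, hv])
    simpa using this
  · simp only [GlAut.mapH, Option.map_eq_some_iff] at hv
    obtain ⟨a, ha, rfl⟩ := hv
    show (!(B (r.rV v))) = !a
    rw [H _ a ha]

theorem gl_okT_H (h : CsHist V ι Y) (τ : Y → SignType) :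
    (r.mapH h).OkT (fun y => -(τ (r.rY y))) = h.OkT τ := by
  refine propext ⟨fun H v β hv => ?_, fun H v β hv => ?_⟩
  · have := H (r.rY.symm v) (-β) (by simp [GlAut.mapH, hv])
    simpa using this
  · simp only [GlAut.mapH, Option.map_eq_some_iff] at hv
    obtain ⟨a, ha, rfl⟩ := hv
    show -(τ (r.rY v)) = -a
    rw [H _ a ha]

theorem gl_okW_H (h : CsHist V ι Y) (W : V → Bool) :
    (r.mapH h).OkW C (fun v => W (r.rV v)) = h.OkW C W := gl_okW_R r h W

/-- reindexing of a sum over spins. -/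
theorem gl_sum_spin (f : (V → Bool) → ℝ) : ∑ W : V → Bool, f (fun v => W (r.rV v)) = ∑ W, f W :=
  Equiv.sum_comp (Equiv.arrowCongr r.rV.symm (Equiv.refl Bool)) f

theorem gl_wt_R (h : CsHist V ι Y) (ω : CsOm V Y) : C.wt (r.mapR h) (r.R ω) = C.wt h ω := by
  classical
  unfold CellSys.wt GlAut.R
  simp only
  rw [gl_okB_R, gl_okT_R, ← gl_sum_spin r]
  simp only [gl_okW_R, gl_jw_R]

theorem gl_wt_T (h : CsHist V ι Y) (ω : CsOm V Y) : C.wt (r.mapH h) (r.T ω) = C.wt h ω := by
  classical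
  unfold CellSys.wt GlAut.T
  simp only
  rw [gl_okB_H, gl_okT_H, ← gl_sum_spin r]
  have : ∀ W : V → Bool, C.jw (fun v => !(ω.1 (r.rV v))) (fun v => W (r.rV v)) (fun y => -(ω.2 (r.rY y)))
      = C.jw ω.1 W ω.2 := fun W => by
    rw [gl_jw_not (fun v => ω.1 (r.rV v)) (fun v => W (r.rV v)) (fun y => ω.2 (r.rY y)), gl_jw_R]
  simp only [gl_okW_H, this]

theorem gl_sum_R (h : CsHist V ι Y) (F : CsOm V Y → ℝ) :
    ∑ ω, C.wt (r.mapR h) ω * F ω = ∑ ω, C.wt h ω * F (r.R ω) := by
  rw [← Equiv.sum_comp r.Re]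
  exact Finset.sum_congr rfl fun ω _ => by
    show C.wt (r.mapR h) (r.R ω) * F (r.R ω) = _
    rw [gl_wt_R]

theorem gl_sum_T (h : CsHist V ι Y) (F : CsOm V Y → ℝ) :
    ∑ ω, C.wt (r.mapH h) ω * F ω = ∑ ω, C.wt h ω * F (r.T ω) := by
  rw [← Equiv.sum_comp r.Te]
  exact Finset.sum_congr rfl fun ω _ => by
    show C.wt (r.mapH h) (r.T ω) * F (r.T ω) = _
    rw [gl_wt_T]

theorem gl_Zh_R (h : CsHist V ι Y) : C.Zh (r.mapR h) = C.Zh h := by
  have := gl_sum_R r h (fun _ => 1)
  simpa [CellSys.Zh] using this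

theorem gl_Zh_T (h : CsHist V ι Y) : C.Zh (r.mapH h) = C.Zh h := by
  have := gl_sum_T r h (fun _ => 1)
  simpa [CellSys.Zh] using this

/-- **transport of the expectation** (reflection). -/
theorem gl_Ex_R (h : CsHist V ι Y) (F : CsOm V Y → ℝ) : C.Ex (r.mapR h) F = C.Ex h (fun ω => F (r.R ω)) := by
  unfold CellSys.Ex
  rw [gl_sum_R, gl_Zh_R]

/-- **transport of the expectation** (reflection and flip). -/
theorem gl_Ex_T (h : CsHist V ι Y) (F : CsOm V Y → ℝ) : C.Ex (r.mapH h) F = C.Ex h (fun ω => F (r.T ω)) := by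
  unfold CellSys.Ex
  rw [gl_sum_T, gl_Zh_T]

/-! ## `Full` and `Split` are inherited -/

theorem gl_full_R {h : CsHist V ι Y} (hF : h.Full C) : (r.mapR h).Full C := by
  intro y θ hy e he
  have h1 := hF (r.rY y) θ hy (r.rE e) (by rw [r.cell, he])
  rcases r.ends e with ⟨a, b⟩ | ⟨a, b⟩
  · rw [a, b] at h1; exact h1
  · rw [a, b] at h1; exact h1.symm

theorem gl_full_T {h : CsHist V ι Y} (hF : h.Full C) : (r.mapH h).Full C := by
  intro y θ hy e he
  simp only [GlAut.mapH, Option.map_eq_some_iff] at hy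
  obtain ⟨a, ha, -⟩ := hy
  have h1 := hF (r.rY y) a ha (r.rE e) (by rw [r.cell, he])
  simp only [GlAut.mapH, Option.isSome_map]
  rcases r.ends e with ⟨a, b⟩ | ⟨a, b⟩
  · rw [a, b] at h1; exact h1
  · rw [a, b] at h1; exact h1.symm

theorem gl_bool_split : ∀ a a' c c' β : Bool, ((c ≠ c') ↔ (a ≠ a' ∧ β = true)) →
    ((xor a c ≠ xor a' c') ↔ (a ≠ a' ∧ (!β) = true)) := by decide

/-- the minus part of a wall is a wall. -/
theorem gl_split_not {b : V → Bool} (hb : C.Split b) : C.Split (fun v => !(b v)) := by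
  intro W hW
  obtain ⟨σ, hσ⟩ := hb W (fun e he => by simpa using hW e he)
  exact ⟨fun v => xor (W v) (σ v), fun e => gl_bool_split _ _ _ _ _ (hσ e)⟩

theorem gl_split_R {b : V → Bool} (hb : C.Split b) : C.Split (fun v => b (r.rV v)) := by
  intro W hW
  have key : ∀ e, (fun v => W (r.rV.symm v)) (C.s e) ≠ (fun v => W (r.rV.symm v)) (C.t e) →
      b (C.s e) = b (C.t e) := by
    intro e he
    have h3 := r.ends (r.rE.symm e)
    rw [Equiv.apply_symm_apply] at h3
    rcases h3 with ⟨a, c⟩ | ⟨a, c⟩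
    · rw [a, c] at he ⊢
      simp only [Equiv.symm_apply_apply] at he
      exact hW _ he
    · rw [a, c] at he ⊢
      simp only [Equiv.symm_apply_apply] at he
      exact (hW _ he.symm).symm
  obtain ⟨σ, hσ⟩ := hb (fun v => W (r.rV.symm v)) key
  refine ⟨fun v => σ (r.rV v), fun e => ?_⟩
  have h1 := hσ (r.rE e)
  rcases r.ends e with ⟨a, c⟩ | ⟨a, c⟩
  · rw [a, c] at h1
    simpa using h1
  · rw [a, c] at h1
    simp only [Equiv.symm_apply_apply] at h1
    constructor
    · intro h2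
      obtain ⟨h3, h4⟩ := h1.1 h2.symm
      exact ⟨h3.symm, (hW e h3.symm).trans h4⟩
    · rintro ⟨h2, h3⟩
      exact (h1.2 ⟨h2.symm, (hW e h2).symm.trans h3⟩).symm

theorem gl_split_mapR {h : CsHist V ι Y} (hSp : ∀ b, h.OkB b → C.Split b) :
    ∀ b, (r.mapR h).OkB b → C.Split b := by
  intro b hb
  have e1 : b = fun v => (fun w => b (r.rV.symm w)) (r.rV v) := by funext v; simp
  rw [e1] at hb ⊢
  have hb' := (gl_okB_R r h (fun w => b (r.rV.symm w))).mp hb
  exact gl_split_R r (hSp _ hb')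

theorem gl_split_T {h : CsHist V ι Y} (hSp : ∀ b, h.OkB b → C.Split b) :
    ∀ b, (r.mapH h).OkB b → C.Split b := by
  intro b hb
  have e1 : b = fun v => !((fun w => !(b (r.rV.symm w))) (r.rV v)) := by funext v; simp
  rw [e1] at hb ⊢
  have hb' := (gl_okB_H r h (fun w => !(b (r.rV.symm w)))).mp hb
  exact gl_split_not (gl_split_R r (hSp _ hb'))

theorem gl_leG_of_le {h₁ h₂ : CsHist V ι Y} (hle : h₁.Le C h₂) : h₁.LeG C h₂ := by
  refine ⟨fun y θ hy => ?_, fun y θ hy => ?_, hle.pB_up, hle.pB_dn, hle.E_dn, hle.E_up⟩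
  · rcases hle.pT y with ⟨-, h2⟩ | ⟨θ₁, θ₂, h1, h2, h3⟩
    · rw [h2] at hy; exact absurd hy (by simp)
    · rw [h2] at hy
      obtain rfl := Option.some.inj hy
      exact Or.inr ⟨θ₁, h1, h3⟩
  · rcases hle.pT y with ⟨h1, -⟩ | ⟨θ₁, θ₂, h1, h2, h3⟩
    · rw [h1] at hy; exact absurd hy (by simp)
    · rw [h1] at hy
      obtain rfl := Option.some.inj hy
      exact Or.inr ⟨θ₂, h2, h3⟩

/-! ## X1 -/

/-- what a configuration of non zero weight satisfies. -/
theorem gl_wt_ne {h : CsHist V ι Y} {ω : CsOm V Y} (hw : C.wt h ω ≠ 0) :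
    h.OkB ω.1 ∧ h.OkT ω.2 ∧ (∀ y, ω.2 y = 1 → C.Hom ω.1 y true) ∧ (∀ y, ω.2 y = -1 → C.Hom ω.1 y false) := by
  classical
  unfold CellSys.wt at hw
  split_ifs at hw with h1
  · obtain ⟨W, -, hW⟩ := Finset.exists_ne_zero_of_sum_ne_zero hw
    split_ifs at hW with h2
    · have h3 : ∀ y, C.kf ω.1 y (ω.2 y) ≠ 0 := fun y hy => by
        apply hW
        unfold CellSys.jw
        refine Finset.prod_eq_zero (Finset.mem_univ y) ?_
        unfold CellSys.cw
        rw [hy, zero_mul]
      refine ⟨h1.1, h1.2, fun y hy => ?_, fun y hy => ?_⟩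
      · have := h3 y; rw [hy] at this; exact cs_kf_one_ne C _ _ this
      · have := h3 y; rw [hy] at this; exact cs_kf_neg_ne C _ _ this
    · exact absurd rfl hW
  · exact absurd rfl hw

/-- **X1, THE SYMMETRY LEMMA** (reflection + flip).  The transported and flipped history lies below `h`; `E` is increasing; on the
support of the law one of `E ω`, `E (T ω)` holds.  Then `E` has probability at least `1/2`. -/
theorem gl_sym (hC : C.Ok) (h : CsHist V ι Y) (hF : h.Full C) (hSp : ∀ b, h.OkB b → C.Split b)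
    (hZ : 0 < C.Zh h) (hle : (r.mapH h).LeG C h) (E : CsOm V Y → Prop) [DecidablePred E]
    (hE : ∀ ω ω', ω ≤ ω' → E ω → E ω') (hd : ∀ ω, C.wt h ω ≠ 0 → E ω ∨ E (r.T ω)) :
    1 / 2 ≤ C.Ex h (fun ω => if E ω then 1 else 0) := by
  set F : CsOm V Y → ℝ := fun ω => if E ω then 1 else 0 with hFd
  have hmono : Monotone F := by
    intro ω ω' hω
    simp only [hFd]
    by_cases h1 : E ω
    · rw [if_pos h1, if_pos (hE _ _ hω h1)]
    · rw [if_neg h1]; split_ifs <;> norm_num
  have h1 := cs_order_gen C hC hle (gl_full_T r hF) hF (gl_split_T r hSp) hSp hmono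
  rw [gl_sum_T, gl_Zh_T, mul_comm] at h1
  have h2 : ∑ ω, C.wt h ω * F (r.T ω) ≤ ∑ ω, C.wt h ω * F ω := le_of_mul_le_mul_left h1 hZ
  have h3 : C.Zh h ≤ ∑ ω, C.wt h ω * F ω + ∑ ω, C.wt h ω * F (r.T ω) := by
    unfold CellSys.Zh
    rw [← Finset.sum_add_distrib]
    refine Finset.sum_le_sum fun ω _ => ?_
    have hw := cs_wt_nonneg C hC h ω
    by_cases h0 : C.wt h ω = 0
    · rw [h0]; simp
    · have a1 : (0 : ℝ) ≤ F ω := by simp only [hFd]; split_ifs <;> norm_num
      have a2 : (0 : ℝ) ≤ F (r.T ω) := by simp only [hFd]; split_ifs <;> norm_num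
      have a3 : (1 : ℝ) ≤ F ω + F (r.T ω) := by
        rcases hd ω h0 with h4 | h4
        · have : F ω = 1 := by simp only [hFd]; rw [if_pos h4]
          linarith
        · have : F (r.T ω) = 1 := by simp only [hFd]; rw [if_pos h4]
          linarith
      nlinarith
  unfold CellSys.Ex
  rw [le_div_iff₀ hZ]
  linarith

/-- X1 with the order `CsHist.Le`. -/
theorem gl_sym_le (hC : C.Ok) (h : CsHist V ι Y) (hF : h.Full C) (hSp : ∀ b, h.OkB b → C.Split b)
    (hZ : 0 < C.Zh h) (hle : (r.mapH h).Le C h) (E : CsOm V Y → Prop) [DecidablePred E]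
    (hE : ∀ ω ω', ω ≤ ω' → E ω → E ω') (hd : ∀ ω, C.wt h ω ≠ 0 → E ω ∨ E (r.T ω)) :
    1 / 2 ≤ C.Ex h (fun ω => if E ω then 1 else 0) :=
  gl_sym r hC h hF hSp hZ (gl_leG_of_le hle) E hE hd

end

section swap
variable {V ι Y : Type*} [Fintype V] [DecidableEq V] [Fintype ι] [DecidableEq ι] [Fintype Y]
  [DecidableEq Y]

/-! ## the two-status cell table -/

namespace CellSys
variable (C : CellSys V ι Y)

open Classical in
/-- indicator of "`θ ≠ 0` is the sign of the spin `σ`, which is constant on the cell `y`". -/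
noncomputable def glIo (σ : V → Bool) (y : Y) (θ : SignType) : ℝ :=
  if θ = 1 then (if C.Hom σ y true then 1 else 0)
  else if θ = -1 then (if C.Hom σ y false then 1 else 0) else 0

/-- **the two-status cell table** (one uniform variable per cell, in discrete form): `θ` = status for the first colour, `θ'` = status
for the second colour.  Both spins constant: (open, open) `2q - 1`, (open, closed) and (closed, open) `1 - q`; second spin not constant:
(open, closed) `q`; first spin not constant: (closed, open) `q`.  Never (closed, closed). -/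
noncomputable def glCw2 (B W : V → Bool) (y : Y) (θ θ' : SignType) : ℝ :=
  if θ = 0 then (if θ' = 0 then 0 else C.kf B y 0 * C.glIo W y θ')
  else (if θ' = 0 then C.glIo B y θ * C.kf W y 0 else (2 * C.q y - 1) * (C.glIo B y θ * C.glIo W y θ'))

/-- joint weight of both spins and both statuses. -/
noncomputable def glJw2 (B W : V → Bool) (τ τ' : Y → SignType) : ℝ := ∏ y, C.glCw2 B W y (τ y) (τ' y)

end CellSys

variable (C : CellSys V ι Y)

theorem gl_io_zero (σ : V → Bool) (y : Y) : C.glIo σ y 0 = 0 := by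
  unfold CellSys.glIo
  rw [if_neg (by decide), if_neg (by decide)]

open Classical in
theorem gl_io_pos (σ : V → Bool) (y : Y) : C.glIo σ y 1 = if C.Hom σ y true then 1 else 0 := by
  unfold CellSys.glIo
  rw [if_pos rfl]

open Classical in
theorem gl_io_neg (σ : V → Bool) (y : Y) : C.glIo σ y (-1) = if C.Hom σ y false then 1 else 0 := by
  unfold CellSys.glIo
  rw [if_neg (by decide), if_pos rfl]

theorem gl_io_nonneg (σ : V → Bool) (y : Y) (θ : SignType) : 0 ≤ C.glIo σ y θ := by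
  unfold CellSys.glIo
  split_ifs <;> norm_num

open Classical in
theorem gl_io_sum (hC : C.Ok) (σ : V → Bool) {y : Y} (hne : ∃ e, C.cell e = y) :
    C.glIo σ y 1 + C.glIo σ y (-1) = if C.Cst σ y then 1 else 0 := by
  rw [gl_io_pos, gl_io_neg]
  by_cases h1 : C.Hom σ y true
  · rw [if_pos h1, if_neg (cs_hom_excl C hne h1), if_pos (cs_hom_cst C h1), add_zero]
  · rw [if_neg h1, zero_add]
    by_cases h2 : C.Hom σ y false
    · rw [if_pos h2, if_pos (cs_hom_cst C h2)]
    · rw [if_neg h2, if_neg]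
      intro h3
      rcases hC.conn σ y h3 with h4 | h4
      · exact h1 h4
      · exact h2 h4

theorem gl_io_q (σ : V → Bool) (y : Y) {θ : SignType} (hθ : θ ≠ 0) : C.glIo σ y θ * C.q y = C.kf σ y θ := by
  rcases cs_sign_cases θ with rfl | rfl | rfl
  · exact absurd rfl hθ
  · rw [gl_io_neg, cs_kf_neg]; split_ifs <;> simp
  · rw [gl_io_pos, cs_kf_pos]; split_ifs <;> simp

theorem gl_cw2_symm (B W : V → Bool) (y : Y) (θ θ' : SignType) :
    C.glCw2 B W y θ θ' = C.glCw2 W B y θ' θ := by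
  unfold CellSys.glCw2
  split_ifs <;> ring

theorem gl_cw2_00 (B W : V → Bool) (y : Y) : C.glCw2 B W y 0 0 = 0 := by
  unfold CellSys.glCw2
  rw [if_pos rfl, if_pos rfl]

theorem gl_cw2_0x (B W : V → Bool) (y : Y) {θ' : SignType} (h : θ' ≠ 0) :
    C.glCw2 B W y 0 θ' = C.kf B y 0 * C.glIo W y θ' := by
  unfold CellSys.glCw2
  rw [if_pos rfl, if_neg h]

theorem gl_cw2_x0 (B W : V → Bool) (y : Y) {θ : SignType} (h : θ ≠ 0) :
    C.glCw2 B W y θ 0 = C.glIo B y θ * C.kf W y 0 := by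
  unfold CellSys.glCw2
  rw [if_neg h, if_pos rfl]

theorem gl_cw2_xx (B W : V → Bool) (y : Y) {θ θ' : SignType} (h : θ ≠ 0) (h' : θ' ≠ 0) :
    C.glCw2 B W y θ θ' = (2 * C.q y - 1) * (C.glIo B y θ * C.glIo W y θ') := by
  unfold CellSys.glCw2
  rw [if_neg h, if_neg h']

theorem gl_cw2_fst (hC : C.Ok) (B W : V → Bool) {y : Y} (hne : ∃ e, C.cell e = y) (θ : SignType) :
    ∑ θ', C.glCw2 B W y θ θ' = C.cw B W y θ := by
  classical
  rw [cs_sum_sign]
  unfold CellSys.cw
  have hs := gl_io_sum C hC W hne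
  have n1 : (1 : SignType) ≠ 0 := by decide
  have n2 : (-1 : SignType) ≠ 0 := by decide
  by_cases hθ : θ = 0
  · subst hθ
    rw [gl_cw2_00, gl_cw2_0x C B W y n1, gl_cw2_0x C B W y n2, zero_add, ← mul_add, add_comm, hs]
    simp
  · rw [gl_cw2_x0 C B W y hθ, gl_cw2_xx C B W y hθ n1, gl_cw2_xx C B W y hθ n2, ← gl_io_q C B y hθ, cs_kf_zero]
    have e1 : (if θ = 0 → C.Cst W y then (1 : ℝ) else 0) = 1 := if_pos (fun h => absurd h hθ)
    rw [e1]
    have e2 : C.glIo B y θ * (if C.Cst W y then 1 - C.q y else C.q y)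
        + (2 * C.q y - 1) * (C.glIo B y θ * C.glIo W y (-1)) + (2 * C.q y - 1) * (C.glIo B y θ * C.glIo W y 1)
        = C.glIo B y θ * ((if C.Cst W y then 1 - C.q y else C.q y)
          + (2 * C.q y - 1) * (C.glIo W y 1 + C.glIo W y (-1))) := by ring
    rw [e2, hs]
    split_ifs <;> ring

theorem gl_cw2_nonneg (hC : C.Ok) (B W : V → Bool) {y : Y} (hq : 1 / 2 ≤ C.q y) (θ θ' : SignType) :
    0 ≤ C.glCw2 B W y θ θ' := by
  unfold CellSys.glCw2
  have h1 := gl_io_nonneg C B y θ
  have h2 := gl_io_nonneg C W y θ'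
  have h3 := cs_kf_nonneg C hC B y 0
  have h4 := cs_kf_nonneg C hC W y 0
  split_ifs
  · exact le_rfl
  · positivity
  · positivity
  · exact mul_nonneg (by linarith) (by positivity)

theorem gl_io_ne {σ : V → Bool} {y : Y} {θ : SignType} (h : C.glIo σ y θ ≠ 0) :
    (θ = 1 → C.Hom σ y true) ∧ (θ = -1 → C.Hom σ y false) := by
  classical
  rcases cs_sign_cases θ with rfl | rfl | rfl
  · exact ⟨fun h => absurd h (by decide), fun h => absurd h (by decide)⟩
  · rw [gl_io_neg] at h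
    refine ⟨fun h => absurd h (by decide), fun _ => ?_⟩
    by_contra h'
    rw [if_neg h'] at h
    exact h rfl
  · rw [gl_io_pos] at h
    refine ⟨fun _ => ?_, fun h => absurd h (by decide)⟩
    by_contra h'
    rw [if_neg h'] at h
    exact h rfl

theorem gl_cw2_ne {B W : V → Bool} {y : Y} {θ θ' : SignType} (h : C.glCw2 B W y θ θ' ≠ 0) :
    (θ ≠ 0 ∨ θ' ≠ 0) ∧ (θ = 1 → C.Hom B y true) ∧ (θ = -1 → C.Hom B y false) ∧
      (θ' = 1 → C.Hom W y true) ∧ (θ' = -1 → C.Hom W y false) := by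
  unfold CellSys.glCw2 at h
  split_ifs at h with h1 h2 h2
  · exact absurd rfl h
  · subst h1
    have := gl_io_ne C (right_ne_zero_of_mul h)
    exact ⟨Or.inr h2, fun h => absurd h (by decide), fun h => absurd h (by decide), this.1, this.2⟩
  · subst h2
    have := gl_io_ne C (left_ne_zero_of_mul h)
    exact ⟨Or.inl h1, this.1, this.2, fun h => absurd h (by decide), fun h => absurd h (by decide)⟩
  · have h3 := right_ne_zero_of_mul h
    have a := gl_io_ne C (left_ne_zero_of_mul h3)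
    have b := gl_io_ne C (right_ne_zero_of_mul h3)
    exact ⟨Or.inl h1, a.1, a.2, b.1, b.2⟩

theorem gl_jw2_symm (B W : V → Bool) (τ τ' : Y → SignType) : C.glJw2 B W τ τ' = C.glJw2 W B τ' τ := by
  unfold CellSys.glJw2
  exact Finset.prod_congr rfl fun y _ => gl_cw2_symm C B W y _ _

/-- first marginal of the two-status law. -/
theorem gl_jw2_fst (hC : C.Ok) (hne : ∀ y, ∃ e, C.cell e = y) (B W : V → Bool) (τ : Y → SignType) :
    ∑ τ', C.glJw2 B W τ τ' = C.jw B W τ := by
  unfold CellSys.glJw2 CellSys.jw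
  have h2 := Finset.prod_univ_sum (fun _ : Y => (univ : Finset SignType))
    (fun y θ' => C.glCw2 B W y (τ y) θ')
  rw [Fintype.piFinset_univ] at h2
  rw [← h2]
  exact Finset.prod_congr rfl fun y _ => gl_cw2_fst C hC B W (hne y) _

/-- second marginal of the two-status law. -/
theorem gl_jw2_snd (hC : C.Ok) (hne : ∀ y, ∃ e, C.cell e = y) (B W : V → Bool) (τ' : Y → SignType) :
    ∑ τ, C.glJw2 B W τ τ' = C.jw W B τ' := by
  simp_rw [gl_jw2_symm C B W]
  exact gl_jw2_fst C hC hne W B τ'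

theorem gl_jw2_nonneg (hC : C.Ok) (hq : ∀ y, 1 / 2 ≤ C.q y) (B W : V → Bool) (τ τ' : Y → SignType) :
    0 ≤ C.glJw2 B W τ τ' :=
  Finset.prod_nonneg fun y _ => gl_cw2_nonneg C hC B W (hq y) _ _

/-- the support of the two-status law: no cell is closed for both colours; an open cell carries the sign of its spin. -/
structure GlSupp (C : CellSys V ι Y) (B W : V → Bool) (τ τ' : Y → SignType) : Prop where
  nc : ∀ y, τ y ≠ 0 ∨ τ' y ≠ 0
  bp : ∀ y, τ y = 1 → C.Hom B y true
  bm : ∀ y, τ y = -1 → C.Hom B y false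
  wp : ∀ y, τ' y = 1 → C.Hom W y true
  wm : ∀ y, τ' y = -1 → C.Hom W y false

theorem gl_jw2_ne {B W : V → Bool} {τ τ' : Y → SignType} (h : C.glJw2 B W τ τ' ≠ 0) : GlSupp C B W τ τ' := by
  have h1 : ∀ y, C.glCw2 B W y (τ y) (τ' y) ≠ 0 := fun y hy =>
    h (Finset.prod_eq_zero (Finset.mem_univ y) hy)
  exact ⟨fun y => (gl_cw2_ne C (h1 y)).1, fun y => (gl_cw2_ne C (h1 y)).2.1, fun y => (gl_cw2_ne C (h1 y)).2.2.1,
    fun y => (gl_cw2_ne C (h1 y)).2.2.2.1, fun y => (gl_cw2_ne C (h1 y)).2.2.2.2⟩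

/-! ## the law `B = +`, `W = +` on `L` -/

open Classical in
/-- indicator of "`σ = +` on `L`". -/
noncomputable def glI (L : Finset V) (σ : V → Bool) : ℝ := if ∀ v ∈ L, σ v = true then 1 else 0

/-- unnormalised expectation of `F (B, τ)` under the law with `B = +` and `W = +` on `L`. -/
noncomputable def glA (C : CellSys V ι Y) (L : Finset V) (F : CsOm V Y → ℝ) : ℝ :=
  ∑ B : V → Bool, ∑ W : V → Bool, ∑ τ : Y → SignType, glI L B * glI L W * (C.jw B W τ * F (B, τ))

theorem gl_I_nonneg (L : Finset V) (σ : V → Bool) : 0 ≤ glI L σ := by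
  unfold glI; split_ifs <;> norm_num

theorem gl_cw_flipW (B W : V → Bool) (y : Y) (θ : SignType) : C.cw B (fun v => !(W v)) y θ = C.cw B W y θ := by
  unfold CellSys.cw
  rw [gl_cst_not]

theorem gl_jw_flipW (B W : V → Bool) (τ : Y → SignType) : C.jw B (fun v => !(W v)) τ = C.jw B W τ := by
  unfold CellSys.jw
  simp only [gl_cw_flipW]

/-- reindexing of a sum over spins by the global flip. -/
theorem gl_sum_flip (f : (V → Bool) → ℝ) : ∑ W : V → Bool, f (fun v => !(W v)) = ∑ W, f W :=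
  Equiv.sum_comp (Equiv.arrowCongr (Equiv.refl V) Equiv.boolNot) f

open Classical in
/-- "constant on `L`" costs a factor `2` (or `1`) with respect to "plus on `L`" for a flip invariant weight. -/
theorem gl_const_sum (L : Finset V) (g : (V → Bool) → ℝ) (hg : ∀ W, g (fun v => !(W v)) = g W) :
    ∑ W : V → Bool, (if ∀ u ∈ L, ∀ v ∈ L, W u = W v then g W else 0)
      = (if L.Nonempty then 2 else 1) * ∑ W, glI L W * g W := by
  by_cases hL : L.Nonempty
  · rw [if_pos hL, two_mul]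
    nth_rewrite 2 [← gl_sum_flip]
    rw [← Finset.sum_add_distrib]
    refine Finset.sum_congr rfl fun W _ => ?_
    rw [hg]
    obtain ⟨v0, hv0⟩ := hL
    unfold glI
    by_cases h1 : ∀ v ∈ L, W v = true
    · have h2 : ¬ ∀ v ∈ L, (!(W v)) = true := fun h => by
        have := h v0 hv0; rw [h1 v0 hv0] at this; exact absurd this (by decide)
      have h3 : ∀ u ∈ L, ∀ v ∈ L, W u = W v := fun u hu v hv => by rw [h1 u hu, h1 v hv]
      rw [if_pos h1, if_neg h2, if_pos h3]; ring
    · by_cases h2 : ∀ v ∈ L, (!(W v)) = true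
      · have h3 : ∀ u ∈ L, ∀ v ∈ L, W u = W v := fun u hu v hv => by
          have a := h2 u hu; have b := h2 v hv
          simp only [Bool.not_eq_true'] at a b
          rw [a, b]
        rw [if_neg h1, if_pos h2, if_pos h3]; ring
      · have h3 : ¬ ∀ u ∈ L, ∀ v ∈ L, W u = W v := fun h => by
          cases hw : W v0
          · exact h2 fun v hv => by rw [h v hv v0 hv0, hw]; rfl
          · exact h1 fun v hv => by rw [h v hv v0 hv0, hw]
        rw [if_neg h1, if_neg h2, if_neg h3]; ring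
  · rw [if_neg hL, one_mul]
    rw [Finset.not_nonempty_iff_eq_empty] at hL
    subst hL
    refine Finset.sum_congr rfl fun W _ => ?_
    unfold glI
    simp

open Classical in
/-- the history "plus on `L`, second spin constant on `L`" is, up to a constant, the law `glA`. -/
theorem gl_wt_A (L : Finset V) (h : CsHist V ι Y) (hB : ∀ B, h.OkB B ↔ ∀ v ∈ L, B v = true)
    (hT : ∀ y, h.pT y = none) (hW : ∀ W, h.OkW C W ↔ ∀ u ∈ L, ∀ v ∈ L, W u = W v) (F : CsOm V Y → ℝ) :
    ∑ ω, C.wt h ω * F ω = (if L.Nonempty then 2 else 1) * glA C L F := by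
  have hwt : ∀ (B : V → Bool) (τ : Y → SignType),
      C.wt h (B, τ) = glI L B * ((if L.Nonempty then 2 else 1) * ∑ W, glI L W * C.jw B W τ) := by
    intro B τ
    have hOT : h.OkT τ := fun y θ hy => by rw [hT y] at hy; exact absurd hy (by simp)
    rw [← gl_const_sum L (fun W => C.jw B W τ) (fun W => gl_jw_flipW C B W τ)]
    unfold CellSys.wt glI
    simp only [hB, hW, hOT, and_true]
    split_ifs <;> simp
  rw [Fintype.sum_prod_type]
  simp_rw [hwt]
  unfold glA
  rw [Finset.mul_sum]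
  refine Finset.sum_congr rfl fun B _ => ?_
  rw [Finset.sum_comm, Finset.mul_sum]
  refine Finset.sum_congr rfl fun τ _ => ?_
  rw [Finset.mul_sum, Finset.mul_sum, Finset.sum_mul, Finset.mul_sum]
  refine Finset.sum_congr rfl fun W _ => ?_
  ring

variable {C} (r : GlAut C)

theorem gl_sum_stat (f : (Y → SignType) → ℝ) : ∑ τ : Y → SignType, f (fun y => τ (r.rY y)) = ∑ τ, f τ :=
  Equiv.sum_comp (Equiv.arrowCongr r.rY.symm (Equiv.refl SignType)) f

theorem gl_I_R (L : Finset V) (hL : ∀ v, r.rV v ∈ L ↔ v ∈ L) (σ : V → Bool) :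
    glI L (fun v => σ (r.rV v)) = glI L σ := by
  unfold glI
  refine if_congr ⟨fun h v hv => ?_, fun h v hv => h _ ((hL v).2 hv)⟩ rfl rfl
  have := h (r.rV.symm v) ((hL _).1 (by simpa using hv))
  simpa using this

/-- the law `glA` is invariant under the reflection. -/
theorem gl_A_R (L : Finset V) (hL : ∀ v, r.rV v ∈ L ↔ v ∈ L) (F : CsOm V Y → ℝ) :
    glA C L (fun ω => F (r.R ω)) = glA C L F := by
  symm
  unfold glA
  rw [← gl_sum_spin r]
  refine Finset.sum_congr rfl fun B _ => ?_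
  rw [← gl_sum_spin r]
  refine Finset.sum_congr rfl fun W _ => ?_
  rw [← gl_sum_stat r]
  refine Finset.sum_congr rfl fun τ _ => ?_
  rw [gl_I_R r L hL, gl_I_R r L hL, gl_jw_R]
  rfl

/-- **the coupling step**: never both closed. -/
theorem gl_A_half (hC : C.Ok) (hq : ∀ y, 1 / 2 ≤ C.q y) (L : Finset V) (F G : CsOm V Y → ℝ)
    (hd : ∀ (B W : V → Bool) (τ τ' : Y → SignType), (∀ v ∈ L, B v = true) → (∀ v ∈ L, W v = true) →
      GlSupp C B W τ τ' → 1 ≤ F (B, τ) + G (W, τ')) :
    glA C L (fun _ => 1) ≤ glA C L F + glA C L G := by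
  classical
  have hne : ∀ y, ∃ e, C.cell e = y := fun y => by
    rcases hC.ne y with h | h
    · exact h
    · have := hq y; rw [h] at this; norm_num at this
  have e2 : glA C L G = ∑ B : V → Bool, ∑ W : V → Bool, ∑ τ' : Y → SignType,
      glI L B * glI L W * (C.jw W B τ' * G (W, τ')) := by
    unfold glA
    rw [Finset.sum_comm]
    refine Finset.sum_congr rfl fun B _ => Finset.sum_congr rfl fun W _ => Finset.sum_congr rfl fun τ _ => ?_
    ring
  rw [e2]
  unfold glA
  rw [← Finset.sum_add_distrib]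
  refine Finset.sum_le_sum fun B _ => ?_
  rw [← Finset.sum_add_distrib]
  refine Finset.sum_le_sum fun W _ => ?_
  simp_rw [← gl_jw2_fst C hC hne B W, ← gl_jw2_snd C hC hne B W]
  simp_rw [Finset.sum_mul, Finset.mul_sum]
  rw [Finset.sum_comm (f := fun τ' τ => glI L B * glI L W * (C.glJw2 B W τ τ' * G (W, τ')))]
  rw [← Finset.sum_add_distrib]
  refine Finset.sum_le_sum fun τ _ => ?_
  rw [← Finset.sum_add_distrib]
  refine Finset.sum_le_sum fun τ' _ => ?_
  have hj := gl_jw2_nonneg C hC hq B W τ τ'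
  have hi1 := gl_I_nonneg L B
  have hi2 := gl_I_nonneg L W
  rw [← mul_add, ← mul_add]
  by_cases h0 : glI L B * glI L W * C.glJw2 B W τ τ' = 0
  · have : ∀ z : ℝ, glI L B * glI L W * (C.glJw2 B W τ τ' * z) = 0 := fun z => by
      rw [← mul_assoc, h0, zero_mul]
    rw [this, this]
  · have h1 : glI L B ≠ 0 := left_ne_zero_of_mul (left_ne_zero_of_mul h0)
    have h2 : glI L W ≠ 0 := right_ne_zero_of_mul (left_ne_zero_of_mul h0)
    have h3 : C.glJw2 B W τ τ' ≠ 0 := right_ne_zero_of_mul h0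
    have b1 : ∀ v ∈ L, B v = true := by
      by_contra hh; exact h1 (by unfold glI; rw [if_neg hh])
    have b2 : ∀ v ∈ L, W v = true := by
      by_contra hh; exact h2 (by unfold glI; rw [if_neg hh])
    have := hd B W τ τ' b1 b2 (gl_jw2_ne C h3)
    exact mul_le_mul_of_nonneg_left (mul_le_mul_of_nonneg_left this hj) (mul_nonneg hi1 hi2)

/-- the all plus, all open configuration has positive weight. -/
theorem gl_Zh_pos (hC : C.Ok) (hq : ∀ y, 0 < C.q y) (h : CsHist V ι Y) (hB : h.OkB (fun _ => true))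
    (hT : h.OkT (fun _ => 1)) : 0 < C.Zh h := by
  classical
  have h1 : 0 < C.wt h (fun _ => true, fun _ => 1) := by
    unfold CellSys.wt
    rw [if_pos ⟨hB, hT⟩]
    have hW : h.OkW C (fun _ => true) := fun e _ => rfl
    have h2 : 0 < C.jw (fun _ => true) (fun _ => true) (fun _ => 1) := by
      unfold CellSys.jw
      refine Finset.prod_pos fun y _ => ?_
      unfold CellSys.cw
      have a1 : C.Hom (fun _ => true) y true := fun e _ => ⟨rfl, rfl⟩
      have a2 : (1 : SignType) = 0 → C.Cst (fun _ => true) y := fun h => absurd h (by decide)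
      rw [cs_kf_pos, if_pos a1, if_pos a2, mul_one]
      exact hq y
    refine lt_of_lt_of_le h2 ?_
    have := Finset.single_le_sum (f := fun W : V → Bool => if h.OkW C W then
      C.jw (fun _ => true) W (fun _ => 1) else 0) (fun W _ => by
        split_ifs
        · exact cs_jw_nonneg C hC _ _ _
        · exact le_rfl) (Finset.mem_univ (fun _ => true))
    simpa [hW] using this
  exact lt_of_lt_of_le h1 (Finset.single_le_sum (f := fun ω => C.wt h ω) (fun ω _ => cs_wt_nonneg C hC h ω)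
    (Finset.mem_univ _))

/-- **X1', THE SYMMETRY LEMMA, COLOUR SWAP FORM.**  `h` = "first spin plus on `L`, second spin constant on `L`, nothing else"; `L` is
invariant under the automorphism `r`; all parameters are at least `1/2`.  If on the support of the two-status law (with both spins plus
on `L`) one of `E (B, τ)`, `E (r.R (W, τ'))` holds, then `E` has probability at least `1/2`.  No monotonicity, no topology. -/
theorem gl_sym_swap (hC : C.Ok) (hq : ∀ y, 1 / 2 ≤ C.q y) (L : Finset V) (hL : ∀ v, r.rV v ∈ L ↔ v ∈ L)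
    (h : CsHist V ι Y) (hB : ∀ B, h.OkB B ↔ ∀ v ∈ L, B v = true) (hT : ∀ y, h.pT y = none)
    (hW : ∀ W, h.OkW C W ↔ ∀ u ∈ L, ∀ v ∈ L, W u = W v) (E : CsOm V Y → Prop) [DecidablePred E]
    (hd : ∀ (B W : V → Bool) (τ τ' : Y → SignType), (∀ v ∈ L, B v = true) → (∀ v ∈ L, W v = true) →
      GlSupp C B W τ τ' → E (B, τ) ∨ E (r.R (W, τ'))) :
    1 / 2 ≤ C.Ex h (fun ω => if E ω then 1 else 0) := by
  set F : CsOm V Y → ℝ := fun ω => if E ω then 1 else 0 with hFd
  have hF0 : ∀ ω, 0 ≤ F ω := fun ω => by simp only [hFd]; split_ifs <;> norm_num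
  have hZ : 0 < C.Zh h := gl_Zh_pos hC (fun y => lt_of_lt_of_le (by norm_num) (hq y)) h
    ((hB _).2 fun _ _ => rfl) (fun y θ hy => by rw [hT y] at hy; exact absurd hy (by simp))
  have h1 := gl_A_half hC hq L F (fun ω => F (r.R ω)) (fun B W τ τ' b1 b2 hs => by
    rcases hd B W τ τ' b1 b2 hs with h4 | h4
    · have : F (B, τ) = 1 := by simp only [hFd]; rw [if_pos h4]
      have := hF0 (r.R (W, τ'))
      linarith
    · have : F (r.R (W, τ')) = 1 := by simp only [hFd]; rw [if_pos h4]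
      have := hF0 (B, τ)
      linarith)
  rw [gl_A_R r L hL] at h1
  have h2 := gl_wt_A C L h hB hT hW F
  have h3 := gl_wt_A C L h hB hT hW (fun _ => 1)
  have hc : (0 : ℝ) < (if L.Nonempty then 2 else 1) := by split_ifs <;> norm_num
  unfold CellSys.Ex
  rw [le_div_iff₀ hZ, h2]
  have h4 : C.Zh h = (if L.Nonempty then 2 else 1) * glA C L (fun _ => 1) := by
    rw [← h3]; unfold CellSys.Zh; simp
  rw [h4]
  nlinarith

/-! ## path corollaries (Hex enters as a hypothesis) -/

/-- a path of plus SITES joins `I` to `III`. -/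
def GlSitePath (G : SimpleGraph V) (I III : Set V) (ω : CsOm V Y) : Prop :=
  ∃ u ∈ I, ∃ v ∈ III, ω.1 u = true ∧ TscR G {w | ω.1 w = true} u v

/-- a path of open-plus CELLS joins `I` to `III`. -/
def GlCellPath (G : SimpleGraph Y) (I III : Set Y) (ω : CsOm V Y) : Prop :=
  ∃ y ∈ I, ∃ y' ∈ III, ω.2 y = 1 ∧ TscR G {z | ω.2 z = 1} y y'

theorem gl_sitePath_mono (G : SimpleGraph V) (I III : Set V) {ω ω' : CsOm V Y} (hω : ω ≤ ω')
    (h : GlSitePath G I III ω) : GlSitePath G I III ω' := by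
  obtain ⟨u, hu, v, hv, h1, h2⟩ := h
  have hm : ∀ w, ω.1 w = true → ω'.1 w = true := fun w hw => cs_b_le_t (hω.1 w) hw
  exact ⟨u, hu, v, hv, hm u h1, tsc_R_mono (fun w hw => hm w hw) h2⟩

theorem gl_cellPath_mono (G : SimpleGraph Y) (I III : Set Y) {ω ω' : CsOm V Y} (hω : ω ≤ ω')
    (h : GlCellPath G I III ω) : GlCellPath G I III ω' := by
  obtain ⟨u, hu, v, hv, h1, h2⟩ := h
  have hm : ∀ w, ω.2 w = 1 → ω'.2 w = 1 := fun w hw => cs_s_top (by rw [← hw]; exact hω.2 w)
  exact ⟨u, hu, v, hv, hm u h1, tsc_R_mono (fun w hw => hm w hw) h2⟩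

/-- **X1, path form** (Lemma A): `G` a graph on the sites preserved by `r`; `II = r I`, `IV = r III`; Hex: for every first spin
satisfying the pins there is a plus path from `I` to `III` or a minus path from `II` to `IV`. -/
theorem gl_sym_path (hC : C.Ok) (h : CsHist V ι Y) (hF : h.Full C) (hSp : ∀ b, h.OkB b → C.Split b)
    (hZ : 0 < C.Zh h) (hle : (r.mapH h).LeG C h) (G : SimpleGraph V)
    (hG : ∀ u v, G.Adj u v → G.Adj (r.rV.symm u) (r.rV.symm v)) (I II III IV : Set V)
    (hII : ∀ u ∈ II, r.rV.symm u ∈ I) (hIV : ∀ u ∈ IV, r.rV.symm u ∈ III)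
    (hHex : ∀ B : V → Bool, h.OkB B →
      (∃ u ∈ I, ∃ v ∈ III, B u = true ∧ TscR G {w | B w = true} u v) ∨
      (∃ u ∈ II, ∃ v ∈ IV, B u = false ∧ TscR G {w | B w = false} u v))
    [DecidablePred (GlSitePath (Y := Y) G I III)] :
    1 / 2 ≤ C.Ex h (fun ω => if GlSitePath G I III ω then 1 else 0) := by
  refine gl_sym r hC h hF hSp hZ hle (GlSitePath G I III) (fun ω ω' hω => gl_sitePath_mono G I III hω) ?_
  · intro ω hω
    rcases hHex ω.1 (gl_wt_ne hω).1 with h1 | ⟨u, hu, v, hv, h1, h2⟩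
    · exact Or.inl h1
    · refine Or.inr ⟨r.rV.symm u, hII u hu, r.rV.symm v, hIV v hv, ?_, ?_⟩
      · simp [GlAut.T, h1]
      · refine tsc_R_mono ?_ (tsc_R_map (G' := G) r.rV.symm hG h2)
        rintro _ ⟨z, hz, rfl⟩
        have hz' : ω.1 z = false := hz
        simp [GlAut.T, hz']

theorem gl_site_R {y : Y} {v : V} (h : C.Site (r.rY.symm y) v) : C.Site y (r.rV v) := by
  obtain ⟨e, he, hv⟩ := h
  refine ⟨r.rE e, by rw [r.cell, he, Equiv.apply_symm_apply], ?_⟩
  rcases r.ends e with ⟨a, b⟩ | ⟨a, b⟩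
  · rcases hv with hv | hv
    · exact Or.inl (by rw [a, hv])
    · exact Or.inr (by rw [b, hv])
  · rcases hv with hv | hv
    · exact Or.inr (by rw [b, hv])
    · exact Or.inl (by rw [a, hv])

theorem gl_hom_site {σ : V → Bool} {y : Y} {β : Bool} (h : C.Hom σ y β) {v : V} (hv : C.Site y v) : σ v = β := by
  obtain ⟨e, he, hv⟩ := hv
  rcases hv with rfl | rfl
  · exact (h e he).1
  · exact (h e he).2

/-- an open cell with a plus site is open-plus. -/
theorem gl_open_plus {σ : V → Bool} {τ : Y → SignType} (hm : ∀ y, τ y = -1 → C.Hom σ y false) {y : Y}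
    (ho : τ y ≠ 0) {v : V} (hv : C.Site y v) (hσ : σ v = true) : τ y = 1 := by
  rcases cs_sign_cases (τ y) with h | h | h
  · exact absurd h ho
  · have := gl_hom_site (hm y h) hv
    rw [hσ] at this
    exact absurd this (by decide)
  · exact h

/-- **propagation of the sign** along a path of open cells. -/
theorem gl_open_path {σ : V → Bool} {τ : Y → SignType} (hp : ∀ y, τ y = 1 → C.Hom σ y true)
    (hm : ∀ y, τ y = -1 → C.Hom σ y false) (G : SimpleGraph Y)
    (hGs : ∀ y y', G.Adj y y' → ∃ v, C.Site y v ∧ C.Site y' v) {y y' : Y} (h1 : τ y = 1)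
    (hpath : TscR G {z | τ z ≠ 0} y y') : TscR G {z | τ z = 1} y y' := by
  have key : TscR G {z | τ z = 1} y y' ∧ τ y' = 1 := by
    induction hpath with
    | refl => exact ⟨Relation.ReflTransGen.refl, h1⟩
    | tail _ hs ih =>
      obtain ⟨hadj, -, hc⟩ := hs
      obtain ⟨v, hv1, hv2⟩ := hGs _ _ hadj
      have h2 := gl_open_plus hm hc hv2 (gl_hom_site (hp _ ih.2) hv1)
      exact ⟨ih.1.tail ⟨hadj, ih.2, h2⟩, h2⟩
  exact key.1

/-- **X1', path form** (Lemma B, step 2; display annulus:symmetric-short): `G` a graph on the cells, adjacent cells share a site, `G` is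
preserved by `r`; `II = r I`, `IV = r III`; the cells of `I` have a site in `L`; Hex on `G`.  Then with probability at least `1/2` a
path of open-plus cells joins `I` to `III`. -/
theorem gl_sym_swap_path (hC : C.Ok) (hq : ∀ y, 1 / 2 ≤ C.q y) (L : Finset V) (hL : ∀ v, r.rV v ∈ L ↔ v ∈ L)
    (h : CsHist V ι Y) (hB : ∀ B, h.OkB B ↔ ∀ v ∈ L, B v = true) (hT : ∀ y, h.pT y = none)
    (hW : ∀ W, h.OkW C W ↔ ∀ u ∈ L, ∀ v ∈ L, W u = W v) (G : SimpleGraph Y)
    (hGs : ∀ y y', G.Adj y y' → ∃ v, C.Site y v ∧ C.Site y' v)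
    (hG : ∀ y y', G.Adj y y' → G.Adj (r.rY.symm y) (r.rY.symm y')) (I II III IV : Set Y)
    (hI : ∀ y ∈ I, ∃ v ∈ L, C.Site y v) (hII : ∀ y ∈ II, r.rY.symm y ∈ I) (hIV : ∀ y ∈ IV, r.rY.symm y ∈ III)
    (hHex : ∀ P : Set Y, (∃ y ∈ I, ∃ y' ∈ III, y ∈ P ∧ TscR G P y y') ∨
      (∃ y ∈ II, ∃ y' ∈ IV, y ∉ P ∧ TscR G Pᶜ y y'))
    [DecidablePred (GlCellPath (V := V) G I III)] :
    1 / 2 ≤ C.Ex h (fun ω => if GlCellPath G I III ω then 1 else 0) := by
  refine gl_sym_swap r hC hq L hL h hB hT hW (GlCellPath G I III) ?_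
  intro B W τ τ' b1 b2 hs
  rcases hHex {z | τ z ≠ 0} with ⟨y, hy, y', hy', h1, h2⟩ | ⟨y, hy, y', hy', h1, h2⟩
  · obtain ⟨v, hvL, hv⟩ := hI y hy
    have h3 : τ y = 1 := gl_open_plus hs.bm h1 hv (b1 v hvL)
    exact Or.inl ⟨y, hy, y', hy', h3, gl_open_path hs.bp hs.bm G hGs h3 h2⟩
  · obtain ⟨v, hvL, hv⟩ := hI _ (hII y hy)
    have hv' : C.Site y (r.rV v) := gl_site_R r hv
    have hsub : ({z | τ z ≠ 0} : Set Y)ᶜ ⊆ {z | τ' z ≠ 0} := fun z hz => by
      have hz' : τ z = 0 := by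
        by_contra hh; exact hz hh
      rcases hs.nc z with h4 | h4
      · exact absurd hz' h4
      · exact h4
    have h3 : τ' y = 1 := gl_open_plus hs.wm (hsub h1) hv' (b2 _ ((hL v).2 hvL))
    have h4 := gl_open_path hs.wp hs.wm G hGs h3 (tsc_R_mono hsub h2)
    refine Or.inr ⟨r.rY.symm y, hII y hy, r.rY.symm y', hIV y' hy', ?_, ?_⟩
    · simp [GlAut.R, h3]
    · refine tsc_R_mono ?_ (tsc_R_map (G' := G) r.rY.symm hG h4)
      rintro _ ⟨z, hz, rfl⟩
      have hz' : τ' z = 1 := hz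
      simp [GlAut.R, hz']

end swap

/-- the equation lemmas of the definitions of this file are generated HERE. -/
theorem gl_sym_eqns_cite : True := by
  have := @GlAut.R.eq_1.{0, 0, 0}
  have := @GlAut.T.eq_1.{0, 0, 0}
  have := @GlAut.mapR.eq_1.{0, 0, 0}
  have := @GlAut.mapH.eq_1.{0, 0, 0}
  have := @GlAut.Re.eq_1.{0, 0, 0}
  have := @GlAut.Te.eq_1.{0, 0, 0}
  have := @CellSys.glIo.eq_1.{0, 0, 0}
  have := @CellSys.glCw2.eq_1.{0, 0, 0}
  have := @CellSys.glJw2.eq_1.{0, 0, 0}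
  have := @glI.eq_1.{0}
  have := @glA.eq_1.{0, 0, 0}
  have := @GlSitePath.eq_1.{0, 0}
  have := @GlCellPath.eq_1.{0, 0}
  trivial

end Claimed.Agent.R291
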