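import Claimed.Agent.R291.Glue.AdaptP
import Claimed.Agent.R291.Pl.StripBar
import Claimed.Agent.R291.Ann.RswDict
import Claimed.Agent.R291.Ann.RswPl
import Claimed.Agent.R291.Glue.Flip

/-!
# Row 291 (S0539), unit ANN, block A3-II (L), Glue/TubeRef : THE TUBE, CLASS TRUE (fit check of the referee)      (owner helper149; prefix `gtr_`)

TEX[annulus:RSW] TEX[annulus:gluing]      `gtr_est` : `HxrPair` + narrow box + `GlStrip` + `PclStrip` ⟹ `RsgEst x D` for `D.T = true`, by `gaq_three_set` (31) and `hxr_tube_one` (105) at three heights.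
`gtr_rec` : the same at the record (`rplD true ..`), `GlStrip` by 182 (`rdi_rsg_strip`), `PclStrip` by 173 (`psb_rsg_strip`).
-/

set_option autoImplicit false
set_option linter.unusedSectionVars false
set_option linter.unusedVariables false
set_option linter.unusedSimpArgs false

namespace Claimed.Agent.R291

open Relation Claims Claims.C0467

/-- the site component of a mirror at 30 degrees lies in the rhombus -/
theorem gtr_row {Q Z : Finset TV} {xm xM t h : ℤ} (hw : 0 ≤ xM - xm) (box : ∀ z ∈ (↑Q : Set TV), xm ≤ hxsX z ∧ hxsX z ≤ xM + 3)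
    (ht : xm + xM - 1 ≤ 2 * (2 * t + 3 * h) ∧ 2 * (2 * t + 3 * h) ≤ xm + xM + 3) {z : TV} (hz : z ∈ gapK (glSwap t) Q Z) :
    h - (xM - xm) - 2 ≤ z.2 ∧ z.2 ≤ h + (xM - xm) + 2 := by
  obtain ⟨h1, h2⟩ := gap_mem_I.1 (gap_K_subI _ _ _ hz)
  have b1 := box z h1
  have b2 := box _ h2
  rw [gl_swap_f] at b2
  simp only [hxsX] at b1 b2
  omega

/-- two up-cells which share a site are equal or adjacent -/
theorem gtr_share {y z s : TV} (h1 : s ∈ cellV y) (h2 : s ∈ cellV z) : z = y ∨ triAdj z y := by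
  simp only [cellV, Finset.mem_insert, Finset.mem_singleton, Prod.ext_iff, Prod.fst_add, Prod.snd_add] at h1 h2
  rw [tsc_adj_iff, Prod.ext_iff]
  omega

/-- **TUBE, class true**: the strip estimate from the pair, the narrow box and the two strip structures -/
theorem gtr_est {x : ℝ} (hx : 0 < x) (hx1 : x ≤ 1) (hh : 1 / 2 ≤ x ^ 2) (y0 y1 xm xM : ℤ) (a c : Set TV) {pa qa pc qc : TV}
    (H : HxrPair y0 y1 xm xM a c pa qa pc qc) (hW : 12 * (xM - xm) + 64 ≤ y1 - y0)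
    (hS : GlStrip (rsgS x ⟨true, y0, y1, xm, xM, a, c⟩) (rsgCb ⟨true, y0, y1, xm, xM, a, c⟩) (rsgLa ⟨true, y0, y1, xm, xM, a, c⟩)
      (rsgLc ⟨true, y0, y1, xm, xM, a, c⟩) (rsgLd ⟨true, y0, y1, xm, xM, a, c⟩) (rsgLb ⟨true, y0, y1, xm, xM, a, c⟩))
    (hP : PclStrip y0 (y1 + 1) xm (xM + 3) (↑(rsgQ ⟨true, y0, y1, xm, xM, a, c⟩)) (↑(rsgLa ⟨true, y0, y1, xm, xM, a, c⟩))
      (↑(rsgLc ⟨true, y0, y1, xm, xM, a, c⟩))
      (↑(rsgLd ⟨true, y0, y1, xm, xM, a, c⟩ \ (rsgLa ⟨true, y0, y1, xm, xM, a, c⟩ ∪ rsgLc ⟨true, y0, y1, xm, xM, a, c⟩)))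
      (↑(rsgLb ⟨true, y0, y1, xm, xM, a, c⟩ \ (rsgLa ⟨true, y0, y1, xm, xM, a, c⟩ ∪ rsgLc ⟨true, y0, y1, xm, xM, a, c⟩)))) :
    RsgEst x ⟨true, y0, y1, xm, xM, a, c⟩ := by
  classical
  obtain ⟨D, hD⟩ : ∃ D : RsgDat, D = ⟨true, y0, y1, xm, xM, a, c⟩ := ⟨_, rfl⟩
  rw [← hD] at hS hP ⊢
  have hw : 0 ≤ xM - xm := by
    have := H.A.box pa H.A.pa
    omega
  have hM : ∀ z, z ∈ rsgM D ↔ z ∈ hxrQ y0 y1 xm xM a c := by
    intro z
    rw [hD]
    exact ⟨fun h => (Finset.mem_filter.1 h).2, fun h => Finset.mem_filter.2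
      ⟨rsg_box_mem ⟨(hxr_Q_box H z h).1, (hxr_Q_box H z h).2, h.1.1, h.1.2⟩, h⟩⟩
  have hQ : ∀ s, s ∈ rsgQ D ↔ ∃ z ∈ hxrQ y0 y1 xm xM a c, s ∈ cellV z := by
    intro s
    unfold rsgQ
    rw [Finset.mem_biUnion]
    have e : ∀ z, rsgCs D.T z = cellV z := fun z => by rw [hD]; rfl
    exact ⟨fun ⟨z, hz, hs⟩ => ⟨z, (hM z).1 hz, e z ▸ hs⟩, fun ⟨z, hz, hs⟩ => ⟨z, (hM z).2 hz, (e z).symm ▸ hs⟩⟩
  have hLa : ∀ s, s ∈ rsgLa D ↔ s ∈ rsgQ D ∧ ∃ z ∈ a, s ∈ cellV z := fun s => by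
    rw [hD]; exact Finset.mem_filter
  have hLc : ∀ s, s ∈ rsgLc D ↔ s ∈ rsgQ D ∧ ∃ z ∈ c, s ∈ cellV z := fun s => by
    rw [hD]; exact Finset.mem_filter
  have hLd : ∀ s, s ∈ rsgLd D ↔ s ∈ rsgQ D ∧ s.2 = y0 := fun s => by
    rw [hD]; exact Finset.mem_filter
  have hLb : ∀ s, s ∈ rsgLb D ↔ s ∈ rsgQ D ∧ s.2 = y1 + 1 := fun s => by
    rw [hD]; exact Finset.mem_filter
  have eS : rsgS x D = clAmb x (rsgQ D) := by rw [hD]; rfl
  have eCb : rsgCb D = latCells (rsgQ D) \ rsgM D := by rw [hD]; rfl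
  -- the three places
  have one : ∀ h : ℤ, y0 + 2 * (xM - xm) + 8 ≤ h → h + 2 * (xM - xm) + 8 ≤ y1 →
      ∃ (t : ℤ) (K : Set TV), HxrPlace y0 y1 (hxrAA y0 y1 xM a) (hxrCC y0 y1 xm c) (hxrSw t) K ∧
        (xm + xM - 1 ≤ 2 * (2 * t + 3 * h) ∧ 2 * (2 * t + 3 * h) ≤ xm + xM + 3) := by
    intro h h0 h1
    obtain ⟨K, hK, hr⟩ := hxr_tube_one H (h := h) (t := (xm + xM + 3 - 6 * h) / 4) (by constructor <;> omega) h0 h1
    exact ⟨_, K, hK, by constructor <;> omega⟩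
  obtain ⟨hgt, hhgt⟩ : ∃ hgt : Fin 3 → ℤ, hgt = ![y0 + 2 * (xM - xm) + 8, y0 + 4 * (xM - xm) + 14, y0 + 6 * (xM - xm) + 20] := ⟨_, rfl⟩
  have hg0 : ∀ i, y0 + 2 * (xM - xm) + 8 ≤ hgt i ∧ hgt i ≤ y0 + 6 * (xM - xm) + 20 := by
    intro i
    rw [hhgt]
    fin_cases i <;> simp <;> omega
  have hgd : ∀ i j, i ≠ j → hgt i + 2 * (xM - xm) + 6 ≤ hgt j ∨ hgt j + 2 * (xM - xm) + 6 ≤ hgt i := by
    intro i j hij
    rw [hhgt]
    fin_cases i <;> fin_cases j <;> simp at hij ⊢ <;> omega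
  have pl : ∀ i, ∃ (t : ℤ) (K : Set TV), HxrPlace y0 y1 (hxrAA y0 y1 xM a) (hxrCC y0 y1 xm c) (hxrSw t) K ∧
        (xm + xM - 1 ≤ 2 * (2 * t + 3 * hgt i) ∧ 2 * (2 * t + 3 * hgt i) ≤ xm + xM + 3) := fun i =>
    one (hgt i) (hg0 i).1 (by have := (hg0 i).2; omega)
  choose t K hK ht using pl
  rw [eS] at hS
  have key := gaq_three_set hx hx1 hh (rsgQ D) (rsgLa D) (rsgLc D) (rsgLd D) (rsgLb D) (rsgM D) (rsgCb D) hS ?_ ?_ hP ?_ ?_
    (hxrAA y0 y1 xM a) (hxrCC y0 y1 xm c) ?_ ?_ (fun i => glSwap (t i)) K ?_ (fun i => (hK i).conn) (fun i => (hK i).inv) (fun i => (hK i).dich) ?_ ?_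
  · unfold RsgEst rsgH0
    rw [eS]
    exact key
  · -- the clipped cells are boundary cells
    intro y hy
    obtain ⟨h1, h2⟩ := gl_mem_cb.1 hy
    rw [eCb, Finset.mem_sdiff]
    exact ⟨h1, fun h => h2 fun s hs => (hQ s).2 ⟨y, (hM y).1 h, hs⟩⟩
  · exact fun y hy s hs => (hQ s).2 ⟨y, (hM y).1 hy, hs⟩
  · exact fun s hs => ((hLd s).1 hs).2
  · exact fun s hs => ((hLb s).1 hs).2
  · -- the sites of `Q` in a cell of the solid left side
    intro a' ha' s hs hsQ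
    obtain ⟨z, hz, hsz⟩ := (hQ s).1 hsQ
    refine (hLa s).2 ⟨hsQ, a', ?_, hs⟩
    rcases gtr_share hs hsz with e | e
    · exact (hz.2 (Or.inl (e ▸ ha'))).elim
    · exact hxr_AA_bd H.A hz.1 (fun h => hz.2 (Or.inl h)) ha' e
  · intro a' ha' s hs hsQ
    obtain ⟨z, hz, hsz⟩ := (hQ s).1 hsQ
    refine (hLc s).2 ⟨hsQ, a', ?_, hs⟩
    rcases gtr_share hs hsz with e | e
    · exact (hz.2 (Or.inr (e ▸ ha'))).elim
    · exact hxr_CC_bd H.C hz.1 (fun h => hz.2 (Or.inr h)) ha' e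
  · -- the places consist of free cells
    intro i k hk
    have r := (hK i).rows k hk
    have f := (hK i).free k hk
    exact Finset.mem_coe.2 ((hM k).2 ⟨⟨r.1.le, r.2.le⟩, fun h => h.elim f.1 f.2.1⟩)
  · intro i z hz
    have := gtr_row hw hP.box (ht i) hz
    have := hg0 i
    omega
  · intro i j hij z hz hz'
    have := gtr_row hw hP.box (ht i) hz
    have := gtr_row hw hP.box (ht j) hz'
    have := hgd i j hij
    omega

/-- **TUBE, class true, at the record** (= `rsg_est_tube` of `Ann/RswGlue` for `T = true`) -/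
theorem gtr_rec (x : ℝ) (hx1 : 1 / Real.sqrt 2 ≤ x) (hx2 : x ≤ 1) {c d w σ m e : ℤ} {P : Set TV} (hcd : c < d) (hw : 1 ≤ w) (hσ : 2 * w < σ)
    (he : w + 4 ≤ e) (hnar : 12 * (σ + 2 * e) + 64 ≤ d - c) (h0 : RplG0 c d w σ m e P)
    (h1 : ¬ RsgT1 (rplA c d w σ m e P) (rplC c d w σ m e P)) (h2 : ¬ RsgT2 c d (rplA c d w σ m e P) (rplC c d w σ m e P)) :
    RsgEst x (rplD true c d w σ m e P) := by
  have hx0 : 0 < x := lt_of_lt_of_le (by positivity) hx1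
  have hh : 1 / 2 ≤ x ^ 2 := by
    have h3 : (1 / Real.sqrt 2) ^ 2 ≤ x ^ 2 := pow_le_pow_left₀ (by positivity) hx1 2
    have h4 : (1 / Real.sqrt 2) ^ 2 = 1 / 2 := by
      rw [div_pow, Real.sq_sqrt (by norm_num)]
      norm_num
    rwa [h4] at h3
  obtain ⟨pa, qa, pc, qc, H, -⟩ := rpl_pair hcd hw hσ he h0 h1
  have G := rdi_geo_rec (A := m - e) (B := m + σ + e) (c := c) (d := d) (w := w) (m := m) (m' := m + σ) (P := P) H
    (fun z hz => rpl_look hcd hw (by omega) he h0 hz) (fun y hy h => h2 ⟨y, hy, h.1, h.2⟩)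
  exact gtr_est hx0 hx2 hh c d (m - e) (m + σ + e) (rplA c d w σ m e P) (rplC c d w σ m e P) H (by omega)
    (rdi_rsg_strip hx0 hx2 hh (rplD true c d w σ m e P) G)
    (psb_rsg_strip (rplD true c d w σ m e P) G (fun z hz => (rpl_I_sub hz).1) (fun z hz => (rpl_J_sub hz).1) H)

/-! ### the class `false`: the reflected record is a record (62, `Glue/Flip`), in the vocabulary of 206 -/

theorem gtr_fl_I (c d w σ m e : ℤ) (P : Set TV) : rplI (-d - 1) (-c - 1) w σ (m + 1) e (glfJ ⁻¹' P) = glfJ ⁻¹' rplI c d w σ m e P := by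
  have e1 : m + 1 - e = m - e + 1 := by ring
  have e2 : m + 1 + σ + e = m + σ + e + 1 := by ring
  unfold rplI
  rw [e1, e2]
  exact glf_clI _ _ _ _ _ _ _

theorem gtr_fl_J (c d w σ m e : ℤ) (P : Set TV) : rplJ (-d - 1) (-c - 1) w σ (m + 1) e (glfJ ⁻¹' P) = glfJ ⁻¹' rplJ c d w σ m e P := by
  have e1 : m + 1 - e = m - e + 1 := by ring
  have e2 : m + 1 + σ + e = m + σ + e + 1 := by ring
  have e3 : m + 1 + σ = m + σ + 1 := by ring
  unfold rplJ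
  rw [e1, e2, e3]
  exact glf_clJ _ _ _ _ _ _ _

theorem gtr_fl_A (c d w σ m e : ℤ) (P : Set TV) : rplA (-d - 1) (-c - 1) w σ (m + 1) e (glfJ ⁻¹' P) = glfJ ⁻¹' rplA c d w σ m e P := by
  have e1 : m + 1 - e = m - e + 1 := by ring
  have e2 : m + 1 + σ + e = m + σ + e + 1 := by ring
  unfold rplA
  rw [gtr_fl_I, e1, e2]
  exact glf_Ga _ _ _ _ _ _ _

theorem gtr_fl_C (c d w σ m e : ℤ) (P : Set TV) : rplC (-d - 1) (-c - 1) w σ (m + 1) e (glfJ ⁻¹' P) = glfJ ⁻¹' rplC c d w σ m e P := by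
  have e1 : m + 1 - e = m - e + 1 := by ring
  have e2 : m + 1 + σ + e = m + σ + e + 1 := by ring
  have e3 : m + 1 + σ = m + σ + 1 := by ring
  unfold rplC
  rw [gtr_fl_J, e1, e2, e3]
  exact glf_Gc _ _ _ _ _ _ _

theorem gtr_fl_G0 {c d w σ m e : ℤ} {P : Set TV} : RplG0 (-d - 1) (-c - 1) w σ (m + 1) e (glfJ ⁻¹' P) ↔ RplG0 c d w σ m e P := by
  have e1 : m + 1 - e = m - e + 1 := by ring
  have e2 : m + 1 + σ + e = m + σ + e + 1 := by ring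
  have e3 : m + 1 + σ = m + σ + 1 := by ring
  unfold RplG0
  rw [gtr_fl_I, gtr_fl_J, e1, e2, e3]
  exact glf_G0

/-- the strip estimate of the reflected record (up cells) gives the strip estimate of the record (down cells) -/
theorem gtr_fl_est {x : ℝ} (hx : 0 < x) (hx1 : x ≤ 1) {c d w σ m e : ℤ} {P : Set TV} {pa qa pc qc : TV}
    (H : HxrPair c d (m - e) (m + σ + e) (rplA c d w σ m e P) (rplC c d w σ m e P) pa qa pc qc)
    (hE : RsgEst x (rplD true (-d - 1) (-c - 1) w σ (m + 1) e (glfJ ⁻¹' P))) : RsgEst x (rplD false c d w σ m e P) := by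
  have e1 : m + 1 - e = m - e + 1 := by ring
  have e2 : m + 1 + σ + e = m + σ + e + 1 := by ring
  refine glf_est hx hx1 (D := rplD false c d w σ m e P) rfl (hxr_Q_box H) ?_
  have e : glfD (rplD false c d w σ m e P) = rplD true (-d - 1) (-c - 1) w σ (m + 1) e (glfJ ⁻¹' P) := by
    unfold glfD rplD
    rw [gtr_fl_A, gtr_fl_C, e1, e2]
  rw [e]
  exact hE

/-- **(L-TUBE)** = `rsg_est_tube` of `Ann/RswGlue`, VERBATIM, both classes -/
theorem gtr_tube (x : ℝ) (hx1 : 1 / Real.sqrt 2 ≤ x) (hx2 : x ≤ 1) (T : Bool) {c d w σ m e : ℤ} {P : Set TV} (hcd : c < d) (hw : 1 ≤ w) (hσ : 2 * w < σ)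
    (he : w + 4 ≤ e) (hnar : 12 * (σ + 2 * e) + 64 ≤ d - c) (h0 : RplG0 c d w σ m e P)
    (h1 : ¬ RsgT1 (rplA c d w σ m e P) (rplC c d w σ m e P)) (h2 : ¬ RsgT2 c d (rplA c d w σ m e P) (rplC c d w σ m e P)) : RsgEst x (rplD T c d w σ m e P) := by
  cases T
  · have hx0 : 0 < x := lt_of_lt_of_le (by positivity) hx1
    obtain ⟨pa, qa, pc, qc, H, -⟩ := rpl_pair hcd hw hσ he h0 h1
    refine gtr_fl_est hx0 hx2 H (gtr_rec x hx1 hx2 (by omega) hw hσ he (by omega) (gtr_fl_G0.2 h0) ?_ ?_)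
    · rw [gtr_fl_A, gtr_fl_C, glf_T1]
      exact h1
    · rw [gtr_fl_A, gtr_fl_C, glf_T2]
      exact h2
  · exact gtr_rec x hx1 hx2 hcd hw hσ he hnar h0 h1 h2

end Claimed.Agent.R291
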